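import Vale.Agent.P247.SCY.Base

/-!
# P247, soft Calabi-Yau: pointwise inequalities and the volume functional
-/

set_option linter.all false

open MeasureTheory Set Metric Filter Topology
open scoped ContDiff ENNReal NNReal BigOperators InnerProductSpace Topology

namespace Vale.Agent.P247.SCY
open Vale.Agent.P204 Vale.Agent.P204.T4 Vale.Agent.P204.GX _root_.P204.GX

/-! ### Pointwise inequalities -/

theorem rev_cs_poly (a b c d f g h k : ℝ) (ha : 0 ≤ a) (hb : 0 ≤ b)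
    (hA : c ^ 2 + d ^ 2 ≤ a * b) (hf : 0 ≤ f) (hg : 0 ≤ g) (hF : h ^ 2 + k ^ 2 ≤ f * g) :
    Real.sqrt (2 * (a * b - c ^ 2 - d ^ 2)) * Real.sqrt (2 * (f * g - h ^ 2 - k ^ 2)) ≤
      a * g + b * f - 2 * c * h - 2 * d * k := by
  have hZ := Q_poly_nonneg a b c d f g h k ha hb hA hf hg hF
  set x := Real.sqrt (2 * (a * b - c ^ 2 - d ^ 2)) with hx
  set y := Real.sqrt (2 * (f * g - h ^ 2 - k ^ 2)) with hy
  have hx0 : 0 ≤ x := Real.sqrt_nonneg _
  have hy0 : 0 ≤ y := Real.sqrt_nonneg _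
  have hx2 : x ^ 2 = 2 * (a * b - c ^ 2 - d ^ 2) := Real.sq_sqrt (by linarith)
  have hy2 : y ^ 2 = 2 * (f * g - h ^ 2 - k ^ 2) := Real.sq_sqrt (by linarith)
  rcases ha.eq_or_lt with h0 | h0
  · have : x ^ 2 = 0 := by
      apply le_antisymm _ (sq_nonneg x)
      rw [hx2, ← h0]
      nlinarith only [sq_nonneg c, sq_nonneg d]
    have hx' : x = 0 := by simpa using this
    rw [hx', zero_mul]; exact hZ
  rcases hf.eq_or_lt with h1 | h1
  · have : y ^ 2 = 0 := by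
      apply le_antisymm _ (sq_nonneg y)
      rw [hy2, ← h1]
      nlinarith only [sq_nonneg h, sq_nonneg k]
    have hy' : y = 0 := by simpa using this
    rw [hy', mul_zero]; exact hZ
  have key : a ^ 2 * y ^ 2 + f ^ 2 * x ^ 2 ≤ 2 * (a * f) * (a * g + b * f - 2 * c * h - 2 * d * k) := by
    rw [hx2, hy2]
    nlinarith only [sq_nonneg (a * h - f * c), sq_nonneg (a * k - f * d)]
  have h2 : 2 * (a * f) * (x * y) ≤ 2 * (a * f) * (a * g + b * f - 2 * c * h - 2 * d * k) := by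
    refine le_trans ?_ key
    nlinarith only [sq_nonneg (a * y - f * x)]
  exact le_of_mul_le_mul_left h2 (by positivity)

theorem sqrt_Q_mul_le {A B : L2} (hA : Cone J0 A) (hB : Cone J0 B) :
    Real.sqrt (Q A A) * Real.sqrt (Q B B) ≤ Q A B := by
  obtain ⟨a1, a2, a3, a4⟩ := (cone_J0 A).1 hA
  obtain ⟨b1, b2, b3, b4⟩ := (cone_J0 B).1 hB
  rw [Q_self_J0 A a1, Q_self_J0 B b1, Q_J0 A B a1 b1]
  exact rev_cs_poly _ _ _ _ _ _ _ _ a2 a3 a4 b2 b3 b4

theorem Q_self_nonneg {A : L2} (hA : Cone J0 A) : 0 ≤ Q A A :=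
  Q_cone_nonneg isCx_J0 G9.pos_J0 hA hA

theorem sqrt_Q_add {A B : L2} (hA : Cone J0 A) (hB : Cone J0 B) :
    Real.sqrt (Q A A) + Real.sqrt (Q B B) ≤ Real.sqrt (Q (A + B) (A + B)) := by
  apply Real.le_sqrt_of_sq_le
  have h1 := sqrt_Q_mul_le hA hB
  have e1 := Real.sq_sqrt (Q_self_nonneg hA)
  have e2 := Real.sq_sqrt (Q_self_nonneg hB)
  rw [Q_add_left, Q_add_right, Q_add_right, Q_comm B A]
  nlinarith only [h1, e1, e2]

/-- the cone condition on the invariant part -/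
def PC (A : L2) : Prop := Cone J0 (pP J0 A)

theorem PC_iff (A : L2) : PC A ↔ ∀ v, 0 ≤ ev A v (app J0 v) := by
  constructor
  · intro h v
    have := h.2 v
    rwa [ev_pP isCx_J0] at this
  · intro h; exact cone_pP isCx_J0 h

theorem PC_add {A B : L2} (hA : PC A) (hB : PC B) : PC (A + B) := by
  unfold PC at *
  rw [FnSys.pP_add]; exact G7.cone_add hA hB

theorem PC_smul {c : ℝ} (hc : 0 ≤ c) {A : L2} (hA : PC A) : PC (c • A) := by
  unfold PC at *
  rw [FnSys.pP_smul]; exact G7.cone_smul hc hA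

theorem PC_F0 : PC F0 := by
  unfold PC; rw [FnSys.pP_F0]; exact G9.cone_F0

theorem PC_zero : PC 0 := by
  have h := PC_smul (le_refl 0) PC_F0
  rwa [zero_smul] at h

theorem PC_of_cone {A : L2} (hA : Cone J0 A) : PC A := by
  unfold PC; rw [pP_of_inv hA.1]; exact hA

/-- the density of the volume functional -/
noncomputable def vd (s : ℝ) (A : L2) : ℝ := Real.sqrt (s * Q (pP J0 A) (pP J0 A))

theorem vd_nonneg (s : ℝ) (A : L2) : 0 ≤ vd s A := Real.sqrt_nonneg _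

theorem vd_eq {s : ℝ} (hs : 0 ≤ s) (A : L2) :
    vd s A = Real.sqrt s * Real.sqrt (Q (pP J0 A) (pP J0 A)) := Real.sqrt_mul hs _

theorem vd_add {s : ℝ} (hs : 0 ≤ s) {A B : L2} (hA : PC A) (hB : PC B) :
    vd s A + vd s B ≤ vd s (A + B) := by
  rw [vd_eq hs, vd_eq hs, vd_eq hs, ← mul_add, FnSys.pP_add]
  exact mul_le_mul_of_nonneg_left (sqrt_Q_add hA hB) (Real.sqrt_nonneg _)

theorem vd_smul {s c : ℝ} (hs : 0 ≤ s) (hc : 0 ≤ c) (A : L2) : vd s (c • A) = c * vd s A := by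
  rw [vd_eq hs, vd_eq hs, FnSys.pP_smul, Q_smul_left, Q_smul_right, ← mul_assoc,
    Real.sqrt_mul (mul_nonneg hc hc), Real.sqrt_mul_self hc]
  ring

theorem vd_F0 {s : ℝ} : vd s F0 = Real.sqrt (s * 2) := by
  unfold vd; rw [FnSys.pP_F0, G9.Q_F0_F0]

theorem Q_pM_self (A : L2) : 0 ≤ Q (pM J0 A) (pM J0 A) := CM.Q_pM_self_nonneg A

section
variable {X : Type} [MetricSpace X] [CompactSpace X] [MeasurableSpace X] [BorelSpace X] (M : CM X)

/-! ### The pairing -/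

theorem pr_eq_IC (u v : M.C0) : M.pr (u : X → L2) (v : X → L2) = M.IC u v := rfl

theorem pr_comm (u v : X → L2) : M.pr u v = M.pr v u := by
  unfold CM.pr; congr 1; funext x; exact Q_comm _ _

variable {M}

theorem pr_add_left {u v w : X → L2} (hu : u ∈ M.C0) (hv : v ∈ M.C0) (hw : w ∈ M.C0) :
    M.pr (u + v) w = M.pr u w + M.pr v w := by
  have := LinearMap.map_add₂ M.IC ⟨u, hu⟩ ⟨v, hv⟩ ⟨w, hw⟩
  exact this

theorem pr_smul_left (c : ℝ) (u w : X → L2) : M.pr (c • u) w = c * M.pr u w := by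
  unfold CM.pr
  rw [← integral_const_mul]
  congr 1; funext x; exact Q_smul_left _ _ _

theorem pr_smul_right (c : ℝ) (u w : X → L2) : M.pr u (c • w) = c * M.pr u w := by
  rw [pr_comm, pr_smul_left, pr_comm]

theorem pr_add_right {u v w : X → L2} (hu : u ∈ M.C0) (hv : v ∈ M.C0) (hw : w ∈ M.C0) :
    M.pr w (u + v) = M.pr w u + M.pr w v := by
  rw [pr_comm, pr_add_left hu hv hw, pr_comm M w u, pr_comm M w v]

theorem pr_sub_left {u v w : X → L2} (hu : u ∈ M.C0) (hv : v ∈ M.C0) (hw : w ∈ M.C0) :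
    M.pr (u - v) w = M.pr u w - M.pr v w := by
  have h : u - v = u + (-1 : ℝ) • v := by module
  rw [h, pr_add_left hu (M.C0.smul_mem _ hv) hw, pr_smul_left]; ring

theorem pr_sub_right {u v w : X → L2} (hu : u ∈ M.C0) (hv : v ∈ M.C0) (hw : w ∈ M.C0) :
    M.pr w (u - v) = M.pr w u - M.pr w v := by
  rw [pr_comm, pr_sub_left hu hv hw, pr_comm M w u, pr_comm M w v]

theorem bdd_of_mem {u : X → L2} (hu : u ∈ M.C0) : ∃ B : ℝ, ∀ x, ‖u x‖ ≤ B := M.exists_norm_bound7 hu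

theorem measurable_pP {u : X → L2} (hu : u ∈ M.C0) : Measurable fun x => pP J0 (u x) :=
  M.measurable_C07 (M.pP_mem_C0 hu)

/-- integrability of the volume density -/
theorem integrable_vd {σ : X → ℝ} (hσ : Continuous σ) {u : X → L2} (hu : u ∈ M.C0) :
    Integrable (fun x => vd (σ x) (u x)) M.mu := by
  obtain ⟨B, hB⟩ := M.exists_norm_bound7 (M.pP_mem_C0 hu)
  obtain ⟨S, hS⟩ := (isCompact_univ (X := X)).exists_bound_of_continuousOn hσ.continuousOn
  have hm : Measurable fun x => vd (σ x) (u x) := by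
    unfold vd
    exact (hσ.measurable.mul (G7.meas_Q (measurable_pP hu) (measurable_pP hu))).sqrt
  refine Integrable.of_bound hm.aestronglyMeasurable (Real.sqrt (S * (6 * B * B)))
    (Filter.Eventually.of_forall fun x => ?_)
  rw [Real.norm_eq_abs, abs_of_nonneg (vd_nonneg _ _)]
  unfold vd
  apply Real.sqrt_le_sqrt
  have h1 := hS x (mem_univ x)
  rw [Real.norm_eq_abs] at h1
  have h2 := abs_Q_le (pP J0 (u x)) (pP J0 (u x))
  have h3 : ‖pP J0 (u x)‖ ≤ B := hB x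
  have h4 : |Q (pP J0 (u x)) (pP J0 (u x))| ≤ 6 * B * B := by
    refine h2.trans ?_
    have h5 := mul_le_mul h3 h3 (norm_nonneg _) ((norm_nonneg _).trans h3)
    linarith only [h5]
  calc σ x * Q (pP J0 (u x)) (pP J0 (u x)) ≤ |σ x * Q (pP J0 (u x)) (pP J0 (u x))| := le_abs_self _
    _ = |σ x| * |Q (pP J0 (u x)) (pP J0 (u x))| := abs_mul _ _
    _ ≤ S * (6 * B * B) := mul_le_mul h1 h4 (abs_nonneg _) ((abs_nonneg _).trans h1)

theorem Vol_eq (σ : X → ℝ) (u : X → L2) : Vol M σ u = ∫ x, vd (σ x) (u x) ∂M.mu := rfl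

theorem Vol_nonneg (σ : X → ℝ) (u : X → L2) : 0 ≤ Vol M σ u :=
  integral_nonneg fun x => vd_nonneg _ _

theorem Vol_add {σ : X → ℝ} (hσ : Continuous σ) (hσ0 : ∀ x, 0 ≤ σ x) {u v : X → L2}
    (hu : u ∈ M.C0) (hv : v ∈ M.C0) (hu' : ∀ x, PC (u x)) (hv' : ∀ x, PC (v x)) :
    Vol M σ u + Vol M σ v ≤ Vol M σ (u + v) := by
  rw [Vol_eq, Vol_eq, Vol_eq, ← integral_add (integrable_vd hσ hu) (integrable_vd hσ hv)]
  exact integral_mono ((integrable_vd hσ hu).add (integrable_vd hσ hv))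
    (integrable_vd hσ (M.C0.add_mem hu hv)) fun x => vd_add (hσ0 x) (hu' x) (hv' x)

theorem Vol_smul {σ : X → ℝ} (hσ0 : ∀ x, 0 ≤ σ x) {c : ℝ} (hc : 0 ≤ c) (u : X → L2) :
    Vol M σ (c • u) = c * Vol M σ u := by
  rw [Vol_eq, Vol_eq, ← integral_const_mul]
  congr 1; funext x; exact vd_smul (hσ0 x) hc _

theorem F_mem_C0 : (fun _ : X => F0) ∈ M.C0 := M.Om_le_C07 M.FOm.2

/-- strict positivity of the volume of `F` -/
theorem Vol_F_pos [Nonempty X] {σ : X → ℝ} (hσ : Continuous σ) (hσ0 : ∀ x, 0 < σ x) :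
    0 < Vol M σ (fun _ => F0) := by
  rw [Vol_eq]
  have h1 : ∀ x, 0 < vd (σ x) F0 := fun x => by
    rw [vd_F0]; exact Real.sqrt_pos.2 (mul_pos (hσ0 x) two_pos)
  rw [integral_pos_iff_support_of_nonneg (fun x => vd_nonneg _ _) (integrable_vd hσ F_mem_C0)]
  have h2 : Function.support (fun x : X => vd (σ x) F0) = univ :=
    Set.eq_univ_of_forall fun x => (h1 x).ne'
  rw [h2]
  have := M.mu_pos
  exact (ENNReal.toReal_pos_iff.1 this).1

/-- Cauchy-Schwarz for the volume functional -/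
theorem Vol_sq_le {σ : X → ℝ} (hσ : Continuous σ) (hσ0 : ∀ x, 0 ≤ σ x) {u : X → L2} (hu : u ∈ M.C0)
    (hu' : ∀ x, PC (u x)) :
    Vol M σ u ^ 2 ≤ (∫ x, σ x ∂M.mu) * ∫ x, Q (pP J0 (u x)) (pP J0 (u x)) ∂M.mu := by
  set V := Vol M σ u with hV
  set S := ∫ x, σ x ∂M.mu with hS
  set q := ∫ x, Q (pP J0 (u x)) (pP J0 (u x)) ∂M.mu with hq
  have hSi : Integrable σ M.mu := by
    obtain ⟨C, hC⟩ := (isCompact_univ (X := X)).exists_bound_of_continuousOn hσ.continuousOn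
    exact Integrable.of_bound hσ.measurable.aestronglyMeasurable C
      (Filter.Eventually.of_forall fun x => hC x (mem_univ x))
  have hqi : Integrable (fun x => Q (pP J0 (u x)) (pP J0 (u x))) M.mu :=
    M.integrable_Q7 (M.pP_mem_C0 hu) (M.pP_mem_C0 hu)
  have hV0 : 0 ≤ V := Vol_nonneg _ _
  have hS0 : 0 ≤ S := integral_nonneg hσ0
  have hq0 : 0 ≤ q := integral_nonneg fun x => Q_self_nonneg (hu' x)
  have key : ∀ l : ℝ, 0 ≤ l → 2 * l * V ≤ l ^ 2 * S + q := by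
    intro l hl
    rw [hV, hS, hq, Vol_eq, ← integral_const_mul, ← integral_const_mul,
      ← integral_add (hSi.const_mul _) hqi]
    refine integral_mono ((integrable_vd hσ hu).const_mul _) ((hSi.const_mul _).add hqi) fun x => ?_
    show 2 * l * vd (σ x) (u x) ≤ l ^ 2 * σ x + Q (pP J0 (u x)) (pP J0 (u x))
    rw [vd_eq (hσ0 x)]
    have e1 := Real.sq_sqrt (hσ0 x)
    have e2 := Real.sq_sqrt (Q_self_nonneg (hu' x))
    nlinarith only [sq_nonneg (l * Real.sqrt (σ x) - Real.sqrt (Q (pP J0 (u x)) (pP J0 (u x)))), e1, e2]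
  rcases hS0.eq_or_lt with h0 | h0
  · -- `S = 0`
    have h1 : ∀ l : ℝ, 0 ≤ l → 2 * l * V ≤ q := fun l hl => by
      have := key l hl; rw [← h0] at this; linarith
    have h2 : V = 0 := by
      by_contra hne
      have hVp : 0 < V := lt_of_le_of_ne hV0 (Ne.symm hne)
      have := h1 ((q + 1) / V) (by positivity)
      have e : 2 * ((q + 1) / V) * V = 2 * (q + 1) := by field_simp
      rw [e] at this
      linarith
    rw [h2, ← h0]; simp
  · have := key (V / S) (by positivity)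
    have e1 : 2 * (V / S) * V = 2 * (V ^ 2 / S) := by ring
    have e2 : (V / S) ^ 2 * S = V ^ 2 / S := by field_simp
    rw [e1, e2] at this
    have h3 : V ^ 2 / S ≤ q := by linarith
    rw [div_le_iff₀ h0] at h3
    linarith

theorem pr_self_ge {u : X → L2} (hu : u ∈ M.C0) :
    ∫ x, Q (pP J0 (u x)) (pP J0 (u x)) ∂M.mu ≤ M.pr u u := by
  unfold CM.pr
  refine integral_mono (M.integrable_Q7 (M.pP_mem_C0 hu) (M.pP_mem_C0 hu)) (M.integrable_Q7 hu hu)
    fun x => ?_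
  show Q (pP J0 (u x)) (pP J0 (u x)) ≤ Q (u x) (u x)
  rw [Q_self_split isCx_J0 G9.pos_J0 (u x)]
  have := Q_pM_self (u x)
  linarith

end

end Vale.Agent.P247.SCY
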