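import Vale.Agent.P247.SCY.Energy

/-!
# P247, soft Calabi-Yau: the smoothing operators, weakly, against smooth forms
-/

set_option linter.all false

open MeasureTheory Set Metric Filter Topology
open scoped ContDiff ENNReal NNReal BigOperators InnerProductSpace Topology

namespace Vale.Agent.P204.GX.CM
open T4
variable {X : Type} [MetricSpace X] (M : CM X)

/-- The transport of a smooth form `b` is `O(w)`-close to `b`. -/
theorem exists_b_U {b : X → L2} (hb : b ∈ M.Om) : ∃ C : ℝ, 0 ≤ C ∧ ∀ w : M.A → V4, ‖w‖ ≤ 1 →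
    ‖w‖ ≤ M.z1 → ∀ x, ‖b x - M.U w b x‖ ≤ C * ‖w‖ := by
  have h1 : ∀ a : M.A, ∃ C : ℝ, 0 ≤ C ∧ ∀ w : M.A → V4, ‖w‖ ≤ 1 → ‖w‖ ≤ M.z1 →
      ∀ y : V4, ‖y‖ ≤ 1 → ‖b (M.ψ a y) - M.U w b (M.ψ a y)‖ ≤ C * ‖w‖ := by
    intro a
    have hc : ContDiff ℝ ∞ (Function.uncurry fun (w : M.A → V4) (y : V4) =>
        M.cf a b y - M.ker a b w y) :=
      ((hb a).comp contDiff_snd).sub (M.contDiff_ker a hb)
    have h0 : ∀ y, M.cf a b y - M.ker a b 0 y = 0 := by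
      intro y
      have h : M.HH a 0 = fun y => y := funext fun y => M.HH_zero a y
      unfold ker
      rw [h, Dm_id, pull_one, sub_self]
    obtain ⟨C, hC, hlip⟩ := exists_lip0 hc h0 1 1
    obtain ⟨D, hD, hcf⟩ := M.exists_cf_bound a 1
    refine ⟨D * C, by positivity, fun w hw hw' y hy => ?_⟩
    have h2 := (hcf y hy (b - M.U w b)).2
    have h3 : M.cf a (b - M.U w b) y = M.cf a b y - M.ker a b w y := by
      rw [M.cf_sub, Pi.sub_apply, M.cf_U a hw' _ (by linarith only [hy])]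
      rfl
    rw [h3] at h2
    calc ‖b (M.ψ a y) - M.U w b (M.ψ a y)‖ ≤ D * (C * ‖w‖) :=
          h2.trans (by gcongr; exact hlip w y hw hy)
      _ = D * C * ‖w‖ := by ring
  choose C hC h using h1
  refine ⟨∑ a, C a, Finset.sum_nonneg fun a _ => hC a, fun w hw hw' x => ?_⟩
  have h2 := h (M.ch x) w hw hw' (M.cy x) (M.norm_cy x).le
  rw [M.ψ_cy] at h2
  refine h2.trans ?_
  gcongr
  exact Finset.single_le_sum (fun a _ => hC a) (Finset.mem_univ _)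

variable [MeasurableSpace X] [BorelSpace X]

/-- The weak convergence of the averaging operators against a smooth form `f`. -/
theorem exists_Pb [CompactSpace X] {f : X → L2} (hFO : f ∈ M.Om) : ∃ δ0 c : ℝ, 0 < δ0 ∧ 1 ≤ c ∧ ∀ (δ : ℝ) (b : M.Om), 0 < δ → δ ≤ δ0 →
    |M.pr f (M.S0 δ b) - M.pr f (b : X → L2)| ≤ c * δ * ∫ x, ‖(b : X → L2) x‖ ∂M.mu := by
  obtain ⟨s, C, hs, hC, hL1⟩ := M.exists_L1_U
  obtain ⟨D, hD, hF⟩ := M.exists_b_U hFO
  have hz1 := M.z1_pos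
  have hvi := vinv_pos
  refine ⟨min (min s 1) (min M.z1 (vinv / 2)), max 1 (6 * D * C),
    lt_min (lt_min hs one_pos) (lt_min hz1 (by linarith)), le_max_left _ _,
    fun δ b h0 h1 => ?_⟩
  have hds : δ ≤ s := h1.trans ((min_le_left _ _).trans (min_le_left _ _))
  have hd1 : δ ≤ 1 := h1.trans ((min_le_left _ _).trans (min_le_right _ _))
  have hdz : δ ≤ M.z1 := h1.trans ((min_le_right _ _).trans (min_le_left _ _))
  have hdv : δ ≤ vinv / 2 := h1.trans ((min_le_right _ _).trans (min_le_right _ _))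
  have hFc : ∀ a, Continuous (M.cf a f) := fun a => (hFO a).continuous
  have hbO : (b : X → L2) ∈ M.Om := b.2
  set N := ∫ x, ‖(b : X → L2) x‖ ∂M.mu with hN
  have hN0 : 0 ≤ N := integral_nonneg fun x => norm_nonneg _
  have e1 : M.pr f (M.S0 δ b) = ∫ z, M.rr z * M.pr f (M.U (δ • z) b) :=
    M.pr_S0 h0.le hdz hFc hbO
  have e2 : M.pr f (b : X → L2) = ∫ z, M.rr z * M.pr f b := by
    rw [integral_mul_const, M.bump_rr.int, one_mul]
  have hrr : Integrable M.rr :=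
    M.bump_rr.smooth.continuous.integrable_of_hasCompactSupport M.hasCompactSupport_rr
  rw [e1, e2, ← integral_sub (M.integrable_pr_U h0.le hdz hFc hbO) (hrr.mul_const _)]
  have key : ∀ w : M.A → V4, ‖w‖ ≤ δ →
      |M.pr f (M.U w b) - M.pr f b| ≤ 6 * D * C * δ * N := by
    intro w hw
    have hwv : ‖w‖ < vinv := by linarith only [h0, hdv, hw]
    rw [← M.pr_U hwv hFO hbO]
    have hUb := M.U_mem_Om w hbO
    have hUF := M.U_mem_Om w hFO
    have e3 : M.pr f (M.U w b) - M.pr (M.U w f) (M.U w b) =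
        ∫ x, Q (f x - M.U w f x) (M.U w b x) ∂M.mu := by
      unfold pr
      rw [← integral_sub (M.integrable_Q hFc fun a => (hUb a).continuous)
        (M.integrable_Q (fun a => (hUF a).continuous) fun a => (hUb a).continuous)]
      refine integral_congr_ae (Filter.Eventually.of_forall fun x => ?_)
      exact (Q_sub_left _ _ _).symm
    rw [e3]
    have h2 : ∀ x, ‖Q (f x - M.U w f x) (M.U w b x)‖ ≤
        6 * (D * δ) * ‖M.U w b x‖ := by
      intro x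
      refine (abs_Q_le _ _).trans ?_
      have h3 := hF w (hw.trans hd1) (hw.trans hdz) x
      have h4 : ‖f x - M.U w f x‖ ≤ D * δ := h3.trans (by gcongr)
      gcongr
    calc |∫ x, Q (f x - M.U w f x) (M.U w b x) ∂M.mu|
        ≤ ∫ x, 6 * (D * δ) * ‖M.U w b x‖ ∂M.mu :=
          norm_integral_le_of_norm_le ((M.integrable_norm hUb).const_mul _)
            (Filter.Eventually.of_forall h2)
      _ = 6 * (D * δ) * ∫ x, ‖M.U w b x‖ ∂M.mu := integral_const_mul _ _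
      _ ≤ 6 * (D * δ) * (C * N) := by
          gcongr
          exact hL1 _ hbO w (hw.trans hds)
      _ = _ := by ring
  have h5 : ∀ z, ‖M.rr z * M.pr f (M.U (δ • z) b) - M.rr z * M.pr f b‖ ≤
      M.rr z * (6 * D * C * δ * N) := by
    intro z
    have hr := M.bump_rr.nonneg z
    rw [← mul_sub, norm_mul, Real.norm_eq_abs, abs_of_nonneg hr]
    by_cases hz : ‖z‖ ≤ 1
    · have h6 : ‖δ • z‖ ≤ δ := by
        rw [norm_smul, Real.norm_eq_abs, abs_of_nonneg h0.le]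
        calc δ * ‖z‖ ≤ δ * 1 := by gcongr
          _ = δ := mul_one _
      exact mul_le_mul_of_nonneg_left (key _ h6) hr
    · rw [M.bump_rr.supp z (not_le.1 hz)]
      simp
  have h6 := norm_integral_le_of_norm_le (hrr.mul_const (6 * D * C * δ * N))
    (Filter.Eventually.of_forall h5)
  rw [integral_mul_const, M.bump_rr.int, one_mul] at h6
  refine h6.trans ?_
  calc 6 * D * C * δ * N = (6 * D * C) * (δ * N) := by ring
    _ ≤ max 1 (6 * D * C) * (δ * N) := by gcongr; exact le_max_right _ _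
    _ = _ := by ring

end Vale.Agent.P204.GX.CM

namespace Vale.Agent.P247.SCY
open Vale.Agent.P204 Vale.Agent.P204.T4 Vale.Agent.P204.GX _root_.P204.GX

section
variable {X : Type} [MetricSpace X] [CompactSpace X] [MeasurableSpace X] [BorelSpace X]
variable {M : CM X} (P : MSys M)

theorem pr_inner (a b : M.Om) : ⟪P.Y.ι a, P.Y.st (P.Y.ι b)⟫_ℝ = M.pr (a : X → L2) (b : X → L2) := by
  have h := P.Z.inner_st_Q (P.Y.ι a) (P.Y.ι b)
  rw [show ⟪P.Y.ι a, P.Y.st (P.Y.ι b)⟫_ℝ = _ from h]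
  unfold CM.pr
  apply integral_congr_ae
  filter_upwards [P.ι_eq a, P.ι_eq b] with x h1 h2
  show Q (ofE ((P.Y.ι a : X → E6) x)) (ofE ((P.Y.ι b : X → E6) x)) = _
  rw [h1, h2, G9.ofE_toE, G9.ofE_toE]

theorem L1_le_norm (b : M.Om) : ∫ x, ‖(b : X → L2) x‖ ∂M.mu ≤
    Real.sqrt (M.mu.real univ) * ‖P.Y.ι b‖ := by
  have h1 := P.Z.cs_int (P.Y.ι b) (g := fun _ => 1) measurable_const (fun _ => zero_le_one)
    (C := 1) (fun _ => le_rfl)
  have h2 : ∫ x, ‖(b : X → L2) x‖ ∂M.mu ≤ ∫ x, ‖(P.Y.ι b : X → E6) x‖ * 1 ∂M.mu := by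
    apply integral_mono_ae
    · exact M.integrable_norm b.2
    · have := P.Z.int_norm_mul (P.Y.ι b) (g := fun _ => 1) measurable_const (fun _ => zero_le_one)
        (C := 1) (fun _ => le_rfl)
      exact this
    · filter_upwards [P.ι_eq b] with x hx
      rw [hx, mul_one]
      exact G9.norm_le_toE _
  refine h2.trans (h1.trans (le_of_eq ?_))
  simp only [one_pow, integral_const, smul_eq_mul, mul_one]
  exact mul_comm _ _

/-- weak approximation by the smoothing operators, with rate -/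
theorem app (b : M.Om) : ∃ C : ℝ, ∀ (δ : ℝ) (u : Lp E6 2 M.mu), 0 < δ → δ ≤ P.Y.δ0 →
      |⟪P.Y.ι b, P.Y.st (P.Y.ι (P.Y.S δ u) - u)⟫_ℝ| ≤ C * δ * ‖u‖ := by
  obtain ⟨δ0, c, hδ0, hc, h⟩ := M.exists_Pb b.2
  set C1 : ℝ := c * Real.sqrt (M.mu.real univ) with hC1
  have hC10 : 0 ≤ C1 := by positivity
  have hK : 0 ≤ P.Y.K 0 := zero_le_one.trans (P.Y.one_le_K 0)
  -- crude bound for all `δ`
  set C2 : ℝ := ‖P.Y.ι b‖ * (P.Y.K 0 + 1) / δ0 with hC2
  have hC20 : 0 ≤ C2 := by positivity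
  have hsm : ∀ (δ : ℝ), 0 < δ → δ ≤ P.Y.δ0 → δ ≤ δ0 → ∀ u : Lp E6 2 M.mu,
      |⟪P.Y.ι b, P.Y.st (P.Y.ι (P.Y.S δ u) - u)⟫_ℝ| ≤ C1 * δ * ‖u‖ := by
    intro δ h0 h1 h2
    have hset : IsClosed {u : Lp E6 2 M.mu |
        |⟪P.Y.ι b, P.Y.st (P.Y.ι (P.Y.S δ u) - u)⟫_ℝ| ≤ C1 * δ * ‖u‖} := by
      -- the operator `ι ∘ S δ` is continuous
      set L : Lp E6 2 M.mu →L[ℝ] Lp E6 2 M.mu :=
        LinearMap.mkContinuous (P.Y.ι ∘ₗ P.Y.S δ) (P.Y.K 0) (fun u => P.Y.S_norm δ u h0 h1) with hL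
      have hLa : ∀ u, L u = P.Y.ι (P.Y.S δ u) := fun u => rfl
      have : ∀ u, ⟪P.Y.ι b, P.Y.st (P.Y.ι (P.Y.S δ u) - u)⟫_ℝ = ⟪P.Y.ι b, P.Y.st (L u - u)⟫_ℝ :=
        fun u => rfl
      simp only [this]
      refine isClosed_le ?_ ?_
      · exact (continuous_const.inner (P.Y.st.continuous.comp
          (L.continuous.sub continuous_id))).abs
      · exact continuous_const.mul continuous_norm
    have hsub : Set.range P.Y.ι ⊆ {u : Lp E6 2 M.mu |
        |⟪P.Y.ι b, P.Y.st (P.Y.ι (P.Y.S δ u) - u)⟫_ℝ| ≤ C1 * δ * ‖u‖} := by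
      rintro _ ⟨a, rfl⟩
      show |⟪P.Y.ι b, P.Y.st (P.Y.ι (P.Y.S δ (P.Y.ι a)) - P.Y.ι a)⟫_ℝ| ≤ C1 * δ * ‖P.Y.ι a‖
      rw [map_sub, inner_sub_right, pr_inner, pr_inner, P.S_eq δ a h0 h1]
      refine (h δ a h0 h2).trans ?_
      have h3 := L1_le_norm P a
      calc c * δ * ∫ x, ‖(a : X → L2) x‖ ∂M.mu
          ≤ c * δ * (Real.sqrt (M.mu.real univ) * ‖P.Y.ι a‖) := by gcongr
        _ = C1 * δ * ‖P.Y.ι a‖ := by rw [hC1]; ring
    have h4 := closure_minimal hsub hset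
    rw [P.Y.ι_dense.closure_range] at h4
    intro u
    exact h4 (mem_univ u)
  refine ⟨C1 + C2, fun δ u h0 h1 => ?_⟩
  rcases le_total δ δ0 with h2 | h2
  · refine (hsm δ h0 h1 h2 u).trans ?_
    have := mul_nonneg (mul_nonneg hC20 h0.le) (norm_nonneg u)
    nlinarith only [this]
  · have h3 : |⟪P.Y.ι b, P.Y.st (P.Y.ι (P.Y.S δ u) - u)⟫_ℝ| ≤
        ‖P.Y.ι b‖ * ‖P.Y.ι (P.Y.S δ u) - u‖ := P.Y.abs_rep_le _ _
    have h4 : ‖P.Y.ι (P.Y.S δ u) - u‖ ≤ (P.Y.K 0 + 1) * ‖u‖ := by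
      refine (norm_sub_le _ _).trans ?_
      have := P.Y.S_norm δ u h0 h1
      linarith
    have h5 : ‖P.Y.ι b‖ * ((P.Y.K 0 + 1) * ‖u‖) ≤ C2 * δ * ‖u‖ := by
      have e : C2 * δ * ‖u‖ = ‖P.Y.ι b‖ * ((P.Y.K 0 + 1) * ‖u‖) * (δ / δ0) := by
        rw [hC2]; ring
      rw [e]
      have h6 : 1 ≤ δ / δ0 := by rw [le_div_iff₀ hδ0]; linarith
      have h7 : 0 ≤ ‖P.Y.ι b‖ * ((P.Y.K 0 + 1) * ‖u‖) := by positivity
      nlinarith only [h6, h7]
    have h8 : 0 ≤ C1 * δ * ‖u‖ := by positivity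
    calc _ ≤ ‖P.Y.ι b‖ * ‖P.Y.ι (P.Y.S δ u) - u‖ := h3
      _ ≤ ‖P.Y.ι b‖ * ((P.Y.K 0 + 1) * ‖u‖) := by gcongr
      _ ≤ C2 * δ * ‖u‖ := h5
      _ ≤ (C1 + C2) * δ * ‖u‖ := by nlinarith only [h8]

end

end Vale.Agent.P247.SCY
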