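import Vale.Agent.P204.Bdl.B8

/-!
# P247, soft Calabi-Yau: the smoothing system of a closed manifold, with `S` the averaging operator

`MSys M` is the function level smoothing system `FnSys` of P204 for the forms of a concrete closed
manifold `M : CM X`, which remembers that the smoothing operator on smooth forms is `M.S0`.
-/

set_option linter.all false

open MeasureTheory Set Metric Filter Topology
open scoped ContDiff ENNReal NNReal BigOperators InnerProductSpace Topology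

namespace Vale.Agent.P247.SCY
open Vale.Agent.P204 Vale.Agent.P204.T4 Vale.Agent.P204.GX _root_.P204.GX

section
variable {X : Type} [MetricSpace X] [CompactSpace X] [MeasurableSpace X] [BorelSpace X]

/-- the smoothing system of `M` (all fields as in `FnSys`) -/
structure MSys (M : CM X) where
  Y : SmSys (Lp E6 2 M.mu) M.Om
  meas : ∀ b ∈ M.Om, Measurable b
  ι_eq : ∀ b : M.Om, (Y.ι b : X → E6) =ᵐ[M.mu] fun x => toE ((b : X → L2) x)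
  st_eq : ∀ u, (Y.st u : X → E6) =ᵐ[M.mu] fun x => toE (hs (ofE (u x)))
  pm_eq : ∀ (b : M.Om) x, (Y.pm b : X → L2) x = pM J0 ((b : X → L2) x)
  pmH_eq : ∀ u, (Y.pmH u : X → E6) =ᵐ[M.mu] fun x => toE (pM J0 (ofE (u x)))
  M0 : ∀ (b : M.Om) x, ‖(b : X → L2) x‖ ≤ Y.M 0 b
  c : ℝ
  one_le_c : 1 ≤ c
  vol : ∀ x (r : ℝ), 0 ≤ r → (M.mu (Metric.ball x r)).toReal ≤ c * r ^ 4
  P0 : ∀ δ (b : M.Om) x, 0 < δ → δ ≤ Y.δ0 →
    ‖(Y.S δ (Y.ι b) : X → L2) x‖ ≤ c * (δ ^ 4)⁻¹ * ∫ y in Metric.ball x (c * δ), ‖(b : X → L2) y‖ ∂M.mu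
  P1 : ∀ δ (b : M.Om) x, 0 < δ → δ ≤ Y.δ0 →
    ‖pP J0 ((Y.S δ (Y.ι (Y.pm b)) : X → L2) x)‖ ≤ c * δ * (δ ^ 4)⁻¹ * ∫ y in Metric.ball x (c * δ), ‖(b : X → L2) y‖ ∂M.mu
  P3 : ∀ δ (b : M.Om) x, 0 < δ → δ ≤ Y.δ0 → (∀ y, Cone J0 ((b : X → L2) y)) →
    Cone J0 (pP J0 ((Y.S δ (Y.ι b) : X → L2) x) +
      (c * δ ^ 2 * (δ ^ 4)⁻¹ * ∫ y in Metric.ball x (c * δ), ‖(b : X → L2) y‖ ∂M.mu) • F0)
  PF : ∀ δ (b : M.Om), 0 < δ → δ ≤ Y.δ0 →
    |∫ x, Q F0 ((Y.S δ (Y.ι b) : X → L2) x) ∂M.mu - ∫ x, Q F0 ((b : X → L2) x) ∂M.mu| ≤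
      c * δ * ∫ x, ‖(b : X → L2) x‖ ∂M.mu
  pos_dense : ∀ v : Lp E6 2 M.mu, (∀ b : M.Om, (∀ x, Cone J0 ((b : X → L2) x)) → 0 ≤ ⟪v, Y.ι b⟫_ℝ) →
    ∀ᵐ x ∂M.mu, ∀ B : L2, Cone J0 B → 0 ≤ ⟪v x, toE B⟫_ℝ
  Cl_eq : Y.Cl = M.Cl
  Ex_eq : Y.Ex = M.Ex
  S_eq : ∀ δ (b : M.Om), 0 < δ → δ ≤ Y.δ0 →
    ((Y.S δ (Y.ι b) : M.Om) : X → L2) = M.S0 δ (b : X → L2)
  δ0_le_z1 : Y.δ0 ≤ M.z1
  N_le : ∀ m, ∃ K : ℝ, 0 ≤ K ∧ ∀ δ (b : M.Om), 0 < δ → δ ≤ 1 →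
        Y.N m δ b ≤ K * M.NN m δ (b : X → L2)

/-- the underlying `FnSys`; note `(P.Z).Om` is `M.Om`, `(P.Z).μ` is `M.mu`, `(P.Z).Y` is `P.Y`,
by definition -/
@[reducible] noncomputable def MSys.Z {M : CM X} (P : MSys M) : FnSys X where
  μ := M.mu
  μfin := inferInstance
  Om := M.Om
  Y := P.Y
  meas := P.meas
  ι_eq := P.ι_eq
  st_eq := P.st_eq
  pm_eq := P.pm_eq
  pmH_eq := P.pmH_eq
  M0 := P.M0
  F := M.FOm
  F_eq := fun x => rfl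
  c := P.c
  one_le_c := P.one_le_c
  vol := P.vol
  P0 := P.P0
  P1 := P.P1
  P3 := P.P3
  PF := P.PF
  pos_dense := P.pos_dense

/-- every closed manifold has a smoothing system -/
theorem exists_MSys [Nonempty X] (M : CM X) : Nonempty (MSys M) := by
  obtain ⟨d0, hd0, hsc⟩ := M.exists_scale
  obtain ⟨e0, c0, he0, hc0, hz0, P0⟩ := M.exists_P0
  obtain ⟨e1, c1, he1, hc1, hz1, P1⟩ := M.exists_P1
  obtain ⟨e3, c3, he3, hc3, P3⟩ := M.exists_P3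
  obtain ⟨eF, cF, heF, hcF, PF⟩ := M.exists_PF
  obtain ⟨cv, hcv, hv⟩ := CM.exists_vol (M := M)
  obtain ⟨δ1, h1pos, h1d, h1e0, h1e1, h1e3, h1eF⟩ : ∃ δ1 : ℝ, 0 < δ1 ∧ δ1 ≤ d0 ∧ δ1 ≤ e0 ∧ δ1 ≤ e1 ∧
      δ1 ≤ e3 ∧ δ1 ≤ eF :=
    ⟨min d0 (min e0 (min e1 (min e3 eF))), by positivity, min_le_left _ _,
      (min_le_right _ _).trans (min_le_left _ _),
      (min_le_right _ _).trans ((min_le_right _ _).trans (min_le_left _ _)),
      (min_le_right _ _).trans ((min_le_right _ _).trans ((min_le_right _ _).trans (min_le_left _ _))),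
      (min_le_right _ _).trans ((min_le_right _ _).trans ((min_le_right _ _).trans (min_le_right _ _)))⟩
  have hs := hsc δ1 h1pos h1d
  obtain ⟨Z, hι, hst, hpm, hpmH, hCl, hEx, hδ, hS, hM0, hN⟩ := CM.exists_Sys0 M hs
  obtain ⟨c, hc1', lc0, lc1, lc3, lcF, lcv⟩ : ∃ c : ℝ, 1 ≤ c ∧ c0 ≤ c ∧ c1 ≤ c ∧ c3 ≤ c ∧ cF ≤ c ∧ cv ≤ c :=
    ⟨c0 + c1 + c3 + cF + cv, by linarith only [hc0, hc1, hc3, hcF, hcv], by linarith only [hc1, hc3, hcF, hcv], by linarith only [hc0, hc3, hcF, hcv], by linarith only [hc0, hc1, hcF, hcv], by linarith only [hc0, hc1, hc3, hcv], by linarith only [hc0, hc1, hc3, hcF]⟩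
  have hSS : ∀ (δ : ℝ) (b : M.Om), 0 < δ → δ ≤ δ1 →
      ((Z.toSmSys.S δ (Z.toSmSys.ι b) : M.Om) : X → L2) = M.S0 δ b := by
    intro δ b h0 h1
    have e1 : Z.toSmSys.S δ (Z.toSmSys.ι b) = Z.S0 δ b := Z.S_ι h0 (h1.trans hδ.ge) b
    rw [e1, hS]
    exact M.S0L_coe h0.le (h1.trans hs.le_z1) b
  have hint : ∀ (b : M.Om) x {s t : ℝ}, s ≤ t →
      ∫ y in ball x s, ‖(b : X → L2) y‖ ∂M.mu ≤ ∫ y in ball x t, ‖(b : X → L2) y‖ ∂M.mu :=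
    fun b x s t h => M.mono_ball b.2 x h
  have hint0 : ∀ (b : M.Om) x (s : ℝ), 0 ≤ ∫ y in ball x s, ‖(b : X → L2) y‖ ∂M.mu :=
    fun b x s => integral_nonneg fun y => norm_nonneg _
  have hcont : ∀ (b : M.Om) a, Continuous (M.cf a (b : X → L2)) := fun b a => (b.2 a).continuous
  refine ⟨{
    Y := Z.toSmSys
    meas := fun b hb => Hil.measurable_Om M hb
    ι_eq := fun b => by
      show (Z.ι b : X → E6) =ᵐ[M.mu] _
      rw [hι]; exact Hil.io_ae M b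
    st_eq := fun u => by
      show (Z.st u : X → E6) =ᵐ[M.mu] _
      rw [hst]; exact Hil.stH_ae M u
    pm_eq := fun b x => by
      show (Z.pm b : X → L2) x = _
      rw [hpm]; rfl
    pmH_eq := fun u => by
      show (Z.pmH u : X → E6) =ᵐ[M.mu] _
      rw [hpmH]; exact Hil.pmH_ae M u
    M0 := hM0
    c := c
    one_le_c := hc1'
    vol := fun x r hr => (hv x r hr).trans (by gcongr)
    P0 := ?_
    P1 := ?_
    P3 := ?_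
    PF := ?_
    pos_dense := fun v h => Hil.pos_detect M v (fun b hb => by
      have := h b hb
      rwa [show Z.toSmSys.ι b = Hil.io M b by rw [← hι]; rfl] at this)
    Cl_eq := hCl
    Ex_eq := hEx
    S_eq := fun δ b h0 h1 => hSS δ b h0 (h1.trans hδ.le)
    δ0_le_z1 := hδ.le.trans hs.le_z1
    N_le := ?_ }⟩
  · intro δ b x h0 h1
    have h1' : δ ≤ δ1 := h1.trans hδ.le
    rw [hSS δ b h0 h1']
    refine (P0 δ b (hcont b) x h0 (h1'.trans h1e0)).trans ?_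
    have := hint b x (mul_le_mul_of_nonneg_right lc0 h0.le)
    have := hint0 b x (c0 * δ)
    gcongr
  · intro δ b x h0 h1
    have h1' : δ ≤ δ1 := h1.trans hδ.le
    rw [hSS δ _ h0 h1']
    have e : ((Z.toSmSys.pm b : M.Om) : X → L2) = fun x => pM J0 ((b : X → L2) x) := by
      show ((Z.pm b : M.Om) : X → L2) = _
      rw [hpm]; rfl
    rw [e]
    refine (P1 δ b (hcont b) x h0 (h1'.trans h1e1)).trans ?_
    have := hint b x (mul_le_mul_of_nonneg_right lc1 h0.le)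
    have := hint0 b x (c1 * δ)
    gcongr
  · intro δ b x h0 h1 hb
    have h1' : δ ≤ δ1 := h1.trans hδ.le
    rw [hSS δ b h0 h1']
    have h2 := P3 δ b x h0 (h1'.trans h1e3) hb
    have h3 : c3 * δ ^ 2 * (δ ^ 4)⁻¹ * ∫ y in ball x (c3 * δ), ‖(b : X → L2) y‖ ∂M.mu ≤
        c * δ ^ 2 * (δ ^ 4)⁻¹ * ∫ y in ball x (c * δ), ‖(b : X → L2) y‖ ∂M.mu := by
      have := hint b x (mul_le_mul_of_nonneg_right lc3 h0.le)
      have := hint0 b x (c3 * δ)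
      gcongr
    have h4 := G7.cone_add h2 (G7.cone_smul (sub_nonneg.2 h3) G7.cone_F0')
    convert h4 using 1
    module
  · intro δ b h0 h1
    have h1' : δ ≤ δ1 := h1.trans hδ.le
    rw [hSS δ b h0 h1']
    refine (PF δ b h0 (h1'.trans h1eF)).trans ?_
    have : 0 ≤ ∫ x, ‖(b : X → L2) x‖ ∂M.mu := integral_nonneg fun y => norm_nonneg _
    gcongr
  · intro m
    refine ⟨1, zero_le_one, fun δ b h0 _ => ?_⟩
    show Z.N m δ b ≤ _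
    rw [hN m δ b h0, one_mul]

/-! ### The statements of the blocks -/

/-- the volume functional `V(u) = ∫ √(σ Q(u¹¹,u¹¹)) dμ` -/
noncomputable def Vol (M : CM X) (σ : X → ℝ) (u : X → L2) : ℝ :=
  ∫ x, Real.sqrt (σ x * Q (pP J0 (u x)) (pP J0 (u x))) ∂M.mu

/-- Block D: the soft Calabi-Yau theorem on a concrete closed manifold. -/
def SoftStatement : Prop :=
  ∀ (X : Type) [MetricSpace X] [CompactSpace X] [MeasurableSpace X] [BorelSpace X] [Nonempty X]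
    (M : CM X) (wb wc : X → L2) (hb : wb ∈ M.Om) (hc : wc ∈ M.Om),
    (⟨wb, hb⟩ : M.Om) ∈ M.Cl → (⟨wc, hc⟩ : M.Om) ∈ M.Cl →
    (∀ x, pM J0 (wb x) = wb x) → (∀ x, pM J0 (wc x) = wc x) →
    M.pr M.om wb = 0 → M.pr M.om wc = 0 → M.pr wb wc = 0 → 0 < M.pr wb wb → 0 < M.pr wc wc →
    (∀ c ∈ M.Cl, M.pr M.om (c : X → L2) = 0 → M.pr wb (c : X → L2) = 0 →
      M.pr wc (c : X → L2) = 0 → M.pr (c : X → L2) (c : X → L2) ≤ 0) →
    ∀ σ : X → ℝ, Continuous σ → (∀ x, 0 < σ x) → ∫ x, σ x ∂M.mu = M.pr M.om M.om →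
    ∀ ε η : ℝ, 0 < ε → 0 < η →
      ∃ e ∈ M.Ex, (∀ x, PosDef J0 (pP J0 (M.om x + (e : X → L2) x))) ∧
        (∀ x, ‖pM J0 (M.om x + (e : X → L2) x)‖ < η) ∧
        (1 - ε) * M.pr M.om M.om < Vol M σ (fun x => M.om x + (e : X → L2) x)

/-- Block B (measure theory): lower bound for the pairing of two smoothed positive currents with
volume lower bounds. -/
def PairLowStatement : Prop :=
  ∀ (X : Type) [MetricSpace X] [CompactSpace X] [MeasurableSpace X] [BorelSpace X] [Nonempty X]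
    (M : CM X) (P : MSys M)
    -- the adjoint smoothing operators converge strongly (block D proves this)
    (_happ : ∀ b : M.Om, ∃ C : ℝ, ∀ (δ : ℝ) (u : Lp E6 2 M.mu), 0 < δ → δ ≤ P.Y.δ0 →
      |⟪P.Y.ι b, P.Y.st (P.Y.ι (P.Y.S δ u) - u)⟫_ℝ| ≤ C * δ * ‖u‖)
    (σ : X → ℝ) (_hσ : Continuous σ) (_hσ0 : ∀ x, 0 < σ x)
    (t p : Measure X) (D E : X → L2) (_ht : FnSys.Cur t D) (_hp : FnSys.Cur p E)
    (κ κ' : ℝ) (_hκ : 0 ≤ κ) (_hκ' : 0 ≤ κ')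
    (_h1 : ∀ u ∈ M.C0, (∀ x, Cone J0 (u x)) → κ * Vol M σ u ≤ FnSys.fn t D u)
    (_h2 : ∀ u ∈ M.C0, (∀ x, Cone J0 (u x)) → κ' * Vol M σ u ≤ FnSys.fn p E u)
    (_h3 : ∃ C : ℝ, ∀ δ, 0 < δ → δ ≤ P.Y.δ0 → P.Z.en t δ ≤ C)
    (_h4 : Tendsto (P.Z.en p) (𝓝[>] 0) (𝓝 0))
    (a : ℝ) (_ha : a < κ * κ' * ∫ x, σ x ∂M.mu),
    ∃ δ1 : ℝ, 0 < δ1 ∧ δ1 ≤ P.Y.δ0 ∧ ∀ (δ : ℝ) (w w' : Lp E6 2 M.mu), 0 < δ → δ ≤ δ1 →
      P.Z.Rep t D δ w → P.Z.Rep p E δ w' → a ≤ ⟪w, P.Y.st w'⟫_ℝ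

/-- Block C (homotopy): the smoothing operator does not change the class of closed forms. -/
def HomStatement : Prop :=
  ∀ (X : Type) [MetricSpace X] [CompactSpace X] [MeasurableSpace X] [BorelSpace X] [Nonempty X]
    (M : CM X), ∃ δ0 : ℝ, 0 < δ0 ∧ ∀ c ∈ M.Cl, ∀ c' ∈ M.Cl, ∀ δ : ℝ, 0 < δ → δ ≤ δ0 →
      M.pr (c : X → L2) (M.S0 δ (c' : X → L2)) = M.pr (c : X → L2) (c' : X → L2)

end

end Vale.Agent.P247.SCY
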