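import Vale.Agent.P247.SCY.Base

/-!
# P247, soft Calabi-Yau, pointwise version: the statements of the blocks
-/

set_option linter.all false

open MeasureTheory Set Metric Filter Topology
open scoped ContDiff ENNReal NNReal BigOperators InnerProductSpace Topology

namespace Vale.Agent.P247.SCY
open Vale.Agent.P204 Vale.Agent.P204.T4 Vale.Agent.P204.GX _root_.P204.GX

section

/-- Block D: the pointwise soft Calabi-Yau theorem on a concrete closed manifold. -/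
def SoftStatement' : Prop :=
  ∀ (X : Type) [MetricSpace X] [CompactSpace X] [MeasurableSpace X] [BorelSpace X] [Nonempty X]
    (M : CM X) (wb wc : X → L2) (hb : wb ∈ M.Om) (hc : wc ∈ M.Om),
    (⟨wb, hb⟩ : M.Om) ∈ M.Cl → (⟨wc, hc⟩ : M.Om) ∈ M.Cl →
    (∀ x, pM J0 (wb x) = wb x) → (∀ x, pM J0 (wc x) = wc x) →
    M.pr M.om wb = 0 → M.pr M.om wc = 0 → M.pr wb wc = 0 → 0 < M.pr wb wb → 0 < M.pr wc wc →
    (∀ c ∈ M.Cl, M.pr M.om (c : X → L2) = 0 → M.pr wb (c : X → L2) = 0 →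
      M.pr wc (c : X → L2) = 0 → M.pr (c : X → L2) (c : X → L2) ≤ 0) →
    ∀ σ : X → ℝ, Continuous σ → (∀ x, 0 < σ x) → ∫ x, σ x ∂M.mu = M.pr M.om M.om →
    ∀ ε η : ℝ, 0 < ε → 0 < η →
      ∃ e ∈ M.Ex, (∀ x, PosDef J0 (pP J0 (M.om x + (e : X → L2) x))) ∧
        (∀ x, ‖pM J0 (M.om x + (e : X → L2) x)‖ < η) ∧
        ∀ x, (1 - ε) * σ x < Q (pP J0 (M.om x + (e : X → L2) x)) (pP J0 (M.om x + (e : X → L2) x))

/-- Block KL: pointwise lower bound for the smooth form `S_δ w_R` when the positive current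
`R = (p,E)` satisfies `Vol ≤ R`. -/
def KLStatement : Prop :=
  ∀ (X : Type) [MetricSpace X] [CompactSpace X] [MeasurableSpace X] [BorelSpace X] [Nonempty X]
    (M : CM X) (P : MSys M) (σ : X → ℝ) (_hσ : Continuous σ) (_hσ0 : ∀ x, 0 < σ x)
    (p : Measure X) (E : X → L2) (_hp : FnSys.Cur p E)
    (_h2 : ∀ u ∈ M.C0, (∀ x, Cone J0 (u x)) → Vol M σ u ≤ FnSys.fn p E u)
    (ρ : ℝ) (_hρ : 0 < ρ),
    ∃ C k δ1 : ℝ, 0 ≤ C ∧ 1 ≤ k ∧ 0 < δ1 ∧ k * δ1 ≤ P.Y.δ0 ∧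
      ∀ (δ : ℝ) (w : Lp E6 2 M.mu), 0 < δ → δ ≤ δ1 →
      P.Z.Rep p E δ w →
      ∃ err : X → ℝ, Continuous err ∧ (∀ x, 0 ≤ err x) ∧
        (∀ x, Cone J0 (pP J0 ((P.Y.S δ w : X → L2) x) + err x • F0)) ∧
        (∀ x, (1 - ρ) * σ x ≤ Q (pP J0 ((P.Y.S δ w : X → L2) x) + err x • F0)
          (pP J0 ((P.Y.S δ w : X → L2) x) + err x • F0)) ∧
        ∀ (t : Measure X) [IsFiniteMeasure t],
          ∫ x, err x ∂t ≤ C * Real.sqrt (P.Z.en t (k * δ)) *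
            (Real.sqrt (P.Z.en p δ) + Real.sqrt (P.Z.en p (k * δ)))

/-- Block KL1: smooth cone valued forms are dense in cone valued `L²` forms. -/
def ConeDenseStatement : Prop :=
  ∀ (X : Type) [MetricSpace X] [CompactSpace X] [MeasurableSpace X] [BorelSpace X] [Nonempty X]
    (M : CM X) (P : MSys M) (u : Lp E6 2 M.mu), (∀ᵐ x ∂M.mu, Cone J0 (ofE (u x))) →
    ∀ ε : ℝ, 0 < ε → ∃ b : M.Om, (∀ x, Cone J0 ((b : X → L2) x)) ∧ ‖u - P.Y.ι b‖ < ε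

/-- Block KL2: the volume version of `exists_P3` (with the scalar averages
`Q F0 (S0 δ (f F0)) ≈ 2 A_δ f`). -/
def P3VStatement : Prop :=
  ∀ (X : Type) [MetricSpace X] [CompactSpace X] [MeasurableSpace X] [BorelSpace X] [Nonempty X]
    (M : CM X), ∃ δ0 c : ℝ, 0 < δ0 ∧ 1 ≤ c ∧ ∀ (δ : ℝ) (b : M.Om) (x : X), 0 < δ → δ ≤ δ0 →
    (∀ y, Cone J0 ((b : X → L2) y)) →
    Cone J0 (pP J0 (M.S0 δ b x) +
      (c * δ ^ 2 * (δ ^ 4)⁻¹ * ∫ y in Metric.ball x (c * δ), ‖(b : X → L2) y‖ ∂M.mu) • F0) ∧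
    Q F0 (M.S0 δ (fun y => Real.sqrt (Q ((b : X → L2) y) ((b : X → L2) y)) • F0) x) ≤
      2 * (1 + c * δ) * Real.sqrt (Q
        (pP J0 (M.S0 δ b x) +
          (c * δ ^ 2 * (δ ^ 4)⁻¹ * ∫ y in Metric.ball x (c * δ), ‖(b : X → L2) y‖ ∂M.mu) • F0)
        (pP J0 (M.S0 δ b x) +
          (c * δ ^ 2 * (δ ^ 4)⁻¹ * ∫ y in Metric.ball x (c * δ), ‖(b : X → L2) y‖ ∂M.mu) • F0))

/-- Block KL3: scalar averages. -/
def AvStatement : Prop :=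
  ∀ (X : Type) [MetricSpace X] [CompactSpace X] [MeasurableSpace X] [BorelSpace X] [Nonempty X]
    (M : CM X), ∃ δ0 c : ℝ, 0 < δ0 ∧ 1 ≤ c ∧ ∀ (δ : ℝ) (h : X → ℝ), 0 < δ → δ ≤ δ0 →
    Continuous h →
    (∀ x, (∀ y ∈ Metric.ball x (c * δ), 0 ≤ h y) → 0 ≤ Q F0 (M.S0 δ (fun y => h y • F0) x)) ∧
    (∀ x, |Q F0 (M.S0 δ (fun y => h y • F0) x)| ≤
      c * (δ ^ 4)⁻¹ * ∫ y in Metric.ball x (c * δ), |h y| ∂M.mu) ∧
    (∀ x, |Q F0 (M.S0 δ (fun _ => F0) x) - 2| ≤ c * δ) ∧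
    |∫ x, Q F0 (M.S0 δ (fun y => h y • F0) x) ∂M.mu - 2 * ∫ x, h x ∂M.mu| ≤
      c * δ * ∫ x, |h x| ∂M.mu

end

end Vale.Agent.P247.SCY
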