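import Vale.Agent.P247.SCY.MFD9

/-!
# P247, flattening: the statements of the two blocks

(F) After the deformation of theorem D', the triple is changed in small disjoint ellipsoids so that
it becomes exactly hyperkähler on an open set of almost full measure.
-/

set_option linter.all false

open MeasureTheory Set Metric Filter Topology
open scoped ContDiff ENNReal NNReal BigOperators Topology

namespace Vale.Agent.P247.SCY
open Vale.Agent.P204 Vale.Agent.P204.T4 Vale.Agent.P204.GX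

/-- the affine map of a matrix `T` based at `y0` -/
def aff (y0 : V4) (T : M4) (z : V4) : V4 := y0 + app T z

/-- the closed ellipsoid (cube) with centre `y0`, shape `T` and size `r` -/
def ell (y0 : V4) (T : M4) (r : ℝ) : Set V4 := aff y0 T '' closedBall 0 r

/-- Block F1 (local flattening). -/
def FlatLocalStatement : Prop :=
  ∀ κ ε C0 : ℝ, 0 < κ → κ < 1 → 0 < ε → ∃ δ : ℝ, 0 < δ ∧
    ∀ (u : Fin 3 → V4 → L2) (m : V4 → ℝ) (y0 : V4) (T T' : M4),
      (∀ i, ContDiff ℝ ∞ (u i)) → (∀ i, Closed (u i)) → ContDiff ℝ ∞ m →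
      (∀ v, app T (app T' v) = v) → (∀ v, app T' (app T v) = v) → det4 T * m y0 = 1 →
      (∀ i, ‖pull T (u i y0)‖ ≤ C0) →
      (∀ i j, |Q (pull T (u i y0)) (pull T (u j y0)) / 2 - if i = j then 1 else 0| < δ) →
      ∃ r0 : ℝ, 0 < r0 ∧ ∀ r : ℝ, 0 < r → r ≤ r0 → ∃ η : Fin 3 → V4 → V4,
        (∀ i, ContDiff ℝ ∞ (η i)) ∧ (∀ i, tsupport (η i) ⊆ ell y0 T r) ∧
        (∀ y ∈ ell y0 T r, m y ≠ 0 ∧ |m y| ≤ 2 * |m y0| ∧ |m y0| ≤ 2 * |m y|) ∧
        (∀ y ∈ ell y0 T ((1 - κ) * r), ∀ i j,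
          Q (u i y + d1 (η i) y) (u j y + d1 (η j) y) = (if i = j then 2 else 0) * m y) ∧
        (∀ y ∈ ell y0 T r, ∀ s ∈ Icc (0 : ℝ) 1, ∀ i j,
          |Q (u i y + s • d1 (η i) y) (u j y + s • d1 (η j) y) / (2 * m y) -
            if i = j then 1 else 0| < ε)

/-- Block F2 (packing): an open set is filled up to a null set by disjoint ellipsoids of
prescribed shape and arbitrarily small size. -/
def PackStatement : Prop :=
  ∀ (O : Set V4) (T T' : V4 → M4) (r0 : V4 → ℝ) (L : ℝ), IsOpen O → 1 ≤ L →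
    (∀ y ∈ O, 0 < r0 y) →
    (∀ y ∈ O, ∀ v, app (T y) (app (T' y) v) = v) → (∀ y ∈ O, ∀ v, app (T' y) (app (T y) v) = v) →
    (∀ y ∈ O, ∀ v, ‖app (T y) v‖ ≤ L * ‖v‖) → (∀ y ∈ O, ∀ v, ‖app (T' y) v‖ ≤ L * ‖v‖) →
    ∃ S : Set (V4 × ℝ), S.Countable ∧
      (∀ p ∈ S, p.1 ∈ O ∧ 0 < p.2 ∧ p.2 ≤ r0 p.1 ∧ ell p.1 (T p.1) p.2 ⊆ O) ∧
      S.PairwiseDisjoint (fun p => ell p.1 (T p.1) p.2) ∧
      volume (O \ ⋃ p ∈ S, ell p.1 (T p.1) p.2) = 0

end Vale.Agent.P247.SCY
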