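import Vale.Agent.P247.SCY.Base2

/-!
# P247, exact pointwise orthogonality: the statements of the blocks
-/

set_option linter.all false

open MeasureTheory Set Metric Filter Topology
open scoped ContDiff ENNReal NNReal BigOperators InnerProductSpace Topology

namespace Vale.Agent.P247.SCY
open Vale.Agent.P204 Vale.Agent.P204.T4 Vale.Agent.P204.GX _root_.P204.GX

section

/-- Block O1a: the smoothing operator changes a smooth closed form by an exact form. -/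
def HomFormStatement : Prop :=
  ∀ (X : Type) [MetricSpace X] [CompactSpace X] [MeasurableSpace X] [BorelSpace X] [Nonempty X]
    (M : CM X) (P : MSys M), ∃ δ : ℝ, 0 < δ ∧ δ ≤ P.Y.δ0 ∧
      ∀ c ∈ M.Cl, P.Y.S δ (P.Y.ι c) - c ∈ M.Ex

/-- Block O1b: the smoothing operators are compact. -/
def CompactStatement : Prop :=
  ∀ (X : Type) [MetricSpace X] [CompactSpace X] [MeasurableSpace X] [BorelSpace X] [Nonempty X]
    (M : CM X) (P : MSys M) (δ : ℝ), 0 < δ → δ ≤ P.Y.δ0 →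
      TotallyBounded {w : Lp E6 2 M.mu | ∃ u : Lp E6 2 M.mu, ‖u‖ ≤ 1 ∧ w = P.Y.ι (P.Y.S δ u)}

/-- Block O1c: a smooth closed form which is an `L²` limit of exact forms is exact. -/
def ClosedExStatement : Prop :=
  ∀ (X : Type) [MetricSpace X] [CompactSpace X] [MeasurableSpace X] [BorelSpace X] [Nonempty X]
    (M : CM X) (P : MSys M), ∀ c ∈ M.Cl,
      P.Y.ι c ∈ closure (P.Y.ι '' (M.Ex : Set M.Om)) → c ∈ M.Ex

/-- Block O2: exact right inverse of the anti-invariant part. -/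
def ExactRightStatement : Prop :=
  ∀ (X : Type) [MetricSpace X] [CompactSpace X] [MeasurableSpace X] [BorelSpace X] [Nonempty X]
    (M : CM X) (P : MSys M) (wb wc : M.Om), wb ∈ M.Cl → wc ∈ M.Cl →
    (∀ x, pM J0 ((wb : X → L2) x) = (wb : X → L2) x) →
    (∀ x, pM J0 ((wc : X → L2) x) = (wc : X → L2) x) →
    M.pr M.om (wb : X → L2) = 0 → M.pr M.om (wc : X → L2) = 0 →
    (∀ c ∈ M.Cl, M.pr M.om (c : X → L2) = 0 → M.pr (wb : X → L2) (c : X → L2) = 0 →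
      M.pr (wc : X → L2) (c : X → L2) = 0 → M.pr (c : X → L2) (c : X → L2) ≤ 0) →
    ∃ (k : ℕ) (C : ℝ), 0 ≤ C ∧ ∀ v : M.Om, P.Y.pm v = v →
      M.pr (wb : X → L2) (v : X → L2) = 0 → M.pr (wc : X → L2) (v : X → L2) = 0 →
      ∃ z ∈ M.Ex, P.Y.pm z = v ∧ P.Y.M 0 z ≤ C * P.Y.M k v

/-- Block O3: the soft theorem with `C^k` small anti-invariant part and a margin.  -/
def SoftKStatement : Prop :=
  ∀ (X : Type) [MetricSpace X] [CompactSpace X] [MeasurableSpace X] [BorelSpace X] [Nonempty X]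
    (M : CM X) (P : MSys M) (wb wc : X → L2) (hb : wb ∈ M.Om) (hc : wc ∈ M.Om),
    (⟨wb, hb⟩ : M.Om) ∈ M.Cl → (⟨wc, hc⟩ : M.Om) ∈ M.Cl →
    (∀ x, pM J0 (wb x) = wb x) → (∀ x, pM J0 (wc x) = wc x) →
    M.pr M.om wb = 0 → M.pr M.om wc = 0 → M.pr wb wc = 0 → 0 < M.pr wb wb → 0 < M.pr wc wc →
    (∀ c ∈ M.Cl, M.pr M.om (c : X → L2) = 0 → M.pr wb (c : X → L2) = 0 →
      M.pr wc (c : X → L2) = 0 → M.pr (c : X → L2) (c : X → L2) ≤ 0) →
    ∀ σ : X → ℝ, Continuous σ → (∀ x, 0 < σ x) → ∫ x, σ x ∂M.mu = M.pr M.om M.om →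
    ∀ (k : ℕ) (ε η : ℝ), 0 < ε → 0 < η →
      ∃ e ∈ M.Ex, (∀ x, PosDef J0 (pP J0 (M.om x + (e : X → L2) x))) ∧
        P.Y.M k (P.Y.pm (M.omOm + e)) < η ∧
        ∀ x, (1 - ε) * σ x < Q (pP J0 (M.om x + (e : X → L2) x)) (pP J0 (M.om x + (e : X → L2) x))

end

end Vale.Agent.P247.SCY
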