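import Vale.Agent.P247.SCY.ER1

/-!
# P247, exact orthogonality: the exact forms are closed in the energy space
-/

set_option linter.all false

open scoped InnerProductSpace BigOperators Topology
open Filter Finset

namespace P204.GX
namespace SmSys

variable {H Om : Type} [NormedAddCommGroup H] [InnerProductSpace ℝ H] [CompleteSpace H]
  [AddCommGroup Om] [Module ℝ Om]
variable (Y : SmSys H Om)

/-- a smooth closed form in the closure of the exact forms is exact -/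
theorem closedEx {δ : ℝ} (h0 : 0 < δ) (h1 : δ ≤ Y.δ0)
    (hom : ∀ c ∈ Y.Cl, Y.S δ (Y.ι c) - c ∈ Y.Ex)
    (hcp : TotallyBounded {w : H | ∃ u : H, ‖u‖ ≤ 1 ∧ w = Y.ι (Y.S δ u)}) :
    ∀ c ∈ Y.Cl, Y.ι c ∈ Y.EE → c ∈ Y.Ex := by
  intro c hc hcE
  have : CompleteSpace Y.EE := Y.isClosed_EE.completeSpace_coe
  set PE : H →L[ℝ] H := Y.EE.starProjection with hPE
  have hPEmem : ∀ u, PE u ∈ Y.EE := fun u => Submodule.starProjection_apply_mem _ _
  have hPEn : ∀ u, ‖PE u‖ ≤ ‖u‖ := fun u => Submodule.norm_starProjection_apply_le _ _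
  have hPEid : ∀ u ∈ Y.EE, PE u = u := fun u hu => Submodule.starProjection_eq_self_iff.2 hu
  -- the operator `S`
  set S : H →L[ℝ] H := (Y.ι ∘ₗ Y.S δ).mkContinuous (Y.K 0) (fun u => Y.S_norm δ u h0 h1) with hS
  have hSa : ∀ u, S u = Y.ι (Y.S δ u) := fun u => rfl
  -- the finite dimensional space `F`
  set s : Set H := {w : H | ∃ u ∈ Y.EE, ‖u‖ ≤ 1 ∧ w = Y.ι (Y.S δ u)} with hs
  have hsb : TotallyBounded s := hcp.subset (by
    rintro w ⟨u, _, hu, hw⟩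
    exact ⟨u, hu, hw⟩)
  obtain ⟨t, hts, htf, hcov⟩ := Metric.finite_approx_of_totallyBounded hsb (1 / 4) (by norm_num)
  have hsE : ∀ y ∈ s, y ∈ closure (Y.ι '' (Y.Ex : Set Om)) := by
    rintro y ⟨u, hu, _, rfl⟩
    rw [← Y.coe_EE]
    exact Y.S_mem_EE h0 h1 hu
  have hex : ∀ y : H, ∃ e ∈ Y.Ex, y ∈ s → dist y (Y.ι e) < 1 / 4 := by
    intro y
    by_cases hy : y ∈ s
    · obtain ⟨_, ⟨e, he, rfl⟩, h⟩ := Metric.mem_closure_iff.1 (hsE y hy) (1 / 4) (by norm_num)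
      exact ⟨e, he, fun _ => h⟩
    · exact ⟨0, Y.Ex.zero_mem, fun h => absurd h hy⟩
  choose f hfE hfd using hex
  set F : Submodule ℝ H := Submodule.span ℝ ((fun y => Y.ι (f y)) '' t) with hF
  have hFfin : FiniteDimensional ℝ F := FiniteDimensional.span_of_finite ℝ (htf.image _)
  have hFEx : F ≤ Y.Ex.map Y.ι := by
    rw [hF, Submodule.span_le]
    rintro _ ⟨y, _, rfl⟩
    exact Submodule.mem_map_of_mem (hfE y)
  have hFE : F ≤ Y.EE := hFEx.trans (Submodule.le_topologicalClosure _)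
  set PF : H →L[ℝ] H := F.starProjection with hPF
  have hPFmem : ∀ u, PF u ∈ F := fun u => Submodule.starProjection_apply_mem _ _
  -- the contraction
  have hT1 : ∀ u ∈ Y.EE, ‖u‖ ≤ 1 → ‖S u - PF (S u)‖ ≤ 1 / 2 := by
    intro u hu hu1
    have hmem : S u ∈ s := ⟨u, hu, hu1, rfl⟩
    obtain ⟨y, hy, hyd⟩ := Set.mem_iUnion₂.1 (hcov hmem)
    rw [Metric.mem_ball] at hyd
    have h2 := hfd y (hts hy)
    have h3 : Y.ι (f y) ∈ F := Submodule.subset_span ⟨y, hy, rfl⟩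
    have h4 : ‖S u - PF (S u)‖ ≤ ‖S u - Y.ι (f y)‖ := by
      have h5 := Submodule.starProjection_minimal (U := F) (S u)
      rw [← hPF] at h5
      rw [h5]
      exact ciInf_le ⟨0, by rintro _ ⟨z, rfl⟩; exact norm_nonneg _⟩ (⟨Y.ι (f y), h3⟩ : F)
    refine h4.trans ?_
    rw [← dist_eq_norm]
    have := dist_triangle (S u) y (Y.ι (f y))
    linarith
  have hT2 : ∀ u ∈ Y.EE, ‖S u - PF (S u)‖ ≤ 1 / 2 * ‖u‖ := by
    intro u hu
    by_cases hu0 : ‖u‖ = 0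
    · have : u = 0 := norm_eq_zero.1 hu0
      rw [this]; simp
    · have hup : 0 < ‖u‖ := lt_of_le_of_ne (norm_nonneg _) (Ne.symm hu0)
      have h3 := hT1 (‖u‖⁻¹ • u) (Y.EE.smul_mem _ hu) (by
        rw [norm_smul, norm_inv, norm_norm, inv_mul_cancel₀ hu0])
      rw [map_smul, map_smul, ← smul_sub, norm_smul, norm_inv, norm_norm] at h3
      rw [inv_mul_le_iff₀ hup] at h3
      linarith
  set T : H →L[ℝ] H := (S - PF ∘L S) ∘L PE with hT
  have hTa : ∀ u, T u = S (PE u) - PF (S (PE u)) := fun u => rfl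
  have hTn : ‖T‖ ≤ 1 / 2 := by
    refine T.opNorm_le_bound (by norm_num) fun u => ?_
    rw [hTa]
    refine (hT2 _ (hPEmem u)).trans ?_
    exact mul_le_mul_of_nonneg_left (hPEn u) (by norm_num)
  have hTlt : ‖T‖ < 1 := lt_of_le_of_lt hTn (by norm_num)
  obtain ⟨x, hx⟩ : ∃ x : H, x - T x = Y.ι c := by
    refine ⟨((Units.oneSub T hTlt)⁻¹ : (H →L[ℝ] H)ˣ).1 (Y.ι c), ?_⟩
    have h3 : (Units.oneSub T hTlt).1 * ((Units.oneSub T hTlt)⁻¹ : (H →L[ℝ] H)ˣ).1 = 1 :=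
      Units.mul_inv _
    have h4 := congrArg (fun L : H →L[ℝ] H => L (Y.ι c)) h3
    simpa using h4
  have hxE : x ∈ Y.EE := by
    have h3 : x = Y.ι c + T x := by rw [← hx]; abel
    rw [h3, hTa]
    exact Y.EE.add_mem hcE (Y.EE.sub_mem (Y.S_mem_EE h0 h1 (hPEmem x)) (hFE (hPFmem _)))
  rw [hTa, hPEid x hxE] at hx
  obtain ⟨e, he, hef⟩ : ∃ e ∈ Y.Ex, Y.ι e = PF (S x) := by
    obtain ⟨e, he, h3⟩ := hFEx (hPFmem (S x))
    exact ⟨e, he, h3⟩
  rw [← hef] at hx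
  set x' : Om := c + Y.S δ x - e with hx'
  have hxx' : x = Y.ι x' := by
    rw [hx', map_sub, map_add, ← hx, hSa]; abel
  have hx'Cl : x' ∈ Y.Cl := by
    apply Y.closed_of_weak
    intro e' he'
    rw [← hxx']
    exact Y.EE_le_Zw hxE e' he'
  have h3 := hom x' hx'Cl
  rw [← hxx'] at h3
  have h4 : c = -(Y.S δ x - x') + e := by rw [hx']; abel
  rw [h4]
  exact Y.Ex.add_mem (Y.Ex.neg_mem h3) he

end SmSys
end P204.GX
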