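import Vale.Agent.P247.SCY.MeasLe
import Vale.Agent.P247.SCY.App

/-!
# P247, soft Calabi-Yau: pairings with closed forms, and the current `R` has no singular part
-/

set_option linter.all false

open MeasureTheory Set Metric Filter Topology
open scoped ContDiff ENNReal NNReal BigOperators InnerProductSpace Topology

namespace Vale.Agent.P247.SCY
open Vale.Agent.P204 Vale.Agent.P204.T4 Vale.Agent.P204.GX _root_.P204.GX

section
variable {X : Type} [MetricSpace X] [CompactSpace X] [MeasurableSpace X] [BorelSpace X]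
variable {M : CM X} (P : MSys M)

theorem mem_Cl_iff (c : M.Om) : c ∈ P.Y.Cl ↔ c ∈ M.Cl := by rw [P.Cl_eq]
theorem mem_Ex_iff (c : M.Om) : c ∈ P.Y.Ex ↔ c ∈ M.Ex := by rw [P.Ex_eq]

/-- the smoothing operator does not change the class of weakly closed `L²` forms -/
theorem hom_Zw [Nonempty X] (hom : HomStatement) : ∃ δ1 : ℝ, 0 < δ1 ∧ δ1 ≤ P.Y.δ0 ∧
    ∀ δ, 0 < δ → δ ≤ δ1 → ∀ c ∈ M.Cl, ∀ u ∈ P.Y.Zw,
      ⟪P.Y.ι c, P.Y.st (P.Y.ι (P.Y.S δ u))⟫_ℝ = ⟪P.Y.ι c, P.Y.st u⟫_ℝ := by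
  obtain ⟨d, hd, h⟩ := hom X M
  refine ⟨min d P.Y.δ0, lt_min hd P.Y.δ0_pos, min_le_right _ _, fun δ h0 h1 c hc u hu => ?_⟩
  have h2 : δ ≤ P.Y.δ0 := h1.trans (min_le_right _ _)
  have hcl := P.Y.Zw_le_closure hu
  set L : Lp E6 2 M.mu →L[ℝ] Lp E6 2 M.mu :=
    LinearMap.mkContinuous (P.Y.ι ∘ₗ P.Y.S δ) (P.Y.K 0) (fun u => P.Y.S_norm δ u h0 h2) with hL
  have hclosed : IsClosed {u : Lp E6 2 M.mu | ⟪P.Y.ι c, P.Y.st (L u)⟫_ℝ = ⟪P.Y.ι c, P.Y.st u⟫_ℝ} :=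
    isClosed_eq (continuous_const.inner (P.Y.st.continuous.comp L.continuous))
      (continuous_const.inner P.Y.st.continuous)
  have hsub : P.Y.ι '' (P.Y.Cl : Set M.Om) ⊆
      {u : Lp E6 2 M.mu | ⟪P.Y.ι c, P.Y.st (L u)⟫_ℝ = ⟪P.Y.ι c, P.Y.st u⟫_ℝ} := by
    rintro _ ⟨b, hb, rfl⟩
    show ⟪P.Y.ι c, P.Y.st (P.Y.ι (P.Y.S δ (P.Y.ι b)))⟫_ℝ = ⟪P.Y.ι c, P.Y.st (P.Y.ι b)⟫_ℝ
    rw [pr_inner, pr_inner, P.S_eq δ b h0 h2]
    exact h c hc b ((mem_Cl_iff P b).1 hb) δ h0 (h1.trans (min_le_left _ _))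
  exact closure_minimal hsub hclosed hcl

theorem exists_Rep {t : Measure X} {D : X → L2} (h : FnSys.Cur t D) {δ : ℝ} (h0 : 0 < δ)
    (h1 : δ ≤ P.Y.δ0) : ∃ w : Lp E6 2 M.mu, P.Z.Rep t D δ w := by
  obtain ⟨w, hw⟩ := P.Y.exists_rep ((P.Z.fS h h0 h1 : Lp E6 2 M.mu →L[ℝ] ℝ) :
    Lp E6 2 M.mu →ₗ[ℝ] ℝ) ‖P.Z.fS h h0 h1‖ (fun u => (P.Z.fS h h0 h1).le_opNorm u)
  exact ⟨w, hw⟩

theorem rep_mem_Zw {t : Measure X} {D : X → L2} (hk : ∀ e ∈ M.Ex, FnSys.fn t D (e : X → L2) = 0)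
    {δ : ℝ} (h0 : 0 < δ) (h1 : δ ≤ P.Y.δ0) {w : Lp E6 2 M.mu} (hw : P.Z.Rep t D δ w) :
    w ∈ P.Y.Zw := by
  apply P.Y.mem_Zw_of_kill
  intro e he
  rw [hw]
  exact hk _ ((mem_Ex_iff P _).1 (P.Y.S_Ex δ e h0 h1 he))

/-- pairing of the regularisation of a current of the class of `om` with weakly closed forms -/
theorem pair_om [Nonempty X] (hom : HomStatement) : ∃ δ1 : ℝ, 0 < δ1 ∧ δ1 ≤ P.Y.δ0 ∧
    ∀ (p : Measure X) (E : X → L2), FnSys.Cur p E →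
      (∀ c ∈ M.Cl, FnSys.fn p E (c : X → L2) = M.pr M.om (c : X → L2)) →
      ∀ (δ : ℝ) (w w' : Lp E6 2 M.mu), 0 < δ → δ ≤ δ1 → P.Z.Rep p E δ w → w' ∈ P.Y.Zw →
        ⟪w, P.Y.st w'⟫_ℝ = ⟪P.Y.ι M.omOm, P.Y.st w'⟫_ℝ := by
  obtain ⟨d, hd, hd0, h⟩ := hom_Zw P hom
  refine ⟨d, hd, hd0, fun p E hp hc δ w w' h0 h1 hw hw' => ?_⟩
  have hcl := P.Y.Zw_le_closure hw'
  have hclosed : IsClosed {u : Lp E6 2 M.mu | ⟪w, P.Y.st u⟫_ℝ = ⟪P.Y.ι M.omOm, P.Y.st u⟫_ℝ} :=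
    isClosed_eq (continuous_const.inner P.Y.st.continuous)
      (continuous_const.inner P.Y.st.continuous)
  have hsub : P.Y.ι '' (P.Y.Cl : Set M.Om) ⊆
      {u : Lp E6 2 M.mu | ⟪w, P.Y.st u⟫_ℝ = ⟪P.Y.ι M.omOm, P.Y.st u⟫_ℝ} := by
    rintro _ ⟨b, hb, rfl⟩
    show ⟪w, P.Y.st (P.Y.ι b)⟫_ℝ = ⟪P.Y.ι M.omOm, P.Y.st (P.Y.ι b)⟫_ℝ
    have h2 : δ ≤ P.Y.δ0 := h1.trans hd0
    have hbZ := P.Y.ι_mem_Zw hb
    have h3 := P.Y.S_mem_Cl δ h0 h2 hbZ
    have h4 : ⟪w, P.Y.st (P.Y.ι b)⟫_ℝ = FnSys.fn p E (P.Y.S δ (P.Y.ι b) : X → L2) := hw _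
    rw [h4, hc _ ((mem_Cl_iff P _).1 h3), ← h δ h0 h1 _ M.omOm_mem_Cl _ hbZ, pr_inner]
    rfl
  exact closure_minimal hsub hclosed hcl

theorem dens_bdd {t : Measure X} {C : ℝ} [Nonempty X]
    (hb : ∀ x (r : ℝ), 0 < r → r ≤ 1 → (t (Metric.ball x r)).toReal ≤ C * r ^ 2) {δ : ℝ}
    (h0 : 0 < δ) (h1 : P.Z.c * δ ≤ 1) : P.Z.dens t δ ≤ C * P.Z.c ^ 2 := by
  have hc := P.Z.c_pos
  unfold FnSys.dens
  have h2 : (⨆ x, (t (Metric.ball x (P.Z.c * δ))).toReal) ≤ C * (P.Z.c * δ) ^ 2 :=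
    ciSup_le fun x => hb x _ (by positivity) h1
  calc (δ ^ 2)⁻¹ * (⨆ x, (t (Metric.ball x (P.Z.c * δ))).toReal)
      ≤ (δ ^ 2)⁻¹ * (C * (P.Z.c * δ) ^ 2) := mul_le_mul_of_nonneg_left h2 (by positivity)
    _ = C * P.Z.c ^ 2 := by field_simp

theorem tendsto_mul_pos {k : ℝ} (hk : 0 < k) : Tendsto (fun δ : ℝ => k * δ) (𝓝[>] 0) (𝓝[>] 0) := by
  apply tendsto_nhdsWithin_iff.mpr
  constructor
  · have : Tendsto (fun δ : ℝ => k * δ) (𝓝 0) (𝓝 (k * 0)) :=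
      (continuous_const.mul continuous_id).tendsto 0
    rw [mul_zero] at this
    exact this.mono_left nhdsWithin_le_nhds
  · filter_upwards [self_mem_nhdsWithin] with δ hδ
    exact mul_pos hk hδ

theorem fn_om {p : Measure X} {E : X → L2} (hp : FnSys.Cur p E) :
    FnSys.fn p E M.om = p.real univ := by
  haveI := hp.fin
  unfold FnSys.fn
  have : ∀ x, Q (E x) (M.om x) = 1 := fun x => by
    rw [← Q_inv_pP isCx_J0 G9.pos_J0 (hp.cone x).1, M.om_pP]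
    exact hp.norm x
  simp only [this, integral_const, smul_eq_mul, mul_one]

theorem fn_F {p : Measure X} {E : X → L2} (hp : FnSys.Cur p E) (f : X → ℝ) :
    FnSys.fn p E (fun x => f x • F0) = ∫ x, f x ∂p := by
  unfold FnSys.fn
  congr 1; funext x
  rw [Q_smul_right, hp.norm x, mul_one]

/-- lower bound for the self pairing -/
theorem self_low [Nonempty X] (kl : KLStatement) {σ : X → ℝ} (hσ : Continuous σ)
    (hσ0 : ∀ x, 0 < σ x) {p : Measure X} {E : X → L2} (hp : FnSys.Cur p E)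
    (hV : ∀ u ∈ M.C0, (∀ x, Cone J0 (u x)) → Vol M σ u ≤ FnSys.fn p E u)
    (hen : Tendsto (P.Z.en p) (𝓝[>] 0) (𝓝 0)) {ρ : ℝ} (hρ : 0 < ρ) (hρ1 : ρ ≤ 1) :
    ∃ (g : ℝ → ℝ) (δ1 : ℝ), Tendsto g (𝓝[>] 0) (𝓝 0) ∧ 0 < δ1 ∧ δ1 ≤ P.Y.δ0 ∧
      ∀ (δ : ℝ) (w : Lp E6 2 M.mu), 0 < δ → δ ≤ δ1 → P.Z.Rep p E δ w →
        (1 - ρ) * ∫ x, σ x ∂M.mu - g δ ≤ ⟪w, P.Y.st w⟫_ℝ := by
  haveI := hp.fin
  obtain ⟨C, k, δ1, hC, hk, hδ1, hδ10, h⟩ := kl X M P σ hσ hσ0 p E hp hV ρ hρ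
  have hk0 : 0 < k := by linarith
  have hd0 : δ1 ≤ P.Y.δ0 := by nlinarith
  refine ⟨fun δ => C * Real.sqrt (P.Z.en p (k * δ)) *
    (Real.sqrt (P.Z.en p δ) + Real.sqrt (P.Z.en p (k * δ))), δ1, ?_, hδ1, hd0,
    fun δ w h0 h1 hw => ?_⟩
  · have a1 : Tendsto (fun δ => Real.sqrt (P.Z.en p δ)) (𝓝[>] 0) (𝓝 (Real.sqrt 0)) :=
      (Real.continuous_sqrt.tendsto 0).comp hen
    have a2 : Tendsto (fun δ => Real.sqrt (P.Z.en p (k * δ))) (𝓝[>] 0) (𝓝 (Real.sqrt 0)) :=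
      (Real.continuous_sqrt.tendsto 0).comp (hen.comp (tendsto_mul_pos hk0))
    have a3 := (a2.const_mul C).mul (a1.add a2)
    simpa using a3
  · obtain ⟨err, hec, he0, hcone, hvol, hint⟩ := h δ w h0 h1 hw
    have hS : (P.Y.S δ w : X → L2) ∈ M.C0 := memC _
    have hB : (fun x => pP J0 ((P.Y.S δ w : X → L2) x) + err x • F0) ∈ M.C0 :=
      add_smul_F_mem_C0 hec (M.pP_mem_C0 hS)
    have e1 : ⟪w, P.Y.st w⟫_ℝ = FnSys.fn p E (P.Y.S δ w : X → L2) := hw w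
    have e2 : FnSys.fn p E (fun x => pP J0 ((P.Y.S δ w : X → L2) x) + err x • F0) =
        FnSys.fn p E (P.Y.S δ w : X → L2) + ∫ x, err x ∂p := by
      have e3 : FnSys.fn p E (P.Y.S δ w : X → L2) =
          FnSys.fn p E (fun x => pP J0 ((P.Y.S δ w : X → L2) x)) := P.Z.fn_pP hp (P.Y.S δ w)
      rw [e3, ← fn_F hp err]
      unfold FnSys.fn
      rw [← integral_add (integrable_fn (M := M) hp (M.pP_mem_C0 hS))
        (integrable_fn (M := M) hp (smul_mem_C0 hec F_mem_C0))]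
      congr 1; funext x; exact Q_add_right _ _ _
    have e4 := hV _ hB hcone
    have e5 : (1 - ρ) * ∫ x, σ x ∂M.mu ≤
        Vol M σ (fun x => pP J0 ((P.Y.S δ w : X → L2) x) + err x • F0) := by
      rw [Vol_eq, ← integral_const_mul]
      have hσi : Integrable σ M.mu := by
        obtain ⟨S0, hS0⟩ := (isCompact_univ (X := X)).exists_bound_of_continuousOn hσ.continuousOn
        exact Integrable.of_bound hσ.measurable.aestronglyMeasurable S0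
          (Filter.Eventually.of_forall fun x => hS0 x (mem_univ x))
      refine integral_mono (hσi.const_mul _) (integrable_vd hσ hB) fun x => ?_
      show (1 - ρ) * σ x ≤ vd (σ x) (pP J0 ((P.Y.S δ w : X → L2) x) + err x • F0)
      unfold vd
      rw [pP_of_inv (hcone x).1]
      apply Real.le_sqrt_of_sq_le
      have b1 := hvol x
      have b2 := (hσ0 x).le
      have b3 : 0 ≤ 1 - ρ := by linarith
      calc ((1 - ρ) * σ x) ^ 2 = (1 - ρ) * σ x * ((1 - ρ) * σ x) := by ring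
        _ ≤ 1 * σ x * ((1 - ρ) * σ x) := by
            apply mul_le_mul_of_nonneg_right _ (mul_nonneg b3 b2)
            apply mul_le_mul_of_nonneg_right _ b2
            linarith
        _ ≤ 1 * σ x * _ := mul_le_mul_of_nonneg_left b1 (by rw [one_mul]; exact b2)
        _ = _ := by rw [one_mul]
    have e6 := hint p
    show (1 - ρ) * ∫ x, σ x ∂M.mu - C * Real.sqrt (P.Z.en p (k * δ)) *
      (Real.sqrt (P.Z.en p δ) + Real.sqrt (P.Z.en p (k * δ))) ≤ ⟪w, P.Y.st w⟫_ℝ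
    rw [e1]
    linarith

/-- The current `R` does not charge the set of infinite potential, and its energies tend to zero. -/
theorem en_tendsto_of_R [Nonempty X] (hom : HomStatement) (kl : KLStatement) {σ : X → ℝ}
    (hσ : Continuous σ) (hσ0 : ∀ x, 0 < σ x) (hσi : ∫ x, σ x ∂M.mu = M.pr M.om M.om)
    {p : Measure X} {E : X → L2} (hp : FnSys.Cur p E)
    (hc : ∀ c ∈ M.Cl, FnSys.fn p E (c : X → L2) = M.pr M.om (c : X → L2))
    (hV : ∀ u ∈ M.C0, (∀ x, Cone J0 (u x)) → Vol M σ u ≤ FnSys.fn p E u) :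
    Tendsto (P.Z.en p) (𝓝[>] 0) (𝓝 0) := by
  haveI := hp.fin
  set S : Set X := {x | potX p x < ⊤} with hSd
  have hS : MeasurableSet S := measurableSet_lt (measurable_potX p) measurable_const
  obtain ⟨cv, _, hvol⟩ := CM.exists_vol (M := M)
  have hμ : M.mu Sᶜ = 0 := by
    have h1 := potX_ae M.mu hvol p
    rw [ae_iff] at h1
    exact h1
  set α := M.pr M.om M.om with hα
  have hpS := cur_restrict hp S
  have hpN := cur_restrict hp Sᶜ
  have hkill : ∀ e ∈ M.Ex, FnSys.fn p E (e : X → L2) = 0 := by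
    intro e he
    rw [hc e (M.Ex_le_Cl he), pr_comm]
    exact M.stokesX he M.omOm_mem_Cl
  have hkS : ∀ e ∈ M.Ex, FnSys.fn (p.restrict S) E (e : X → L2) = 0 := fun e he =>
    M.elmir_r p hp.meas hp.cone hp.norm hkill e he
  have hkN : ∀ e ∈ M.Ex, FnSys.fn (p.restrict Sᶜ) E (e : X → L2) = 0 := fun e he => by
    have h1 := fn_restrict_add hp (memC e) hS
    rw [hkill e he, hkS e he] at h1
    linarith
  have hgrow : ∀ (q : Measure X), FnSys.Cur q E → (∀ e ∈ M.Ex, FnSys.fn q E (e : X → L2) = 0) →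
      ∃ C : ℝ, 0 ≤ C ∧ ∀ x (r : ℝ), 0 < r → r ≤ 1 → (q (Metric.ball x r)).toReal ≤ C * r ^ 2 := by
    intro q hq hk
    refine grow_P M hq (0 : Measure X) fun e he => ?_
    rw [integral_zero_measure, zero_add]
    exact hk e he
  obtain ⟨CS, _, hgS⟩ := hgrow _ hpS hkS
  obtain ⟨CN, hCN0, hgN⟩ := hgrow _ hpN hkN
  -- energies
  have henS : Tendsto (P.Z.en (p.restrict S)) (𝓝[>] 0) (𝓝 0) := by
    haveI := hpS.fin
    refine P.Z.en_tendsto ⟨CS, hgS⟩ ?_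
    rw [ae_restrict_iff' hS]
    refine Filter.Eventually.of_forall fun x hx => ?_
    refine lt_of_le_of_lt ?_ hx
    exact lintegral_mono' Measure.restrict_le_self le_rfl
  obtain ⟨CB, hCB, henN⟩ : ∃ CB : ℝ, 0 ≤ CB ∧ ∀ δ, 0 < δ → δ ≤ P.Y.δ0 → P.Z.c * δ ≤ 1 →
      Real.sqrt (P.Z.en (p.restrict Sᶜ) δ) ≤ CB := by
    haveI := hpN.fin
    obtain ⟨C', hC', h'⟩ := P.Z.en_le_dens (t := p.restrict Sᶜ)
    refine ⟨Real.sqrt (C' * (CN * P.Z.c ^ 2)), Real.sqrt_nonneg _, fun δ h0 h1 h2 => ?_⟩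
    apply Real.sqrt_le_sqrt
    exact (h' δ h0 h1).trans (mul_le_mul_of_nonneg_left (dens_bdd P hgN h0 h2) hC')
  have hVS := vol_le_restrict hσ (fun x => (hσ0 x).le) hp hV hS hμ
  -- the mass of the singular part
  have hmass : (p.real Sᶜ) ≤ 0 := by
    by_contra hneg
    push Not at hneg
    set γ := p.real Sᶜ with hγ
    have htot : p.real univ = α := by
      rw [← fn_om (M := M) hp]
      exact hc M.omOm M.omOm_mem_Cl
    have hsplit : (p.restrict S).real univ = α - γ := by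
      rw [← htot, hγ, measureReal_restrict_apply_univ]
      have := measureReal_add_measureReal_compl (μ := p) hS
      linarith
    have hα0 : 0 < α := alpha_pos M
    set ρ := min 1 (γ / (2 * α)) with hρd
    have hρ : 0 < ρ := lt_min one_pos (by positivity)
    have hρα : ρ * α ≤ γ / 2 := by
      have : ρ ≤ γ / (2 * α) := min_le_right _ _
      calc ρ * α ≤ γ / (2 * α) * α := mul_le_mul_of_nonneg_right this hα0.le
        _ = γ / 2 := by field_simp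
    obtain ⟨g, d1, hg, hd1, hd10, hself⟩ := self_low P kl hσ hσ0 hpS hVS henS hρ (min_le_left _ _)
    obtain ⟨C3, hC3, hcross⟩ := P.Z.t3' hpS hpN
    obtain ⟨d2, hd2, hd20, hpair⟩ := pair_om P hom
    -- limit function
    set G : ℝ → ℝ := fun δ => ρ * α + g δ + C3 * Real.sqrt (P.Z.en (p.restrict S) δ) * CB +
      6 * ((p.restrict S) univ).toReal * (P.Y.K 0 * δ * P.Y.M 1 M.omOm) with hG
    have hlim : Tendsto G (𝓝[>] 0) (𝓝 (ρ * α)) := by
      have a1 : Tendsto (fun δ => Real.sqrt (P.Z.en (p.restrict S) δ)) (𝓝[>] 0)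
          (𝓝 (Real.sqrt 0)) := (Real.continuous_sqrt.tendsto 0).comp henS
      have a2 : Tendsto (fun δ : ℝ => δ) (𝓝[>] 0) (𝓝 0) :=
        tendsto_id.mono_left nhdsWithin_le_nhds
      have a3 := (((tendsto_const_nhds (x := ρ * α)).add hg).add
        ((a1.const_mul C3).mul_const CB)).add
        (((a2.const_mul (P.Y.K 0)).mul_const (P.Y.M 1 M.omOm)).const_mul
          (6 * ((p.restrict S) univ).toReal))
      have e : ρ * α + 0 + C3 * Real.sqrt 0 * CB +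
        6 * ((p.restrict S) univ).toReal * (P.Y.K 0 * 0 * P.Y.M 1 M.omOm) = ρ * α := by
        rw [Real.sqrt_zero]; ring
      rw [e] at a3
      exact a3
    have hev : ∀ᶠ δ in 𝓝[>] (0 : ℝ), γ ≤ G δ := by
      have hc0 := P.Z.c_pos
      have hm : (0 : ℝ) < min (min d1 d2) (1 / P.Z.c) :=
        lt_min (lt_min hd1 hd2) (by positivity)
      filter_upwards [Ioc_mem_nhdsGT hm] with δ hδ
      have h0 : 0 < δ := hδ.1
      have k1 : δ ≤ d1 := hδ.2.trans ((min_le_left _ _).trans (min_le_left _ _))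
      have k2 : δ ≤ d2 := hδ.2.trans ((min_le_left _ _).trans (min_le_right _ _))
      have k3 : δ ≤ P.Y.δ0 := k1.trans hd10
      have k4 : P.Z.c * δ ≤ 1 := by
        have := hδ.2.trans (min_le_right _ _)
        rw [le_div_iff₀ hc0] at this
        linarith
      obtain ⟨wS, hwS⟩ := exists_Rep P hpS h0 k3
      obtain ⟨wN, hwN⟩ := exists_Rep P hpN h0 k3
      have hwR : P.Z.Rep p E δ (wS + wN) := by
        intro u
        show ⟪wS + wN, P.Y.st u⟫_ℝ = FnSys.fn p E (P.Y.S δ u : X → L2)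
        rw [inner_add_left, fn_restrict_add hp (memC _) hS]
        exact congrArg₂ _ (hwS u) (hwN u)
      have hwSZ := rep_mem_Zw P hkS h0 k3 hwS
      have q1 := hself δ wS h0 k1 hwS
      have q2 := hcross δ wS wN h0 k3 hwS hwN
      have q3 := hpair p E hp hc δ (wS + wN) wS h0 k2 hwR hwSZ
      have q4 : ⟪P.Y.ι M.omOm, P.Y.st wS⟫_ℝ =
          FnSys.fn (p.restrict S) E (P.Y.S δ (P.Y.ι M.omOm) : X → L2) := by
        have : ⟪wS, P.Y.st (P.Y.ι M.omOm)⟫_ℝ = _ := hwS (P.Y.ι M.omOm)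
        rw [← this, real_inner_comm, P.Y.st_symm]
      have q5 : ⟪wS + wN, P.Y.st wS⟫_ℝ = ⟪wS, P.Y.st wS⟫_ℝ + ⟪wS, P.Y.st wN⟫_ℝ := by
        rw [inner_add_left, real_inner_comm (P.Y.st wS) wN, P.Y.st_symm]
      have q6 : FnSys.fn (p.restrict S) E (P.Y.S δ (P.Y.ι M.omOm) : X → L2) ≤
          (α - γ) + 6 * ((p.restrict S) univ).toReal * (P.Y.K 0 * δ * P.Y.M 1 M.omOm) := by
        haveI := hpS.fin
        have r1 := P.Z.fn_add hpS (P.Y.S δ (P.Y.ι M.omOm)) (M.omOm - P.Y.S δ (P.Y.ι M.omOm))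
        rw [add_sub_cancel] at r1
        have r2 := P.Z.fn_bound hpS (M.omOm - P.Y.S δ (P.Y.ι M.omOm))
        have r3 := P.Y.O2M 0 δ M.omOm h0 k3
        have r4 : FnSys.fn (p.restrict S) E (M.omOm : X → L2) = α - γ := by
          rw [← hsplit]; exact fn_om hpS
        have r5 : 6 * ((p.restrict S) univ).toReal * P.Y.M 0 (M.omOm - P.Y.S δ (P.Y.ι M.omOm)) ≤
          6 * ((p.restrict S) univ).toReal * (P.Y.K 0 * δ * P.Y.M 1 M.omOm) :=
          mul_le_mul_of_nonneg_left r3 (by positivity)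
        have r6 := neg_abs_le (FnSys.fn (p.restrict S) E
          ((M.omOm - P.Y.S δ (P.Y.ι M.omOm) : M.Om) : X → L2))
        have r7 : |FnSys.fn (p.restrict S) E
          ((M.omOm - P.Y.S δ (P.Y.ι M.omOm) : M.Om) : X → L2)| ≤
          6 * ((p.restrict S) univ).toReal * (P.Y.K 0 * δ * P.Y.M 1 M.omOm) := r2.trans r5
        have r8 : FnSys.fn (p.restrict S) E (M.omOm : X → L2) =
          FnSys.fn (p.restrict S) E (P.Y.S δ (P.Y.ι M.omOm) : X → L2) +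
          FnSys.fn (p.restrict S) E ((M.omOm - P.Y.S δ (P.Y.ι M.omOm) : M.Om) : X → L2) := r1
        rw [r4] at r8
        linarith
      have q7 := henN δ h0 k3 k4
      have q8 : C3 * Real.sqrt (P.Z.en (p.restrict S) δ) * Real.sqrt (P.Z.en (p.restrict Sᶜ) δ) ≤
          C3 * Real.sqrt (P.Z.en (p.restrict S) δ) * CB :=
        mul_le_mul_of_nonneg_left q7 (mul_nonneg hC3 (Real.sqrt_nonneg _))
      have q2' : -(C3 * Real.sqrt (P.Z.en (p.restrict S) δ) *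
        Real.sqrt (P.Z.en (p.restrict Sᶜ) δ)) ≤ ⟪wS, P.Y.st wN⟫_ℝ := q2
      rw [hσi] at q1
      rw [q5, q4] at q3
      show γ ≤ ρ * α + g δ + C3 * Real.sqrt (P.Z.en (p.restrict S) δ) * CB +
        6 * ((p.restrict S) univ).toReal * (P.Y.K 0 * δ * P.Y.M 1 M.omOm)
      linarith
    have hle := ge_of_tendsto hlim hev
    linarith
  have hz : p Sᶜ = 0 := by
    have h1 : p.real Sᶜ = 0 := le_antisymm hmass measureReal_nonneg
    rwa [Measure.real, ENNReal.toReal_eq_zero_iff, or_iff_left (measure_ne_top _ _)] at h1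
  have hps : p.restrict S = p := by
    apply Measure.restrict_eq_self_of_ae_mem
    rw [ae_iff]
    exact hz
  rw [hps] at henS
  exact henS

end

end Vale.Agent.P247.SCY
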