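import Vale.Agent.P247.SCY.Base2

/-!
# P247, exact orthogonality, block O1b: the smoothing operators are compact
-/

set_option linter.all false

open MeasureTheory Set Metric Filter Topology
open scoped ContDiff ENNReal NNReal BigOperators InnerProductSpace Topology

namespace Vale.Agent.P247.SCY
open Vale.Agent.P204 Vale.Agent.P204.T4 Vale.Agent.P204.GX _root_.P204.GX

/-- total boundedness from approximate finite dimensional coordinates -/
theorem tb_of_approx {α : Type*} [PseudoMetricSpace α] {s : Set α}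
    (H : ∀ ε : ℝ, 0 < ε → ∃ (β : Type) (_ : PseudoMetricSpace β) (G : α → β) (δ : ℝ), 0 < δ ∧
      TotallyBounded (G '' s) ∧ ∀ x ∈ s, ∀ y ∈ s, dist (G x) (G y) < δ → dist x y < ε) :
    TotallyBounded s := by
  rcases s.eq_empty_or_nonempty with rfl | hs
  · exact totallyBounded_empty
  rw [Metric.totallyBounded_iff]
  intro ε hε
  obtain ⟨β, _, G, δ, hδ, htb, hG⟩ := H ε hε
  obtain ⟨t, hts, htf, hcov⟩ := totallyBounded_iff_subset.1 htb _ (Metric.dist_mem_uniformity hδ)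
  have hch : ∀ z : β, ∃ x : α, z ∈ t → x ∈ s ∧ G x = z := by
    intro z
    by_cases hz : z ∈ t
    · obtain ⟨x, hx, rfl⟩ := hts hz
      exact ⟨x, fun _ => ⟨hx, rfl⟩⟩
    · exact ⟨hs.some, fun h => absurd h hz⟩
  choose g hg using hch
  refine ⟨g '' t, htf.image g, fun x hx => ?_⟩
  obtain ⟨z, hz, hxz⟩ := mem_iUnion₂.1 (hcov (mem_image_of_mem G hx))
  refine mem_iUnion₂.2 ⟨g z, mem_image_of_mem g hz, ?_⟩
  obtain ⟨h1, h2⟩ := hg z hz
  exact hG x hx _ h1 (by rw [h2]; exact hxz)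

section
variable {X : Type} [MetricSpace X] [CompactSpace X] [MeasurableSpace X] [BorelSpace X]

theorem ι_eq_io {M : CM X} (P : MSys M) (b : M.Om) : P.Y.ι b = Hil.io M b := by
  apply Lp.ext
  filter_upwards [P.ι_eq b, Hil.io_ae M b] with x h1 h2
  rw [h1, h2]

/-- a ball of the `C¹` norm is totally bounded in `L²` -/
theorem tb_C1 (M : CM X) (R : ℝ) :
    TotallyBounded {w : Lp E6 2 M.mu | ∃ c : M.Om, M.MM 1 (c : X → L2) ≤ R ∧ w = Hil.io M c} := by
  obtain ⟨C1, hC1, h1⟩ := M.exists_norm_io_le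
  obtain ⟨C2, hC2, h2⟩ := M.exists_NN_le_MM 0
  have hio : ∀ c : M.Om, ‖Hil.io M c‖ ≤ C1 * C2 * M.MM 0 (c : X → L2) := fun c =>
    (h1 1 c).trans (by
      rw [mul_assoc]
      exact mul_le_mul_of_nonneg_left (h2 1 zero_le_one le_rfl _ c.2) hC1)
  apply tb_of_approx
  intro ε hε
  set S : Set (Lp E6 2 M.mu) := {w | ∃ c : M.Om, M.MM 1 (c : X → L2) ≤ R ∧ w = Hil.io M c} with hS
  -- the net
  set A : ℝ := (Fintype.card M.A : ℝ) with hA
  have hA0 : 0 ≤ A := Nat.cast_nonneg _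
  obtain ⟨κ, hκ, hκε⟩ : ∃ κ : ℝ, 0 < κ ∧ C1 * C2 * (A * κ) < ε := by
    refine ⟨ε / (2 * (C1 * C2 * A + 1)), by positivity, ?_⟩
    have h3 : 0 < 2 * (C1 * C2 * A + 1) := by positivity
    have h4 : C1 * C2 * (A * (ε / (2 * (C1 * C2 * A + 1)))) =
        (C1 * C2 * A) * ε / (2 * (C1 * C2 * A + 1)) := by ring
    rw [h4, div_lt_iff₀ h3]
    nlinarith [mul_nonneg (mul_nonneg hC1 hC2) hA0]
  obtain ⟨ρ, hρ, hρκ⟩ : ∃ ρ : ℝ, 0 < ρ ∧ 2 * |R| * ρ ≤ κ / 2 := by
    refine ⟨κ / (4 * (|R| + 1)), by positivity, ?_⟩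
    have h3 : 0 < 4 * (|R| + 1) := by positivity
    have h4 : 2 * |R| * (κ / (4 * (|R| + 1))) = 2 * |R| * κ / (4 * (|R| + 1)) := by ring
    rw [h4, div_le_iff₀ h3]
    nlinarith [abs_nonneg R]
  have htb : TotallyBounded (ball (0 : V4) 1) :=
    (isCompact_closedBall (0 : V4) 1).totallyBounded.subset ball_subset_closedBall
  obtain ⟨t, hts, htf, hcov⟩ := totallyBounded_iff_subset.1 htb _ (Metric.dist_mem_uniformity hρ)
  -- choice of the form
  have hch : ∀ w : Lp E6 2 M.mu, ∃ c : M.Om, w ∈ S → M.MM 1 (c : X → L2) ≤ R ∧ w = Hil.io M c := by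
    intro w
    by_cases hw : w ∈ S
    · obtain ⟨c, hc⟩ := hw
      exact ⟨c, fun _ => hc⟩
    · exact ⟨0, fun h => absurd h hw⟩
  choose g hg using hch
  haveI : Fintype t := htf.fintype
  refine ⟨M.A → t → L2, inferInstance, fun w a y => M.cf a (g w : X → L2) y, κ / 2, by positivity,
    ?_, ?_⟩
  · refine (isCompact_closedBall (0 : M.A → t → L2) |R|).totallyBounded.subset ?_
    rintro _ ⟨w, hw, rfl⟩
    rw [mem_closedBall, dist_zero_right, pi_norm_le_iff_of_nonneg (abs_nonneg R)]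
    intro a
    rw [pi_norm_le_iff_of_nonneg (abs_nonneg R)]
    intro y
    have h3 := norm_le_rsupn zero_le_one 1 isBounded_ball ((g w).2 a).continuous (hts y.2)
    exact h3.trans ((M.rsupn_le_MM 1 _ a).trans ((hg w hw).1.trans (le_abs_self R)))
  · intro w hw w' hw' hd
    obtain ⟨hc, ec⟩ := hg w hw
    obtain ⟨hc', ec'⟩ := hg w' hw'
    have hlip : ∀ (c : M.Om), M.MM 1 (c : X → L2) ≤ R → ∀ (a : M.A) (y z : V4), y ∈ ball (0 : V4) 1 →
        z ∈ ball (0 : V4) 1 → ‖M.cf a (c : X → L2) y - M.cf a (c : X → L2) z‖ ≤ |R| * ‖y - z‖ := by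
      intro c hc a y z hy hz
      refine (convex_ball (0 : V4) 1).norm_image_sub_le_of_norm_fderiv_le (𝕜 := ℝ)
        (fun x hx => ((c.2 a).differentiable (by simp) x)) (fun x hx => ?_) hz hy
      exact (norm_fderiv_le_rsupn (m := 1) isBounded_ball (c.2 a) hx).trans
        ((M.rsupn_le_MM 1 _ a).trans (hc.trans (le_abs_self R)))
    have hpt : ∀ (a : M.A) (y : V4), y ∈ ball (0 : V4) 1 →
        ‖M.cf a ((g w - g w' : M.Om) : X → L2) y‖ ≤ κ := by
      intro a y hy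
      obtain ⟨z, hz, hyz⟩ := mem_iUnion₂.1 (hcov hy)
      have hyz' : ‖y - z‖ ≤ ρ := by rw [← dist_eq_norm]; exact le_of_lt hyz
      have d1 : ‖M.cf a (g w : X → L2) z - M.cf a (g w' : X → L2) z‖ ≤ κ / 2 := by
        have e1 := dist_le_pi_dist (fun (a : M.A) (y : t) => M.cf a (g w : X → L2) y)
          (fun a y => M.cf a (g w' : X → L2) y) a
        have e2 := dist_le_pi_dist (fun (y : t) => M.cf a (g w : X → L2) y)
          (fun y => M.cf a (g w' : X → L2) y) ⟨z, hz⟩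
        rw [← dist_eq_norm]
        exact e2.trans (e1.trans hd.le)
      have d2 := hlip _ hc a y z hy (hts hz)
      have d3 := hlip _ hc' a y z hy (hts hz)
      have d4 : |R| * ‖y - z‖ ≤ |R| * ρ := mul_le_mul_of_nonneg_left hyz' (abs_nonneg R)
      have e1 : M.cf a ((g w - g w' : M.Om) : X → L2) y =
          (M.cf a (g w : X → L2) y - M.cf a (g w : X → L2) z) -
          (M.cf a (g w' : X → L2) y - M.cf a (g w' : X → L2) z) +
          (M.cf a (g w : X → L2) z - M.cf a (g w' : X → L2) z) := by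
        have e2 : M.cf a ((g w - g w' : M.Om) : X → L2) = M.cf a (g w : X → L2) -
          M.cf a (g w' : X → L2) := M.cf_sub a _ _
        rw [e2]
        show M.cf a (g w : X → L2) y - M.cf a (g w' : X → L2) y = _
        abel
      rw [e1]
      refine (norm_add_le _ _).trans ?_
      have d5 := norm_sub_le (M.cf a (g w : X → L2) y - M.cf a (g w : X → L2) z)
        (M.cf a (g w' : X → L2) y - M.cf a (g w' : X → L2) z)
      linarith
    have hMM : M.MM 0 ((g w - g w' : M.Om) : X → L2) ≤ A * κ := by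
      unfold CM.MM
      calc ∑ a, rsupn 0 1 (ball 0 1) (M.cf a ((g w - g w' : M.Om) : X → L2)) ≤ ∑ a : M.A, κ := by
            refine Finset.sum_le_sum fun a _ => ?_
            show sSup ((fun y => ‖M.cf a ((g w - g w' : M.Om) : X → L2) y‖) '' ball 0 1) ≤ κ
            refine csSup_le ((nonempty_ball.2 one_pos).image _) ?_
            rintro _ ⟨y, hy, rfl⟩
            exact hpt a y hy
        _ = A * κ := by rw [Finset.sum_const, nsmul_eq_mul, Finset.card_univ]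
    have h5 : w - w' = Hil.io M (g w - g w') := by
      rw [map_sub]; rw [← ec, ← ec']
    rw [dist_eq_norm, h5]
    exact ((hio _).trans (mul_le_mul_of_nonneg_left hMM (mul_nonneg hC1 hC2))).trans_lt hκε

/-- Block O1b: the smoothing operators are compact, for small `δ`. -/
theorem compact2 [Nonempty X] (M : CM X) (P : MSys M) : ∃ δ1 : ℝ, 0 < δ1 ∧ δ1 ≤ P.Y.δ0 ∧
    ∀ δ : ℝ, 0 < δ → δ ≤ δ1 →
      TotallyBounded {w : Lp E6 2 M.mu | ∃ u : Lp E6 2 M.mu, ‖u‖ ≤ 1 ∧ w = P.Y.ι (P.Y.S δ u)} := by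
  obtain ⟨d0, hd0, hsc⟩ := M.exists_scale
  obtain ⟨C, hC, h1⟩ := (hsc d0 hd0 le_rfl).ssm 1
  refine ⟨min d0 P.Y.δ0, lt_min hd0 P.Y.δ0_pos, min_le_right _ _, fun δ h0 hδ => ?_⟩
  have hδ1 : δ ≤ d0 := hδ.trans (min_le_left _ _)
  have hδ2 : δ ≤ P.Y.δ0 := hδ.trans (min_le_right _ _)
  set R : ℝ := C * (δ ^ (2 + 1))⁻¹ * 2 with hR
  refine (tb_C1 M R).closure.subset ?_
  rintro _ ⟨u, hu, rfl⟩
  rw [Metric.mem_closure_iff]
  intro ε hε
  have hK : 1 ≤ P.Y.K 0 := P.Y.one_le_K 0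
  have hK0 : 0 < P.Y.K 0 := by linarith
  have hρ : 0 < min 1 (ε / (2 * P.Y.K 0)) := lt_min one_pos (by positivity)
  obtain ⟨b, hb⟩ := P.Y.ι_dense.exists_dist_lt u hρ
  refine ⟨P.Y.ι (P.Y.S δ (P.Y.ι b)), ⟨P.Y.S δ (P.Y.ι b), ?_, ι_eq_io P _⟩, ?_⟩
  · have e1 : ((P.Y.S δ (P.Y.ι b) : M.Om) : X → L2) = (M.S0L δ b : X → L2) := by
      rw [P.S_eq δ b h0 hδ2, M.S0L_coe h0.le (hδ2.trans P.δ0_le_z1)]
    rw [e1]
    refine (h1 δ h0 hδ1 b).trans ?_
    have e2 : ‖Hil.io M b‖ ≤ 2 := by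
      rw [← ι_eq_io P b]
      have e3 : ‖P.Y.ι b‖ ≤ ‖u‖ + dist u (P.Y.ι b) := by
        rw [dist_eq_norm]
        have := norm_sub_norm_le (P.Y.ι b) u
        rw [norm_sub_rev] at this
        linarith
      have e4 := hb.le.trans (min_le_left _ _)
      linarith
    rw [hR]
    gcongr
  · rw [dist_eq_norm]
    have e1 : P.Y.ι (P.Y.S δ u) - P.Y.ι (P.Y.S δ (P.Y.ι b)) = P.Y.ι (P.Y.S δ (u - P.Y.ι b)) := by
      rw [map_sub, map_sub]
    rw [e1]
    have e2 := P.Y.S_norm δ (u - P.Y.ι b) h0 hδ2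
    have e3 : ‖u - P.Y.ι b‖ < ε / (2 * P.Y.K 0) := by
      rw [← dist_eq_norm]; exact hb.trans_le (min_le_right _ _)
    calc ‖P.Y.ι (P.Y.S δ (u - P.Y.ι b))‖ ≤ P.Y.K 0 * ‖u - P.Y.ι b‖ := e2
      _ ≤ P.Y.K 0 * (ε / (2 * P.Y.K 0)) := by gcongr
      _ = ε / 2 := by field_simp
      _ < ε := by linarith

end

end Vale.Agent.P247.SCY
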