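import Vale.Agent.P247.SCY.CE1
import Vale.Agent.P247.SCY.EM
import Vale.Agent.P247.SCY.BaseO
import Vale.Agent.P247.SCY.OCpt

/-!
# P247, exact orthogonality: closedness of the exact forms on a concrete manifold
-/

set_option linter.all false

open MeasureTheory Set Metric Filter Topology
open scoped ContDiff ENNReal NNReal BigOperators InnerProductSpace Topology

namespace Vale.Agent.P247.SCY
open Vale.Agent.P204 Vale.Agent.P204.T4 Vale.Agent.P204.GX _root_.P204.GX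

/-- Block O1a, uniform form: the smoothing operators change a smooth closed form by an exact
form. -/
def HomForm2 : Prop :=
  ∀ (X : Type) [MetricSpace X] [CompactSpace X] [MeasurableSpace X] [BorelSpace X] [Nonempty X]
    (M : CM X) (P : MSys M), ∃ δ1 : ℝ, 0 < δ1 ∧ δ1 ≤ P.Y.δ0 ∧ ∀ δ : ℝ, 0 < δ → δ ≤ δ1 →
      ∀ c ∈ M.Cl, P.Y.S δ (P.Y.ι c) - c ∈ M.Ex

/-- **Block O1c.** -/
theorem closedEx_of (hf : HomForm2) : ClosedExStatement := by
  intro X _ _ _ _ _ M P c hc hcE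
  obtain ⟨d1, hd1, hd10, h1⟩ := hf X M P
  obtain ⟨d2, hd2, hd20, h2⟩ := compact2 M P
  set δ := min d1 d2 with hδ
  have h0 : 0 < δ := lt_min hd1 hd2
  have hδ0 : δ ≤ P.Y.δ0 := (min_le_left _ _).trans hd10
  have h3 := P.Y.closedEx h0 hδ0 (fun c hc => by
    rw [mem_Ex_iff]
    exact h1 δ h0 (min_le_left _ _) c ((mem_Cl_iff P c).1 hc)) (h2 δ h0 (min_le_right _ _))
  rw [← mem_Ex_iff P]
  refine h3 c ((mem_Cl_iff P c).2 hc) ?_
  have h4 : P.Y.ι c ∈ (P.Y.EE : Set (Lp E6 2 M.mu)) := by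
    rw [P.Y.coe_EE, P.Ex_eq]; exact hcE
  exact h4

end Vale.Agent.P247.SCY
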