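import Vale.Agent.P204.Bdl.B8

/-!
# P247, exact orthogonality: the closure of the exact forms and the `L²` right inverse
-/

set_option linter.all false

open scoped InnerProductSpace BigOperators Topology
open Filter Finset

namespace P204.GX
namespace SmSys

variable {H Om : Type} [NormedAddCommGroup H] [InnerProductSpace ℝ H] [CompleteSpace H]
  [AddCommGroup Om] [Module ℝ Om]
variable (Y : SmSys H Om)

/-- the closure of the exact forms in the energy space -/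
noncomputable def EE : Submodule ℝ H := (Y.Ex.map Y.ι).topologicalClosure

theorem isClosed_EE : IsClosed (Y.EE : Set H) := Submodule.isClosed_topologicalClosure _

theorem coe_EE : (Y.EE : Set H) = closure (Y.ι '' (Y.Ex : Set Om)) := by
  unfold EE
  rw [Submodule.topologicalClosure_coe, Submodule.map_coe]

theorem ι_mem_EE {e : Om} (he : e ∈ Y.Ex) : Y.ι e ∈ Y.EE :=
  Submodule.le_topologicalClosure _ (Submodule.mem_map_of_mem he)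

theorem EE_le_Zw : Y.EE ≤ Y.Zw := by
  apply Submodule.topologicalClosure_minimal _ _ Y.isClosed_Zw
  rintro _ ⟨e, he, rfl⟩
  exact Y.ι_mem_Zw (Y.Ex_le he)

theorem EE_pair {e z : H} (he : e ∈ Y.EE) (hz : z ∈ Y.Zw) : ⟪e, Y.st z⟫_ℝ = 0 := by
  have hc : IsClosed {x : H | ⟪x, Y.st z⟫_ℝ = 0} :=
    isClosed_eq (continuous_id.inner continuous_const) continuous_const
  have hsub : Y.ι '' (Y.Ex : Set Om) ⊆ {x : H | ⟪x, Y.st z⟫_ℝ = 0} := by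
    rintro _ ⟨e, he, rfl⟩
    exact hz e he
  have he' : e ∈ closure (Y.ι '' (Y.Ex : Set Om)) := by rw [← Y.coe_EE]; exact he
  exact closure_minimal hsub hc he'

theorem continuous_ιS {δ : ℝ} (h0 : 0 < δ) (h1 : δ ≤ Y.δ0) : Continuous fun u => Y.ι (Y.S δ u) := by
  have h : ∀ u, ‖(Y.ι ∘ₗ Y.S δ) u‖ ≤ Y.K 0 * ‖u‖ := fun u => Y.S_norm δ u h0 h1
  exact ((Y.ι ∘ₗ Y.S δ).mkContinuous _ h).continuous

theorem S_mem_EE {δ : ℝ} (h0 : 0 < δ) (h1 : δ ≤ Y.δ0) {u : H} (hu : u ∈ Y.EE) :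
    Y.ι (Y.S δ u) ∈ Y.EE := by
  have hc : IsClosed {u : H | Y.ι (Y.S δ u) ∈ Y.EE} :=
    Y.isClosed_EE.preimage (Y.continuous_ιS h0 h1)
  have hsub : Y.ι '' (Y.Ex : Set Om) ⊆ {u : H | Y.ι (Y.S δ u) ∈ Y.EE} := by
    rintro _ ⟨e, he, rfl⟩
    exact Y.ι_mem_EE (Y.S_Ex δ e h0 h1 he)
  have he' : u ∈ closure (Y.ι '' (Y.Ex : Set Om)) := by rw [← Y.coe_EE]; exact hu
  exact closure_minimal hsub hc he'

theorem st_mem_Zw_of_perp {n : H} (hn : n ∈ Y.EEᗮ) : Y.st n ∈ Y.Zw := by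
  intro e he
  rw [Y.st_st]
  exact (Submodule.mem_orthogonal _ _).1 hn _ (Y.ι_mem_EE he)

/-- the data of the signature argument -/
structure Sig (om wb wc : Om) (α β γ : ℝ) : Prop where
  omCl : om ∈ Y.Cl
  bCl : wb ∈ Y.Cl
  cCl : wc ∈ Y.Cl
  bpm : Y.pm wb = wb
  cpm : Y.pm wc = wc
  αp : 0 < α
  θα : ‖Y.pmH (Y.ι om)‖ ^ 2 < α
  bc : ⟪Y.ι wb, Y.ι wc⟫_ℝ = 0
  bb : Y.ι wb ≠ 0
  cc : Y.ι wc ≠ 0
  self : ∀ m ∈ Y.Zw, ⟪m, Y.st m⟫_ℝ ≤ ⟪Y.ι om, Y.st m⟫_ℝ ^ 2 / α + ⟪Y.ι wb, Y.st m⟫_ℝ ^ 2 / β +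
    ⟪Y.ι wc, Y.st m⟫_ℝ ^ 2 / γ

variable {Y} {om wb wc : Om} {α β γ : ℝ}

theorem Sig.pmHb (h : Y.Sig om wb wc α β γ) : Y.pmH (Y.ι wb) = Y.ι wb := by
  rw [Y.pmH_ι, h.bpm]
theorem Sig.pmHc (h : Y.Sig om wb wc α β γ) : Y.pmH (Y.ι wc) = Y.ι wc := by
  rw [Y.pmH_ι, h.cpm]
theorem Sig.stb (h : Y.Sig om wb wc α β γ) : Y.st (Y.ι wb) = Y.ι wb := by
  rw [← h.pmHb, Y.st_pmH]
theorem Sig.stc (h : Y.Sig om wb wc α β γ) : Y.st (Y.ι wc) = Y.ι wc := by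
  rw [← h.pmHc, Y.st_pmH]

theorem Sig.EE_b (h : Y.Sig om wb wc α β γ) {e : H} (he : e ∈ Y.EE) : ⟪e, Y.ι wb⟫_ℝ = 0 := by
  rw [← h.stb]; exact Y.EE_pair he (Y.ι_mem_Zw h.bCl)
theorem Sig.EE_c (h : Y.Sig om wb wc α β γ) {e : H} (he : e ∈ Y.EE) : ⟪e, Y.ι wc⟫_ℝ = 0 := by
  rw [← h.stc]; exact Y.EE_pair he (Y.ι_mem_Zw h.cCl)

/-- coercivity of the projection to the exact forms -/
theorem Sig.coercive (h : Y.Sig om wb wc α β γ) : ∃ c : ℝ, 0 < c ∧ ∀ φ : H, Y.pmH φ = φ →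
    ⟪φ, Y.ι wb⟫_ℝ = 0 → ⟪φ, Y.ι wc⟫_ℝ = 0 → ∀ p ∈ Y.EE, φ - p ∈ Y.EEᗮ → c * ‖φ‖ ^ 2 ≤ ‖p‖ ^ 2 := by
  set θ := ‖Y.pmH (Y.ι om)‖ with hθ
  set K := ‖Y.ι om‖ with hK
  have hα := h.αp
  have hθα := h.θα
  have hθ0 : 0 ≤ θ := norm_nonneg _
  have hK0 : 0 ≤ K := norm_nonneg _
  -- `(θ a + K b)² ≤ (α+θ²)/2 a² + C b²`
  obtain ⟨C, hC0, hC⟩ : ∃ C : ℝ, 0 ≤ C ∧ ∀ a b : ℝ, 0 ≤ a → 0 ≤ b →
      (θ * a + K * b) ^ 2 ≤ (α + θ ^ 2) / 2 * a ^ 2 + C * b ^ 2 := by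
    set s := (α - θ ^ 2) / 2 with hs
    have hs0 : 0 < s := by rw [hs]; linarith
    refine ⟨K ^ 2 + θ ^ 2 * K ^ 2 / s, by positivity, fun a b ha hb => ?_⟩
    have e : (α + θ ^ 2) / 2 = θ ^ 2 + s := by rw [hs]; ring
    rw [e]
    have h1 : 2 * (θ * a) * (K * b) ≤ s * a ^ 2 + θ ^ 2 * K ^ 2 / s * b ^ 2 := by
      have h2 : 0 ≤ (s * a - θ * K * b) ^ 2 / s := by positivity
      have h3 : (s * a - θ * K * b) ^ 2 / s = s * a ^ 2 - 2 * (θ * a) * (K * b) +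
          θ ^ 2 * K ^ 2 / s * b ^ 2 := by field_simp; ring
      linarith
    nlinarith
  refine ⟨(α - θ ^ 2) / (2 * α) / (2 + C / α), by
    have : 0 < α - θ ^ 2 := by linarith
    positivity, fun φ hφ hφb hφc p hp hperp => ?_⟩
  set n := φ - p with hn
  have hstφ : Y.st φ = φ := by rw [← hφ, Y.st_pmH]
  have hm : Y.st n ∈ Y.Zw := Y.st_mem_Zw_of_perp hperp
  have hpZ : p ∈ Y.Zw := Y.EE_le_Zw hp
  have hpn : ⟪p, n⟫_ℝ = 0 := (Submodule.mem_orthogonal _ _).1 hperp _ hp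
  have hpφ : ⟪p, φ⟫_ℝ = ‖p‖ ^ 2 := by
    have : φ = p + n := by rw [hn]; abel
    rw [this, inner_add_right, hpn, add_zero, real_inner_self_eq_norm_sq]
  -- the self pairing
  have h1 : ⟪Y.st n, Y.st (Y.st n)⟫_ℝ = ‖φ‖ ^ 2 - 2 * ‖p‖ ^ 2 := by
    rw [Y.st_st]
    have e1 : Y.st n = φ - Y.st p := by rw [hn, map_sub, hstφ]
    rw [e1]
    have e2 : ⟪φ - Y.st p, n⟫_ℝ = ⟪φ, φ⟫_ℝ - ⟪φ, p⟫_ℝ - ⟪Y.st p, φ⟫_ℝ + ⟪Y.st p, p⟫_ℝ := by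
      rw [hn]; simp only [inner_sub_left, inner_sub_right]; ring
    have e3 : ⟪Y.st p, φ⟫_ℝ = ‖p‖ ^ 2 := by rw [Y.st_symm, hstφ, hpφ]
    have e4 : ⟪Y.st p, p⟫_ℝ = 0 := by rw [real_inner_comm]; exact Y.EE_pair hp hpZ
    have e5 : ⟪φ, p⟫_ℝ = ‖p‖ ^ 2 := by rw [real_inner_comm, hpφ]
    rw [e2, e3, e4, e5, real_inner_self_eq_norm_sq]; ring
  have h2 := h.self _ hm
  rw [h1, Y.st_st] at h2
  have hb : ⟪Y.ι wb, n⟫_ℝ = 0 := by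
    rw [hn, inner_sub_right, real_inner_comm, hφb, real_inner_comm, h.EE_b hp, sub_zero]
  have hc : ⟪Y.ι wc, n⟫_ℝ = 0 := by
    rw [hn, inner_sub_right, real_inner_comm, hφc, real_inner_comm, h.EE_c hp, sub_zero]
  rw [hb, hc] at h2
  have ho : |⟪Y.ι om, n⟫_ℝ| ≤ θ * ‖φ‖ + K * ‖p‖ := by
    have e1 : ⟪Y.ι om, n⟫_ℝ = ⟪Y.pmH (Y.ι om), φ⟫_ℝ - ⟪Y.ι om, p⟫_ℝ := by
      rw [hn, inner_sub_right]
      congr 1
      rw [Y.pmH_symm, hφ]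
    rw [e1]
    exact (abs_sub _ _).trans (add_le_add (abs_real_inner_le_norm _ _) (abs_real_inner_le_norm _ _))
  have ho2 : ⟪Y.ι om, n⟫_ℝ ^ 2 ≤ (α + θ ^ 2) / 2 * ‖φ‖ ^ 2 + C * ‖p‖ ^ 2 := by
    refine le_trans ?_ (hC _ _ (norm_nonneg φ) (norm_nonneg p))
    rw [← sq_abs]
    exact pow_le_pow_left₀ (abs_nonneg _) ho 2
  have h3 : ‖φ‖ ^ 2 - 2 * ‖p‖ ^ 2 ≤ ((α + θ ^ 2) / 2 * ‖φ‖ ^ 2 + C * ‖p‖ ^ 2) / α := by
    have : ⟪Y.ι om, n⟫_ℝ ^ 2 / α ≤ ((α + θ ^ 2) / 2 * ‖φ‖ ^ 2 + C * ‖p‖ ^ 2) / α := by gcongr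
    have e : (0 : ℝ) ^ 2 / β = 0 := by simp
    have e' : (0 : ℝ) ^ 2 / γ = 0 := by simp
    rw [e, e'] at h2
    linarith
  have h4 : (α - θ ^ 2) / (2 * α) * ‖φ‖ ^ 2 ≤ (2 + C / α) * ‖p‖ ^ 2 := by
    have e : ((α + θ ^ 2) / 2 * ‖φ‖ ^ 2 + C * ‖p‖ ^ 2) / α =
        ‖φ‖ ^ 2 - (α - θ ^ 2) / (2 * α) * ‖φ‖ ^ 2 + C / α * ‖p‖ ^ 2 := by field_simp; ring
    rw [e] at h3
    linarith
  have h5 : 0 < 2 + C / α := by positivity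
  rw [div_mul_eq_mul_div, div_le_iff₀ h5]
  linarith

/-- every anti-invariant `L²` form orthogonal to `wb, wc` is the anti-invariant part of a limit of
exact forms -/
theorem Sig.exists_L2 (h : Y.Sig om wb wc α β γ) : ∃ C : ℝ, 0 ≤ C ∧ ∀ v : H, Y.pmH v = v →
    ⟪v, Y.ι wb⟫_ℝ = 0 → ⟪v, Y.ι wc⟫_ℝ = 0 → ∃ z ∈ Y.EE, Y.pmH z = v ∧ ‖z‖ ≤ C * ‖v‖ := by
  obtain ⟨c, hc0, hco⟩ := h.coercive
  have : CompleteSpace Y.EE := Y.isClosed_EE.completeSpace_coe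
  set P : H →L[ℝ] H := Y.EE.starProjection with hP
  have hPmem : ∀ u, P u ∈ Y.EE := fun u => Submodule.starProjection_apply_mem _ _
  have hPsub : ∀ u, u - P u ∈ Y.EEᗮ := fun u => Submodule.sub_starProjection_mem_orthogonal _
  have hPP : ∀ u, ⟪P u, u⟫_ℝ = ‖P u‖ ^ 2 := by
    intro u
    have h : ⟪P u, u - P u⟫_ℝ = 0 := (Submodule.mem_orthogonal _ _).1 (hPsub u) _ (hPmem u)
    rw [inner_sub_right, real_inner_self_eq_norm_sq] at h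
    linarith only [h]
  -- the space `V`
  let V : Submodule ℝ H :=
    { carrier := {v | Y.pmH v = v ∧ ⟪v, Y.ι wb⟫_ℝ = 0 ∧ ⟪v, Y.ι wc⟫_ℝ = 0}
      add_mem' := by
        rintro a b ⟨h1, h2, h3⟩ ⟨h4, h5, h6⟩
        exact ⟨by rw [map_add, h1, h4], by rw [inner_add_left, h2, h5, add_zero],
          by rw [inner_add_left, h3, h6, add_zero]⟩
      zero_mem' := ⟨map_zero _, inner_zero_left _, inner_zero_left _⟩
      smul_mem' := by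
        rintro r a ⟨h1, h2, h3⟩
        exact ⟨by rw [map_smul, h1], by rw [real_inner_smul_left, h2, mul_zero],
          by rw [real_inner_smul_left, h3, mul_zero]⟩ }
  have hVcl : IsClosed (V : Set H) := by
    have h1 : IsClosed {v : H | Y.pmH v = v} := isClosed_eq Y.pmH.continuous continuous_id
    have h2 : IsClosed {v : H | ⟪v, Y.ι wb⟫_ℝ = 0} :=
      isClosed_eq (continuous_id.inner continuous_const) continuous_const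
    have h3 : IsClosed {v : H | ⟪v, Y.ι wc⟫_ℝ = 0} :=
      isClosed_eq (continuous_id.inner continuous_const) continuous_const
    exact h1.inter (h2.inter h3)
  have hVc : CompleteSpace V := hVcl.completeSpace_coe
  set B : V →L[ℝ] V →L[ℝ] ℝ :=
    (innerSL ℝ).bilinearComp (P ∘L V.subtypeL) V.subtypeL with hB
  have hBa : ∀ u w : V, B u w = ⟪P u, (w : H)⟫_ℝ := fun u w => by
    rw [hB]; rfl
  have hBc : IsCoercive B := by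
    refine ⟨c, hc0, fun u => ?_⟩
    rw [hBa, hPP]
    have h1 := hco (u : H) u.2.1 u.2.2.1 u.2.2.2 _ (hPmem u) (hPsub u)
    have e : ‖u‖ = ‖(u : H)‖ := rfl
    rw [e]
    calc c * ‖(u : H)‖ * ‖(u : H)‖ = c * ‖(u : H)‖ ^ 2 := by ring
      _ ≤ _ := h1
  refine ⟨1 / c, by positivity, fun v hv hvb hvc => ?_⟩
  set v' : V := ⟨v, hv, hvb, hvc⟩ with hv'
  obtain ⟨u, hu⟩ := hBc.continuousLinearEquivOfBilin.surjective v'
  have hu' : ∀ w : V, ⟪v, (w : H)⟫_ℝ = ⟪P u, (w : H)⟫_ℝ := by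
    intro w
    have h1 := hBc.continuousLinearEquivOfBilin_apply u w
    rw [hu, hBa] at h1
    exact h1
  have hz : P u ∈ Y.EE := hPmem u
  have hzV : Y.pmH (P u) ∈ V := by
    refine ⟨Y.pmH_pmH _, ?_, ?_⟩
    · rw [Y.pmH_symm, h.pmHb]; exact h.EE_b hz
    · rw [Y.pmH_symm, h.pmHc]; exact h.EE_c hz
  have hdiff : Y.pmH (P u) - v ∈ V := V.sub_mem hzV ⟨hv, hvb, hvc⟩
  have hzero : ⟪Y.pmH (P u) - v, Y.pmH (P u) - v⟫_ℝ = 0 := by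
    have h1 := hu' ⟨_, hdiff⟩
    have h2 : ⟪Y.pmH (P u), Y.pmH (P u) - v⟫_ℝ = ⟪P u, Y.pmH (P u) - v⟫_ℝ := by
      rw [Y.pmH_symm, hdiff.1]
    rw [inner_sub_left, h2]
    have h1' : ⟪v, Y.pmH (P u) - v⟫_ℝ = ⟪P u, Y.pmH (P u) - v⟫_ℝ := h1
    rw [h1', sub_self]
  have heq : Y.pmH (P u) = v := sub_eq_zero.1 (inner_self_eq_zero.1 hzero)
  refine ⟨P u, hz, heq, ?_⟩
  have h1 := hco (u : H) u.2.1 u.2.2.1 u.2.2.2 _ (hPmem u) (hPsub u)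
  have h2 : ‖P u‖ ^ 2 ≤ ‖v‖ * ‖(u : H)‖ := by
    rw [← hPP, ← hu' u]
    exact real_inner_le_norm _ _
  have hPn : ‖P u‖ ≤ ‖(u : H)‖ := by
    have h6 : ‖P u‖ ^ 2 ≤ ‖P u‖ * ‖(u : H)‖ := by
      rw [← hPP]; exact real_inner_le_norm _ _
    by_contra hlt
    push Not at hlt
    have h0 : 0 < ‖P u‖ := (norm_nonneg _).trans_lt hlt
    nlinarith only [h6, hlt, h0]
  have h4 : c * ‖(u : H)‖ ≤ ‖v‖ := by
    by_contra hlt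
    push Not at hlt
    have hu0 : 0 < ‖(u : H)‖ := by
      by_contra hcon
      have : ‖(u : H)‖ = 0 := le_antisymm (not_lt.1 hcon) (norm_nonneg _)
      rw [this, mul_zero] at hlt
      exact absurd (norm_nonneg v) (not_le.2 hlt)
    have := mul_lt_mul_of_pos_right hlt hu0
    linarith
  calc ‖P u‖ ≤ ‖(u : H)‖ := hPn
    _ ≤ 1 / c * ‖v‖ := by
      rw [one_div, ← div_eq_inv_mul, le_div_iff₀ hc0]
      linarith

end SmSys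
end P204.GX
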