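import Vale.Agent.P247.SCY.ER1

/-!
# P247, exact orthogonality: the smooth right inverse with values in the exact forms
-/

set_option linter.all false

open scoped InnerProductSpace BigOperators Topology
open Filter Finset

namespace P204.GX
namespace SmSys

variable {H Om : Type} [NormedAddCommGroup H] [InnerProductSpace ℝ H] [CompleteSpace H]
  [AddCommGroup Om] [Module ℝ Om]
variable {Y : SmSys H Om} {om wb wc : Om} {α β γ : ℝ}

/-- the `L²` right inverse on all anti-invariant forms, with values in `EE` on the orthogonal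
complement of `wb, wc` -/
theorem Sig.exists_zf (h : Y.Sig om wb wc α β γ) : ∃ (C : ℝ) (zf : Om → H), 0 ≤ C ∧
    (∀ w : Om, Y.pm w = w → zf w ∈ Y.Zw ∧ Y.pmH (zf w) = Y.ι w ∧ ‖zf w‖ ≤ C * ‖Y.ι w‖) ∧
    ∀ w : Om, Y.pm w = w → ⟪Y.ι wb, Y.ι w⟫_ℝ = 0 → ⟪Y.ι wc, Y.ι w⟫_ℝ = 0 → zf w ∈ Y.EE := by
  obtain ⟨C, hC, hL2⟩ := h.exists_L2
  set b := Y.ι wb with hb
  set c := Y.ι wc with hc
  have hb0 : 0 < ‖b‖ := norm_pos_iff.2 h.bb
  have hc0 : 0 < ‖c‖ := norm_pos_iff.2 h.cc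
  have hcb : ⟪c, b⟫_ℝ = 0 := by rw [real_inner_comm]; exact h.bc
  -- coefficients
  set p : Om → ℝ := fun w => ⟪b, Y.ι w⟫_ℝ / ‖b‖ ^ 2 with hp
  set q : Om → ℝ := fun w => ⟪c, Y.ι w⟫_ℝ / ‖c‖ ^ 2 with hq
  have hperp : ∀ w : Om, Y.pm w = w →
      Y.pmH (Y.ι w - p w • b - q w • c) = Y.ι w - p w • b - q w • c ∧
      ⟪Y.ι w - p w • b - q w • c, b⟫_ℝ = 0 ∧ ⟪Y.ι w - p w • b - q w • c, c⟫_ℝ = 0 := by
    intro w hw
    refine ⟨?_, ?_, ?_⟩
    · rw [map_sub, map_sub, map_smul, map_smul, Y.pmH_ι, hw, h.pmHb, h.pmHc]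
    · rw [inner_sub_left, inner_sub_left, real_inner_smul_left, real_inner_smul_left, hcb,
        real_inner_self_eq_norm_sq, mul_zero, sub_zero]
      simp only [hp]
      rw [div_mul_cancel₀ _ (by positivity), real_inner_comm, sub_self]
    · rw [inner_sub_left, inner_sub_left, real_inner_smul_left, real_inner_smul_left, h.bc,
        real_inner_self_eq_norm_sq, mul_zero, sub_zero]
      simp only [hq]
      rw [div_mul_cancel₀ _ (by positivity), real_inner_comm, sub_self]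
  have hex : ∀ w : Om, ∃ z : H, Y.pm w = w →
      z ∈ Y.EE ∧ Y.pmH z = Y.ι w - p w • b - q w • c ∧ ‖z‖ ≤ C * ‖Y.ι w - p w • b - q w • c‖ := by
    intro w
    by_cases hw : Y.pm w = w
    · obtain ⟨h1, h2, h3⟩ := hperp w hw
      obtain ⟨z, z1, z2, z3⟩ := hL2 _ h1 h2 h3
      exact ⟨z, fun _ => ⟨z1, z2, z3⟩⟩
    · exact ⟨0, fun h' => absurd h' hw⟩
  choose z0 hz0 using hex
  have hpb : ∀ w, |p w| * ‖b‖ ≤ ‖Y.ι w‖ := by
    intro w
    simp only [hp]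
    rw [abs_div, abs_of_nonneg (by positivity : (0 : ℝ) ≤ ‖b‖ ^ 2)]
    have h1 := abs_real_inner_le_norm b (Y.ι w)
    rw [div_mul_eq_mul_div, div_le_iff₀ (by positivity)]
    nlinarith
  have hqc : ∀ w, |q w| * ‖c‖ ≤ ‖Y.ι w‖ := by
    intro w
    simp only [hq]
    rw [abs_div, abs_of_nonneg (by positivity : (0 : ℝ) ≤ ‖c‖ ^ 2)]
    have h1 := abs_real_inner_le_norm c (Y.ι w)
    rw [div_mul_eq_mul_div, div_le_iff₀ (by positivity)]
    nlinarith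
  refine ⟨C * 3 + 2, fun w => z0 w + p w • b + q w • c, by positivity, fun w hw => ⟨?_, ?_, ?_⟩,
    fun w hw h1 h2 => ?_⟩
  · exact Y.Zw.add_mem (Y.Zw.add_mem (Y.EE_le_Zw (hz0 w hw).1)
      (Y.Zw.smul_mem _ (Y.ι_mem_Zw h.bCl))) (Y.Zw.smul_mem _ (Y.ι_mem_Zw h.cCl))
  · rw [map_add, map_add, map_smul, map_smul, (hz0 w hw).2.1, h.pmHb, h.pmHc]
    abel
  · have h1 := (hz0 w hw).2.2
    have h2 : ‖Y.ι w - p w • b - q w • c‖ ≤ 3 * ‖Y.ι w‖ := by
      have e1 := norm_sub_le (Y.ι w - p w • b) (q w • c)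
      have e2 := norm_sub_le (Y.ι w) (p w • b)
      rw [norm_smul, Real.norm_eq_abs] at e1 e2
      have := hpb w
      have := hqc w
      linarith
    have e1 := norm_add_le (z0 w + p w • b) (q w • c)
    have e2 := norm_add_le (z0 w) (p w • b)
    rw [norm_smul, Real.norm_eq_abs] at e1 e2
    have e3 := hpb w
    have e4 := hqc w
    have e5 : C * ‖Y.ι w - p w • b - q w • c‖ ≤ C * (3 * ‖Y.ι w‖) := by gcongr
    calc ‖z0 w + p w • b + q w • c‖ ≤ C * (3 * ‖Y.ι w‖) + ‖Y.ι w‖ + ‖Y.ι w‖ := by linarith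
      _ = _ := by ring
  · have hp0 : p w = 0 := by simp only [hp]; rw [h1, zero_div]
    have hq0 : q w = 0 := by simp only [hq]; rw [h2, zero_div]
    show z0 w + p w • b + q w • c ∈ Y.EE
    rw [hp0, hq0, zero_smul, zero_smul, add_zero, add_zero]
    exact (hz0 w hw).1

/-- **Exact smooth solvability.** -/
theorem Sig.exists_ERE (h : Y.Sig om wb wc α β γ)
    (hcl : ∀ c ∈ Y.Cl, Y.ι c ∈ Y.EE → c ∈ Y.Ex) :
    ∃ (k : ℕ) (C : ℝ), 0 ≤ C ∧ ∀ v : Om, Y.pm v = v →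
      ⟪Y.ι wb, Y.ι v⟫_ℝ = 0 → ⟪Y.ι wc, Y.ι v⟫_ℝ = 0 →
      ∃ z ∈ Y.Ex, Y.pm z = v ∧ Y.M 0 z ≤ C * Y.M k v := by
  classical
  obtain ⟨C₂, zf, hC₂, hzf, hzfE⟩ := h.exists_zf
  have hK0 : 0 ≤ Y.K 0 := zero_le_one.trans (Y.one_le_K 0)
  -- the remainders stay orthogonal to `wb, wc`
  have hgood : ∀ v : Om, Y.pm v = v → ⟪Y.ι wb, Y.ι v⟫_ℝ = 0 → ⟪Y.ι wc, Y.ι v⟫_ℝ = 0 →
      ∀ k, ⟪Y.ι wb, Y.ι (vs Y zf v k)⟫_ℝ = 0 ∧ ⟪Y.ι wc, Y.ι (vs Y zf v k)⟫_ℝ = 0 := by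
    intro v hv hvb hvc k
    induction k with
    | zero => exact ⟨hvb, hvc⟩
    | succ k ih =>
      have hE : zf (vs Y zf v k) ∈ Y.EE := hzfE _ (pm_vs (zf := zf) Y hv k) ih.1 ih.2
      have hS := Y.S_mem_EE (dk_pos Y.δ0_pos k) (dk_le Y.δ0_pos k) hE
      simp only [vs]
      constructor
      · rw [map_sub, inner_sub_right, ih.1, ← Y.pmH_ι, ← Y.pmH_symm, h.pmHb, real_inner_comm,
          h.EE_b hS, sub_zero]
      · rw [map_sub, inner_sub_right, ih.2, ← Y.pmH_ι, ← Y.pmH_symm, h.pmHc, real_inner_comm,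
          h.EE_c hS, sub_zero]
  -- bounds for the terms
  have hterm : ∀ m : ℕ, ∃ A : ℝ, 0 ≤ A ∧ ∀ v : Om, Y.pm v = v → ∀ k,
      Y.M m (Y.S (dk Y.δ0 k) (zf (vs Y zf v k))) ≤ A * Y.M (m + 3) v * (1 / 2) ^ k := by
    intro m
    obtain ⟨A, hA0, hA⟩ := exists_decay Y hC₂ hzf (m + 2)
    have hKm : 0 ≤ Y.K m := zero_le_one.trans (Y.one_le_K m)
    have hKm3 : 0 ≤ Y.K (m + 3) := zero_le_one.trans (Y.one_le_K (m + 3))
    refine ⟨Y.K m * (C₂ * (Y.K 0 * (A * Y.K (m + 3)))), by positivity, ?_⟩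
    intro v hv k
    have hd := dk_pos Y.δ0_pos k
    have hd0 := dk_le Y.δ0_pos k
    have h1 := Y.SSM m (dk Y.δ0 k) (zf (vs Y zf v k)) hd hd0
    have h2 := (hzf _ (pm_vs (zf := zf) Y hv k)).2.2
    have h3 := Y.norm_le_N 1 (vs Y zf v k) one_pos
    have h4 := hA v hv k
    have h5 := Y.N_le_M (m + 3) 1 v one_pos le_rfl
    have hp : 0 < dk Y.δ0 k ^ (2 + m) := by positivity
    have hMv := Y.M_nonneg (m + 3) v
    calc Y.M m (Y.S (dk Y.δ0 k) (zf (vs Y zf v k)))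
        ≤ Y.K m * (dk Y.δ0 k ^ (2 + m))⁻¹ * ‖zf (vs Y zf v k)‖ := h1
      _ ≤ Y.K m * (dk Y.δ0 k ^ (2 + m))⁻¹ * (C₂ * ‖Y.ι (vs Y zf v k)‖) := by gcongr
      _ ≤ Y.K m * (dk Y.δ0 k ^ (2 + m))⁻¹ * (C₂ * (Y.K 0 * Y.N 0 1 (vs Y zf v k))) := by gcongr
      _ ≤ Y.K m * (dk Y.δ0 k ^ (2 + m))⁻¹ * (C₂ * (Y.K 0 *
          (A * dk Y.δ0 k ^ (m + 2) * (1 / 2) ^ k * Y.N (m + 2 + 1) 1 v))) := by gcongr
      _ ≤ Y.K m * (dk Y.δ0 k ^ (2 + m))⁻¹ * (C₂ * (Y.K 0 *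
          (A * dk Y.δ0 k ^ (m + 2) * (1 / 2) ^ k * (Y.K (m + 3) * Y.M (m + 3) v)))) := by gcongr
      _ = _ := by
        rw [add_comm m 2]
        field_simp
  obtain ⟨A₀, hA₀, hT₀⟩ := hterm 0
  refine ⟨3, 2 * A₀, by positivity, ?_⟩
  intro v hv hvb hvc
  set b : ℕ → Om := fun k => Y.S (dk Y.δ0 k) (zf (vs Y zf v k)) with hb
  have hsum : ∀ m, Summable fun k => Y.M m (b k) := by
    intro m
    obtain ⟨A, hA0, hA⟩ := hterm m
    refine Summable.of_nonneg_of_le (fun k => Y.M_nonneg _ _) (fun k => hA v hv k) ?_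
    exact (summable_geometric_of_lt_one (by norm_num1) (by norm_num1)).mul_left _
  obtain ⟨s, hs⟩ := Y.complete b hsum
  have hbCl : ∀ k, b k ∈ Y.Cl := fun k =>
    Y.S_mem_Cl _ (dk_pos Y.δ0_pos k) (dk_le Y.δ0_pos k) (hzf _ (pm_vs (zf := zf) Y hv k)).1
  have hbE : ∀ k, Y.ι (b k) ∈ Y.EE := fun k =>
    Y.S_mem_EE (dk_pos Y.δ0_pos k) (dk_le Y.δ0_pos k)
      (hzfE _ (pm_vs (zf := zf) Y hv k) (hgood v hv hvb hvc k).1 (hgood v hv hvb hvc k).2)
  -- convergence in `H`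
  have hH : Tendsto (fun n => Y.ι (s - ∑ k ∈ range n, b k)) atTop (𝓝 0) := by
    rw [tendsto_zero_iff_norm_tendsto_zero]
    refine squeeze_zero (fun n => norm_nonneg _) (fun n => norm_le_M Y _) ?_
    simpa only [mul_zero] using (hs 0).const_mul (Y.K 0 * Y.K 0)
  have hsE : Y.ι s ∈ Y.EE := by
    have h1 : Tendsto (fun n => Y.ι (∑ k ∈ range n, b k)) atTop (𝓝 (Y.ι s)) := by
      have h2 : Tendsto (fun n => Y.ι s - Y.ι (s - ∑ k ∈ range n, b k)) atTop (𝓝 (Y.ι s - 0)) :=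
        tendsto_const_nhds.sub hH
      rw [sub_zero] at h2
      refine h2.congr fun n => ?_
      rw [map_sub]; abel
    refine Y.isClosed_EE.mem_of_tendsto h1 (Eventually.of_forall fun n => ?_)
    rw [map_sum]
    exact Y.EE.sum_mem fun k _ => hbE k
  have hsCl : s ∈ Y.Cl := Y.closed_of_weak s fun e he => Y.EE_le_Zw hsE e he
  refine ⟨s, hcl s hsCl hsE, ?_, ?_⟩
  · apply Y.ι_inj
    have hpsum : ∀ n, Y.pm (∑ k ∈ range n, b k) = v - vs Y zf v n := by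
      intro n
      induction n with
      | zero => simp only [range_zero, sum_empty, map_zero, vs, sub_self]
      | succ n ih =>
        rw [sum_range_succ, map_add, ih]
        simp only [vs, hb]
        abel
    have h1 : Tendsto (fun n => Y.pmH (Y.ι (s - ∑ k ∈ range n, b k))) atTop (𝓝 (Y.pmH 0)) :=
      (Y.pmH.continuous.tendsto 0).comp hH
    have h2 : ∀ n, Y.pmH (Y.ι (s - ∑ k ∈ range n, b k)) =
        Y.ι (Y.pm s) - Y.ι v + Y.ι (vs Y zf v n) := by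
      intro n
      rw [Y.pmH_ι, map_sub, hpsum, map_sub, map_sub]
      abel
    obtain ⟨A, hA0, hA⟩ := exists_decay Y hC₂ hzf 0
    have h3 : Tendsto (fun n => Y.ι (vs Y zf v n)) atTop (𝓝 0) := by
      rw [tendsto_zero_iff_norm_tendsto_zero]
      refine squeeze_zero (fun n => norm_nonneg _)
        (g := fun n => Y.K 0 * (A * Y.N 1 1 v) * (1 / 2) ^ n) (fun n => ?_) ?_
      · have e1 := Y.norm_le_N 1 (vs Y zf v n) one_pos
        have e2 := hA v hv n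
        calc ‖Y.ι (vs Y zf v n)‖ ≤ Y.K 0 * Y.N 0 1 (vs Y zf v n) := e1
          _ ≤ Y.K 0 * (A * dk Y.δ0 n ^ 0 * (1 / 2) ^ n * Y.N (0 + 1) 1 v) := by gcongr
          _ = _ := by simp only [pow_zero, mul_one, one_div, inv_pow, zero_add]; ring
      · have := (tendsto_pow_atTop_nhds_zero_of_lt_one (by norm_num : (0:ℝ) ≤ 1/2)
          (by norm_num)).const_mul (Y.K 0 * (A * Y.N 1 1 v))
        simpa only [one_div, inv_pow, mul_zero] using this
    simp only [h2] at h1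
    rw [map_zero] at h1
    have h4 : Tendsto (fun n => Y.ι (Y.pm s) - Y.ι v + Y.ι (vs Y zf v n)) atTop
        (𝓝 (Y.ι (Y.pm s) - Y.ι v + 0)) := tendsto_const_nhds.add h3
    have h5 := tendsto_nhds_unique h4 h1
    rw [add_zero, sub_eq_zero] at h5
    exact h5
  · have hbound : ∀ n, Y.M 0 s ≤ Y.M 0 (s - ∑ k ∈ range n, b k) + 2 * A₀ * Y.M 3 v := by
      intro n
      have e1 : s = (s - ∑ k ∈ range n, b k) + ∑ k ∈ range n, b k := by abel
      have e2 : Y.M 0 s ≤ Y.M 0 (s - ∑ k ∈ range n, b k) + Y.M 0 (∑ k ∈ range n, b k) := by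
        conv_lhs => rw [e1]
        exact Y.M_add 0 _ _
      have e3 : Y.M 0 (∑ k ∈ range n, b k) ≤ 2 * A₀ * Y.M 3 v := by
        calc Y.M 0 (∑ k ∈ range n, b k) ≤ ∑ k ∈ range n, Y.M 0 (b k) := M_sum Y 0 b n
          _ ≤ ∑ k ∈ range n, A₀ * Y.M (0 + 3) v * (1 / 2) ^ k := by
              apply sum_le_sum
              intro k _
              exact hT₀ v hv k
          _ = A₀ * Y.M 3 v * ∑ k ∈ range n, (1 / 2 : ℝ) ^ k := by
              rw [mul_sum]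
          _ ≤ A₀ * Y.M 3 v * 2 := by
              apply mul_le_mul_of_nonneg_left _ (mul_nonneg hA₀ (Y.M_nonneg _ _))
              have := (summable_geometric_of_lt_one (by norm_num1 : (0:ℝ) ≤ 1/2)
                (by norm_num)).sum_le_tsum (range n) (fun i _ => by positivity)
              refine this.trans ?_
              rw [tsum_geometric_of_lt_one (by norm_num) (by norm_num)]
              norm_num1
          _ = _ := by ring
      linarith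
    have h1 : Tendsto (fun n => Y.M 0 (s - ∑ k ∈ range n, b k) + 2 * A₀ * Y.M 3 v) atTop
        (𝓝 (0 + 2 * A₀ * Y.M 3 v)) := (hs 0).add_const _
    rw [zero_add] at h1
    exact ge_of_tendsto' h1 hbound

end SmSys
end P204.GX
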