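import Vale.Agent.P247.SCY.EM
import Vale.Agent.P247.SCY.Energy

/-!
# P247, soft Calabi-Yau: the energy bounds for the separating functional
-/

set_option linter.all false

open MeasureTheory Set Metric Filter Topology
open scoped ContDiff ENNReal NNReal BigOperators InnerProductSpace Topology

namespace Vale.Agent.P247.SCY
open Vale.Agent.P204 Vale.Agent.P204.T4 Vale.Agent.P204.GX _root_.P204.GX

section
variable {X : Type} [MetricSpace X] [CompactSpace X] [MeasurableSpace X] [BorelSpace X]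
variable {M : CM X} (P : MSys M)

/-- the anti-invariant part of the functional, on smooth forms -/
noncomputable def phiL (T : M.C0 →ₗ[ℝ] ℝ) : M.Om →ₗ[ℝ] ℝ :=
  (T ∘ₗ (LinearMap.id - M.ppC)) ∘ₗ M.toC0

theorem phiL_apply (T : M.C0 →ₗ[ℝ] ℝ) (b : M.Om) :
    phiL T b = T (M.toC0 b - M.ppC (M.toC0 b)) := rfl

/-- bound of the anti-invariant part -/
theorem phi_bd [Nonempty X] {σ : X → ℝ} (σc : Continuous σ) (σp : ∀ x, 0 < σ x) {q η m : ℝ}
    (hq : 0 < q) (hη : 0 < η) {T : M.C0 →ₗ[ℝ] ℝ}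
    (hT : ∀ (u : M.C0) (s : ℝ), (∀ x, PC ((u : X → L2) x)) →
        (∀ x, q * σ x * s ≤ vd (σ x) ((u : X → L2) x)) →
        (∀ x, ‖pM J0 ((u : X → L2) x)‖ ≤ η * s) → m * s ≤ T u) :
    ∃ A : ℝ, 0 ≤ A ∧ ∀ (u : M.C0) (B : ℝ), 0 ≤ B → (∀ x, ‖pM J0 ((u : X → L2) x)‖ ≤ B) →
      |T (u - M.ppC u)| ≤ A * B := by
  have hgc : Continuous fun x => vd (σ x) F0 := by
    have : (fun x => vd (σ x) F0) = fun x => Real.sqrt (σ x * 2) := funext fun x => vd_F0
    rw [this]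
    exact Real.continuous_sqrt.comp (σc.mul continuous_const)
  have hgp : ∀ x, 0 < vd (σ x) F0 := fun x => by
    rw [vd_F0]; exact Real.sqrt_pos.2 (mul_pos (σp x) two_pos)
  obtain ⟨l, hl0, hl⟩ : ∃ l : ℝ, 0 < l ∧ ∀ x, q * σ x ≤ l * vd (σ x) F0 := by
    have hc : Continuous fun x => (q * σ x) / vd (σ x) F0 :=
      (continuous_const.mul σc).div hgc fun x => (hgp x).ne'
    obtain ⟨B, hB⟩ := (isCompact_univ (X := X)).exists_bound_of_continuousOn hc.continuousOn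
    refine ⟨|B| + 1, by positivity, fun x => ?_⟩
    have h1 := hB x (mem_univ x)
    rw [Real.norm_eq_abs] at h1
    have h2 : (q * σ x) / vd (σ x) F0 ≤ |B| + 1 := by
      have := le_abs_self ((q * σ x) / vd (σ x) F0)
      have := le_abs_self B
      linarith
    rwa [div_le_iff₀ (hgp x)] at h2
  set A0 : ℝ := |m| + l * |T (M.toC0 M.FOm)| with hA0
  have hA00 : 0 ≤ A0 := by positivity
  -- the case `B = η`
  have key : ∀ v : M.C0, (∀ x, pP J0 ((v : X → L2) x) = 0) → (∀ x, ‖(v : X → L2) x‖ ≤ η) →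
      -A0 ≤ T v := by
    intro v hv1 hv2
    have hpm : ∀ x, pM J0 ((v : X → L2) x) = (v : X → L2) x := fun x => by
      have := pP_add_pM J0 ((v : X → L2) x)
      rw [hv1 x, zero_add] at this
      exact this
    have hpP : ∀ x, pP J0 (((l • M.toC0 M.FOm + v : M.C0) : X → L2) x) = l • F0 := fun x => by
      show pP J0 (l • F0 + (v : X → L2) x) = _
      rw [FnSys.pP_add, FnSys.pP_smul, FnSys.pP_F0, hv1 x, add_zero]
    have h1 := hT (l • M.toC0 M.FOm + v) 1 (fun x => by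
        unfold PC
        rw [hpP x]
        exact G7.cone_smul hl0.le G9.cone_F0) (fun x => by
        rw [mul_one]
        have e : vd (σ x) (((l • M.toC0 M.FOm + v : M.C0) : X → L2) x) = vd (σ x) (l • F0) := by
          unfold vd
          rw [hpP x, FnSys.pP_smul, FnSys.pP_F0]
        rw [e, vd_smul (σp x).le hl0.le]
        exact hl x) (fun x => by
        show ‖pM J0 (l • F0 + (v : X → L2) x)‖ ≤ η * 1
        rw [Hil.pM_add', Hil.pM_smul', pM_of_inv G9.cone_F0.1, smul_zero, zero_add, hpm x, mul_one]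
        exact hv2 x)
    rw [mul_one, map_add, map_smul, smul_eq_mul] at h1
    have h2 := neg_abs_le m
    have h3 := le_abs_self (T (M.toC0 M.FOm))
    have h4 := mul_le_mul_of_nonneg_left h3 hl0.le
    linarith
  have key2 : ∀ v : M.C0, (∀ x, pP J0 ((v : X → L2) x) = 0) → (∀ x, ‖(v : X → L2) x‖ ≤ η) →
      |T v| ≤ A0 := by
    intro v hv1 hv2
    rw [abs_le]
    refine ⟨key v hv1 hv2, ?_⟩
    have h1 := key (-v) (fun x => by
        show pP J0 (-(v : X → L2) x) = 0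
        have : -(v : X → L2) x = (-1 : ℝ) • (v : X → L2) x := by module
        rw [this, FnSys.pP_smul, hv1 x, smul_zero]) (fun x => by
        show ‖-(v : X → L2) x‖ ≤ η
        rw [norm_neg]; exact hv2 x)
    rw [map_neg] at h1
    linarith
  refine ⟨A0 / η, by positivity, fun u B hB hu => ?_⟩
  set v : M.C0 := u - M.ppC u with hv
  have hvx : ∀ x, (v : X → L2) x = pM J0 ((u : X → L2) x) := fun x => M.sub_ppC_apply u x
  have hvP : ∀ x, pP J0 ((v : X → L2) x) = 0 := fun x => by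
    rw [hvx x]
    apply pP_of_anti
    have h1 := pP_add_pM J0 (pM J0 ((u : X → L2) x))
    have h2 : pP J0 (pM J0 ((u : X → L2) x)) = 0 := by
      have h3 : pP J0 ((u : X → L2) x) = pP J0 (pP J0 ((u : X → L2) x)) +
          pP J0 (pM J0 ((u : X → L2) x)) := by
        rw [← FnSys.pP_add, pP_add_pM]
      rw [pP_of_inv (pull_pP isCx_J0 _)] at h3
      simpa using h3
    rw [h2, zero_add] at h1
    exact h1
  have hscale : ∀ B' : ℝ, 0 < B' → B ≤ B' → |T v| ≤ A0 / η * B' := by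
    intro B' hB' hBB
    have h1 := key2 ((η / B') • v) (fun x => by
        show pP J0 ((η / B') • (v : X → L2) x) = 0
        rw [FnSys.pP_smul, hvP x, smul_zero]) (fun x => by
        show ‖(η / B') • (v : X → L2) x‖ ≤ η
        rw [norm_smul, Real.norm_eq_abs, abs_of_pos (by positivity), hvx x]
        calc η / B' * ‖pM J0 ((u : X → L2) x)‖ ≤ η / B' * B' := by
              have := (hu x).trans hBB
              gcongr
          _ = η := by field_simp)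
    rw [map_smul, smul_eq_mul, abs_mul, abs_of_pos (by positivity : 0 < η / B')] at h1
    have h2 : |T v| = (B' / η) * (η / B' * |T v|) := by field_simp
    rw [h2]
    calc (B' / η) * (η / B' * |T v|) ≤ (B' / η) * A0 := by gcongr
      _ = _ := by ring
  rcases hB.eq_or_lt with h0 | h0
  · -- `B = 0`
    have h1 : ∀ ε : ℝ, 0 < ε → |T v| ≤ 0 + ε := by
      intro ε hε
      have h2 := hscale (ε * η / (A0 + 1)) (by positivity) (by rw [← h0]; positivity)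
      refine h2.trans ?_
      rw [zero_add]
      calc A0 / η * (ε * η / (A0 + 1)) = ε * (A0 / (A0 + 1)) := by field_simp
        _ ≤ ε * 1 := by
            gcongr
            rw [div_le_one (by positivity)]
            linarith
        _ = ε := mul_one ε
    have h2 := le_of_forall_pos_le_add h1
    rw [← h0, mul_zero]
    exact h2
  · exact hscale B h0 le_rfl

/-- the self pairing of weakly closed forms is controlled by the pairings with `om, wb, wc` -/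
theorem self_pair_Zw [Nonempty X] {wb wc : M.Om} {σ : X → ℝ} (H : Hyp M wb wc σ) {w : Lp E6 2 M.mu}
    (hw : w ∈ P.Y.Zw) :
    ⟪w, P.Y.st w⟫_ℝ ≤ ⟪P.Y.ι M.omOm, P.Y.st w⟫_ℝ ^ 2 / M.pr M.om M.om +
      ⟪P.Y.ι wb, P.Y.st w⟫_ℝ ^ 2 / M.pr (wb : X → L2) (wb : X → L2) +
      ⟪P.Y.ι wc, P.Y.st w⟫_ℝ ^ 2 / M.pr (wc : X → L2) (wc : X → L2) := by
  have hcl := P.Y.Zw_le_closure hw
  have hst := P.Y.st.continuous
  have hclosed : IsClosed {u : Lp E6 2 M.mu | ⟪u, P.Y.st u⟫_ℝ ≤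
      ⟪P.Y.ι M.omOm, P.Y.st u⟫_ℝ ^ 2 / M.pr M.om M.om +
      ⟪P.Y.ι wb, P.Y.st u⟫_ℝ ^ 2 / M.pr (wb : X → L2) (wb : X → L2) +
      ⟪P.Y.ι wc, P.Y.st u⟫_ℝ ^ 2 / M.pr (wc : X → L2) (wc : X → L2)} := by
    refine isClosed_le (continuous_id.inner hst) ?_
    exact ((((continuous_const.inner hst).pow 2).div_const _).add
      (((continuous_const.inner hst).pow 2).div_const _)).add
      (((continuous_const.inner hst).pow 2).div_const _)
  refine closure_minimal ?_ hclosed hcl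
  rintro _ ⟨b, hb, rfl⟩
  show ⟪P.Y.ι b, P.Y.st (P.Y.ι b)⟫_ℝ ≤ ⟪P.Y.ι M.omOm, P.Y.st (P.Y.ι b)⟫_ℝ ^ 2 / M.pr M.om M.om +
      ⟪P.Y.ι wb, P.Y.st (P.Y.ι b)⟫_ℝ ^ 2 / M.pr (wb : X → L2) (wb : X → L2) +
      ⟪P.Y.ι wc, P.Y.st (P.Y.ι b)⟫_ℝ ^ 2 / M.pr (wc : X → L2) (wc : X → L2)
  rw [pr_inner, pr_inner, pr_inner, pr_inner]
  exact self_pair_le H ((mem_Cl_iff P b).1 hb)

/-- the bounds of `T + φ` -/
theorem exists_TBE [Nonempty X] {wb wc : M.Om} {σ : X → ℝ} (H : Hyp M wb wc σ)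
    {T : M.C0 →ₗ[ℝ] ℝ} (hEx : ∀ e ∈ M.Ex, T (M.toC0 e) = 0) {t : Measure X} {D : X → L2}
    (ht : FnSys.Cur t D) (hTt : ∀ u : M.C0, T (M.ppC u) = FnSys.fn t D (u : X → L2))
    {A : ℝ} (hA0 : 0 ≤ A) (hA : ∀ (u : M.C0) (B : ℝ), 0 ≤ B → (∀ x, ‖pM J0 ((u : X → L2) x)‖ ≤ B) →
      |T (u - M.ppC u)| ≤ A * B) :
    ∃ B : P.Y.TBE (P.Z.fL ht) (phiL T), ∀ δ, 0 < δ → P.Z.dens t δ ≤ B.NT δ := by
  haveI := ht.fin
  have hsum : ∀ b : M.Om, P.Z.fL ht b + phiL T b = T (M.toC0 b) := by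
    intro b
    show FnSys.fn t D (b : X → L2) + T (M.toC0 b - M.ppC (M.toC0 b)) = _
    have h1 := hTt (M.toC0 b)
    rw [map_sub, h1]
    show FnSys.fn t D (b : X → L2) + (T (M.toC0 b) - FnSys.fn t D (b : X → L2)) = _
    ring
  have htpm : ∀ b : M.Om, P.Z.fL ht (P.Y.pm b) = 0 := by
    intro b
    show FnSys.fn t D _ = 0
    rw [FnSys.fn]
    have : (fun x => Q (D x) ((P.Y.pm b : X → L2) x)) = fun _ => 0 := by
      funext x
      rw [P.pm_eq b x]
      exact Q_inv_pM isCx_J0 G9.pos_J0 (ht.cone x).1 _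
    rw [this]; simp
  have hphipm : ∀ b : M.Om, phiL T (P.Y.pm b) = phiL T b := by
    intro b
    show T _ = T _
    congr 1
    apply Subtype.ext
    funext x
    have e1 := M.sub_ppC_apply (M.toC0 (P.Y.pm b)) x
    have e2 := M.sub_ppC_apply (M.toC0 b) x
    refine e1.trans (Eq.trans ?_ e2.symm)
    show pM J0 ((P.Y.pm b : X → L2) x) = pM J0 ((b : X → L2) x)
    rw [P.pm_eq b x]
    have h3 : pP J0 (pM J0 ((b : X → L2) x)) = 0 := by
      have h3 : pP J0 ((b : X → L2) x) = pP J0 (pP J0 ((b : X → L2) x)) +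
          pP J0 (pM J0 ((b : X → L2) x)) := by
        rw [← FnSys.pP_add, pP_add_pM]
      rw [pP_of_inv (pull_pP isCx_J0 _)] at h3
      simpa using h3
    have h4 := pP_add_pM J0 (pM J0 ((b : X → L2) x))
    rw [h3, zero_add] at h4
    exact h4
  have hK0 : 0 ≤ P.Y.K 0 := zero_le_one.trans (P.Y.one_le_K 0)
  have hphibd : ∀ b : M.Om, |phiL T b| ≤ A * P.Y.K 0 * P.Y.M 0 b := by
    intro b
    have h1 := hA (M.toC0 b) (P.Y.M 0 (P.Y.pm b)) (P.Y.M_nonneg _ _) (fun x => by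
      have := P.M0 (P.Y.pm b) x
      rw [P.pm_eq b x] at this
      exact this)
    have h2 := P.Y.M_pm 0 b
    calc |phiL T b| ≤ A * P.Y.M 0 (P.Y.pm b) := h1
      _ ≤ A * (P.Y.K 0 * P.Y.M 0 b) := by gcongr
      _ = _ := by ring
  have hkill : ∀ c ∈ P.Y.Ex, P.Z.fL ht c + phiL T c = 0 := by
    intro c hc
    rw [hsum]
    exact hEx c ((mem_Ex_iff P c).1 hc)
  obtain ⟨C1, hC1, h1⟩ := P.Z.t1 ht
  obtain ⟨C2, hC2, h2⟩ := P.Z.t2 ht
  obtain ⟨C3, hC3, h3⟩ := P.Z.t3 ht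
  -- growth
  obtain ⟨C4, Dm, hC4, h4⟩ : ∃ (C : ℝ) (Dm : ℕ → ℝ), 0 ≤ C ∧ ∀ δ : ℝ, 0 < δ → δ ≤ 1 → ∃ v : M.Om,
      (∀ m, P.Y.N m δ v ≤ Dm m) ∧ P.Z.dens t δ ≤ C * (1 + |phiL T v|) := by
    choose K hK0 hK using P.N_le
    choose K2 hK20 hK2 using fun (a : M.A) (m : ℕ) => M.exists_N2 a m 2
    exact grow_t4 M ht (fun m δ b => P.Y.N m δ b)
      (by
        intro a m
        refine ⟨K m * K2 a m, mul_nonneg (hK0 m) (hK20 a m), fun δ h0 h1 γ hγ hγc hz => ?_⟩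
        refine (hK m δ _ h0 h1).trans ?_
        rw [mul_assoc]
        exact mul_le_mul_of_nonneg_left (hK2 a m δ h0.le h1 γ hγ hz) (hK0 m))
      (fun b => P.Y.pm b) (fun b x => P.pm_eq b x) (fun b => phiL T b) hphipm
      (fun e he => hkill e ((mem_Ex_iff P e).2 he)) P.Z.c (lt_of_lt_of_le one_pos P.Z.one_le_c)
  set CT : ℝ := 6 * (t univ).toReal with hCT
  have hCT0 : 0 ≤ CT := by positivity
  -- the constant of the self pairing
  have hα := alpha_pos M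
  set CM0 : ℝ := CT + A * P.Y.K 0 with hCM0
  have hCM0' : 0 ≤ CM0 := by positivity
  have hpairb : ∀ (c : M.Om) (δ : ℝ) (w : Lp E6 2 M.mu), 0 < δ → δ ≤ P.Y.δ0 →
      (∀ u, ⟪w, P.Y.st u⟫_ℝ = P.Z.fL ht (P.Y.S δ u) + phiL T (P.Y.S δ u)) →
      ⟪P.Y.ι c, P.Y.st w⟫_ℝ ^ 2 ≤ (CM0 * (P.Y.K 0 * P.Y.M 0 c)) ^ 2 := by
    intro c δ w h0 h1' hw
    have e1 : ⟪P.Y.ι c, P.Y.st w⟫_ℝ = P.Z.fL ht (P.Y.S δ (P.Y.ι c)) +
        phiL T (P.Y.S δ (P.Y.ι c)) := by
      rw [← hw, real_inner_comm, P.Y.st_symm]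
    have e2 := P.Z.fn_bound ht (P.Y.S δ (P.Y.ι c))
    have e3 := hphibd (P.Y.S δ (P.Y.ι c))
    have e4 := P.Y.O1M 0 δ c h0 h1'
    have e5 : |⟪P.Y.ι c, P.Y.st w⟫_ℝ| ≤ CM0 * (P.Y.K 0 * P.Y.M 0 c) := by
      rw [e1]
      refine (abs_add_le _ _).trans ?_
      have e6 : |P.Z.fL ht (P.Y.S δ (P.Y.ι c))| ≤ CT * P.Y.M 0 (P.Y.S δ (P.Y.ι c)) := e2
      calc _ ≤ CT * P.Y.M 0 (P.Y.S δ (P.Y.ι c)) + A * P.Y.K 0 * P.Y.M 0 (P.Y.S δ (P.Y.ι c)) :=
            add_le_add e6 e3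
        _ = CM0 * P.Y.M 0 (P.Y.S δ (P.Y.ι c)) := by rw [hCM0]; ring
        _ ≤ _ := mul_le_mul_of_nonneg_left e4 hCM0'
    exact sq_le_sq' (by linarith [neg_abs_le (⟪P.Y.ι c, P.Y.st w⟫_ℝ)])
      ((le_abs_self _).trans e5)
  set CS : ℝ := (CM0 * (P.Y.K 0 * P.Y.M 0 M.omOm)) ^ 2 / M.pr M.om M.om +
    (CM0 * (P.Y.K 0 * P.Y.M 0 wb)) ^ 2 / M.pr (wb : X → L2) (wb : X → L2) +
    (CM0 * (P.Y.K 0 * P.Y.M 0 wc)) ^ 2 / M.pr (wc : X → L2) (wc : X → L2) with hCS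
  have hbb := H.bb
  have hcc := H.cc
  have hCS0 : 0 ≤ CS := by positivity
  set CC : ℝ := CT + A * P.Y.K 0 + C1 + C2 + C3 + (C4 + 1) + CS with hCC
  have hAK : 0 ≤ A * P.Y.K 0 := mul_nonneg hA0 hK0
  have hCC0 : 0 ≤ CC := by rw [hCC]; linarith
  let NT : ℝ → ℝ := fun δ => if 0 < δ then P.Z.dens t δ + 1 else 1
  have hNT : ∀ δ, 0 < δ → NT δ = P.Z.dens t δ + 1 := fun δ h => if_pos h
  have hd0 : ∀ δ, 0 < δ → 0 ≤ P.Z.dens t δ := fun δ h => P.Z.dens_nonneg t h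
  have hNT1 : ∀ δ, 1 ≤ NT δ := by
    intro δ
    by_cases h : 0 < δ
    · rw [hNT δ h]; have := hd0 δ h; linarith
    · show 1 ≤ (if 0 < δ then P.Z.dens t δ + 1 else 1)
      rw [if_neg h]
  refine ⟨
    { k := 0
      C := CC
      NT := NT
      C_nonneg := hCC0
      NT_nonneg := fun δ => zero_le_one.trans (hNT1 δ)
      T_bd := fun b => (P.Z.fn_bound ht b).trans (by
        have := P.Y.M_nonneg 0 b
        have : CT ≤ CC := by rw [hCC]; linarith
        gcongr)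
      T_pm := htpm
      φ_pm := hphipm
      φ_bd := fun b => (hphibd b).trans (by
        have := P.Y.M_nonneg 0 b
        have : A * P.Y.K 0 ≤ CC := by rw [hCC]; linarith
        gcongr)
      killE := hkill
      self := ?_
      t1 := fun δ u h0 hδ => (h1 δ u h0 hδ).trans (by
        rw [hNT δ h0]
        have a1 : C1 ≤ CC := by rw [hCC]; linarith
        have a2 : Real.sqrt (P.Z.dens t δ) ≤ Real.sqrt (P.Z.dens t δ + 1) :=
          Real.sqrt_le_sqrt (by linarith)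
        have a3 := norm_nonneg u
        gcongr)
      t2 := fun δ u h0 hδ => (h2 δ u h0 hδ).trans (by
        rw [hNT δ h0]
        have a1 : C2 ≤ CC := by rw [hCC]; linarith
        have a2 : Real.sqrt (P.Z.dens t δ) ≤ Real.sqrt (P.Z.dens t δ + 1) :=
          Real.sqrt_le_sqrt (by linarith)
        have a3 := norm_nonneg u
        gcongr)
      t3 := fun δ w h0 hδ hw => le_trans (by
        rw [hNT δ h0]
        have a1 : C3 ≤ CC := by rw [hCC]; linarith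
        have a2 := hd0 δ h0
        apply neg_le_neg
        gcongr
        linarith) (h3 δ w h0 hδ hw)
      D := Dm
      t4 := ?_ }, fun δ h0 => ?_⟩
  · intro δ w h0 h1' hw
    have hwZ : w ∈ P.Y.Zw := by
      apply P.Y.mem_Zw_of_kill
      intro e he
      rw [hw]
      exact hkill _ (P.Y.S_Ex δ e h0 h1' he)
    have e1 := self_pair_Zw P H hwZ
    have e2 := hpairb M.omOm δ w h0 h1' hw
    have e3 := hpairb wb δ w h0 h1' hw
    have e4 := hpairb wc δ w h0 h1' hw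
    have e5 : ⟪w, P.Y.st w⟫_ℝ ≤ CS := by
      refine e1.trans ?_
      rw [hCS]
      gcongr
    have e6 : CS ≤ CC := by rw [hCC]; linarith
    calc ⟪w, P.Y.st w⟫_ℝ ≤ CC * 1 := by rw [mul_one]; exact e5.trans e6
      _ ≤ CC * NT δ := mul_le_mul_of_nonneg_left (hNT1 δ) hCC0
  · intro δ h0 hδ
    obtain ⟨v, hv1, hv2⟩ := h4 δ h0 (hδ.trans P.Y.δ0_le)
    refine ⟨v, hv1, ?_⟩
    rw [hNT δ h0]
    have a1 : C4 + 1 ≤ CC := by rw [hCC]; linarith
    have a2 := abs_nonneg (phiL T v)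
    calc P.Z.dens t δ + 1 ≤ C4 * (1 + |phiL T v|) + 1 * (1 + |phiL T v|) := by linarith
      _ = (C4 + 1) * (1 + |phiL T v|) := by ring
      _ ≤ CC * (1 + |phiL T v|) := by gcongr
  · show P.Z.dens t δ ≤ NT δ
    rw [hNT δ h0]; linarith

end

end Vale.Agent.P247.SCY
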