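import Vale.Agent.P247.SCY.ER2
import Vale.Agent.P247.SCY.TPart
import Vale.Agent.P247.SCY.BaseO

/-!
# P247, exact orthogonality: the exact right inverse on a concrete manifold
-/

set_option linter.all false

open MeasureTheory Set Metric Filter Topology
open scoped ContDiff ENNReal NNReal BigOperators InnerProductSpace Topology

namespace Vale.Agent.P247.SCY
open Vale.Agent.P204 Vale.Agent.P204.T4 Vale.Agent.P204.GX _root_.P204.GX

section
variable {X : Type} [MetricSpace X] [CompactSpace X] [MeasurableSpace X] [BorelSpace X]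
variable {M : CM X} (P : MSys M)

theorem pm_eq_of_anti {b : M.Om} (h : ∀ x, pM J0 ((b : X → L2) x) = (b : X → L2) x) :
    P.Y.pm b = b := by
  apply Subtype.ext
  funext x
  rw [P.pm_eq b x, h x]

theorem st_ι_pm (b : M.Om) : P.Y.st (P.Y.ι (P.Y.pm b)) = P.Y.ι (P.Y.pm b) := by
  rw [← P.Y.pmH_ι, P.Y.st_pmH]

theorem norm_sq_pm (b : M.Om) : ‖P.Y.ι (P.Y.pm b)‖ ^ 2 =
    M.pr (P.Y.pm b : X → L2) (P.Y.pm b : X → L2) := by
  rw [← pr_inner P, st_ι_pm, real_inner_self_eq_norm_sq]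

theorem pr_om_split [Nonempty X] : ‖P.Y.pmH (P.Y.ι M.omOm)‖ ^ 2 < M.pr M.om M.om := by
  rw [P.Y.pmH_ι, norm_sq_pm]
  have h1 : M.pr M.om M.om = M.pr (P.Y.pm M.omOm : X → L2) (P.Y.pm M.omOm : X → L2) +
      2 * M.mu.real univ := by
    unfold CM.pr
    have e : ∀ x, Q (M.om x) (M.om x) = Q ((P.Y.pm M.omOm : X → L2) x) ((P.Y.pm M.omOm : X → L2) x)
        + 2 := by
      intro x
      rw [P.pm_eq M.omOm x, Q_self_split isCx_J0 CM.posJ0, M.om_pP, G9.Q_F0_F0]
      show 2 + Q (pM J0 (M.om x)) (pM J0 (M.om x)) = Q (pM J0 (M.om x)) (pM J0 (M.om x)) + 2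
      ring
    simp only [e]
    rw [integral_add (M.integrable_Q (fun a => ((P.Y.pm M.omOm).2 a).continuous)
      (fun a => ((P.Y.pm M.omOm).2 a).continuous)) (integrable_const _), integral_const,
      smul_eq_mul, mul_comm _ (2 : ℝ)]
  rw [h1]
  have := M.mu_pos
  linarith

/-- the signature data of `M` -/
theorem sig_of_hyp [Nonempty X] {wb wc : M.Om} {σ : X → ℝ} (H : Hyp M wb wc σ) :
    P.Y.Sig M.omOm wb wc (M.pr M.om M.om) (M.pr (wb : X → L2) (wb : X → L2))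
      (M.pr (wc : X → L2) (wc : X → L2)) := by
  have hb := pm_eq_of_anti P H.bpm
  have hc := pm_eq_of_anti P H.cpm
  have hstb : P.Y.st (P.Y.ι wb) = P.Y.ι wb := by
    have := st_ι_pm P wb; rwa [hb] at this
  have hstc : P.Y.st (P.Y.ι wc) = P.Y.ι wc := by
    have := st_ι_pm P wc; rwa [hc] at this
  refine
    { omCl := (mem_Cl_iff P _).2 M.omOm_mem_Cl
      bCl := (mem_Cl_iff P _).2 H.bCl
      cCl := (mem_Cl_iff P _).2 H.cCl
      bpm := hb
      cpm := hc
      αp := alpha_pos M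
      θα := pr_om_split P
      bc := ?_
      bb := fun h => ?_
      cc := fun h => ?_
      self := fun m hm => self_pair_Zw P H hm }
  · rw [← hstc, pr_inner]; exact H.bc
  · have h1 := H.bb
    rw [← pr_inner P, h] at h1
    simp at h1
  · have h1 := H.cc
    rw [← pr_inner P, h] at h1
    simp at h1

/-- **Block O2.** Exact right inverse of the anti-invariant part. -/
theorem exists_exact_right [Nonempty X] (hcl : ClosedExStatement) {wb wc : M.Om} {σ : X → ℝ}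
    (H : Hyp M wb wc σ) :
    ∃ (k : ℕ) (C : ℝ), 0 ≤ C ∧ ∀ v : M.Om, P.Y.pm v = v →
      M.pr (wb : X → L2) (v : X → L2) = 0 → M.pr (wc : X → L2) (v : X → L2) = 0 →
      ∃ z ∈ M.Ex, P.Y.pm z = v ∧ P.Y.M 0 z ≤ C * P.Y.M k v := by
  have hsig := sig_of_hyp P H
  obtain ⟨k, C, hC, h⟩ := hsig.exists_ERE (fun c hc hE => by
    rw [mem_Ex_iff]
    refine hcl X M P c ((mem_Cl_iff P c).1 hc) ?_
    have h1 : P.Y.ι c ∈ (P.Y.EE : Set (Lp E6 2 M.mu)) := hE
    rw [P.Y.coe_EE] at h1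
    rwa [P.Ex_eq] at h1)
  refine ⟨k, C, hC, fun v hv hvb hvc => ?_⟩
  have hstv : P.Y.st (P.Y.ι v) = P.Y.ι v := by
    have := st_ι_pm P v; rwa [hv] at this
  obtain ⟨z, hz, hz1, hz2⟩ := h v hv (by rw [← hstv, pr_inner]; exact hvb)
    (by rw [← hstv, pr_inner]; exact hvc)
  exact ⟨z, (mem_Ex_iff P z).1 hz, hz1, hz2⟩

end

end Vale.Agent.P247.SCY
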