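import Vale.Agent.P247.SCY.KLb

/-!
# P247, soft Calabi-Yau, block KL: continuity lemmas, `S0` on continuous forms
-/

set_option linter.all false

open MeasureTheory Set Metric Filter Topology
open scoped ContDiff ENNReal NNReal BigOperators InnerProductSpace Topology

namespace Vale.Agent.P247.SCY
open Vale.Agent.P204 Vale.Agent.P204.T4 Vale.Agent.P204.GX _root_.P204.GX

section
variable {X : Type} [MetricSpace X] {M : CM X}

theorem continuous_QX {u v : X → L2} (hu : u ∈ M.C0) (hv : v ∈ M.C0) :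
    Continuous fun x => Q (u x) (v x) := by
  rw [continuous_iff_continuousAt]
  intro x
  obtain ⟨a, y, hy, rfl⟩ := M.cov x
  rw [← (M.ψo a).continuousAt_iff]
  have e : ((fun x => Q (u x) (v x)) ∘ M.ψ a) =
      fun y => (det4 (M.m a y))⁻¹ * Q (M.cf a u y) (M.cf a v y) := by
    funext y
    show Q (u (M.ψ a y)) (v (M.ψ a y)) = _
    unfold CM.cf
    rw [Q_pull, ← mul_assoc, inv_mul_cancel₀ (M.m_det a y).ne', one_mul]
  rw [e]
  exact (((M.continuous_det_m a).inv₀ fun y => (M.m_det a y).ne').mul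
    (continuous_Q.comp ((hu a).prodMk (hv a)))).continuousAt

theorem continuous_rqX {u : X → L2} (hu : u ∈ M.C0) : Continuous fun x => rq (u x) :=
  Real.continuous_sqrt.comp (continuous_QX hu hu)

theorem S0_add_C0 {δ : ℝ} (h0 : 0 ≤ δ) (h1 : δ ≤ M.z1) {b b' : X → L2} (hb : b ∈ M.C0)
    (hb' : b' ∈ M.C0) : M.S0 δ (b + b') = M.S0 δ b + M.S0 δ b' := by
  funext x
  show ∫ z, M.rr z • M.U (δ • z) (b + b') x = _
  have h2 : ∀ z, M.rr z • M.U (δ • z) (b + b') x
      = M.rr z • M.U (δ • z) b x + M.rr z • M.U (δ • z) b' x := by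
    intro z; rw [M.U_add, Pi.add_apply, smul_add]
  simp only [h2]
  exact integral_add (M.integrable_S0 h0 h1 hb x) (M.integrable_S0 h0 h1 hb' x)

theorem mem_C0_of_ball {u : X → L2} (h : ∀ c, ∀ y : V4, ‖y‖ < 1 →
    ContinuousAt (M.cf c u) y) : u ∈ M.C0 := by
  intro a
  show Continuous (M.cf a u)
  rw [continuous_iff_continuousAt]
  intro y
  set c := M.ch (M.ψ a y) with hc
  have hO : y ∈ M.O a c := M.mem_O_ch a y
  have hτ : ContinuousAt (M.τ a c) y := (M.contDiffAt_τ hO).continuousAt
  have h2 : ContinuousAt (M.cf c u) (M.τ a c y) := h c _ (by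
    rw [hc, M.τ_ch]; exact M.norm_cy _)
  have h3 : ContinuousAt (fun z => M.cf c u (M.τ a c z)) y :=
    ContinuousAt.comp (g := M.cf c u) (f := M.τ a c) h2 hτ
  have h1 : ContinuousAt (fun z => pull (M.Dt a c z) (M.cf c u (M.τ a c z))) y :=
    ContinuousAt.comp (g := fun p : M4 × L2 => pull p.1 p.2)
      (f := fun z => (M.Dt a c z, M.cf c u (M.τ a c z))) continuous_pull.continuousAt
      ((M.contDiffAt_Dt hO).continuousAt.prodMk h3)
  refine h1.congr ?_
  filter_upwards [(M.isOpen_O a c).mem_nhds hO] with z hz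
  exact (M.cf_compat u hz).symm

theorem S0_mem_C0 {δ : ℝ} (h0 : 0 ≤ δ) (h1 : δ ≤ M.z1) {b : X → L2} (hb : b ∈ M.C0) :
    M.S0 δ b ∈ M.C0 := by
  refine mem_C0_of_ball fun c y hy => ?_
  have hcont : Continuous fun y => ∫ z, M.rr z • M.ker c b (δ • z) y := by
    simp only [M.integral_rr]
    have hF : Continuous (Function.uncurry fun (y : V4) (z : M.A → V4) =>
        M.rr z • M.ker c b (δ • z) y) := by
      have h2 : Continuous fun p : V4 × (M.A → V4) => M.ker c b (δ • p.2) p.1 :=
        Continuous.comp (g := Function.uncurry (M.ker c b))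
          (f := fun p : V4 × (M.A → V4) => (δ • p.2, p.1)) (M.continuous_ker c (hb c))
          ((continuous_snd.const_smul δ).prodMk continuous_fst)
      exact (M.bump_rr.smooth.continuous.comp continuous_snd).smul h2
    exact continuous_parametric_integral_of_continuous hF (isCompact_closedBall _ _)
  refine hcont.continuousAt.congr ?_
  have : {z : V4 | ‖z‖ < 1} ∈ 𝓝 y := (isOpen_lt continuous_norm continuous_const).mem_nhds hy
  filter_upwards [this] with z hz
  exact (M.cf_S0 c h0 h1 hb (by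
    have : ‖z‖ < 1 := hz
    linarith only [hz])).symm

end

section
variable {X : Type} [MetricSpace X] [CompactSpace X]

/-- multiplicative modulus of continuity of a positive continuous function -/
theorem mult_modulus [Nonempty X] {s : X → ℝ} (hs : Continuous s) (hs0 : ∀ x, 0 < s x) {κ : ℝ}
    (hκ : 0 < κ) : ∃ r : ℝ, 0 < r ∧ ∀ x y, dist y x < r → (1 - κ) * s y ≤ s x := by
  obtain ⟨x0, -, hx0⟩ := (isCompact_univ (X := X)).exists_isMinOn univ_nonempty hs.continuousOn
  have hm : ∀ x, s x0 ≤ s x := fun x => hx0 (mem_univ x)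
  have hu := (CompactSpace.uniformContinuous_of_continuous hs)
  rw [Metric.uniformContinuous_iff] at hu
  obtain ⟨r, hr, h⟩ := hu (κ * s x0) (mul_pos hκ (hs0 x0))
  refine ⟨r, hr, fun x y hxy => ?_⟩
  have h1 := h hxy
  rw [Real.dist_eq] at h1
  have h2 := le_abs_self (s y - s x)
  have h3 := mul_le_mul_of_nonneg_left (hm y) hκ.le
  linarith

end

end Vale.Agent.P247.SCY
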