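import Vale.Agent.P247.SCY.ER3
import Vale.Agent.P247.SCY.KLc
import Vale.Agent.P247.SCY.BaseO

/-!
# P247, exact orthogonality: the exact theorem on a concrete manifold
-/

set_option linter.all false

open MeasureTheory Set Metric Filter Topology
open scoped ContDiff ENNReal NNReal BigOperators InnerProductSpace Topology

namespace Vale.Agent.P247.SCY
open Vale.Agent.P204 Vale.Agent.P204.T4 Vale.Agent.P204.GX _root_.P204.GX

/-! ### pointwise lemmas -/

/-- `F0` is an order unit, with a bound linear in the norm -/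
theorem exists_unit_const : ∃ c : ℝ, 0 < c ∧ ∀ (A : L2) (s : ℝ), c * ‖A‖ ≤ s →
    Cone J0 (s • F0 + pP J0 A) ∧ Cone J0 (s • F0 - pP J0 A) := by
  refine ⟨64 * ‖J0‖ + 1, by positivity, fun A s hs => ?_⟩
  have key : ∀ (B : L2) (s : ℝ), (64 * ‖J0‖ + 1) * ‖B‖ ≤ s → ∀ v, 0 ≤ s * ev F0 v (T4.app J0 v) +
      ev B v (T4.app J0 v) := by
    intro B s hs v
    have h1 := T4.abs_ev_le B v (T4.app J0 v)
    have h2 := T4.norm_app_le J0 v
    have h3 : ‖v‖ ^ 2 ≤ ev F0 v (T4.app J0 v) := by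
      rw [CM.ev_F0]
      have h4 : ∀ i, |v i| ≤ Real.sqrt (∑ i, v i ^ 2) := by
        intro i
        apply Real.abs_le_sqrt
        exact Finset.single_le_sum (f := fun i => v i ^ 2) (fun j _ => sq_nonneg _)
          (Finset.mem_univ i)
      have h5 : ‖v‖ ≤ Real.sqrt (∑ i, v i ^ 2) :=
        (pi_norm_le_iff_of_nonneg (Real.sqrt_nonneg _)).2 h4
      calc ‖v‖ ^ 2 ≤ Real.sqrt (∑ i, v i ^ 2) ^ 2 := pow_le_pow_left₀ (norm_nonneg _) h5 2
        _ = _ := Real.sq_sqrt (Finset.sum_nonneg fun i _ => sq_nonneg _)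
    have h6 : 12 * ‖B‖ * ‖v‖ * ‖T4.app J0 v‖ ≤ 12 * ‖B‖ * ‖v‖ * (4 * ‖J0‖ * ‖v‖) := by gcongr
    have h7 : |ev B v (T4.app J0 v)| ≤ 48 * ‖J0‖ * ‖B‖ * ‖v‖ ^ 2 := by
      calc _ ≤ _ := h1.trans h6
        _ = _ := by ring
    have h8 : 48 * ‖J0‖ * ‖B‖ * ‖v‖ ^ 2 ≤ s * ‖v‖ ^ 2 := by
      apply mul_le_mul_of_nonneg_right _ (sq_nonneg _)
      have := norm_nonneg J0
      have := norm_nonneg B
      nlinarith
    have hs0 : 0 ≤ s := le_trans (by positivity) hs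
    have h9 := mul_le_mul_of_nonneg_left h3 hs0
    have h10 := neg_abs_le (ev B v (T4.app J0 v))
    linarith
  have h1 : ∀ (B : L2), (64 * ‖J0‖ + 1) * ‖B‖ ≤ s → Cone J0 (s • F0 + pP J0 B) := by
    intro B hB
    have h2 : Cone J0 (pP J0 (s • F0 + B)) := cone_pP isCx_J0 fun v => by
      rw [ev_add, ev_smul]; exact key B s hB v
    rwa [FnSys.pP_add, FnSys.pP_smul, FnSys.pP_F0] at h2
  refine ⟨h1 A hs, ?_⟩
  have h2 := h1 (-A) (by rwa [norm_neg])
  have e : pP J0 (-A) = - pP J0 A := by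
    have : -A = (-1 : ℝ) • A := by module
    rw [this, FnSys.pP_smul]; module
  rw [e] at h2
  rwa [← sub_eq_add_neg] at h2

/-- a quantitative lower bound for positive forms -/
theorem cone_sub_of_bounds {A : L2} (hA : Cone J0 A) {m B : ℝ} (hm : 0 < m) (hB : 0 < B)
    (h1 : m ≤ Q A A) (h2 : Q F0 A ≤ B) : Cone J0 (A - (m / (2 * B)) • F0) := by
  obtain ⟨a1, a2, a3, a4⟩ := (cone_J0 A).1 hA
  obtain ⟨f1, -, -, -⟩ := (cone_J0 F0).1 G9.cone_F0
  rw [Q_self_J0 A a1] at h1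
  rw [Q_J0 F0 A f1 a1] at h2
  have e0 : F0 0 = 1 := rfl
  have e1 : F0 1 = 0 := rfl
  have e2 : F0 2 = 0 := rfl
  have e3 : F0 3 = 0 := rfl
  have e4 : F0 4 = 0 := rfl
  have e5 : F0 5 = 1 := rfl
  rw [e0, e1, e2, e5] at h2
  set κ := m / (2 * B) with hκ
  have hκ0 : 0 < κ := by positivity
  have hκB : κ * B = m / 2 := by rw [hκ]; field_simp
  have hprod : m / 2 ≤ A 0 * A 5 - A 1 ^ 2 - A 2 ^ 2 := by linarith
  have hsum : A 5 + A 0 ≤ B := by linarith
  rw [cone_J0]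
  have c : ∀ i, (A - κ • F0) i = A i - κ * F0 i := fun i => rfl
  simp only [c, e0, e1, e2, e3, e4, e5, mul_zero, mul_one, sub_zero]
  have hA05 : 0 < A 0 * A 5 := by nlinarith [sq_nonneg (A 1), sq_nonneg (A 2)]
  have h05 : κ * (A 0 + A 5) ≤ m / 2 := by
    rw [← hκB]; apply mul_le_mul_of_nonneg_left _ hκ0.le; linarith
  have hA0 : 0 < A 0 := by
    rcases a2.eq_or_lt with h | h
    · rw [← h, zero_mul] at hA05; exact absurd hA05 (lt_irrefl _)
    · exact h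
  have hA5 : 0 < A 5 := by
    rcases a3.eq_or_lt with h | h
    · rw [← h, mul_zero] at hA05; exact absurd hA05 (lt_irrefl _)
    · exact h
  have hk0 : κ ≤ A 0 := by
    by_contra hcon
    push Not at hcon
    have h3 : A 0 * A 5 ≤ κ * A 5 := mul_le_mul_of_nonneg_right hcon.le a3
    have h4 : κ * (A 0 + A 5) = κ * A 0 + κ * A 5 := by ring
    have h5 : 0 < κ * A 0 := by positivity
    nlinarith [sq_nonneg (A 1), sq_nonneg (A 2)]
  have hk5 : κ ≤ A 5 := by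
    by_contra hcon
    push Not at hcon
    have h3 : A 0 * A 5 ≤ A 0 * κ := mul_le_mul_of_nonneg_left hcon.le a2
    have h4 : κ * (A 0 + A 5) = κ * A 0 + κ * A 5 := by ring
    have h5 : 0 < κ * A 5 := by positivity
    nlinarith [sq_nonneg (A 1), sq_nonneg (A 2)]
  refine ⟨a1, by linarith, by linarith, ?_⟩
  nlinarith [sq_nonneg κ]

section
variable {X : Type} [MetricSpace X] [CompactSpace X] [MeasurableSpace X] [BorelSpace X]
variable {M : CM X} (P : MSys M)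

/-- a positive smooth form is bounded below by a multiple of `F0` -/
theorem exists_lower_F0 [Nonempty X] {w0 : X → L2} (h0 : w0 ∈ M.Om)
    (hp : ∀ x, PosDef J0 (w0 x)) : ∃ κ : ℝ, 0 < κ ∧ ∀ x, Cone J0 (w0 x - κ • F0) := by
  have hc := M.Om_le_C07 h0
  have c1 : Continuous fun x => Q (w0 x) (w0 x) := continuous_QX hc hc
  have c2 : Continuous fun x => Q F0 (w0 x) := continuous_QX F_mem_C0 hc
  obtain ⟨x0, -, hx0⟩ := isCompact_univ.exists_isMinOn (univ_nonempty (α := X)) c1.continuousOn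
  obtain ⟨x1, -, hx1⟩ := isCompact_univ.exists_isMaxOn (univ_nonempty (α := X)) c2.continuousOn
  have hQ : ∀ x, 0 < Q (w0 x) (w0 x) := fun x => by
    have hne : w0 x ≠ 0 := by
      intro h
      have hv : (fun _ : Fin 4 => (1 : ℝ)) ≠ 0 := fun h => one_ne_zero (congrFun h 0)
      have h1 := (hp x).2 _ hv
      rw [h] at h1
      have := ev_smul 0 (0 : L2) (fun _ : Fin 4 => (1 : ℝ)) (T4.app J0 (fun _ : Fin 4 => (1 : ℝ)))
      simp only [smul_zero, zero_mul] at this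
      linarith
    exact Q_posDef_pos isCx_J0 CM.posJ0 (hp x).cone hne (hp x)
  set B := Q F0 (w0 x1) + 1 with hB
  have hB0 : 0 < B := by
    have := Q_cone_nonneg isCx_J0 G9.pos_J0 G9.cone_F0 (hp x1).cone
    rw [hB]; linarith
  refine ⟨Q (w0 x0) (w0 x0) / (2 * B), div_pos (hQ x0) (by positivity), fun x => ?_⟩
  refine cone_sub_of_bounds (hp x).cone (hQ x0) hB0 (hx0 (mem_univ x)) ?_
  have : Q F0 (w0 x) ≤ Q F0 (w0 x1) := hx1 (mem_univ x)
  rw [hB]; linarith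

/-- pairing with an anti-invariant form sees only the anti-invariant part -/
theorem pr_anti {b : X → L2} (hb : ∀ x, pM J0 (b x) = b x) (u : M.Om) :
    M.pr b (P.Y.pm u : X → L2) = M.pr b (u : X → L2) := by
  unfold CM.pr
  congr 1; funext x
  rw [P.pm_eq u x]
  have h1 : Q (b x) ((u : X → L2) x) = Q (b x) (pP J0 ((u : X → L2) x)) +
      Q (b x) (pM J0 ((u : X → L2) x)) := by rw [← Q_add_right, pP_add_pM]
  have h2 : Q (b x) (pP J0 ((u : X → L2) x)) = 0 := by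
    rw [Q_comm, ← hb x]; exact Q_pP_pM isCx_J0 G9.pos_J0 _ _
  rw [h1, h2, zero_add]

end

/-- **Block O4.** The exact theorem on a concrete manifold. -/
theorem exactCM (softK : SoftKStatement) (hcl : ClosedExStatement)
    (X : Type) [MetricSpace X] [CompactSpace X] [MeasurableSpace X] [BorelSpace X] [Nonempty X]
    (M : CM X) (wb wc w0 : X → L2) (hb : wb ∈ M.Om) (hc : wc ∈ M.Om) (h0 : w0 ∈ M.Om)
    (hbCl : (⟨wb, hb⟩ : M.Om) ∈ M.Cl) (hcCl : (⟨wc, hc⟩ : M.Om) ∈ M.Cl)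
    (hbpm : ∀ x, pM J0 (wb x) = wb x) (hcpm : ∀ x, pM J0 (wc x) = wc x)
    (hob : M.pr M.om wb = 0) (hoc : M.pr M.om wc = 0) (hbc : M.pr wb wc = 0)
    (hbb : 0 < M.pr wb wb) (hcc : 0 < M.pr wc wc)
    (hL : ∀ c ∈ M.Cl, M.pr M.om (c : X → L2) = 0 → M.pr wb (c : X → L2) = 0 →
      M.pr wc (c : X → L2) = 0 → M.pr (c : X → L2) (c : X → L2) ≤ 0)
    (σ : X → ℝ) (σc : Continuous σ) (σp : ∀ x, 0 < σ x)
    (σi : ∫ x, σ x ∂M.mu = M.pr M.om M.om)
    (hp : ∀ x, PosDef J0 (w0 x)) (t : ℝ) (ht : 0 < t) (ε : ℝ) (hε : 0 < ε) :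
    ∃ e ∈ M.Ex, ∀ x, pM J0 (M.om x + t • w0 x + (e : X → L2) x) = 0 ∧
      PosDef J0 (M.om x + t • w0 x + (e : X → L2) x) ∧
      (1 - ε) * σ x < Q (M.om x + t • w0 x + (e : X → L2) x)
        (M.om x + t • w0 x + (e : X → L2) x) := by
  obtain ⟨P⟩ := exists_MSys M
  have H : Hyp M ⟨wb, hb⟩ ⟨wc, hc⟩ σ :=
    { bCl := hbCl, cCl := hcCl, bpm := hbpm, cpm := hcpm, ob := hob, oc := hoc, bc := hbc, bb := hbb,
      cc := hcc, L := hL, σc := σc, σp := σp, σi := σi }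
  obtain ⟨κ, hκ, hκ'⟩ := exists_lower_F0 h0 hp
  obtain ⟨c, hc0, hcone⟩ := exists_unit_const
  obtain ⟨k, C, hC, hER⟩ := exists_exact_right P hcl H
  set η : ℝ := t * κ / (c * (C + 1)) with hη
  have hη0 : 0 < η := by positivity
  obtain ⟨e1, he1, h1, h2, h3⟩ := softK X M P wb wc hb hc hbCl hcCl hbpm hcpm hob hoc hbc hbb hcc
    hL σ σc σp σi k ε η hε hη0
  set v : M.Om := P.Y.pm (M.omOm + e1) with hv
  have hvv : P.Y.pm v = v := P.Y.pm_pm _
  have hpair : ∀ (b : X → L2) (hbO : b ∈ M.Om), (⟨b, hbO⟩ : M.Om) ∈ M.Cl →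
      (∀ x, pM J0 (b x) = b x) → M.pr M.om b = 0 → M.pr b (v : X → L2) = 0 := by
    intro b hbO hbC hbm hbo
    rw [hv, pr_anti P hbm]
    have e2 : ((M.omOm + e1 : M.Om) : X → L2) = M.om + (e1 : X → L2) := rfl
    rw [e2, pr_add_right (M.Om_le_C07 M.om_mem_Om) (memC e1) (M.Om_le_C07 hbO), pr_comm M b M.om,
      hbo, zero_add, pr_comm]
    exact M.stokesX he1 hbC
  obtain ⟨z, hz, hz1, hz2⟩ := hER v hvv (hpair wb hb hbCl hbpm hob) (hpair wc hc hcCl hcpm hoc)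
  refine ⟨e1 - z, M.Ex.sub_mem he1 hz, fun x => ?_⟩
  -- the value at `x`
  set A : L2 := pP J0 (M.om x + (e1 : X → L2) x) with hA
  set D : L2 := t • w0 x - pP J0 ((z : X → L2) x) with hD
  have hw0P : pP J0 (w0 x) = w0 x := pP_of_inv (hp x).1
  have hw0M : pM J0 (w0 x) = 0 := pM_of_inv (hp x).1
  have hsum : M.om x + t • w0 x + ((e1 - z : M.Om) : X → L2) x =
      (M.om x + (e1 : X → L2) x) + (t • w0 x - (z : X → L2) x) := by
    show M.om x + t • w0 x + ((e1 : X → L2) x - (z : X → L2) x) = _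
    module
  have hzm : pM J0 ((z : X → L2) x) = pM J0 (M.om x + (e1 : X → L2) x) := by
    have e2 : (P.Y.pm z : X → L2) x = (v : X → L2) x := by rw [hz1]
    rw [P.pm_eq z x, hv, P.pm_eq (M.omOm + e1) x] at e2
    exact e2
  have hM : pM J0 (M.om x + t • w0 x + ((e1 - z : M.Om) : X → L2) x) = 0 := by
    have e3 : t • w0 x - (z : X → L2) x = t • w0 x + (-1 : ℝ) • (z : X → L2) x := by module
    rw [hsum, e3, Hil.pM_add' (M.om x + (e1 : X → L2) x), Hil.pM_add' (t • w0 x), Hil.pM_smul',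
      Hil.pM_smul', hw0M, hzm]
    module
  have hval : M.om x + t • w0 x + ((e1 - z : M.Om) : X → L2) x = A + D := by
    have e3 : t • w0 x - (z : X → L2) x = t • w0 x + (-1 : ℝ) • (z : X → L2) x := by module
    have e4 := pP_add_pM J0 (M.om x + t • w0 x + ((e1 - z : M.Om) : X → L2) x)
    rw [hM, add_zero] at e4
    rw [← e4, hsum, e3, FnSys.pP_add (M.om x + (e1 : X → L2) x), FnSys.pP_add (t • w0 x),
      FnSys.pP_smul, FnSys.pP_smul, hw0P, hA, hD]
    module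
  -- positivity of `D`
  have hzn : c * ‖(z : X → L2) x‖ ≤ t * κ := by
    have e1' := P.M0 z x
    have e2 : P.Y.M 0 z ≤ C * η := hz2.trans (mul_le_mul_of_nonneg_left h2.le hC)
    have e3 : c * (C * η) ≤ t * κ := by
      have e4 : c * ((C + 1) * η) = t * κ := by rw [hη]; field_simp
      have e5 : c * (C * η) ≤ c * ((C + 1) * η) := by
        apply mul_le_mul_of_nonneg_left _ hc0.le
        apply mul_le_mul_of_nonneg_right _ hη0.le
        linarith
      linarith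
    calc c * ‖(z : X → L2) x‖ ≤ c * (C * η) := mul_le_mul_of_nonneg_left (e1'.trans e2) hc0.le
      _ ≤ _ := e3
  have hDc : Cone J0 D := by
    have e1' : D = t • (w0 x - κ • F0) + ((t * κ) • F0 - pP J0 ((z : X → L2) x)) := by
      rw [hD]; module
    rw [e1']
    exact G7.cone_add (G7.cone_smul ht.le (hκ' x)) (hcone _ _ hzn).2
  have hAp : PosDef J0 A := h1 x
  refine ⟨hM, ?_, ?_⟩
  · rw [hval]
    refine ⟨by rw [pull_add, hAp.1, hDc.1], fun u hu => ?_⟩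
    rw [ev_add]
    have := hAp.2 u hu
    have := hDc.2 u
    linarith
  · rw [hval, Q_add_left, Q_add_right, Q_add_right, Q_comm D A]
    have e1' := h3 x
    have e2 := Q_cone_nonneg isCx_J0 G9.pos_J0 hAp.cone hDc
    have e3 := Q_self_nonneg hDc
    linarith

end Vale.Agent.P247.SCY
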