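import Vale.Agent.P247.SCY.MFD8
import Vale.Agent.P247.SCY.EX1

/-!
# P247, exact orthogonality: one exact step on the manifold
-/

set_option linter.all false

open scoped BigOperators ContDiff Topology Manifold ENNReal
open Set MeasureTheory Filter

namespace Vale.Agent.P247.SCY
open Vale.Agent.P204 Vale.Agent.P204.T4 Vale.Agent.P204.Mfd Vale.Agent.P204.GX

/-! ### pointwise algebra -/

theorem frame_triE {U e B C : L2} (h0 : PosDef J0 (pP J0 U)) (h1 : PosDef J0 (pP J0 (U + e)))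
    (hB : pM J0 B = B) (hC : pM J0 C = C)
    (hBC : ∀ b c : ℝ, (b ≠ 0 ∨ c ≠ 0) → 0 < Q (b • B + c • C) (b • B + c • C))
    {s : ℝ} (hs : s ∈ Icc (0 : ℝ) 1) (a b c : ℝ) (h : a ≠ 0 ∨ b ≠ 0 ∨ c ≠ 0) :
    0 < Q (a • (U + s • e) + b • B + c • C) (a • (U + s • e) + b • B + c • C) := by
  by_cases ha : a = 0
  · subst ha
    have e1 : (0 : ℝ) • (U + s • e) + b • B + c • C = b • B + c • C := by
      rw [zero_smul, zero_add]
    rw [e1]
    rcases h with h | h | h
    · exact absurd rfl h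
    · exact hBC b c (Or.inl h)
    · exact hBC b c (Or.inr h)
  · set D := a • (U + s • e) + b • B + c • C with hD
    have hP : PosDef J0 (pP J0 (U + s • e)) := by
      have e2 : pP J0 (U + s • e) = (1 - s) • pP J0 U + s • pP J0 (U + e) := by
        rw [FnSys.pP_add, FnSys.pP_add, FnSys.pP_smul]; module
      rw [e2]
      rcases eq_or_lt_of_le hs.1 with h' | h'
      · rw [← h']
        have : (1 - (0 : ℝ)) • pP J0 U + (0 : ℝ) • pP J0 (U + e) = pP J0 U := by module
        rw [this]; exact h0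
      · have h2 : Cone J0 ((1 - s) • pP J0 U) :=
          G7.cone_smul (by linarith [hs.2]) h0.cone
        rw [add_comm]
        exact posDef_add (posDef_smul h' h1) h2
    have e3 : pP J0 D = a • pP J0 (U + s • e) := by
      rw [hD, FnSys.pP_add, FnSys.pP_add, FnSys.pP_smul, FnSys.pP_smul, FnSys.pP_smul,
        anti_of_pM hB, anti_of_pM hC]; module
    rw [Q_self_split isCx_J0 CM.posJ0 D, e3, Q_smul_left, Q_smul_right]
    have h3 := posDef_Q hP
    have h4 := CM.Q_pM_self_nonneg D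
    have h5 : 0 < a * (a * Q (pP J0 (U + s • e)) (pP J0 (U + s • e))) := by
      have : 0 < a * a := mul_self_pos.2 ha
      nlinarith
    linarith

theorem Q_inv_anti {U W : L2} (hU : pM J0 U = 0) (hW : pM J0 W = W) : Q U W = 0 := by
  have e := pP_add_pM J0 U
  rw [hU, add_zero] at e
  rw [← e, ← hW]
  exact Q_pP_pM isCx_J0 CM.posJ0 _ _

section
variable {X : Type} [TopologicalSpace X] [ChartedSpace E4 X]

theorem cx_add (α β : HS.Form X 2) (x : X) : cx (fun x => α x + β x) x = cx α x + cx β x := by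
  show cE (bx α x + bx β x) = cE (bx α x) + cE (bx β x)
  exact map_add _ _ _

theorem cx_smul (c : ℝ) (α : HS.Form X 2) (x : X) : cx (fun x => c • α x) x = c • cx α x := by
  show cE (c • bx α x) = c • cE (bx α x)
  exact map_smul _ _ _

theorem quot_add_smul (μ : HS.Form X 4) (α w β : HS.Form X 2) (t : ℝ) (x : X) :
    HS.quot μ (fun x => α x + t • w x) β x = HS.quot μ α β x + t * HS.quot μ w β x := by
  rw [quot_cx, quot_cx, quot_cx, cx_add α (fun x => t • w x), cx_smul, Q_add_left, Q_smul_left]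
  ring

end

section
variable {X : Type} [TopologicalSpace X] [ChartedSpace E4 X] [IsManifold (𝓡 4) ∞ X]
  [CompactSpace X] [T2Space X] {J : EndField X} (A : FinAtlas X J) {om : TwoForm X}

/-- an invariant positive form is positive in the frame -/
theorem fx_posDef (hJ : AlmostComplex J) (hT : Tames om J) {w : TwoForm X}
    (hi : ∀ (x : X) (u v : E4), omv w x (Jat J x u) (Jat J x v) = omv w x u v)
    (hp : ∀ (x : X) (v : E4), v ≠ 0 → 0 < omv w x v (Jat J x v)) (x : X) :
    PosDef J0 (fx A om w x) := by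
  refine ⟨?_, fun v hv => ?_⟩
  · apply ext_ev
    intro v w'
    rw [ev_pull, ev_fx, ev_fx, A.FrI_J om hJ hT, A.FrI_J om hJ hT, hi]
  · rw [ev_fx, A.FrI_J om hJ hT]
    apply hp
    intro h
    apply hv
    rw [← A.Fr_FrI om hJ hT x v, h, map_zero]

end

section
variable {X : Type} [TopologicalSpace X] [ChartedSpace E4 X] [IsManifold (𝓡 4) ∞ X]
  [CompactSpace X] [T2Space X] [Nonempty X] {J : EndField X} {om : TwoForm X}

theorem omv_add_smul (α W : TwoForm X) (c : ℝ) (x : X) (u v : E4) :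
    omv (fun x => α x + c • W x) x u v = omv α x u v + c * omv W x u v := rfl

/-- small perturbations of a taming form are taming -/
theorem exists_tames (A : FinAtlas X J) (hJ : AlmostComplex J) (hS : SmoothForm om) (hC : ClosedForm om)
    (hT : Tames om J) {W : TwoForm X} (sW : SmoothForm W) :
    ∃ t0 : ℝ, 0 ≤ t0 ∧ ∀ t : ℝ, 0 ≤ t → t * t0 < 1 → Tames (fun x => om x + (-t) • W x) J := by
  letI := A.metric
  have hw : fx A om W ∈ (CMA A hJ hS hC hT).Om := fx_mem A hJ hS hC hT sW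
  obtain ⟨t0, h0, ht0⟩ := (CMA A hJ hS hC hT).exists_unit
    ((CMA A hJ hS hC hT).C0.neg_mem ((CMA A hJ hS hC hT).Om_le_C07 hw))
  refine ⟨t0, h0, fun t ht htt => ?_⟩
  suffices key : ∀ (x : X) (v : E4), v ≠ 0 →
      0 < omv (fun x => om x + (-t) • W x) x v (Jat J x v) from fun x v hv => key x v hv
  intro x v hv
  have hv' : A.Fr om x v ≠ 0 := by
    intro h
    apply hv
    have := A.FrI_Fr om hJ hT x v
    rw [h, map_zero] at this
    exact this.symm
  have e1 : ∀ α : TwoForm X, omv α x v (Jat J x v) =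
      ev (fx A om α x) (A.Fr om x v) (T4.app J0 (A.Fr om x v)) := by
    intro α
    rw [ev_fx, A.FrI_J om hJ hT, A.FrI_Fr om hJ hT]
  have e2 : ev (fx A om om x) (A.Fr om x v) (T4.app J0 (A.Fr om x v)) =
      ev F0 (A.Fr om x v) (T4.app J0 (A.Fr om x v)) := by
    have e3 : pP J0 (fx A om om x) = F0 := (CMA A hJ hS hC hT).om_pP x
    rw [← e3, ev_pP isCx_J0]
  rw [omv_add_smul, e1, e1, e2]
  have h1 := ht0 x (A.Fr om x v)
  have h2 : ev ((-(fx A om W)) x) (A.Fr om x v) (T4.app J0 (A.Fr om x v)) =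
      - ev (fx A om W x) (A.Fr om x v) (T4.app J0 (A.Fr om x v)) := ev_neg _ _ _
  rw [h2] at h1
  have h3 : 0 < ev F0 (A.Fr om x v) (T4.app J0 (A.Fr om x v)) := posDef_F0.2 _ hv'
  have h4 := mul_le_mul_of_nonneg_left h1 ht
  have h5 := mul_lt_mul_of_pos_right htt h3
  nlinarith

end

section
variable {X : Type} [TopologicalSpace X] [ChartedSpace E4 X] [IsManifold (𝓡 4) ∞ X]
  [CompactSpace X] [T2Space X] [Nonempty X] {J : EndField X} {om : TwoForm X}

theorem hx_pos (A : FinAtlas X J) (hJ : AlmostComplex J) (hT : Tames om J) {μ : HS.Form X 4}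
    {β : HS.Form X 2} (hb : ∀ x, pM J0 (fx A om β x) = fx A om β x)
    (hp : ∀ x, 0 < HS.quot μ β β x) (x : X) : 0 < hx A om μ x := by
  have h2 := hp x
  rw [quot_eq A hJ hT] at h2
  have h3 : 0 ≤ Q (fx A om β x) (fx A om β x) := by
    rw [← hb x]; exact CM.Q_pM_self_nonneg _
  rcases div_pos_iff.1 h2 with h | h
  · exact h.2
  · exact absurd h.1 (not_lt.2 h3)

theorem pair_expand [MeasurableSpace X] [BorelSpace X] (A : FinAtlas X J) (hJ : AlmostComplex J)
    (hS : SmoothForm om) (hC : ClosedForm om) (hT : Tames om J) {μ : HS.Form X 4}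
    (hμ : HS.Smooth μ) (h0 : ∀ x, 0 < hx A om μ x) {α W : HS.Form X 2} (sα : HS.Smooth α)
    (sW : HS.Smooth W) (c : ℝ) :
    HS.pair μ (fun x => α x + c • W x) (fun x => α x + c • W x) =
      HS.pair μ α α + 2 * c * HS.pair μ α W + c ^ 2 * HS.pair μ W W := by
  letI := A.metric
  have hpr := fun a b => pair_eq A hJ hS hC hT hμ h0 a b
  have mα : fx A om α ∈ (CMA A hJ hS hC hT).C0 :=
    (CMA A hJ hS hC hT).Om_le_C07 (fx_mem A hJ hS hC hT sα)
  have mW : fx A om W ∈ (CMA A hJ hS hC hT).C0 :=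
    (CMA A hJ hS hC hT).Om_le_C07 (fx_mem A hJ hS hC hT sW)
  have f2 : fx A om (fun x => α x + c • W x) = fx A om α + c • fx A om W := by
    rw [fx_add A α (fun x => c • W x), fx_smul]
  have mcW : c • fx A om W ∈ (CMA A hJ hS hC hT).C0 := (CMA A hJ hS hC hT).C0.smul_mem c mW
  have msum : fx A om α + c • fx A om W ∈ (CMA A hJ hS hC hT).C0 :=
    (CMA A hJ hS hC hT).C0.add_mem mα mcW
  rw [hpr, hpr, hpr, hpr, f2, pr_add_left mα mcW msum, pr_add_right mα mcW mα,
    pr_add_right mα mcW mcW, pr_smul_left, pr_smul_right, pr_smul_right, pr_smul_left,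
    pr_comm _ (fx A om W) (fx A om α)]
  ring

end

theorem choose_t (t0 c1 c2 ε : ℝ) (hε : 0 < ε) : ∃ t : ℝ, 0 < t ∧ t * t0 < 1 ∧
    0 < 1 + 2 * (-t) * c1 + (-t) ^ 2 * c2 ∧
    1 - ε < (1 - ε / 2) * (1 + 2 * (-t) * c1 + (-t) ^ 2 * c2) := by
  have f1 : ∀ᶠ t in 𝓝 (0 : ℝ), t * t0 < 1 := by
    have : ContinuousAt (fun t : ℝ => t * t0) 0 := by fun_prop
    exact this.eventually (gt_mem_nhds (by norm_num))
  have f2 : ∀ᶠ t in 𝓝 (0 : ℝ), 0 < 1 + 2 * (-t) * c1 + (-t) ^ 2 * c2 := by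
    have : ContinuousAt (fun t : ℝ => 1 + 2 * (-t) * c1 + (-t) ^ 2 * c2) 0 := by fun_prop
    exact this.eventually (lt_mem_nhds (by norm_num))
  have f3 : ∀ᶠ t in 𝓝 (0 : ℝ), 1 - ε < (1 - ε / 2) * (1 + 2 * (-t) * c1 + (-t) ^ 2 * c2) := by
    have : ContinuousAt (fun t : ℝ => (1 - ε / 2) * (1 + 2 * (-t) * c1 + (-t) ^ 2 * c2)) 0 := by
      fun_prop
    exact this.eventually (lt_mem_nhds (by norm_num; linarith))
  have f4 : ∀ᶠ t in 𝓝[>] (0 : ℝ), 0 < t := self_mem_nhdsWithin
  obtain ⟨t, h4, h1, h2, h3⟩ := (f4.and ((f1.filter_mono nhdsWithin_le_nhds).and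
    ((f2.filter_mono nhdsWithin_le_nhds).and (f3.filter_mono nhdsWithin_le_nhds)))).exists
  exact ⟨t, h4, h1, h2, h3⟩

/-- One exact step of the deformation: `α` is moved in its class to an almost unimodular form
which is pointwise orthogonal to `β` and `γ`. -/
theorem stepE (softK : SoftKStatement) (hcl : ClosedExStatement) {X : Type} [TopologicalSpace X]
    [ChartedSpace E4 X] [IsManifold (𝓡 4) ∞ X] [CompactSpace X] [T2Space X] [Nonempty X]
    [MeasurableSpace X] [BorelSpace X] {μ : HS.Form X 4} (hμ : HS.Volume μ)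
    (hvol : (HS.vol μ univ).toReal = 1 / 2)
    (hb : HS.BPlusLe3 μ) {α β γ : HS.Form X 2} (sα : HS.Smooth α) (cα : HS.Closed α)
    (sβ : HS.Smooth β) (cβ : HS.Closed β) (sγ : HS.Smooth γ) (cγ : HS.Closed γ)
    (hpos : TriPos μ α β γ) (pαα : HS.pair μ α α = 1) (pββ : HS.pair μ β β = 1)
    (pγγ : HS.pair μ γ γ = 1) (pαβ : HS.pair μ α β = 0) (pαγ : HS.pair μ α γ = 0)
    (pβγ : HS.pair μ β γ = 0) {ε : ℝ} (hε : 0 < ε) :
    ∃ θ : HS.Form X 2, HS.Smooth θ ∧ HS.Closed θ ∧ HS.Exact θ ∧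
      (∀ c : HS.Form X 2, HS.Smooth c → HS.Closed c →
        HS.pair μ (fun x => α x + θ x) c = HS.pair μ α c) ∧
      (∀ s ∈ Icc (0 : ℝ) 1, TriPos μ (fun x => α x + s • θ x) β γ) ∧
      (∀ x, 2 * (1 - ε) < HS.quot μ (fun x => α x + θ x) (fun x => α x + θ x) x) ∧
      (∀ x, HS.quot μ (fun x => α x + θ x) β x = 0) ∧
      (∀ x, HS.quot μ (fun x => α x + θ x) γ x = 0) := by
  have hdef := defAt_of_triPos hpos
  set J : EndField X := Jf α β γ with hJdef
  have hJ : AlmostComplex J := Jf_almostComplex hdef sα sβ sγ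
  have hT : Tames α J := Jf_tames hdef
  have hS : SmoothForm α := sα
  have hC : ClosedForm α := cα
  obtain ⟨A⟩ := exists_finAtlas hJ
  letI := A.metric
  -- the positive closed form
  obtain ⟨w, hw, hwc, hwp⟩ := core_of_sys sysStatementB X (CMA A hJ hS hC hT)
  set W : HS.Form X 2 := A.back α w with hWdef
  have sW : HS.Smooth W := back_smooth A hJ hS hC hT hw
  have cW : HS.Closed W := back_closed A hJ hS hC hT hw hwc
  have fW : fx A α W = w := fx_back A hJ hT w
  have Wi : ∀ (x : X) (u v : E4), omv W x (Jat J x u) (Jat J x v) = omv W x u v :=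
    fun x u v => A.back_inv α hJ hT hwp x u v
  have Wp : ∀ (x : X) (v : E4), v ≠ 0 → 0 < omv W x v (Jat J x v) :=
    fun x v hv => A.back_pos α hJ hT hwp x v hv
  have bM0 : ∀ x, pM J0 (fx A α β x) = fx A α β x := fx_anti A hJ hT fun x u v => Jf_anti_B hdef x u v
  have cM0 : ∀ x, pM J0 (fx A α γ x) = fx A α γ x := fx_anti A hJ hT fun x u v => Jf_anti_C hdef x u v
  have wM0 : ∀ x, pM J0 (fx A α W x) = 0 := fun x => by
    rw [fW]; exact pM_of_inv (hwp x).1
  have qWβ : ∀ x, HS.quot μ W β x = 0 := fun x => by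
    rw [quot_eq A hJ hT, Q_inv_anti (wM0 x) (bM0 x), zero_div]
  have qWγ : ∀ x, HS.quot μ W γ x = 0 := fun x => by
    rw [quot_eq A hJ hT, Q_inv_anti (wM0 x) (cM0 x), zero_div]
  obtain ⟨t0, -, hta⟩ := exists_tames A hJ hS hC hT sW
  obtain ⟨t, ht, htt, hs0, hs1⟩ := choose_t t0 (HS.pair μ α W) (HS.pair μ W W) ε hε
  set om : HS.Form X 2 := fun x => α x + (-t) • W x with hom
  have sO : HS.Smooth om := smooth_add sα (smooth_smul sW _)
  have cO : HS.Closed om := closed_add sα (smooth_smul sW _) cα (closed_smul cW _)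
  have hT' : Tames om J := hta t ht.le htt
  have hS' : SmoothForm om := sO
  have hC' : ClosedForm om := cO
  have qOβ : ∀ x, HS.quot μ om β x = HS.quot μ α β x := fun x => by
    rw [hom, quot_add_smul, qWβ, mul_zero, add_zero]
  have qOγ : ∀ x, HS.quot μ om γ x = HS.quot μ α γ x := fun x => by
    rw [hom, quot_add_smul, qWγ, mul_zero, add_zero]
  have pOβ : HS.pair μ om β = 0 := by
    rw [← pαβ]; unfold HS.pair; congr 1; funext x; exact qOβ x
  have pOγ : HS.pair μ om γ = 0 := by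
    rw [← pαγ]; unfold HS.pair; congr 1; funext x; exact qOγ x
  have qββ : ∀ x, 0 < HS.quot μ β β x := fun x => by
    have := hpos x 0 1 0 (Or.inr (Or.inl one_ne_zero))
    linarith
  have hh0 : ∀ x, 0 < hx A α μ x := hx_pos A hJ hT bM0 qββ
  -- the square of the new form
  set σ0 := HS.pair μ om om with hσ0
  have hσ0' : σ0 = 1 + 2 * (-t) * HS.pair μ α W + (-t) ^ 2 * HS.pair μ W W := by
    rw [hσ0, hom, pair_expand A hJ hS hC hT hμ.smooth hh0 sα sW, pαα]
  have hσp : 0 < σ0 := by rw [hσ0']; exact hs0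
  have hσ1 : 1 - ε < (1 - ε / 2) * σ0 := by rw [hσ0']; exact hs1
  -- the new concrete manifold
  set M := CMA A hJ hS' hC' hT' with hM
  set wb := fx A om β with hwb
  set wc := fx A om γ with hwc
  set w0 := fx A om W with hw0
  have hbOm : wb ∈ M.Om := fx_mem A hJ hS' hC' hT' sβ
  have hcOm : wc ∈ M.Om := fx_mem A hJ hS' hC' hT' sγ
  have h0Om : w0 ∈ M.Om := fx_mem A hJ hS' hC' hT' sW
  have hbCl : (⟨wb, hbOm⟩ : M.Om) ∈ M.Cl := fun a => fx_closed A hJ hS' hC' hT' sβ cβ a
  have hcCl : (⟨wc, hcOm⟩ : M.Om) ∈ M.Cl := fun a => fx_closed A hJ hS' hC' hT' sγ cγ a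
  have hbM : ∀ x, pM J0 (wb x) = wb x := fx_anti A hJ hT' (fun x u v => Jf_anti_B hdef x u v)
  have hcM : ∀ x, pM J0 (wc x) = wc x := fx_anti A hJ hT' (fun x u v => Jf_anti_C hdef x u v)
  have hp0 : ∀ x, PosDef J0 (w0 x) := fx_posDef A hJ hT' Wi Wp
  have homM : M.om = fx A om om := rfl
  have hh1 : ∀ x, 0 < hx A om μ x := hx_pos A hJ hT' hbM qββ
  have hpr := fun a b => pair_eq A hJ hS' hC' hT' hμ.smooth hh1 a b
  have pr_ob : M.pr M.om wb = 0 := by rw [← pOβ]; exact (hpr om β).symm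
  have pr_oc : M.pr M.om wc = 0 := by rw [← pOγ]; exact (hpr om γ).symm
  have pr_bc : M.pr wb wc = 0 := by rw [← pβγ]; exact (hpr β γ).symm
  have pr_oo : M.pr M.om M.om = σ0 := (hpr om om).symm
  have pr_bb : M.pr wb wb = 1 := by rw [← pββ]; exact (hpr β β).symm
  have pr_cc : M.pr wc wc = 1 := by rw [← pγγ]; exact (hpr γ γ).symm
  -- the intersection form
  have hL : ∀ c ∈ M.Cl, M.pr M.om (c : X → L2) = 0 → M.pr wb (c : X → L2) = 0 →
      M.pr wc (c : X → L2) = 0 → M.pr (c : X → L2) (c : X → L2) ≤ 0 := by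
    intro c hc h1 h2 h3
    by_contra hcon
    push Not at hcon
    set κ : TwoForm X := A.back om (c : X → L2) with hκ
    have sκ : HS.Smooth κ := back_smooth A hJ hS' hC' hT' c.2
    have cκ : HS.Closed κ := back_closed A hJ hS' hC' hT' c.2 hc
    have fκ : fx A om κ = c := fx_back A hJ hT' c
    have q1 : HS.pair μ om κ = 0 := by rw [hpr, fκ]; exact h1
    have q2 : HS.pair μ β κ = 0 := by rw [hpr, fκ]; exact h2
    have q3 : HS.pair μ γ κ = 0 := by rw [hpr, fκ]; exact h3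
    have q4 : 0 < HS.pair μ κ κ := by rw [hpr, fκ]; exact hcon
    apply hb
    refine ⟨![om, β, γ, κ], ?_, ?_⟩
    · intro i
      fin_cases i
      · exact ⟨sO, cO⟩
      · exact ⟨sβ, cβ⟩
      · exact ⟨sγ, cγ⟩
      · exact ⟨sκ, cκ⟩
    · have e : (Matrix.of fun i j => HS.pair μ ((![om, β, γ, κ] : Fin 4 → HS.Form X 2) i)
          ((![om, β, γ, κ] : Fin 4 → HS.Form X 2) j)) =
          Matrix.diagonal ![σ0, 1, 1, HS.pair μ κ κ] := by
        ext i j
        fin_cases i <;> fin_cases j <;>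
          simp [← hσ0, pββ, pγγ, pOβ, pOγ, pβγ, q1, q2, q3, pair_comm μ β om, pair_comm μ γ om,
            pair_comm μ γ β, pair_comm μ κ om, pair_comm μ κ β, pair_comm μ κ γ]
      rw [e]
      apply Matrix.PosDef.diagonal
      intro i
      fin_cases i
      · exact hσp
      · exact one_pos
      · exact one_pos
      · exact q4
  -- the density
  have hcont := continuous_hx A hJ hS' hT' hμ.smooth
  have hσ : ∫ x, 2 * σ0 * hx A om μ x ∂M.mu = M.pr M.om M.om := by
    rw [pr_oo, integral_const_mul]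
    have := vol_univ A hJ hS' hC' hT' hμ.smooth hh1
    rw [hvol] at this
    have e : ∫ x, hx A om μ x ∂M.mu = 1 / 2 := this.symm
    rw [e]; ring
  obtain ⟨e, heEx, he⟩ := exactCM softK hcl X M wb wc w0 hbOm hcOm h0Om hbCl hcCl hbM hcM pr_ob
    pr_oc pr_bc (by rw [pr_bb]; exact one_pos) (by rw [pr_cc]; exact one_pos) hL
    (fun x => 2 * σ0 * hx A om μ x) (continuous_const.mul hcont)
    (fun x => by have := hh1 x; positivity) hσ hp0 t ht (ε / 2) (by positivity)
  set θ : HS.Form X 2 := A.back om (e : X → L2) with hθ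
  have fθ : fx A om θ = e := fx_back A hJ hT' e
  have heCl : e ∈ M.Cl := M.Ex_le_Cl heEx
  have sθ : HS.Smooth θ := back_smooth A hJ hS' hC' hT' e.2
  have cθ : HS.Closed θ := back_closed A hJ hS' hC' hT' e.2 heCl
  have fα : ∀ x, fx A om α x = M.om x + t • w0 x := by
    have h1 := fx_add (om := om) A α (fun x => (-t) • W x)
    rw [fx_smul] at h1
    intro x
    have h2 := congrFun h1 x
    have h3 : M.om x = fx A om α x + (-t) • w0 x := h2
    rw [h3]; module
  have f1 : ∀ x, fx A om (fun x => α x + θ x) x = M.om x + t • w0 x + (e : X → L2) x := by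
    intro x
    rw [fx_add, fθ, ← fα]; rfl
  refine ⟨θ, sθ, cθ, exact_of_Ex A hJ hS' hC' hT' e heEx, ?_, ?_, ?_, ?_, ?_⟩
  · intro c sc cc
    have h1 : fx A om c ∈ M.Om := fx_mem A hJ hS' hC' hT' sc
    have h2 : (⟨fx A om c, h1⟩ : M.Om) ∈ M.Cl := fun a => fx_closed A hJ hS' hC' hT' sc cc a
    have h3 : M.pr (e : X → L2) (fx A om c) = 0 := M.stokesX heEx h2
    have h4 : fx A om α ∈ M.Om := fx_mem A hJ hS' hC' hT' sα
    rw [hpr, hpr, fx_add, fθ, pr_add_left (M.Om_le_C07 h4) (M.Om_le_C07 e.2) (M.Om_le_C07 h1), h3,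
      add_zero]
  · intro s hs x a b c habc
    have f2 : fx A om (fun x => α x + s • θ x) x =
        (M.om x + t • w0 x) + s • (e : X → L2) x := by
      have := fx_add (om := om) A α (fun x => s • θ x)
      rw [fx_smul, fθ] at this
      rw [← fα]
      exact congrFun this x
    have hU0 : PosDef J0 (pP J0 (M.om x + t • w0 x)) := by
      have e1 : pP J0 (M.om x + t • w0 x) = F0 + t • w0 x := by
        rw [FnSys.pP_add, FnSys.pP_smul, M.om_pP, pP_of_inv (hp0 x).1]
      rw [e1]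
      exact posDef_add posDef_F0 (G7.cone_smul ht.le (hp0 x).cone)
    have hU1 : PosDef J0 (pP J0 (M.om x + t • w0 x + (e : X → L2) x)) := by
      rw [pP_of_inv (he x).2.1.1]; exact (he x).2.1
    have h1 := frame_triE hU0 hU1 (hbM x) (hcM x) (fun b c hbc => by
      have h2 := hpos x 0 b c (Or.inr hbc)
      simp only [quot_eq A hJ hT'] at h2
      have h3 : 0 < (Q (b • wb x + c • wc x) (b • wb x + c • wc x)) / hx A om μ x := by
        have e1 : Q (b • wb x + c • wc x) (b • wb x + c • wc x) =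
            b ^ 2 * Q (wb x) (wb x) + c ^ 2 * Q (wc x) (wc x) + 2 * b * c * Q (wb x) (wc x) := by
          simp only [Q_add_left, Q_add_right, Q_smul_left, Q_smul_right, Q_comm (wc x) (wb x)]
          ring
        rw [e1, add_div, add_div]
        have := hh1 x
        convert h2 using 1
        ring
      exact (div_pos_iff_of_pos_right (hh1 x)).1 h3) hs a b c habc
    simp only [quot_eq A hJ hT', f2]
    rw [Q_comb] at h1
    have h3 := div_pos h1 (hh1 x)
    simp only [← hwb, ← hwc]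
    rw [div_comb]
    exact h3
  · intro x
    rw [quot_eq A hJ hT', f1, lt_div_iff₀ (hh1 x)]
    have h1 := (he x).2.2
    have h2 : 2 * (1 - ε) * hx A om μ x ≤ (1 - ε / 2) * (2 * σ0 * hx A om μ x) := by
      have h3 := mul_le_mul_of_nonneg_right hσ1.le (hh1 x).le
      nlinarith
    linarith
  · intro x
    rw [quot_eq A hJ hT', f1, Q_inv_anti (he x).1 (hbM x), zero_div]
  · intro x
    rw [quot_eq A hJ hT', f1, Q_inv_anti (he x).1 (hcM x), zero_div]

end Vale.Agent.P247.SCY
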