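import Vale.Agent.P247.SCY.MFD8

/-!
# P247, soft Calabi-Yau: the deformation
-/

set_option linter.all false

open scoped BigOperators ContDiff Topology Manifold ENNReal
open Set MeasureTheory

namespace Vale.Agent.P247.SCY
open Vale.Agent.P204 Vale.Agent.P204.T4 Vale.Agent.P204.Mfd Vale.Agent.P204.GX

/-- the cut-off functions of the three steps -/
noncomputable def chit (i : Fin 3) (t : ℝ) : ℝ := Real.smoothTransition (3 * t - (i : ℕ))

theorem chit_smooth (i : Fin 3) : ContDiff ℝ ∞ (chit i) := by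
  unfold chit
  exact Real.smoothTransition.contDiff.comp (by fun_prop)

theorem chit_mem (i : Fin 3) (t : ℝ) : chit i t ∈ Icc (0 : ℝ) 1 :=
  ⟨Real.smoothTransition.nonneg _, Real.smoothTransition.le_one _⟩

theorem chit_zero (i : Fin 3) {t : ℝ} (h : 3 * t ≤ (i : ℕ)) : chit i t = 0 :=
  Real.smoothTransition.zero_of_nonpos (by linarith)

theorem chit_one (i : Fin 3) {t : ℝ} (h : (i : ℕ) + 1 ≤ 3 * t) : chit i t = 1 :=
  Real.smoothTransition.one_of_one_le (by linarith)

section
variable {X : Type} [TopologicalSpace X] [ChartedSpace E4 X]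

/-- the family of triples -/
noncomputable def fam (w θ : Fin 3 → HS.Form X 2) (t : ℝ) (i : Fin 3) : HS.Form X 2 :=
  fun x => w i x + chit i t • θ i x

theorem fam_tri {μ : HS.Form X 4} {w θ : Fin 3 → HS.Form X 2}
    (h0 : ∀ s ∈ Icc (0 : ℝ) 1, TriPos μ (fun x => w 0 x + s • θ 0 x) (w 1) (w 2))
    (h1 : ∀ s ∈ Icc (0 : ℝ) 1,
      TriPos μ (fun x => w 0 x + θ 0 x) (fun x => w 1 x + s • θ 1 x) (w 2))
    (h2 : ∀ s ∈ Icc (0 : ℝ) 1, TriPos μ (fun x => w 0 x + θ 0 x) (fun x => w 1 x + θ 1 x)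
        (fun x => w 2 x + s • θ 2 x)) (t : ℝ) :
    TriPos μ (fam w θ t 0) (fam w θ t 1) (fam w θ t 2) := by
  have z : ∀ i, chit i t = 0 → fam w θ t i = w i := by
    intro i hi
    funext x
    show w i x + chit i t • θ i x = w i x
    rw [hi, zero_smul, add_zero]
  have o : ∀ i, chit i t = 1 → fam w θ t i = fun x => w i x + θ i x := by
    intro i hi
    funext x
    show w i x + chit i t • θ i x = w i x + θ i x
    rw [hi, one_smul]
  rcases le_or_gt (3 * t) 1 with ht | ht
  · rw [z 1 (chit_zero 1 (by simpa using ht)), z 2 (chit_zero 2 (by norm_num; linarith))]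
    exact h0 _ (chit_mem 0 t)
  · rcases le_or_gt (3 * t) 2 with ht' | ht'
    · rw [o 0 (chit_one 0 (by norm_num; linarith)), z 2 (chit_zero 2 (by norm_num; linarith))]
      exact h1 _ (chit_mem 1 t)
    · rw [o 0 (chit_one 0 (by norm_num; linarith)), o 1 (chit_one 1 (by norm_num; linarith))]
      exact h2 _ (chit_mem 2 t)

theorem fam_deformation {μ : HS.Form X 4} {w θ : Fin 3 → HS.Form X 2}
    (hw : HS.Hypersymplectic μ w)
    (hθ : ∀ i, HS.Smooth (θ i) ∧ HS.Closed (θ i) ∧ HS.Exact (θ i))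
    (h0 : ∀ s ∈ Icc (0 : ℝ) 1, TriPos μ (fun x => w 0 x + s • θ 0 x) (w 1) (w 2))
    (h1 : ∀ s ∈ Icc (0 : ℝ) 1,
      TriPos μ (fun x => w 0 x + θ 0 x) (fun x => w 1 x + s • θ 1 x) (w 2))
    (h2 : ∀ s ∈ Icc (0 : ℝ) 1, TriPos μ (fun x => w 0 x + θ 0 x) (fun x => w 1 x + θ 1 x)
        (fun x => w 2 x + s • θ 2 x)) : HS.Deformation μ w (fam w θ) where
  smooth := by
    intro i e he
    have e1 : (fun p : ℝ × E4 => HS.loc e (fam w θ p.1 i) p.2) =
        fun p => HS.loc e (w i) p.2 + chit i p.1 • HS.loc e (θ i) p.2 := by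
      funext p
      have h3 := congrFun (loc_add' e (w i) (fun x => chit i p.1 • θ i x)) p.2
      have h4 := congrFun (loc_smul' e (chit i p.1) (θ i)) p.2
      rw [h4] at h3
      exact h3
    rw [e1]
    have h3 : ContDiffOn ℝ ∞ (fun p : ℝ × E4 => HS.loc e (w i) p.2) (univ ×ˢ e.target) :=
      (hw.smooth i e he).comp contDiff_snd.contDiffOn (fun p hp => hp.2)
    have h4 : ContDiffOn ℝ ∞ (fun p : ℝ × E4 => HS.loc e (θ i) p.2) (univ ×ˢ e.target) :=
      ((hθ i).1 e he).comp contDiff_snd.contDiffOn (fun p hp => hp.2)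
    have h5 : ContDiffOn ℝ ∞ (fun p : ℝ × E4 => chit i p.1) (univ ×ˢ e.target) :=
      ((chit_smooth i).comp contDiff_fst).contDiffOn
    exact h3.add (h5.smul h4)
  hyper := by
    intro t _
    refine ⟨fun i => smooth_add (hw.smooth i) (smooth_smul (hθ i).1 _), fun i =>
      closed_add (hw.smooth i) (smooth_smul (hθ i).1 _) (hw.closed i) (closed_smul (hθ i).2.1 _), ?_⟩
    exact posDef_of_tri (fam_tri h0 h1 h2 t)
  start := by
    funext i x
    show w i x + chit i 0 • θ i x = w i x
    rw [chit_zero i (by simp), zero_smul, add_zero]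
  exact := by
    intro t i
    have : (fun x => fam w θ t i x - w i x) = fun x => chit i t • θ i x := by
      funext x
      show w i x + chit i t • θ i x - w i x = chit i t • θ i x
      rw [add_sub_cancel_left]
    rw [this]
    exact exact_smul (hθ i).2.2 _

theorem fam_one (w θ : Fin 3 → HS.Form X 2) (i : Fin 3) :
    fam w θ 1 i = fun x => w i x + θ i x := by
  funext x
  show w i x + chit i 1 • θ i x = w i x + θ i x
  rw [chit_one i (by fin_cases i <;> norm_num), one_smul]

end

/-- entrywise closeness gives a matrix bound -/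
theorem posDef_sub {M : Matrix (Fin 3) (Fin 3) ℝ} (hM : M.IsHermitian) {δ ε : ℝ} (hδ : 3 * δ ≤ ε)
    (hd : ∀ i, 1 - δ < M i i) (ho : ∀ i j, i ≠ j → |M i j| < δ) :
    (M - (1 - ε) • (1 : Matrix (Fin 3) (Fin 3) ℝ)).PosDef := by
  refine Matrix.PosDef.of_dotProduct_mulVec_pos ?_ fun v hv => ?_
  · exact hM.sub (by
      ext i j
      simp only [Matrix.conjTranspose_apply, Matrix.smul_apply, star_trivial, Matrix.one_apply,
        eq_comm])
  · have e : star v ⬝ᵥ (M - (1 - ε) • (1 : Matrix (Fin 3) (Fin 3) ℝ)).mulVec v =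
        (M 0 0 - (1 - ε)) * v 0 ^ 2 + (M 1 1 - (1 - ε)) * v 1 ^ 2 + (M 2 2 - (1 - ε)) * v 2 ^ 2 +
          (M 0 1 + M 1 0) * (v 0 * v 1) + (M 0 2 + M 2 0) * (v 0 * v 2) +
            (M 1 2 + M 2 1) * (v 1 * v 2) := by
      simp [dotProduct, Matrix.mulVec, Fin.sum_univ_three]
      ring
    rw [e]
    have s01 : M 1 0 = M 0 1 := by simpa using hM.apply 0 1
    have s02 : M 2 0 = M 0 2 := by simpa using hM.apply 0 2
    have s12 : M 2 1 = M 1 2 := by simpa using hM.apply 1 2
    rw [s01, s02, s12]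
    have hpos : 0 < v 0 ^ 2 + v 1 ^ 2 + v 2 ^ 2 := by
      by_contra hcon
      push Not at hcon
      apply hv
      funext i
      have h0 : v 0 = 0 := by nlinarith only [hcon, sq_nonneg (v 0), sq_nonneg (v 1), sq_nonneg (v 2)]
      have h1 : v 1 = 0 := by nlinarith only [hcon, sq_nonneg (v 0), sq_nonneg (v 1), sq_nonneg (v 2)]
      have h2 : v 2 = 0 := by nlinarith only [hcon, sq_nonneg (v 0), sq_nonneg (v 1), sq_nonneg (v 2)]
      fin_cases i
      · exact h0
      · exact h1
      · exact h2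
    have key : ∀ (m a b : ℝ), |m| < δ → -(δ * (a ^ 2 + b ^ 2)) ≤ (m + m) * (a * b) := by
      intro m a b hm
      have h1 := abs_lt.1 hm
      nlinarith only [h1.1, h1.2, sq_nonneg (a + b), sq_nonneg (a - b)]
    have k1 := key _ (v 0) (v 1) (ho 0 1 (by decide))
    have k2 := key _ (v 0) (v 2) (ho 0 2 (by decide))
    have k3 := key _ (v 1) (v 2) (ho 1 2 (by decide))
    have d0 := hd 0
    have d1 := hd 1
    have d2 := hd 2
    have l : ∀ (m a : ℝ), 1 - δ < m → 0 < a → 2 * δ * a < (m - (1 - ε)) * a := by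
      intro m a hm ha
      apply mul_lt_mul_of_pos_right _ ha
      linarith
    have l' : ∀ (m a : ℝ), 1 - δ < m → 2 * δ * a ^ 2 ≤ (m - (1 - ε)) * a ^ 2 := by
      intro m a hm
      apply mul_le_mul_of_nonneg_right _ (sq_nonneg a)
      linarith
    -- strictness
    have hsome : v 0 ≠ 0 ∨ v 1 ≠ 0 ∨ v 2 ≠ 0 := by
      by_contra hcon
      push Not at hcon
      rw [hcon.1, hcon.2.1, hcon.2.2] at hpos
      simp at hpos
    have m0 := l' _ (v 0) d0
    have m1 := l' _ (v 1) d1
    have m2 := l' _ (v 2) d2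
    rcases hsome with h | h | h
    · have := l _ (v 0 ^ 2) d0 (by positivity)
      linarith
    · have := l _ (v 1 ^ 2) d1 (by positivity)
      linarith
    · have := l _ (v 2 ^ 2) d2 (by positivity)
      linarith

theorem int_aux {Y : Type*} [MeasurableSpace Y] {ν : Measure Y} [IsFiniteMeasure ν] {f : Y → ℝ}
    (hf : Integrable f ν) (h1 : ∫ x, f x ∂ν = 1) (hr : ν.real univ = 1 / 2) (δ : ℝ) :
    ∫ x, (f x / 2 - 1 + 2 * δ) ∂ν = δ := by
  have a1 : Integrable (fun x => f x / 2) ν := hf.div_const 2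
  have a2 : Integrable (fun x => f x / 2 - 1) ν := a1.sub (integrable_const _)
  rw [integral_add a2 (integrable_const _), integral_sub a1 (integrable_const _), integral_div, h1,
    integral_const, integral_const, hr]
  simp only [smul_eq_mul]
  ring

/-- **The main theorem, from the soft Calabi-Yau theorem.** -/
theorem final_of_soft (soft : SoftStatement') {X : Type} [TopologicalSpace X] [ChartedSpace E4 X]
    [IsManifold (𝓡 4) ∞ X] [CompactSpace X] [T2Space X] [Nonempty X] [MeasurableSpace X]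
    [BorelSpace X] {μ : HS.Form X 4} (hμ : HS.Volume μ) (hvol : HS.vol μ univ = 1 / 2)
    (hb : HS.BPlusLe3 μ) {w : Fin 3 → HS.Form X 2} (hw : HS.Hypersymplectic μ w)
    (hn : HS.Normalized μ w) {ε : ℝ} (hε : 0 < ε) :
    ∃ W : ℝ → Fin 3 → HS.Form X 2, HS.Deformation μ w W ∧
      (∀ x, (HS.Qm μ (W 1) x - (1 - ε) • (1 : Matrix (Fin 3) (Fin 3) ℝ)).PosDef) ∧
      (∀ x i j, i ≠ j → |HS.Qm μ (W 1) x i j| < ε) ∧
      ∀ i j, ∫ x, |(HS.Qm μ (W 1) x - 1) i j| ∂(HS.vol μ) < ε := by
  have hvol' : (HS.vol μ univ).toReal = 1 / 2 := by rw [hvol]; simp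
  haveI : IsFiniteMeasure (HS.vol μ) := ⟨by rw [hvol]; simp⟩
  set δ := ε / 3 with hδ
  have hδ0 : 0 < δ := by positivity
  obtain ⟨θ, hθ, h0, h1, h2, hn1, hd, ho⟩ := three soft hμ hvol' hb hw hn hδ0
  have hdiag : ∀ x i, 1 - δ < HS.Qm μ (fam w θ 1) x i i := by
    intro x i
    show 1 - δ < HS.quot μ (fam w θ 1 i) (fam w θ 1 i) x / 2
    rw [fam_one]
    have := hd i x
    linarith
  have hoff : ∀ x i j, i ≠ j → |HS.Qm μ (fam w θ 1) x i j| < δ / 2 := by
    intro x i j hij
    show |HS.quot μ (fam w θ 1 i) (fam w θ 1 j) x / 2| < δ / 2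
    rw [fam_one, fam_one, abs_div, abs_two]
    have := ho i j hij x
    linarith
  refine ⟨fam w θ, fam_deformation hw hθ h0 h1 h2, fun x => ?_, fun x i j hij => ?_, fun i j => ?_⟩
  · exact posDef_sub (qm_hermitian _ _ _) (δ := δ) (by linarith) (hdiag x)
      fun i j hij => (hoff x i j hij).trans (by linarith)
  · exact (hoff x i j hij).trans (by linarith)
  · have hreal : (HS.vol μ).real univ = 1 / 2 := hvol'
    rcases eq_or_ne i j with rfl | hij
    · have e1 : ∀ x, (HS.Qm μ (fam w θ 1) x - 1) i i =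
          HS.quot μ (fun x => w i x + θ i x) (fun x => w i x + θ i x) x / 2 - 1 := by
        intro x
        show HS.quot μ (fam w θ 1 i) (fam w θ 1 i) x / 2 - (1 : Matrix (Fin 3) (Fin 3) ℝ) i i = _
        rw [fam_one, Matrix.one_apply_eq]
      have hint : Integrable (fun x =>
          HS.quot μ (fun x => w i x + θ i x) (fun x => w i x + θ i x) x) (HS.vol μ) := by
        by_contra hcon
        have h3 := hn1 i
        unfold HS.pair at h3
        rw [integral_undef hcon] at h3
        exact zero_ne_one h3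
      have hle : ∀ x, |(HS.Qm μ (fam w θ 1) x - 1) i i| ≤
          HS.quot μ (fun x => w i x + θ i x) (fun x => w i x + θ i x) x / 2 - 1 + 2 * δ := by
        intro x
        rw [e1]
        have := hd i x
        rw [abs_le]
        constructor <;> linarith
      have hint2 : Integrable (fun x =>
          HS.quot μ (fun x => w i x + θ i x) (fun x => w i x + θ i x) x / 2 - 1 + 2 * δ)
          (HS.vol μ) := ((hint.div_const 2).sub (integrable_const _)).add (integrable_const _)
      have h4 : ∫ x, |(HS.Qm μ (fam w θ 1) x - 1) i i| ∂(HS.vol μ) ≤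
          ∫ x, (HS.quot μ (fun x => w i x + θ i x) (fun x => w i x + θ i x) x / 2 - 1 + 2 * δ)
            ∂(HS.vol μ) :=
        integral_mono_of_nonneg (Filter.Eventually.of_forall fun x => abs_nonneg _) hint2
          (Filter.Eventually.of_forall hle)
      have h5 : ∫ x, (HS.quot μ (fun x => w i x + θ i x) (fun x => w i x + θ i x) x / 2 - 1 + 2 * δ)
            ∂(HS.vol μ) = δ := int_aux hint (hn1 i) hreal δ
      linarith
    · have hle : ∀ x, ‖|(HS.Qm μ (fam w θ 1) x - 1) i j|‖ ≤ δ / 2 := by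
        intro x
        have e1 : (HS.Qm μ (fam w θ 1) x - 1) i j = HS.Qm μ (fam w θ 1) x i j := by
          rw [Matrix.sub_apply, Matrix.one_apply_ne hij, sub_zero]
        rw [e1, Real.norm_eq_abs, abs_abs]
        exact (hoff x i j hij).le
      have h4 := norm_integral_le_of_norm_le_const (μ := HS.vol μ)
        (Filter.Eventually.of_forall hle)
      rw [hreal] at h4
      have h5 := le_trans (le_abs_self _) h4
      linarith

end Vale.Agent.P247.SCY
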