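import Vale.Agent.P247.SCY.EXM1
import Vale.Agent.P247.SCY.MFD9

/-!
# P247, exact orthogonality: the three exact steps and the deformation
-/

set_option linter.all false

open scoped BigOperators ContDiff Topology Manifold ENNReal
open Set MeasureTheory

namespace Vale.Agent.P247.SCY
open Vale.Agent.P204 Vale.Agent.P204.T4 Vale.Agent.P204.Mfd Vale.Agent.P204.GX

/-- the result of the three exact steps -/
theorem threeE (softK : SoftKStatement) (hcl : ClosedExStatement) {X : Type} [TopologicalSpace X]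
    [ChartedSpace E4 X] [IsManifold (𝓡 4) ∞ X] [CompactSpace X] [T2Space X] [Nonempty X]
    [MeasurableSpace X] [BorelSpace X] {μ : HS.Form X 4} (hμ : HS.Volume μ)
    (hvol : (HS.vol μ univ).toReal = 1 / 2)
    (hb : HS.BPlusLe3 μ) {w : Fin 3 → HS.Form X 2} (hw : HS.Hypersymplectic μ w)
    (hn : HS.Normalized μ w) {ε : ℝ} (hε : 0 < ε) :
    ∃ θ : Fin 3 → HS.Form X 2, (∀ i, HS.Smooth (θ i) ∧ HS.Closed (θ i) ∧ HS.Exact (θ i)) ∧
      (∀ s ∈ Icc (0 : ℝ) 1, TriPos μ (fun x => w 0 x + s • θ 0 x) (w 1) (w 2)) ∧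
      (∀ s ∈ Icc (0 : ℝ) 1, TriPos μ (fun x => w 0 x + θ 0 x) (fun x => w 1 x + s • θ 1 x) (w 2)) ∧
      (∀ s ∈ Icc (0 : ℝ) 1, TriPos μ (fun x => w 0 x + θ 0 x) (fun x => w 1 x + θ 1 x)
        (fun x => w 2 x + s • θ 2 x)) ∧
      (∀ i, HS.pair μ (fun x => w i x + θ i x) (fun x => w i x + θ i x) = 1) ∧
      (∀ i x, 2 * (1 - ε) < HS.quot μ (fun x => w i x + θ i x) (fun x => w i x + θ i x) x) ∧
      (∀ i j, i ≠ j → ∀ x, HS.quot μ (fun x => w i x + θ i x) (fun x => w j x + θ j x) x = 0) := by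
  have n00 : HS.pair μ (w 0) (w 0) = 1 := by simpa using hn 0 0
  have n11 : HS.pair μ (w 1) (w 1) = 1 := by simpa using hn 1 1
  have n22 : HS.pair μ (w 2) (w 2) = 1 := by simpa using hn 2 2
  have n01 : HS.pair μ (w 0) (w 1) = 0 := by simpa using hn 0 1
  have n02 : HS.pair μ (w 0) (w 2) = 0 := by simpa using hn 0 2
  have n12 : HS.pair μ (w 1) (w 2) = 0 := by simpa using hn 1 2
  have s0 := hw.smooth 0
  have s1 := hw.smooth 1
  have s2 := hw.smooth 2
  have c0 := hw.closed 0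
  have c1 := hw.closed 1
  have c2 := hw.closed 2
  have t0 : TriPos μ (w 0) (w 1) (w 2) := tri_of_posDef hw.posDef
  obtain ⟨θ0, sθ0, cθ0, e0, p0, q0, d0, x01, x02⟩ := stepE softK hcl hμ hvol hb s0 c0 s1 c1 s2 c2
    t0 n00 n11 n22 n01 n02 n12 hε
  set v0 : HS.Form X 2 := fun x => w 0 x + θ0 x with hv0
  have sv0 : HS.Smooth v0 := smooth_add s0 sθ0
  have cv0 : HS.Closed v0 := closed_add s0 sθ0 c0 cθ0
  have m00 : HS.pair μ v0 v0 = 1 := by rw [p0 v0 sv0 cv0, pair_comm, p0 _ s0 c0, n00]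
  have m01 : HS.pair μ v0 (w 1) = 0 := by rw [p0 _ s1 c1, n01]
  have m02 : HS.pair μ v0 (w 2) = 0 := by rw [p0 _ s2 c2, n02]
  have t1 : TriPos μ v0 (w 1) (w 2) := by
    have := q0 1 (by norm_num)
    simpa only [one_smul] using this
  obtain ⟨θ1, sθ1, cθ1, e1, p1, q1, d1, x10, x12⟩ := stepE softK hcl hμ hvol hb s1 c1 sv0 cv0 s2
    c2 t1.swap n11 m00 n22 (by rw [pair_comm, m01]) n12 m02 hε
  set v1 : HS.Form X 2 := fun x => w 1 x + θ1 x with hv1
  have sv1 : HS.Smooth v1 := smooth_add s1 sθ1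
  have cv1 : HS.Closed v1 := closed_add s1 sθ1 c1 cθ1
  have m11 : HS.pair μ v1 v1 = 1 := by rw [p1 v1 sv1 cv1, pair_comm, p1 _ s1 c1, n11]
  have m10 : HS.pair μ v1 v0 = 0 := by rw [p1 _ sv0 cv0, pair_comm, m01]
  have m12 : HS.pair μ v1 (w 2) = 0 := by rw [p1 _ s2 c2, n12]
  have t2 : TriPos μ v1 v0 (w 2) := by
    have := q1 1 (by norm_num)
    simpa only [one_smul] using this
  have t2' : TriPos μ (w 2) v0 v1 := t2.swap.rot
  obtain ⟨θ2, sθ2, cθ2, e2, p2, q2, d2, x20, x21⟩ := stepE softK hcl hμ hvol hb s2 c2 sv0 cv0 sv1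
    cv1 t2' n22 m00 m11 (by rw [pair_comm, m02]) (by rw [pair_comm, m12]) (by rw [pair_comm, m10])
    hε
  set v2 : HS.Form X 2 := fun x => w 2 x + θ2 x with hv2
  have sv2 : HS.Smooth v2 := smooth_add s2 sθ2
  have cv2 : HS.Closed v2 := closed_add s2 sθ2 c2 cθ2
  have m22 : HS.pair μ v2 v2 = 1 := by rw [p2 v2 sv2 cv2, pair_comm, p2 _ s2 c2, n22]
  refine ⟨![θ0, θ1, θ2], ?_, q0, ?_, ?_, ?_, ?_, ?_⟩
  · intro i
    fin_cases i
    · exact ⟨sθ0, cθ0, e0⟩
    · exact ⟨sθ1, cθ1, e1⟩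
    · exact ⟨sθ2, cθ2, e2⟩
  · intro s hs
    exact (q1 s hs).swap
  · intro s hs
    exact (q2 s hs).rot.rot
  · intro i
    fin_cases i
    · exact m00
    · exact m11
    · exact m22
  · intro i
    fin_cases i
    · exact d0
    · exact d1
    · exact d2
  · intro i j hij
    fin_cases i <;> fin_cases j
    · exact absurd rfl hij
    · intro x
      have := x10 x
      rw [quot_comm] at this
      exact this
    · intro x
      have := x20 x
      rw [quot_comm] at this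
      exact this
    · exact x10
    · exact absurd rfl hij
    · intro x
      have := x21 x
      rw [quot_comm] at this
      exact this
    · exact x20
    · exact x21
    · exact absurd rfl hij

end Vale.Agent.P247.SCY
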