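import Vale.Agent.P247.SCY.EXM2

/-!
# P247, exact orthogonality: changing the volume form
-/

set_option linter.all false

open scoped BigOperators ContDiff Topology Manifold ENNReal
open Set MeasureTheory

namespace Vale.Agent.P247.SCY
open Vale.Agent.P204 Vale.Agent.P204.T4 Vale.Agent.P204.Mfd Vale.Agent.P204.GX

section
variable {X : Type} [TopologicalSpace X] [ChartedSpace E4 X]

/-- the volume form `f μ` -/
noncomputable def smulV (f : X → ℝ) (μ : HS.Form X 4) : HS.Form X 4 := fun x => f x • μ x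

theorem ax_smulV (f : X → ℝ) (μ : HS.Form X 4) (x : X) : ax (smulV f μ) x = f x • ax μ x := rfl

theorem quot_smulV (f : X → ℝ) (μ : HS.Form X 4) (α β : HS.Form X 2) (x : X) :
    HS.quot (smulV f μ) α β x = HS.quot μ α β x / f x := by
  rw [quot_cx, quot_cx, ax_smulV]
  show (f x * ax μ x HS.bas)⁻¹ * _ = _
  rw [mul_inv]
  ring

theorem top_compE (A : E4 [⋀^Fin 4]→L[ℝ] ℝ) (L : E4 →L[ℝ] E4) :
    (A.compContinuousLinearMap L) HS.bas = det4 (mat L) * A HS.bas := by
  have h := top_comp A (L.comp (toE : V4 →L[ℝ] E4))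
  have e : (A.compContinuousLinearMap L) HS.bas = A (fun i => (L.comp (toE : V4 →L[ℝ] E4)) (eb i)) := by
    rw [ContinuousAlternatingMap.compContinuousLinearMap_apply]
    have h2 : ∀ i, L (HS.bas i) = L (toE (eb i)) := fun i => by rw [toE_eb]
    exact congrArg A (funext h2)
  rw [e, h]
  rfl

variable [IsManifold (𝓡 4) ∞ X]

theorem quot_loc (μ : HS.Form X 4) (α β : HS.Form X 2) {e : OpenPartialHomeomorph X E4}
    (he : e ∈ atlas E4 X) {y : E4} (hy : y ∈ e.target) :
    HS.quot μ α β (e.symm y) = Q (cE (HS.loc e α y)) (cE (HS.loc e β y)) / HS.loc e μ y HS.bas := by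
  have h1 : HS.loc e μ y HS.bas = det4 (mat (dsym e y)) * ax μ (e.symm y) HS.bas :=
    top_compE (ax μ (e.symm y)) (dsym e y)
  have h2 : cE (HS.loc e α y) = pull (mat (dsym e y)) (cx α (e.symm y)) := cE_pullForm α e y
  have h3 : cE (HS.loc e β y) = pull (mat (dsym e y)) (cx β (e.symm y)) := cE_pullForm β e y
  rw [h1, h2, h3, Q_pull, quot_cx, mul_div_mul_left _ _ (mat_dsym he hy).2.2, div_eq_inv_mul]

/-- `quot` of smooth forms is smooth in charts -/
theorem quot_smooth {μ : HS.Form X 4} (hμ : HS.Volume μ) {α β : HS.Form X 2} (sα : HS.Smooth α)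
    (sβ : HS.Smooth β) {e : OpenPartialHomeomorph X E4} (he : e ∈ atlas E4 X) :
    ContDiffOn ℝ ∞ (fun y => HS.quot μ α β (e.symm y)) e.target := by
  have hne : ∀ y ∈ e.target, HS.loc e μ y HS.bas ≠ 0 := by
    intro y hy h0
    have h1 : HS.loc e μ y HS.bas = det4 (mat (dsym e y)) * ax μ (e.symm y) HS.bas :=
      top_compE (ax μ (e.symm y)) (dsym e y)
    rw [h1] at h0
    rcases mul_eq_zero.1 h0 with h | h
    · exact (mat_dsym he hy).2.2 h
    · apply hμ.ne_zero (e.symm y)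
      have h2 := AlternatingMap.eq_smul_basis_det bE (ax μ (e.symm y)).toAlternatingMap
      have h4 : (fun i => bE i) = HS.bas := funext bE_apply
      have h5 : (ax μ (e.symm y)).toAlternatingMap (⇑bE) = 0 := by
        rw [show (⇑bE : Fin 4 → E4) = HS.bas from h4]; exact h
      rw [h5, zero_smul] at h2
      have h6 : ax μ (e.symm y) = 0 := by
        ext v
        exact congrArg (fun f => f v) h2
      exact h6
  have h1 : ContDiffOn ℝ ∞ (fun y => Q (cE (HS.loc e α y)) (cE (HS.loc e β y))) e.target := by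
    intro y hy
    have a1 := contDiffAt_cE_iff.2 ((sα e he y hy).contDiffAt (e.open_target.mem_nhds hy))
    have a2 := contDiffAt_cE_iff.2 ((sβ e he y hy).contDiffAt (e.open_target.mem_nhds hy))
    have b1 : ∀ i, ContDiffAt ℝ ∞ (fun y => cE (HS.loc e α y) i) y := fun i => contDiffAt_pi.1 a1 i
    have b2 : ∀ i, ContDiffAt ℝ ∞ (fun y => cE (HS.loc e β y) i) y := fun i => contDiffAt_pi.1 a2 i
    have : ContDiffAt ℝ ∞ (fun y => Q (cE (HS.loc e α y)) (cE (HS.loc e β y))) y := by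
      unfold Q
      fun_prop (disch := assumption)
    exact this.contDiffWithinAt
  have h2 : ContDiffOn ℝ ∞ (fun y => HS.loc e μ y HS.bas) e.target := by
    intro y hy
    exact ((ContinuousAlternatingMap.apply ℝ E4 ℝ HS.bas).contDiff.contDiffAt.comp y
      ((hμ.smooth e he y hy).contDiffAt (e.open_target.mem_nhds hy))).contDiffWithinAt
  exact (h1.div h2 hne).congr fun y hy => quot_loc μ α β he hy

/-- the volume form `(α ∧ α) / 2` -/
theorem volume_of {μ : HS.Form X 4} (hμ : HS.Volume μ) {α : HS.Form X 2} (sα : HS.Smooth α)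
    (hp : ∀ x, 0 < HS.quot μ α α x) : HS.Volume (smulV (fun x => HS.quot μ α α x / 2) μ) where
  smooth := by
    intro e he
    have h1 : HS.loc e (smulV (fun x => HS.quot μ α α x / 2) μ) =
        fun y => (HS.quot μ α α (e.symm y) / 2) • HS.loc e μ y := by
      funext y; ext v; rfl
    rw [h1]
    exact ((quot_smooth hμ sα sα he).div_const 2).smul (hμ.smooth e he)
  ne_zero := by
    intro x h
    have h1 : (HS.quot μ α α x / 2) • ax μ x = 0 := h
    rcases smul_eq_zero.1 h1 with h2 | h2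
    · have := hp x
      linarith
    · exact hμ.ne_zero x h2

end

section
variable {X : Type} [TopologicalSpace X] [ChartedSpace E4 X] [IsManifold (𝓡 4) ∞ X]
  [CompactSpace X] [T2Space X] [Nonempty X] [MeasurableSpace X] [BorelSpace X]

/-- the integral of `a ∧ b` and the mass do not see the volume form -/
theorem pair_smulV {μ : HS.Form X 4} (hμ : HS.Volume μ) {α β γ : HS.Form X 2}
    (sα : HS.Smooth α) (cα : HS.Closed α) (sβ : HS.Smooth β) (sγ : HS.Smooth γ)
    (hpos : TriPos μ α β γ) {v : HS.Form X 2} (sv : HS.Smooth v)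
    (hp : ∀ x, 0 < HS.quot μ v v x) :
    (∀ a b : HS.Form X 2, HS.pair (smulV (fun x => HS.quot μ v v x / 2) μ) a b = HS.pair μ a b) ∧
      (HS.vol (smulV (fun x => HS.quot μ v v x / 2) μ) univ).toReal = HS.pair μ v v / 2 := by
  have hdef := defAt_of_triPos hpos
  set J : EndField X := Jf α β γ with hJdef
  have hJ : AlmostComplex J := Jf_almostComplex hdef sα sβ sγ
  have hT : Tames α J := Jf_tames hdef
  have hS : SmoothForm α := sα
  have hC : ClosedForm α := cα
  obtain ⟨A⟩ := exists_finAtlas hJ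
  letI := A.metric
  have bM0 : ∀ x, pM J0 (fx A α β x) = fx A α β x := fx_anti A hJ hT fun x u v => Jf_anti_B hdef x u v
  have qββ : ∀ x, 0 < HS.quot μ β β x := fun x => by
    have := hpos x 0 1 0 (Or.inr (Or.inl one_ne_zero))
    linarith
  have hh0 : ∀ x, 0 < hx A α μ x := hx_pos A hJ hT bM0 qββ
  set μ' : HS.Form X 4 := smulV (fun x => HS.quot μ v v x / 2) μ with hμ'
  have hV := volume_of hμ sv hp
  have hh1 : ∀ x, hx A α μ' x = (HS.quot μ v v x / 2) * hx A α μ x := fun x => rfl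
  have hh1p : ∀ x, 0 < hx A α μ' x := fun x => by
    rw [hh1]; exact mul_pos (half_pos (hp x)) (hh0 x)
  refine ⟨fun a b => ?_, ?_⟩
  · rw [pair_eq A hJ hS hC hT hV.smooth hh1p, pair_eq A hJ hS hC hT hμ.smooth hh0]
  · rw [vol_univ A hJ hS hC hT hV.smooth hh1p, pair_eq A hJ hS hC hT hμ.smooth hh0]
    show _ = (∫ x, Q (fx A α v x) (fx A α v x) ∂(muA A hJ hS hC hT)) / 2
    rw [← integral_div]
    congr 1
    funext x
    show hx A α μ' x = _
    rw [hh1, quot_eq A hJ hT]
    have := (hh0 x).ne'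
    field_simp

theorem bPlus_smulV {μ μ' : HS.Form X 4} (h : ∀ a b : HS.Form X 2, HS.pair μ' a b = HS.pair μ a b)
    (hb : HS.BPlusLe3 μ) : HS.BPlusLe3 μ' := by
  rintro ⟨c, h1, h2⟩
  refine hb ⟨c, h1, ?_⟩
  simpa only [h] using h2

omit [IsManifold (𝓡 4) ∞ X] [CompactSpace X] [T2Space X] [Nonempty X] [MeasurableSpace X]
  [BorelSpace X] in
theorem triPos_smulV {μ : HS.Form X 4} {α β γ : HS.Form X 2} {f : X → ℝ} (hf : ∀ x, 0 < f x) :
    TriPos (smulV f μ) α β γ ↔ TriPos μ α β γ := by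
  have key : ∀ x (a b c : ℝ), a ^ 2 * HS.quot (smulV f μ) α α x +
      b ^ 2 * HS.quot (smulV f μ) β β x + c ^ 2 * HS.quot (smulV f μ) γ γ x +
      2 * a * b * HS.quot (smulV f μ) α β x + 2 * a * c * HS.quot (smulV f μ) α γ x +
      2 * b * c * HS.quot (smulV f μ) β γ x =
      (a ^ 2 * HS.quot μ α α x + b ^ 2 * HS.quot μ β β x + c ^ 2 * HS.quot μ γ γ x +
      2 * a * b * HS.quot μ α β x + 2 * a * c * HS.quot μ α γ x +
      2 * b * c * HS.quot μ β γ x) / f x := by
    intro x a b c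
    simp only [quot_smulV]
    ring
  constructor
  · intro h x a b c habc
    have h1 := h x a b c habc
    rw [key] at h1
    exact (div_pos_iff_of_pos_right (hf x)).1 h1
  · intro h x a b c habc
    rw [key]
    exact div_pos (h x a b c habc) (hf x)

/-- one exact step, with the volume form `(v ∧ v) / 2` -/
theorem stepV (softK : SoftKStatement) (hcl : ClosedExStatement) {μ : HS.Form X 4}
    (hμ : HS.Volume μ)
    (hb : HS.BPlusLe3 μ) {v α β γ : HS.Form X 2} (sv : HS.Smooth v) (pv : HS.pair μ v v = 1)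
    (hv : ∀ x, 0 < HS.quot μ v v x) (sα : HS.Smooth α) (cα : HS.Closed α)
    (sβ : HS.Smooth β) (cβ : HS.Closed β) (sγ : HS.Smooth γ) (cγ : HS.Closed γ)
    (hpos : TriPos μ α β γ) (pαα : HS.pair μ α α = 1) (pββ : HS.pair μ β β = 1)
    (pγγ : HS.pair μ γ γ = 1) (pαβ : HS.pair μ α β = 0) (pαγ : HS.pair μ α γ = 0)
    (pβγ : HS.pair μ β γ = 0) {ε : ℝ} (hε : 0 < ε) :
    ∃ θ : HS.Form X 2, HS.Smooth θ ∧ HS.Closed θ ∧ HS.Exact θ ∧
      (∀ c : HS.Form X 2, HS.Smooth c → HS.Closed c →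
        HS.pair μ (fun x => α x + θ x) c = HS.pair μ α c) ∧
      (∀ s ∈ Icc (0 : ℝ) 1, TriPos μ (fun x => α x + s • θ x) β γ) ∧
      (∀ x, (1 - ε) * HS.quot μ v v x < HS.quot μ (fun x => α x + θ x) (fun x => α x + θ x) x) ∧
      (∀ x, HS.quot μ (fun x => α x + θ x) β x = 0) ∧
      (∀ x, HS.quot μ (fun x => α x + θ x) γ x = 0) := by
  obtain ⟨hp, hm⟩ := pair_smulV hμ sα cα sβ sγ hpos sv hv
  set f : X → ℝ := fun x => HS.quot μ v v x / 2 with hf
  have hf0 : ∀ x, 0 < f x := fun x => half_pos (hv x)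
  rw [pv] at hm
  obtain ⟨θ, h1, h2, h3, h4, h5, h6, h7, h8⟩ := stepE softK hcl (volume_of hμ sv hv) hm
    (bPlus_smulV hp hb) sα cα sβ cβ sγ cγ ((triPos_smulV hf0).2 hpos) (by rw [hp]; exact pαα)
    (by rw [hp]; exact pββ) (by rw [hp]; exact pγγ) (by rw [hp]; exact pαβ)
    (by rw [hp]; exact pαγ) (by rw [hp]; exact pβγ) hε
  refine ⟨θ, h1, h2, h3, ?_, ?_, ?_, ?_, ?_⟩
  · intro c sc cc
    rw [← hp, ← hp]; exact h4 c sc cc
  · intro s hs
    exact (triPos_smulV hf0).1 (h5 s hs)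
  · intro x
    have h := h6 x
    rw [quot_smulV, lt_div_iff₀ (hf0 x)] at h
    have e : 2 * (1 - ε) * f x = (1 - ε) * HS.quot μ v v x := by rw [hf]; ring
    linarith
  · intro x
    have h := h7 x
    rw [quot_smulV] at h
    exact (div_eq_zero_iff.1 h).resolve_right (hf0 x).ne'
  · intro x
    have h := h8 x
    rw [quot_smulV] at h
    exact (div_eq_zero_iff.1 h).resolve_right (hf0 x).ne'

end

end Vale.Agent.P247.SCY
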