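import Vale.Agent.P247.SCY.EXM3

/-!
# P247, exact orthogonality: the chain of three steps and the deformation
-/

set_option linter.all false

open scoped BigOperators ContDiff Topology Manifold ENNReal
open Set MeasureTheory

namespace Vale.Agent.P247.SCY
open Vale.Agent.P204 Vale.Agent.P204.T4 Vale.Agent.P204.Mfd Vale.Agent.P204.GX

/-- the result of the three exact steps, each using the square of the previous form as volume form -/
theorem threeC (softK : SoftKStatement) (hcl : ClosedExStatement) {X : Type} [TopologicalSpace X]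
    [ChartedSpace E4 X] [IsManifold (𝓡 4) ∞ X] [CompactSpace X] [T2Space X] [Nonempty X]
    [MeasurableSpace X] [BorelSpace X] {μ : HS.Form X 4} (hμ : HS.Volume μ)
    (hvol : (HS.vol μ univ).toReal = 1 / 2)
    (hb : HS.BPlusLe3 μ) {w : Fin 3 → HS.Form X 2} (hw : HS.Hypersymplectic μ w)
    (hn : HS.Normalized μ w) {ε : ℝ} (hε : 0 < ε) :
    ∃ θ : Fin 3 → HS.Form X 2, (∀ i, HS.Smooth (θ i) ∧ HS.Closed (θ i) ∧ HS.Exact (θ i)) ∧
      (∀ s ∈ Icc (0 : ℝ) 1, TriPos μ (fun x => w 0 x + s • θ 0 x) (w 1) (w 2)) ∧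
      (∀ s ∈ Icc (0 : ℝ) 1, TriPos μ (fun x => w 0 x + θ 0 x) (fun x => w 1 x + s • θ 1 x) (w 2)) ∧
      (∀ s ∈ Icc (0 : ℝ) 1, TriPos μ (fun x => w 0 x + θ 0 x) (fun x => w 1 x + θ 1 x)
        (fun x => w 2 x + s • θ 2 x)) ∧
      (∀ i, HS.pair μ (fun x => w i x + θ i x) (fun x => w i x + θ i x) = 1) ∧
      (∀ x, 2 * (1 - ε) < HS.quot μ (fun x => w 0 x + θ 0 x) (fun x => w 0 x + θ 0 x) x) ∧
      (∀ x, (1 - ε) * HS.quot μ (fun x => w 0 x + θ 0 x) (fun x => w 0 x + θ 0 x) x <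
        HS.quot μ (fun x => w 1 x + θ 1 x) (fun x => w 1 x + θ 1 x) x) ∧
      (∀ x, (1 - ε) * HS.quot μ (fun x => w 1 x + θ 1 x) (fun x => w 1 x + θ 1 x) x <
        HS.quot μ (fun x => w 2 x + θ 2 x) (fun x => w 2 x + θ 2 x) x) ∧
      (∀ i j, i ≠ j → ∀ x, HS.quot μ (fun x => w i x + θ i x) (fun x => w j x + θ j x) x = 0) := by
  have n00 : HS.pair μ (w 0) (w 0) = 1 := by simpa using hn 0 0
  have n11 : HS.pair μ (w 1) (w 1) = 1 := by simpa using hn 1 1
  have n22 : HS.pair μ (w 2) (w 2) = 1 := by simpa using hn 2 2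
  have n01 : HS.pair μ (w 0) (w 1) = 0 := by simpa using hn 0 1
  have n02 : HS.pair μ (w 0) (w 2) = 0 := by simpa using hn 0 2
  have n12 : HS.pair μ (w 1) (w 2) = 0 := by simpa using hn 1 2
  have s0 := hw.smooth 0
  have s1 := hw.smooth 1
  have s2 := hw.smooth 2
  have c0 := hw.closed 0
  have c1 := hw.closed 1
  have c2 := hw.closed 2
  have t0 : TriPos μ (w 0) (w 1) (w 2) := tri_of_posDef hw.posDef
  obtain ⟨θ0, sθ0, cθ0, e0, p0, q0, d0, x01, x02⟩ := stepE softK hcl hμ hvol hb s0 c0 s1 c1 s2 c2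
    t0 n00 n11 n22 n01 n02 n12 hε
  set v0 : HS.Form X 2 := fun x => w 0 x + θ0 x with hv0
  have sv0 : HS.Smooth v0 := smooth_add s0 sθ0
  have cv0 : HS.Closed v0 := closed_add s0 sθ0 c0 cθ0
  have m00 : HS.pair μ v0 v0 = 1 := by rw [p0 v0 sv0 cv0, pair_comm, p0 _ s0 c0, n00]
  have m01 : HS.pair μ v0 (w 1) = 0 := by rw [p0 _ s1 c1, n01]
  have m02 : HS.pair μ v0 (w 2) = 0 := by rw [p0 _ s2 c2, n02]
  have t1 : TriPos μ v0 (w 1) (w 2) := by
    have := q0 1 (by norm_num)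
    simpa only [one_smul] using this
  have pos0 : ∀ x, 0 < HS.quot μ v0 v0 x := fun x => by
    have := t1 x 1 0 0 (Or.inl one_ne_zero)
    linarith
  obtain ⟨θ1, sθ1, cθ1, e1, p1, q1, d1, x10, x12⟩ := stepV softK hcl hμ hb sv0 m00 pos0 s1 c1 sv0
    cv0 s2 c2 t1.swap n11 m00 n22 (by rw [pair_comm, m01]) n12 m02 hε
  set v1 : HS.Form X 2 := fun x => w 1 x + θ1 x with hv1
  have sv1 : HS.Smooth v1 := smooth_add s1 sθ1
  have cv1 : HS.Closed v1 := closed_add s1 sθ1 c1 cθ1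
  have m11 : HS.pair μ v1 v1 = 1 := by rw [p1 v1 sv1 cv1, pair_comm, p1 _ s1 c1, n11]
  have m10 : HS.pair μ v1 v0 = 0 := by rw [p1 _ sv0 cv0, pair_comm, m01]
  have m12 : HS.pair μ v1 (w 2) = 0 := by rw [p1 _ s2 c2, n12]
  have t2 : TriPos μ v1 v0 (w 2) := by
    have := q1 1 (by norm_num)
    simpa only [one_smul] using this
  have t2' : TriPos μ (w 2) v0 v1 := t2.swap.rot
  have pos1 : ∀ x, 0 < HS.quot μ v1 v1 x := fun x => by
    have := t2 x 1 0 0 (Or.inl one_ne_zero)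
    linarith
  obtain ⟨θ2, sθ2, cθ2, e2, p2, q2, d2, x20, x21⟩ := stepV softK hcl hμ hb sv1 m11 pos1 s2 c2 sv0
    cv0 sv1 cv1 t2' n22 m00 m11 (by rw [pair_comm, m02]) (by rw [pair_comm, m12]) (by rw [pair_comm, m10])
    hε
  set v2 : HS.Form X 2 := fun x => w 2 x + θ2 x with hv2
  have sv2 : HS.Smooth v2 := smooth_add s2 sθ2
  have cv2 : HS.Closed v2 := closed_add s2 sθ2 c2 cθ2
  have m22 : HS.pair μ v2 v2 = 1 := by rw [p2 v2 sv2 cv2, pair_comm, p2 _ s2 c2, n22]
  refine ⟨![θ0, θ1, θ2], ?_, q0, ?_, ?_, ?_, d0, d1, d2, ?_⟩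
  · intro i
    fin_cases i
    · exact ⟨sθ0, cθ0, e0⟩
    · exact ⟨sθ1, cθ1, e1⟩
    · exact ⟨sθ2, cθ2, e2⟩
  · intro s hs
    exact (q1 s hs).swap
  · intro s hs
    exact (q2 s hs).rot.rot
  · intro i
    fin_cases i
    · exact m00
    · exact m11
    · exact m22
  · intro i j hij
    fin_cases i <;> fin_cases j
    · exact absurd rfl hij
    · intro x
      have := x10 x
      rw [quot_comm] at this
      exact this
    · intro x
      have := x20 x
      rw [quot_comm] at this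
      exact this
    · exact x10
    · exact absurd rfl hij
    · intro x
      have := x21 x
      rw [quot_comm] at this
      exact this
    · exact x20
    · exact x21
    · exact absurd rfl hij


/-- **Exact orthogonality.** -/
theorem finalC (softK : SoftKStatement) (hcl : ClosedExStatement) {X : Type} [TopologicalSpace X]
    [ChartedSpace E4 X] [IsManifold (𝓡 4) ∞ X] [CompactSpace X] [T2Space X] [Nonempty X]
    [MeasurableSpace X] [BorelSpace X] {μ : HS.Form X 4} (hμ : HS.Volume μ)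
    (hvol : HS.vol μ univ = 1 / 2)
    (hb : HS.BPlusLe3 μ) {w : Fin 3 → HS.Form X 2} (hw : HS.Hypersymplectic μ w)
    (hn : HS.Normalized μ w) {ε : ℝ} (hε : 0 < ε) :
    ∃ W : ℝ → Fin 3 → HS.Form X 2, HS.Deformation μ w W ∧
      (∀ x i j, i ≠ j → HS.Qm μ (W 1) x i j = 0) ∧
      (∀ x i j, i ≤ j → (1 - ε) * HS.Qm μ (W 1) x i i < HS.Qm μ (W 1) x j j) ∧
      (∀ x i, 1 - ε < HS.Qm μ (W 1) x i i) ∧
      ∀ i, ∫ x, |HS.Qm μ (W 1) x i i - 1| ∂(HS.vol μ) < ε := by
  have hvol' : (HS.vol μ univ).toReal = 1 / 2 := by rw [hvol]; simp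
  haveI : IsFiniteMeasure (HS.vol μ) := ⟨by rw [hvol]; simp⟩
  obtain ⟨δ, hδ0, hδ1, hδ2⟩ : ∃ δ : ℝ, 0 < δ ∧ δ ≤ 1 / 2 ∧ 9 * δ ≤ ε :=
    ⟨min (1 / 2) (ε / 9), by positivity, min_le_left _ _, by
      have := min_le_right (1 / 2) (ε / 9); linarith⟩
  obtain ⟨θ, hθ, h0, h1, h2, hn1, d0, d1, d2, ho⟩ := threeC softK hcl hμ hvol' hb hw hn hδ0
  have hQ : ∀ x i j, HS.Qm μ (fam w θ 1) x i j =
      HS.quot μ (fun x => w i x + θ i x) (fun x => w j x + θ j x) x / 2 := by
    intro x i j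
    show HS.quot μ (fam w θ 1 i) (fam w θ 1 j) x / 2 = _
    rw [fam_one, fam_one]
  have a0 : ∀ x, 1 - δ < HS.Qm μ (fam w θ 1) x 0 0 := fun x => by
    rw [hQ]; have := d0 x; linarith
  have a1 : ∀ x, (1 - δ) * HS.Qm μ (fam w θ 1) x 0 0 < HS.Qm μ (fam w θ 1) x 1 1 := fun x => by
    rw [hQ, hQ]; have := d1 x; linarith
  have a2 : ∀ x, (1 - δ) * HS.Qm μ (fam w θ 1) x 1 1 < HS.Qm μ (fam w θ 1) x 2 2 := fun x => by
    rw [hQ, hQ]; have := d2 x; linarith
  -- lower bounds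
  have b1 : ∀ x, 1 - 3 * δ < HS.Qm μ (fam w θ 1) x 1 1 := fun x => by
    have := a0 x; have := a1 x; nlinarith
  have b2 : ∀ x, 1 - 3 * δ < HS.Qm μ (fam w θ 1) x 2 2 := fun x => by
    have c0 := a0 x
    have c1 := a1 x
    have c2 := a2 x
    have c3 : (1 - δ) * (1 - δ) < HS.Qm μ (fam w θ 1) x 1 1 := by nlinarith
    have c4 : (1 - δ) * ((1 - δ) * (1 - δ)) < HS.Qm μ (fam w θ 1) x 2 2 := by nlinarith
    have c5 : 1 - 3 * δ ≤ (1 - δ) * ((1 - δ) * (1 - δ)) := by nlinarith [sq_nonneg δ]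
    linarith
  have b : ∀ x i, 1 - 3 * δ < HS.Qm μ (fam w θ 1) x i i := by
    intro x i
    fin_cases i
    · have := a0 x
      show 1 - 3 * δ < HS.Qm μ (fam w θ 1) x 0 0
      linarith
    · exact b1 x
    · exact b2 x
  have bpos : ∀ x i, 0 < HS.Qm μ (fam w θ 1) x i i := by
    have e0 : ∀ x, 0 < HS.Qm μ (fam w θ 1) x 0 0 := fun x => by have := a0 x; linarith
    have e1 : ∀ x, 0 < HS.Qm μ (fam w θ 1) x 1 1 := fun x => by
      have := a1 x; have := e0 x
      have : 0 < (1 - δ) * HS.Qm μ (fam w θ 1) x 0 0 := mul_pos (by linarith) this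
      linarith
    have e2 : ∀ x, 0 < HS.Qm μ (fam w θ 1) x 2 2 := fun x => by
      have := a2 x; have := e1 x
      have : 0 < (1 - δ) * HS.Qm μ (fam w θ 1) x 1 1 := mul_pos (by linarith) this
      linarith
    intro x i
    fin_cases i
    · exact e0 x
    · exact e1 x
    · exact e2 x
  have mono : ∀ (q q' : ℝ), 0 < q → (1 - δ) * q < q' → (1 - ε) * q < q' := by
    intro q q' hq h
    have : (1 - ε) * q ≤ (1 - δ) * q := mul_le_mul_of_nonneg_right (by linarith) hq.le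
    linarith
  refine ⟨fam w θ, fam_deformation hw hθ h0 h1 h2, fun x i j hij => ?_, ?_, fun x i => ?_,
    fun i => ?_⟩
  · rw [hQ, ho i j hij, zero_div]
  · have self : ∀ x i, (1 - ε) * HS.Qm μ (fam w θ 1) x i i < HS.Qm μ (fam w θ 1) x i i := by
      intro x i
      have := bpos x i
      nlinarith
    have c01 : ∀ x, (1 - ε) * HS.Qm μ (fam w θ 1) x 0 0 < HS.Qm μ (fam w θ 1) x 1 1 := fun x =>
      mono _ _ (bpos x 0) (a1 x)
    have c12 : ∀ x, (1 - ε) * HS.Qm μ (fam w θ 1) x 1 1 < HS.Qm μ (fam w θ 1) x 2 2 := fun x =>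
      mono _ _ (bpos x 1) (a2 x)
    have c02 : ∀ x, (1 - ε) * HS.Qm μ (fam w θ 1) x 0 0 < HS.Qm μ (fam w θ 1) x 2 2 := fun x => by
      have e0 := bpos x 0
      have e1 := a1 x
      have e2 := a2 x
      have e3 : (1 - δ) * ((1 - δ) * HS.Qm μ (fam w θ 1) x 0 0) <
          (1 - δ) * HS.Qm μ (fam w θ 1) x 1 1 := mul_lt_mul_of_pos_left e1 (by linarith)
      have e4 : (1 - ε) ≤ (1 - δ) * (1 - δ) := by nlinarith [sq_nonneg δ]
      have e5 := mul_le_mul_of_nonneg_right e4 e0.le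
      linarith
    intro x i j hij
    fin_cases i <;> fin_cases j
    · exact self x 0
    · exact c01 x
    · exact c02 x
    · exact absurd hij (by decide)
    · exact self x 1
    · exact c12 x
    · exact absurd hij (by decide)
    · exact absurd hij (by decide)
    · exact self x 2
  · have := b x i
    linarith
  · have hreal : (HS.vol μ).real univ = 1 / 2 := hvol'
    have hint : Integrable (fun x =>
        HS.quot μ (fun x => w i x + θ i x) (fun x => w i x + θ i x) x) (HS.vol μ) := by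
      by_contra hcon
      have h3 := hn1 i
      unfold HS.pair at h3
      rw [integral_undef hcon] at h3
      exact zero_ne_one h3
    have hle : ∀ x, |HS.Qm μ (fam w θ 1) x i i - 1| ≤
        HS.quot μ (fun x => w i x + θ i x) (fun x => w i x + θ i x) x / 2 - 1 + 2 * (3 * δ) := by
      intro x
      have h3 := b x i
      rw [hQ] at h3 ⊢
      rw [abs_le]
      constructor <;> linarith
    have hint2 : Integrable (fun x =>
        HS.quot μ (fun x => w i x + θ i x) (fun x => w i x + θ i x) x / 2 - 1 + 2 * (3 * δ))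
        (HS.vol μ) := ((hint.div_const 2).sub (integrable_const _)).add (integrable_const _)
    have h4 : ∫ x, |HS.Qm μ (fam w θ 1) x i i - 1| ∂(HS.vol μ) ≤
        ∫ x, (HS.quot μ (fun x => w i x + θ i x) (fun x => w i x + θ i x) x / 2 - 1 + 2 * (3 * δ))
          ∂(HS.vol μ) :=
      integral_mono_of_nonneg (Filter.Eventually.of_forall fun x => abs_nonneg _) hint2
        (Filter.Eventually.of_forall hle)
    have h5 : ∫ x, (HS.quot μ (fun x => w i x + θ i x) (fun x => w i x + θ i x) x / 2 - 1 +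
        2 * (3 * δ)) ∂(HS.vol μ) = 3 * δ := int_aux hint (hn1 i) hreal (3 * δ)
    linarith

end Vale.Agent.P247.SCY
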