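import Vale.Agent.P247.SCY.FK2

/-!
# P247, flattening of one form by potentials: the global step
-/

set_option linter.all false

open scoped BigOperators ContDiff Topology Manifold ENNReal
open Set MeasureTheory Metric Filter

namespace Vale.Agent.P247.SCY
open Vale.Agent.P204 Vale.Agent.P204.T4 Vale.Agent.P204.Mfd Vale.Agent.P204.GX

section
variable {X : Type} [TopologicalSpace X] [ChartedSpace E4 X] [IsManifold (𝓡 4) ∞ X]

/-- `quot` of a modified form, in a parametrisation -/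
theorem quot_mod (p : Par X) (μ : HS.Form X 4) (α θ δ : HS.Form X 2) (s : ℝ) (z : V4) :
    HS.quot μ (fun x => α x + s • θ x) δ (p.psi z) =
      Q (cp p α z + s • cp p θ z) (cp p δ z) / m4 p μ z := by
  rw [quot_cp, cp_add p α (fun x => s • θ x), cp_smul]

theorem quot_mod_self (p : Par X) (μ : HS.Form X 4) (α θ : HS.Form X 2) (s : ℝ) (z : V4) :
    HS.quot μ (fun x => α x + s • θ x) (fun x => α x + s • θ x) (p.psi z) =
      Q (cp p α z + s • cp p θ z) (cp p α z + s • cp p θ z) / m4 p μ z := by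
  rw [quot_cp, cp_add p α (fun x => s • θ x), cp_smul]

omit [IsManifold (𝓡 4) ∞ X] in
theorem cx_mod_zero {α θ : HS.Form X 2} {x : X} (h : θ x = 0) (s : ℝ) :
    cx (fun x => α x + s • θ x) x = cx α x := by
  have h1 : cx θ x = 0 := by
    have : cx θ x = cE (bx θ x) := rfl
    rw [this]
    have h2 : bx θ x = 0 := h
    rw [h2, map_zero]
  rw [cx_add α (fun x => s • θ x), cx_smul, h1, smul_zero, add_zero]

omit [IsManifold (𝓡 4) ∞ X] in
theorem quot_mod_zero {α θ : HS.Form X 2} {x : X} (h : θ x = 0) (s : ℝ) (μ : HS.Form X 4)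
    (δ : HS.Form X 2) : HS.quot μ (fun x => α x + s • θ x) δ x = HS.quot μ α δ x := by
  rw [quot_cx, quot_cx, cx_mod_zero h]

omit [IsManifold (𝓡 4) ∞ X] in
theorem quot_mod_zero_self {α θ : HS.Form X 2} {x : X} (h : θ x = 0) (s : ℝ) (μ : HS.Form X 4) :
    HS.quot μ (fun x => α x + s • θ x) (fun x => α x + s • θ x) x = HS.quot μ α α x := by
  rw [quot_cx, quot_cx, cx_mod_zero h]

/-- the local property -/
def PhiK (μ : HS.Form X 4) (α β γ : HS.Form X 2) (σ κ : ℝ) (p : Par X) (y : V4) (r : ℝ)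
    (η : Unit → V4 → V4) : Prop :=
  ∃ B C c : L2, Q B B = Q C C ∧ Q B C = 0 ∧ pull J0 B = -B ∧ pull J0 C = -C ∧ Q c c = Q B B ∧
    pull J0 c = c ∧
    (∀ z ∈ closedBall y r, cp p β z = B ∧ cp p γ z = C ∧ pull J0 (cp p α z) = cp p α z ∧
      ‖cp p α z - F0‖ ≤ σ ∧ 0 < m4 p μ z ∧ pull J0 (d1 (η ()) z) = d1 (η ()) z ∧
      ‖d1 (η ()) z‖ ≤ σ) ∧
    ∀ z ∈ ball y ((1 - κ) * r), cp p α z + d1 (η ()) z = c

variable [CompactSpace X] [T2Space X] [Nonempty X] [MeasurableSpace X] [BorelSpace X]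

theorem exists_PhiK {μ : HS.Form X 4} (hμ : HS.Volume μ) {κ : ℝ} (hκ0 : 0 < κ) (hκ1 : κ < 1)
    {σ : ℝ} (hσ : 0 < σ) : ∃ ε1 : ℝ, 0 < ε1 ∧ ∀ {α β γ : HS.Form X 2}, HS.Smooth α →
    HS.Closed α → HS.Smooth β → HS.Smooth γ → TriPos μ α β γ →
    (∀ x, HS.quot μ α β x = 0) → (∀ x, HS.quot μ α γ x = 0) → ∀ x0, FlatPair β γ x0 →
    |HS.quot μ α α x0 / HS.quot μ β β x0 - 1| < ε1 →
    ∃ p : Par X, ∃ ρ : ℝ, 0 < ρ ∧ p.psi 0 = x0 ∧
      ∀ y, ‖y‖ < ρ → ∃ r0 : ℝ, 0 < r0 ∧ ∀ r, 0 < r → r < r0 → ∃ η : Unit → V4 → V4,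
        (∀ i, ContDiff ℝ ∞ (η i)) ∧ (∀ i, tsupport (η i) ⊆ closedBall y r) ∧
        PhiK μ α β γ σ κ p y r η := by
  obtain ⟨K, hK, hflat⟩ := flat_pot_at hκ0 hκ1
  set τ := min σ (σ / K) with hτ
  have hτ0 : 0 < τ := by positivity
  have hτσ : τ ≤ σ := min_le_left _ _
  have hKτ : K * τ ≤ σ := by
    have := min_le_right σ (σ / K)
    calc K * τ ≤ K * (σ / K) := mul_le_mul_of_nonneg_left this hK.le
      _ = σ := by field_simp
  refine ⟨min (1 / 2) (τ / 4), by positivity, ?_⟩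
  intro α β γ sα cα sβ sγ hpos oβ oγ x0 hf hr
  have hε1 : min (1 / 2) (τ / 4) ≤ 1 / 2 := min_le_left _ _
  have hε2 : min (1 / 2) (τ / 4) ≤ τ / 4 := min_le_right _ _
  obtain ⟨p, ρ, B, C, hρ, hp0, hBC, hBC0, aB, aC, qB, hrat, hall⟩ := adapt hμ sα cα sβ sγ hpos oβ
    oγ hf (σ := τ / 2) (by positivity)
  refine ⟨p, ρ, hρ, hp0, fun y hy => ?_⟩
  -- the target
  set s := Real.sqrt (Q B B / 2) with hs
  have hs0 : 0 < s := Real.sqrt_pos.2 (by positivity)
  have hs2 : s * s = Q B B / 2 := Real.mul_self_sqrt (by positivity)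
  set c : L2 := s • F0 with hc
  have hci : pull J0 c = c := by rw [hc, pull_smul, posDef_F0.1]
  have hcQ : Q c c = Q B B := by
    rw [hc, Q_smul_left, Q_smul_right, Q_F0]
    linarith
  -- `s` is close to one
  have hαα : 0 < HS.quot μ α α x0 := by
    have := hpos x0 1 0 0 (Or.inl one_ne_zero)
    linarith
  have hββ : 0 < HS.quot μ β β x0 := by
    have := hpos x0 0 1 0 (Or.inr (Or.inl one_ne_zero))
    linarith
  have hratio : HS.quot μ α α x0 / HS.quot μ β β x0 = 1 / (s * s) := by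
    rw [hs2, div_eq_div_iff hββ.ne' (by positivity)]
    linarith
  rw [hratio] at hr
  have hs1 : |s - 1| ≤ τ / 2 := by
    set e := min (1 / 2 : ℝ) (τ / 4) with he
    have h1 := abs_lt.1 hr
    have hss : 0 < s * s := mul_pos hs0 hs0
    have h2 : (1 - e) * (s * s) < 1 := by
      have : 1 - e < 1 / (s * s) := by linarith
      rwa [lt_div_iff₀ hss] at this
    have h3 : 1 < (1 + e) * (s * s) := by
      have : 1 / (s * s) < 1 + e := by linarith
      rwa [div_lt_iff₀ hss] at this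
    have he0 : 0 < e := by positivity
    have h4 : s * s < 1 + 2 * e := by nlinarith
    have h5 : 1 - e < s * s := by nlinarith
    rw [abs_le]
    constructor
    · nlinarith
    · nlinarith
  have hcy : ‖c - cp p α y‖ < τ := by
    have h1 : c - cp p α y = (s - 1) • F0 - (cp p α y - F0) := by rw [hc]; module
    rw [h1]
    have h2 := norm_sub_le ((s - 1) • F0) (cp p α y - F0)
    rw [norm_smul, Real.norm_eq_abs] at h2
    have h3 : |s - 1| * ‖F0‖ ≤ τ / 2 * 1 := mul_le_mul hs1 norm_F0_le (norm_nonneg _) (by positivity)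
    have h4 := (hall y hy).2.2.2.1
    linarith
  obtain ⟨r0, hr0, hv⟩ := hflat (cp p α) (cp_smooth p sα) (cp_closed p sα cα) y (ρ - ‖y‖)
    (by linarith) (fun z hz => (hall z (by
      have : z = y + (z - y) := by abel
      rw [this]
      exact lt_of_le_of_lt (norm_add_le _ _) (by linarith))).2.2.1) c hci τ hcy
  refine ⟨min r0 (ρ - ‖y‖), lt_min hr0 (by linarith), fun r hr hrr => ?_⟩
  obtain ⟨v, sv, v1, v2, v3⟩ := hv r hr (hrr.le.trans (min_le_left _ _))
  have hrρ : r < ρ - ‖y‖ := hrr.trans_le (min_le_right _ _)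
  refine ⟨fun _ => dcu v, fun _ => dcu_smooth sv, fun _ => tsupport_dcu.trans v1,
    B, C, c, hBC, hBC0, aB, aC, hcQ, hci, fun z hz => ?_, fun z hz => ?_⟩
  · have hz' : ‖z‖ < ρ := by
      rw [mem_closedBall, dist_eq_norm] at hz
      have : z = y + (z - y) := by abel
      rw [this]
      exact lt_of_le_of_lt (norm_add_le _ _) (by linarith)
    obtain ⟨z1, z2, z3, z4, z5⟩ := hall z hz'
    exact ⟨z1, z2, z3, by linarith, z5, ddc_inv sv z, (v3 z).trans hKτ⟩
  · rw [mem_ball, dist_eq_norm] at hz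
    exact v2 z hz

/-- **The global step**: flattening of `α` by potentials. -/
theorem stepK {μ : HS.Form X 4} (hμ : HS.Volume μ) (hvol : HS.vol μ univ = 1 / 2) {ε : ℝ}
    (hε : 0 < ε) : ∃ ε1 : ℝ, 0 < ε1 ∧ ∀ {α β γ : HS.Form X 2}, HS.Smooth α →
    HS.Closed α → HS.Smooth β → HS.Closed β → HS.Smooth γ → HS.Closed γ → TriPos μ α β γ →
    (∀ x, HS.quot μ α β x = 0) → (∀ x, HS.quot μ α γ x = 0) → ∀ {G : Set X}, IsOpen G →
    (∀ x ∈ G, FlatPair β γ x ∧ |HS.quot μ α α x / HS.quot μ β β x - 1| < ε1) →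
    ∃ (θ : HS.Form X 2) (U : Set X), HS.Smooth θ ∧ HS.Closed θ ∧ HS.Exact θ ∧
      (∀ s ∈ Icc (0 : ℝ) 1, TriPos μ (fun x => α x + s • θ x) β γ) ∧
      (∀ x, HS.quot μ (fun x => α x + θ x) β x = 0) ∧
      (∀ x, HS.quot μ (fun x => α x + θ x) γ x = 0) ∧
      (∀ x, (1 - ε) * HS.quot μ α α x <
        HS.quot μ (fun x => α x + θ x) (fun x => α x + θ x) x) ∧
      IsOpen U ∧ U ⊆ G ∧ HS.vol μ (G \ U) ≤ ENNReal.ofReal ε ∧
      ∀ x ∈ U, FlatPair β (fun x => α x + θ x) x ∧
        HS.quot μ (fun x => α x + θ x) (fun x => α x + θ x) x = HS.quot μ β β x := by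
  -- constants
  set σ := min (1 / 100) (ε / 100) with hσ
  have hσ0 : 0 < σ := by positivity
  have hσ1 : σ ≤ 1 / 100 := min_le_left _ _
  have hσ2 : σ ≤ ε / 100 := min_le_right _ _
  set κ := min (1 / 2) (ε * (4 / 25)) with hκ
  have hκ0 : 0 < κ := by positivity
  have hκ1 : κ < 1 := lt_of_le_of_lt (min_le_left _ _) (by norm_num)
  have hκ2 : κ ≤ ε * (4 / 25) := min_le_right _ _
  obtain ⟨ε1, hε1, hphi⟩ := exists_PhiK (X := X) hμ hκ0 hκ1 hσ0
  refine ⟨ε1, hε1, ?_⟩
  intro α β γ sα cα sβ cβ sγ cγ hpos oβ oγ G hG hGf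
  have hw : HS.Hypersymplectic μ ![α, β, γ] := by
    refine ⟨fun i => ?_, fun i => ?_, posDef_of_tri hpos⟩
    · fin_cases i
      · exact sα
      · exact sβ
      · exact sγ
    · fin_cases i
      · exact cα
      · exact cβ
      · exact cγ
  have hfin : HS.vol μ univ ≠ ⊤ := by rw [hvol]; simp
  obtain ⟨θ', U, hθ, hU, hUG, hUv, hpt, hUpt⟩ := glue (ι := Unit) hμ hw hfin hG hκ0 hκ1
    (Φ := PhiK μ α β γ σ κ)
    (fun x hx => hphi sα cα sβ sγ hpos oβ oγ x (hGf x hx).1 (hGf x hx).2)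
    (ε := ENNReal.ofReal (ε / 2)) (by simpa using hε)
  set θ := θ' () with hθdef
  -- pointwise facts on the balls
  have key : ∀ x, θ x = 0 ∨ ∃ (p : Par X) (z : V4) (B C : L2), p.psi z = x ∧
      cp p β z = B ∧ cp p γ z = C ∧ pull J0 B = -B ∧ pull J0 C = -C ∧
      pull J0 (cp p α z) = cp p α z ∧ ‖cp p α z - F0‖ ≤ σ ∧ 0 < m4 p μ z ∧
      pull J0 (cp p θ z) = cp p θ z ∧ ‖cp p θ z‖ ≤ σ := by
    intro x
    rcases hpt x with h | ⟨p, y, r, η, hr, sη, ⟨B, C, c, hBC, hBC0, aB, aC, hc, hci, h1, h2⟩, hG', ⟨z, hz, hzx⟩, hcp⟩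
    · exact Or.inl (h ())
    · right
      obtain ⟨z1, z2, z3, z4, z5, z6, z7⟩ := h1 z hz
      have e : cp p θ z = d1 (η ()) z := hcp () z hz
      exact ⟨p, z, B, C, hzx, z1, z2, aB, aC, z3, z4, z5, by rw [e]; exact z6, by rw [e]; exact z7⟩
  have hone : ∀ δ : HS.Form X 2, ∀ x, HS.quot μ (fun x => α x + θ x) δ x =
      HS.quot μ (fun x => α x + (1 : ℝ) • θ x) δ x := by
    intro δ x
    simp only [one_smul]
  have hone' : ∀ x, HS.quot μ (fun x => α x + θ x) (fun x => α x + θ x) x =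
      HS.quot μ (fun x => α x + (1 : ℝ) • θ x) (fun x => α x + (1 : ℝ) • θ x) x := by
    intro x
    simp only [one_smul]
  refine ⟨θ, U, (hθ ()).1, (hθ ()).2.1, (hθ ()).2.2, ?_, ?_, ?_, ?_, hU, hUG, ?_, ?_⟩
  · intro s hs x a b c habc
    rcases key x with h | ⟨p, z, B, C, hzx, z1, z2, aB, aC, z3, z4, z5, z6, z7⟩
    · rw [quot_mod_zero_self h, quot_mod_zero h, quot_mod_zero h]
      exact hpos x a b c habc
    · rw [← hzx]
      have hA0 : PosDef J0 (pP J0 (cp p α z)) := by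
        rw [pP_of_inv z3]; exact posDef_nearF0 z3 (by linarith)
      have hsum : pull J0 (cp p α z + cp p θ z) = cp p α z + cp p θ z := by
        rw [pull_add, z3, z6]
      have hA1 : PosDef J0 (pP J0 (cp p α z + cp p θ z)) := by
        rw [pP_of_inv hsum]
        refine posDef_nearF0 hsum ?_
        have e1 : cp p α z + cp p θ z - F0 = (cp p α z - F0) + cp p θ z := by abel
        rw [e1]
        have := norm_add_le (cp p α z - F0) (cp p θ z)
        linarith
      have h1 := frame_triE hA0 hA1 (B := B) (C := C) (pM_of_anti aB) (pM_of_anti aC)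
        (fun b c hbc => by
          have h2 := hpos x 0 b c (Or.inr hbc)
          rw [← hzx] at h2
          simp only [quot_cp, z1, z2] at h2
          have h3 : 0 < (Q (b • B + c • C) (b • B + c • C)) / m4 p μ z := by
            have e1 : Q (b • B + c • C) (b • B + c • C) =
                b ^ 2 * Q B B + c ^ 2 * Q C C + 2 * b * c * Q B C := by
              simp only [Q_add_left, Q_add_right, Q_smul_left, Q_smul_right, Q_comm C B]
              ring
            rw [e1, add_div, add_div]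
            convert h2 using 1
            ring
          exact (div_pos_iff_of_pos_right z5).1 h3) hs a b c habc
      rw [quot_mod_self, quot_mod, quot_mod, quot_cp, quot_cp, quot_cp, z1, z2]
      rw [Q_comb] at h1
      have h3 := div_pos h1 z5
      rw [div_comb]
      exact h3
  · intro x
    rcases key x with h | ⟨p, z, B, C, hzx, z1, z2, aB, aC, z3, z4, z5, z6, z7⟩
    · rw [hone, quot_mod_zero h]; exact oβ x
    · rw [hone, ← hzx, quot_mod, z1, one_smul]
      have hsum : pull J0 (cp p α z + cp p θ z) = cp p α z + cp p θ z := by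
        rw [pull_add, z3, z6]
      rw [Q_inv_anti (pM_of_inv hsum) (pM_of_anti aB), zero_div]
  · intro x
    rcases key x with h | ⟨p, z, B, C, hzx, z1, z2, aB, aC, z3, z4, z5, z6, z7⟩
    · rw [hone, quot_mod_zero h]; exact oγ x
    · rw [hone, ← hzx, quot_mod, z2, one_smul]
      have hsum : pull J0 (cp p α z + cp p θ z) = cp p α z + cp p θ z := by
        rw [pull_add, z3, z6]
      rw [Q_inv_anti (pM_of_inv hsum) (pM_of_anti aC), zero_div]
  · intro x
    have hαα : 0 < HS.quot μ α α x := by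
      have := hpos x 1 0 0 (Or.inl one_ne_zero)
      linarith
    rcases key x with h | ⟨p, z, B, C, hzx, z1, z2, aB, aC, z3, z4, z5, z6, z7⟩
    · rw [hone', quot_mod_zero_self h]
      nlinarith
    · rw [hone', ← hzx, quot_mod_self, quot_cp, one_smul, lt_div_iff₀ z5, mul_assoc,
        div_mul_cancel₀ _ z5.ne']
      have n1 := abs_le.1 (Q_near z4 (by linarith))
      have n2 : ‖cp p α z + cp p θ z - F0‖ ≤ 2 * σ := by
        have e1 : cp p α z + cp p θ z - F0 = (cp p α z - F0) + cp p θ z := by abel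
        rw [e1]
        have := norm_add_le (cp p α z - F0) (cp p θ z)
        linarith
      have n3 := abs_le.1 (Q_near n2 (by linarith))
      rcases le_or_gt ε 1 with he | he
      · have n4 : (1 - ε) * Q (cp p α z) (cp p α z) ≤ (1 - ε) * (2 + 18 * σ) :=
          mul_le_mul_of_nonneg_left (by linarith) (by linarith)
        nlinarith
      · have n5 : 0 < Q (cp p α z) (cp p α z) := by linarith
        nlinarith
  · refine hUv.trans ?_
    rw [hvol]
    have h1 : ENNReal.ofReal (25 / 4 * κ) * (1 / 2) ≤ ENNReal.ofReal (ε / 2) := by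
      have h2 : (1 / 2 : ℝ≥0∞) = ENNReal.ofReal (1 / 2) := by
        rw [ENNReal.ofReal_div_of_pos (by norm_num)]; simp
      rw [h2, ← ENNReal.ofReal_mul (by positivity)]
      apply ENNReal.ofReal_le_ofReal
      linarith
    calc _ ≤ ENNReal.ofReal (ε / 2) + ENNReal.ofReal (ε / 2) := by gcongr
      _ = ENNReal.ofReal ε := by
        rw [← ENNReal.ofReal_add (by positivity) (by positivity)]; congr 1; ring
  · intro x hx
    obtain ⟨p, y, r, η, hr, sη, ⟨B, C, c, hBC, hBC0, aB, aC, hc, hci, h1, h2⟩, hG', ⟨z, hz, hzx⟩, hcp⟩ :=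
      hUpt x hx
    have hsub : ball y ((1 - κ) * r) ⊆ closedBall y r := by
      refine ball_subset_closedBall.trans (closedBall_subset_closedBall ?_)
      nlinarith
    have hcpα : ∀ w ∈ ball y ((1 - κ) * r), cp p (fun x => α x + θ x) w = c := by
      intro w hw'
      rw [cp_add, hcp () w (hsub hw')]
      exact h2 w hw'
    have hcB : Q B c = 0 := by
      rw [Q_comm, Q_inv_anti (pM_of_inv hci) (pM_of_anti aB)]
    refine ⟨⟨shift p z, (1 - κ) * r - ‖z - y‖, B, c, ?_, ?_, hc.symm, hcB, fun w hw' => ?_⟩, ?_⟩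
    · rw [mem_ball, dist_eq_norm] at hz
      linarith
    · rw [shift_psi, zero_add]; exact hzx
    · have hwz : w + z ∈ ball y ((1 - κ) * r) := by
        rw [mem_ball, dist_eq_norm]
        have e1 : w + z - y = w + (z - y) := by abel
        rw [e1]
        exact lt_of_le_of_lt (norm_add_le _ _) (by linarith)
      rw [shift_cp, shift_cp]
      exact ⟨(h1 _ (hsub hwz)).1, hcpα _ hwz⟩
    · rw [← hzx, quot_cp, quot_cp, hcpα z hz, (h1 z (hsub hz)).1, hc]

end

end Vale.Agent.P247.SCY
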