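import Vale.Agent.P247.SCY.FM3

/-!
# P247: Theorem F with the given volume form
-/

set_option linter.all false

open scoped BigOperators ContDiff Topology Manifold ENNReal
open Set MeasureTheory Metric Filter

namespace Vale.Agent.P247.SCY
open Vale.Agent.P204 Vale.Agent.P204.T4 Vale.Agent.P204.Mfd Vale.Agent.P204.GX

/-- **Theorem F with the given volume form, from the soft Calabi-Yau theorem.** -/
theorem finalF1 (soft : SoftStatement') {X : Type} [TopologicalSpace X] [ChartedSpace E4 X]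
    [IsManifold (𝓡 4) ∞ X] [CompactSpace X] [T2Space X] [Nonempty X] [MeasurableSpace X]
    [BorelSpace X] {μ : HS.Form X 4} (hμ : HS.Volume μ) (hvol : HS.vol μ univ = 1 / 2)
    (hb : HS.BPlusLe3 μ) {w : Fin 3 → HS.Form X 2} (hw : HS.Hypersymplectic μ w)
    (hn : HS.Normalized μ w) {ε : ℝ} (hε : 0 < ε) :
    ∃ W : ℝ → Fin 3 → HS.Form X 2, HS.Deformation μ w W ∧
      (∀ x, (HS.Qm μ (W 1) x - (1 - ε) • (1 : Matrix (Fin 3) (Fin 3) ℝ)).PosDef) ∧
      (∀ x i j, i ≠ j → |HS.Qm μ (W 1) x i j| < ε) ∧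
      (∀ i j, ∫ x, |(HS.Qm μ (W 1) x - 1) i j| ∂(HS.vol μ) < ε) ∧
      ∃ U : Set X, IsOpen U ∧ HS.vol μ Uᶜ < ENNReal.ofReal ε ∧
        ∀ x ∈ U, FlatAt μ (W 1) x ∧ HS.Qm μ (W 1) x = 1 := by
  have hfin : HS.vol μ univ ≠ ⊤ := by rw [hvol]; simp
  haveI : IsFiniteMeasure (HS.vol μ) := ⟨lt_of_le_of_ne le_top hfin⟩
  have hreal : (HS.vol μ).real univ = 1 / 2 := by rw [Measure.real, hvol]; simp
  set κ := min (1 / 2) (ε / 16) with hκ
  have hκ0 : 0 < κ := lt_min (by norm_num) (by positivity)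
  have hκ1 : κ < 1 := (min_le_left _ _).trans_lt (by norm_num)
  have hκ2 : κ ≤ ε / 16 := min_le_right _ _
  set ε2 := min (1 / 12) (ε / 12) with hε2
  have hε20 : 0 < ε2 := lt_min (by norm_num) (by positivity)
  have hε21 : ε2 ≤ 1 / 12 := min_le_left _ _
  have hε22 : ε2 ≤ ε / 12 := min_le_right _ _
  obtain ⟨δ0, hδ0, H⟩ := stepF1 κ ε2 hκ0 hκ1 hε20
  set δ := min δ0 (ε / 2) with hδd
  have hδ : 0 < δ := lt_min hδ0 (by positivity)
  set ε1 := min (ε / 2) (δ * (ε / 36)) with hε1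
  have hε10 : 0 < ε1 := lt_min (by positivity) (by positivity)
  have hε11 : ε1 ≤ ε / 2 := min_le_left _ _
  have hε12 : ε1 ≤ δ * (ε / 36) := min_le_right _ _
  obtain ⟨W, hW, hW1, hW2, hW3⟩ := final_of_soft soft hμ hvol hb hw hn hε10
  have hH := hW.hyper 1 (by simp)
  set G := goodSet μ (W 1) δ with hG
  have hGo : IsOpen G := isOpen_goodSet hμ hH.smooth δ
  have hGbad := vol_bad hμ hfin hH.smooth hδ hε10 hW3
  obtain ⟨θ, U, hθ, hU, hUG, hvolU, hnear, hflat⟩ := H hμ hfin hH hGo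
    (fun x hx i j => (hx i j).trans_le (min_le_left _ _)) (e := ENNReal.ofReal (ε / 4)) (by
      simpa using hε)
  have hherm : ∀ (s : ℝ) (x : X), (HS.Qm μ (fun i x => W 1 i x + s • θ i x) x).IsHermitian := fun s x =>
    qm_hermitian μ _ x
  have hQ0 : ∀ x, (∀ i, θ i x = 0) → ∀ s : ℝ,
      HS.Qm μ (fun i x => W 1 i x + s • θ i x) x = HS.Qm μ (W 1) x := by
    intro x hx s
    ext i j
    show HS.wedge (W 1 i x + s • θ i x) (W 1 j x + s • θ j x) (HS.tbas x) / _ / 2 =
      HS.wedge (W 1 i x) (W 1 j x) (HS.tbas x) / _ / 2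
    rw [hx i, hx j, smul_zero, add_zero, add_zero]
  have hpos : ∀ s ∈ Icc (0 : ℝ) 1, ∀ x, (HS.Qm μ (fun i x => W 1 i x + s • θ i x) x).PosDef := by
    intro s hs x
    rcases hnear x with h | h
    · rw [hQ0 x h]; exact hH.posDef x
    · exact posDef_add_smul (c := 1 - 1 / 4) (by norm_num)
        (posDef_near (hherm s x) (δ := ε2) (by linarith) (h s hs))
  obtain ⟨W', hW', hW'1⟩ := deformation_append hW hθ hpos
  have hone : (fun i x => W 1 i x + (1 : ℝ) • θ i x) = fun i x => W 1 i x + θ i x := by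
    funext i x; rw [one_smul]
  -- the Gram matrix of the new triple
  have hcase : ∀ x, HS.Qm μ (W' 1) x = HS.Qm μ (W 1) x ∨
      ∀ i j, |HS.Qm μ (W' 1) x i j - if i = j then 1 else 0| < ε2 := by
    intro x
    rw [hW'1, ← hone]
    rcases hnear x with h | h
    · left; exact hQ0 x h 1
    · right; exact h 1 (by simp)
  have hsm' : ∀ i, HS.Smooth (W' 1 i) := (hW'.hyper 1 (by simp)).smooth
  refine ⟨W', hW', fun x => ?_, fun x i j hij => ?_, fun i j => ?_, U, hU, ?_, fun x hx => ⟨?_, ?_⟩⟩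
  · rcases hcase x with h | h
    · rw [h]
      have h1 := hW1 x
      have e : HS.Qm μ (W 1) x - (1 - ε) • (1 : Matrix (Fin 3) (Fin 3) ℝ) =
          (HS.Qm μ (W 1) x - (1 - ε1) • (1 : Matrix (Fin 3) (Fin 3) ℝ)) +
            (ε - ε1) • (1 : Matrix (Fin 3) (Fin 3) ℝ) := by module
      rw [e]
      refine h1.add_posSemidef ?_
      exact (Matrix.PosSemidef.one (n := Fin 3) (R := ℝ)).smul (by linarith)
    · exact posDef_near (qm_hermitian μ _ x) (δ := ε2) (by linarith) h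
  · rcases hcase x with h | h
    · rw [h]; exact (hW2 x i j hij).trans_le (by linarith)
    · have := h i j
      rw [if_neg hij, sub_zero] at this
      exact this.trans_le (by linarith)
  · have hle : ∀ x, |(HS.Qm μ (W' 1) x - 1) i j| ≤ |(HS.Qm μ (W 1) x - 1) i j| + ε2 := by
      intro x
      rcases hcase x with h | h
      · rw [h]; linarith
      · rw [sub_one_apply']
        have := h i j
        have := abs_nonneg ((HS.Qm μ (W 1) x - 1) i j)
        linarith
    have hi := integrable_Qm hμ hfin hH.smooth i j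
    calc ∫ x, |(HS.Qm μ (W' 1) x - 1) i j| ∂(HS.vol μ) ≤
        ∫ x, (|(HS.Qm μ (W 1) x - 1) i j| + ε2) ∂(HS.vol μ) :=
          integral_mono (integrable_Qm hμ hfin hsm' i j) (hi.add (integrable_const _)) hle
      _ = ∫ x, |(HS.Qm μ (W 1) x - 1) i j| ∂(HS.vol μ) + ε2 * (1 / 2) := by
          rw [integral_add hi (integrable_const _), integral_const, hreal, smul_eq_mul, mul_comm]
      _ < ε := by
          have := hW3 i j
          linarith
  · have hsub : Uᶜ ⊆ Gᶜ ∪ (G \ U) := by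
      intro x hx
      by_cases hxG : x ∈ G
      · exact Or.inr ⟨hxG, hx⟩
      · exact Or.inl hxG
    have h1 : 9 * (ε1 / δ) ≤ ε / 4 := by
      rw [mul_div_assoc', div_le_iff₀ hδ]
      linarith
    have h2 : ENNReal.ofReal (25 / 4 * κ) * HS.vol μ univ ≤ ENNReal.ofReal (ε / 4) := by
      rw [hvol, show (1 / 2 : ℝ≥0∞) = ENNReal.ofReal (1 / 2) by
        rw [ENNReal.ofReal_div_of_pos (by norm_num)]; simp, ← ENNReal.ofReal_mul (by positivity)]
      apply ENNReal.ofReal_le_ofReal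
      linarith
    calc HS.vol μ Uᶜ ≤ HS.vol μ (Gᶜ ∪ (G \ U)) := measure_mono hsub
      _ ≤ HS.vol μ Gᶜ + HS.vol μ (G \ U) := measure_union_le _ _
      _ ≤ ENNReal.ofReal (ε / 4) + (ENNReal.ofReal (ε / 4) + ENNReal.ofReal (ε / 4)) :=
          add_le_add (hGbad.trans (ENNReal.ofReal_le_ofReal h1))
            (hvolU.trans (add_le_add le_rfl h2))
      _ = ENNReal.ofReal (ε / 4 + (ε / 4 + ε / 4)) := by
          rw [ENNReal.ofReal_add (by positivity) (by positivity),
            ENNReal.ofReal_add (by positivity) (by positivity)]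
      _ < ENNReal.ofReal ε := (ENNReal.ofReal_lt_ofReal_iff hε).2 (by linarith)
  · rw [hW'1]; exact (hflat x hx).1
  · rw [hW'1]; exact (hflat x hx).2

end Vale.Agent.P247.SCY
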