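import Vale.Agent.P247.SCY.FX1

/-!
# P247: exact forms pair to zero with closed forms, global statement
-/

set_option linter.all false

open scoped BigOperators ContDiff Topology Manifold ENNReal
open Set MeasureTheory Metric Filter

namespace Vale.Agent.P247.SCY
open Vale.Agent.P204 Vale.Agent.P204.T4 Vale.Agent.P204.Mfd Vale.Agent.P204.GX

section
variable {X : Type} [TopologicalSpace X] [ChartedSpace E4 X] [IsManifold (𝓡 4) ∞ X]
  [CompactSpace X] [T2Space X] [MeasurableSpace X] [BorelSpace X]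

/-- integrals of functions supported in the range of a parametrisation -/
theorem integral_par {μ : HS.Form X 4} (hμ : HS.Volume μ) {w : Fin 3 → HS.Form X 2}
    (hw : HS.Hypersymplectic μ w) (p : Par X) {f : X → ℝ}
    (hf : ∀ x, x ∉ range p.psi → f x = 0) :
    ∫ x, f x ∂(HS.vol μ) = ∫ y, |m4 p μ y| * f (p.psi y) := by
  have hr : MeasurableSet (range p.psi) := p.isOpen_range.measurableSet
  have hm : Measurable fun y => ENNReal.ofReal |m4 p μ y| :=
    ((contDiff_m4 p hμ.smooth).continuous.abs.measurable).ennreal_ofReal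
  have hψ : Measurable p.psi := p.isOpenEmbedding.continuous.measurable
  have hres : (HS.vol μ).restrict (range p.psi) =
      Measure.map p.psi (volume.withDensity fun y => ENNReal.ofReal |m4 p μ y|) := by
    ext E hE
    rw [Measure.restrict_apply hE, vol_par hμ hw p (hE.inter hr) inter_subset_right,
      Measure.map_apply hψ hE, withDensity_apply _ (hψ hE)]
    congr 2
    ext y
    simp
  have h1 : ∫ x, f x ∂(HS.vol μ) = ∫ x in range p.psi, f x ∂(HS.vol μ) :=
    (setIntegral_eq_integral_of_forall_compl_eq_zero fun x hx => hf x hx).symm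
  rw [h1, hres, p.isOpenEmbedding.measurableEmbedding.integral_map,
    integral_withDensity_eq_integral_toReal_smul hm (Filter.Eventually.of_forall fun y =>
      ENNReal.ofReal_lt_top)]
  refine integral_congr_ae (Filter.Eventually.of_forall fun y => ?_)
  show (ENNReal.ofReal |m4 p μ y|).toReal • f (p.psi y) = _
  rw [ENNReal.toReal_ofReal (abs_nonneg _), smul_eq_mul]

/-- the density of a volume form has a constant sign in a parametrisation -/
theorem m4_sign {μ : HS.Form X 4} (hμ : HS.Volume μ) (p : Par X) :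
    (∀ y, 0 < m4 p μ y) ∨ ∀ y, m4 p μ y < 0 := by
  by_contra hcon
  push Not at hcon
  obtain ⟨⟨y, hy⟩, z, hz⟩ := hcon
  obtain ⟨v, hv⟩ := mem_range_of_exists_le_of_exists_ge (contDiff_m4 p hμ.smooth).continuous
    ⟨y, hy⟩ ⟨z, hz⟩
  exact m4_ne hμ p v hv

/-- Stokes, for an exact form supported in a parametrisation -/
theorem pair_E2 {μ : HS.Form X 4} (hμ : HS.Volume μ) {w : Fin 3 → HS.Form X 2}
    (hw : HS.Hypersymplectic μ w) (p : Par X) {ζ : V4 → V4} (hs : ContDiff ℝ ∞ ζ)
    (hc : HasCompactSupport ζ) {c : HS.Form X 2} (sc : HS.Smooth c) (cc : HS.Closed c) :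
    HS.pair μ (E2 p (d1 ζ)) c = 0 := by
  have h0 : ∀ x, x ∉ range p.psi → HS.quot μ (E2 p (d1 ζ)) c x = 0 := by
    intro x hx
    have h1 : bx (E2 p (d1 ζ)) x = 0 := E2_of_notMem p _ fun h => hx (image_subset_range _ _ h)
    rw [quot_cx]
    have h2 : cx (E2 p (d1 ζ)) x = 0 := by
      show cE (bx (E2 p (d1 ζ)) x) = 0
      rw [h1, map_zero]
    rw [h2, Q_zero_left, mul_zero]
  have hst : ∫ y, Q (d1 ζ y) (cp p c y) = 0 :=
    stokes4 (hs.of_le (by simp)) hc ((cp_smooth p sc).of_le (by simp)) (cp_closed p sc cc)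
  show ∫ x, HS.quot μ (E2 p (d1 ζ)) c x ∂(HS.vol μ) = 0
  rw [integral_par hμ hw p h0]
  rcases m4_sign hμ p with h | h
  · rw [← hst]
    refine integral_congr_ae (Filter.Eventually.of_forall fun y => ?_)
    show |m4 p μ y| * HS.quot μ (E2 p (d1 ζ)) c (p.psi y) = _
    rw [quot_cp, cp_E2, abs_of_pos (h y)]
    have := (h y).ne'
    field_simp
  · rw [← neg_zero, ← hst, ← integral_neg]
    refine integral_congr_ae (Filter.Eventually.of_forall fun y => ?_)
    show |m4 p μ y| * HS.quot μ (E2 p (d1 ζ)) c (p.psi y) = _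
    rw [quot_cp, cp_E2, abs_of_neg (h y)]
    have := (h y).ne
    field_simp

theorem integrable_quot {μ : HS.Form X 4} (hμ : HS.Volume μ) (hfin : HS.vol μ univ ≠ ⊤)
    {α β : HS.Form X 2} (sα : HS.Smooth α) (sβ : HS.Smooth β) :
    Integrable (HS.quot μ α β) (HS.vol μ) := by
  haveI : IsFiniteMeasure (HS.vol μ) := ⟨lt_of_le_of_ne le_top hfin⟩
  have hc := continuous_quot hμ sα sβ
  obtain ⟨C, hC⟩ := isCompact_univ.exists_bound_of_continuousOn hc.continuousOn
  exact (integrable_const C).mono' hc.measurable.aestronglyMeasurable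
    (Filter.Eventually.of_forall fun x => hC x (mem_univ x))

/-- **Stokes.** Exact forms pair to zero with closed forms. -/
theorem pair_exact {μ : HS.Form X 4} (hμ : HS.Volume μ) (hfin : HS.vol μ univ ≠ ⊤)
    {w : Fin 3 → HS.Form X 2} (hw : HS.Hypersymplectic μ w) {θ : HS.Form X 2} (hθ : HS.Exact θ)
    {c : HS.Form X 2} (sc : HS.Smooth c) (cc : HS.Closed c) : HS.pair μ θ c = 0 := by
  have hdef := defAt_of_triPos (tri_of_posDef hw.posDef)
  have hJ : AlmostComplex (Jf (w 0) (w 1) (w 2)) :=
    Jf_almostComplex hdef (hw.smooth 0) (hw.smooth 1) (hw.smooth 2)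
  obtain ⟨A⟩ := exists_finAtlas hJ
  have hcov : ∀ x, ∃ a, x ∈ range (A.P a).psi := fun x => by
    obtain ⟨a, y, -, hy⟩ := A.cov x
    exact ⟨a, y, hy⟩
  obtain ⟨ζ, hζ, hζc, hsum⟩ := exact_decomp A.P hcov hθ
  have hq : ∀ x, HS.quot μ θ c x = ∑ a, HS.quot μ (E2 (A.P a) (d1 (ζ a))) c x := by
    intro x
    set e := chartAt E4 x with he
    have hee : e ∈ atlas E4 X := chart_mem_atlas E4 x
    have hx : x ∈ e.source := mem_chart_source E4 x
    have hz : e x ∈ e.target := e.map_source hx
    have h1 : x = e.symm (e x) := (e.left_inv hx).symm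
    rw [h1, quot_loc μ θ c hee hz, hsum e hee _ hz]
    simp only [quot_loc μ _ c hee hz]
    rw [map_sum, ← Finset.sum_div]
    congr 1
    have : ∀ s : Finset (Fin A.n), Q (∑ a ∈ s, cE (HS.loc e (E2 (A.P a) (d1 (ζ a))) (e x)))
        (cE (HS.loc e c (e x))) = ∑ a ∈ s, Q (cE (HS.loc e (E2 (A.P a) (d1 (ζ a))) (e x)))
        (cE (HS.loc e c (e x))) := by
      classical
      intro s
      induction s using Finset.induction_on with
      | empty => simp only [Finset.sum_empty, Q_zero_left]
      | insert a s ha ih => rw [Finset.sum_insert ha, Finset.sum_insert ha, Q_add_left, ih]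
    exact this _
  show ∫ x, HS.quot μ θ c x ∂(HS.vol μ) = 0
  simp only [hq]
  rw [integral_finsetSum _ fun a _ => integrable_quot hμ hfin
    (E2_smooth (A.P a) (d1_contDiff (hζ a)) (d1_compact (hζc a))) sc]
  exact Finset.sum_eq_zero fun a _ => pair_E2 hμ hw (A.P a) (hζ a) (hζc a) sc cc

theorem pair_add_left {μ : HS.Form X 4} (hμ : HS.Volume μ) (hfin : HS.vol μ univ ≠ ⊤)
    {α θ c : HS.Form X 2} (sα : HS.Smooth α) (sθ : HS.Smooth θ) (sc : HS.Smooth c) :
    HS.pair μ (fun x => α x + θ x) c = HS.pair μ α c + HS.pair μ θ c := by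
  show ∫ x, HS.quot μ (fun x => α x + θ x) c x ∂(HS.vol μ) = _
  have h : ∀ x, HS.quot μ (fun x => α x + θ x) c x = HS.quot μ α c x + HS.quot μ θ c x := by
    intro x
    rw [quot_cx, quot_cx, quot_cx, cx_add, Q_add_left]; ring
  simp only [h]
  exact integral_add (integrable_quot hμ hfin sα sc) (integrable_quot hμ hfin sθ sc)

/-- the pairing does not change in the class -/
theorem pair_step {μ : HS.Form X 4} (hμ : HS.Volume μ) (hfin : HS.vol μ univ ≠ ⊤)
    {w : Fin 3 → HS.Form X 2} (hw : HS.Hypersymplectic μ w) {α θ c : HS.Form X 2}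
    (sα : HS.Smooth α) (sθ : HS.Smooth θ) (hθ : HS.Exact θ) (sc : HS.Smooth c)
    (cc : HS.Closed c) : HS.pair μ (fun x => α x + θ x) c = HS.pair μ α c := by
  rw [pair_add_left hμ hfin sα sθ sc, pair_exact hμ hfin hw hθ sc cc, add_zero]

/-- deformations preserve the normalisation -/
theorem normalized_deformation {μ : HS.Form X 4} (hμ : HS.Volume μ) (hfin : HS.vol μ univ ≠ ⊤)
    {w : Fin 3 → HS.Form X 2} (hw : HS.Hypersymplectic μ w) (hn : HS.Normalized μ w)
    {W : ℝ → Fin 3 → HS.Form X 2} (hW : HS.Deformation μ w W) : HS.Normalized μ (W 1) := by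
  have hH := hW.hyper 1 (by simp)
  have key : ∀ i (c : HS.Form X 2), HS.Smooth c → HS.Closed c →
      HS.pair μ (W 1 i) c = HS.pair μ (w i) c := by
    intro i c sc cc
    have sθ : HS.Smooth fun x => W 1 i x - w i x := by
      have := smooth_add (hH.smooth i) (smooth_smul (hw.smooth i) (-1))
      have e : (fun x => W 1 i x - w i x) = fun x => W 1 i x + (-1 : ℝ) • w i x := by
        funext x
        have h2 : (-1 : ℝ) • w i x = -(w i x) := neg_one_smul ℝ (w i x)
        rw [h2, sub_eq_add_neg]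
      rw [e]; exact this
    have h1 := pair_step hμ hfin hw (hw.smooth i) sθ (hW.exact 1 i) sc cc
    have e : (fun x => w i x + (W 1 i x - w i x)) = W 1 i := by
      funext x; rw [add_sub_cancel]
    rw [e] at h1
    exact h1
  intro i j
  rw [key i _ (hH.smooth j) (hH.closed j), pair_comm, key j _ (hw.smooth i) (hw.closed i),
    pair_comm]
  exact hn i j

end

end Vale.Agent.P247.SCY
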