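import Vale.Agent.P247.SCY.EXM4
import Vale.Agent.P247.SCY.FK3
import Vale.Agent.P247.SCY.FM4
import Vale.Agent.P247.SCY.FX2

/-!
# P247: exactly orthogonal and flat on a large open set, one form
-/

set_option linter.all false

open scoped BigOperators ContDiff Topology Manifold ENNReal
open Set MeasureTheory Metric Filter

namespace Vale.Agent.P247.SCY
open Vale.Agent.P204 Vale.Agent.P204.T4 Vale.Agent.P204.Mfd Vale.Agent.P204.GX

section
variable {X : Type} [TopologicalSpace X] [ChartedSpace E4 X] [IsManifold (𝓡 4) ∞ X]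
  [CompactSpace X] [T2Space X] [Nonempty X] [MeasurableSpace X] [BorelSpace X]

omit [Nonempty X] in
/-- Markov's inequality for the bad set of one form -/
theorem bad_small {μ : HS.Form X 4} (hμ : HS.Volume μ) (hvol : HS.vol μ univ = 1 / 2)
    {v α : HS.Form X 2} (sv : HS.Smooth v) (sα : HS.Smooth α) (pv : HS.pair μ v v = 1)
    (pα : HS.pair μ α α = 1) {ε δ : ℝ} (hε : 0 < ε) (hδ : 0 < δ) (hδε : δ ≤ ε)
    (h : ∀ x, (1 - δ) * HS.quot μ v v x < HS.quot μ α α x) {G : Set X} (hG : IsOpen G)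
    (hv : ∀ x ∈ G, HS.quot μ v v x = 2) :
    HS.vol μ {x | x ∈ G ∧ ε ≤ |HS.quot μ α α x / 2 - 1|} ≤ ENNReal.ofReal (δ / (2 * ε)) := by
  have hfin : HS.vol μ univ ≠ ⊤ := by rw [hvol]; simp
  haveI : IsFiniteMeasure (HS.vol μ) := ⟨lt_of_le_of_ne le_top hfin⟩
  set f : X → ℝ := fun x => HS.quot μ α α x - (1 - δ) * HS.quot μ v v x with hf
  have hf0 : ∀ x, 0 ≤ f x := fun x => by have := h x; simp only [hf]; linarith
  have hint : Integrable f (HS.vol μ) :=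
    (integrable_quot hμ hfin sα sα).sub ((integrable_quot hμ hfin sv sv).const_mul _)
  have hI : ∫ x, f x ∂(HS.vol μ) = δ := by
    have e1 : ∫ x, HS.quot μ α α x ∂(HS.vol μ) = 1 := pα
    have e2 : ∫ x, HS.quot μ v v x ∂(HS.vol μ) = 1 := pv
    simp only [hf]
    rw [integral_sub (integrable_quot hμ hfin sα sα) ((integrable_quot hμ hfin sv sv).const_mul _),
      integral_const_mul, e1, e2]
    ring
  have hsub : {x | x ∈ G ∧ ε ≤ |HS.quot μ α α x / 2 - 1|} ⊆ {x | 2 * ε ≤ f x} := by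
    rintro x ⟨hx, hx'⟩
    have h1 := h x
    have h2 := hv x hx
    rw [h2] at h1
    show 2 * ε ≤ HS.quot μ α α x - (1 - δ) * HS.quot μ v v x
    rw [h2]
    rcases abs_cases (HS.quot μ α α x / 2 - 1) with ⟨h3, h4⟩ | ⟨h3, h4⟩
    · rw [h3] at hx'
      linarith
    · rw [h3] at hx'
      linarith
  have h1 := mul_meas_ge_le_integral_of_nonneg (μ := HS.vol μ)
    (Filter.Eventually.of_forall hf0) hint (2 * ε)
  rw [hI] at h1
  have h2 : (HS.vol μ).real {x | 2 * ε ≤ f x} ≤ δ / (2 * ε) := by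
    rw [le_div_iff₀ (by positivity), mul_comm]
    exact h1
  exact (measure_mono hsub).trans
    ((ENNReal.le_ofReal_iff_toReal_le (measure_ne_top _ _) (by positivity)).2 h2)

/-- **One form**: made exactly orthogonal to `β` and `γ`, and flat and conformal with them on a
large open set. -/
theorem stepCD (softK : SoftKStatement) (hcl : ClosedExStatement) {μ : HS.Form X 4}
    (hμ : HS.Volume μ) (hvol : HS.vol μ univ = 1 / 2)
    (hb : HS.BPlusLe3 μ) {v α β γ : HS.Form X 2} (sv : HS.Smooth v) (pv : HS.pair μ v v = 1)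
    (hv : ∀ x, 0 < HS.quot μ v v x) (sα : HS.Smooth α) (cα : HS.Closed α)
    (sβ : HS.Smooth β) (cβ : HS.Closed β) (sγ : HS.Smooth γ) (cγ : HS.Closed γ)
    (hpos : TriPos μ α β γ) (pαα : HS.pair μ α α = 1) (pββ : HS.pair μ β β = 1)
    (pγγ : HS.pair μ γ γ = 1) (pαβ : HS.pair μ α β = 0) (pαγ : HS.pair μ α γ = 0)
    (pβγ : HS.pair μ β γ = 0) {G : Set X} (hG : IsOpen G)
    (hflat : ∀ x ∈ G, FlatPair β γ x) (hGβ : ∀ x ∈ G, HS.quot μ β β x = 2)
    (hGv : ∀ x ∈ G, HS.quot μ v v x = 2) {ε : ℝ} (hε : 0 < ε) :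
    ∃ (θ1 θ2 : HS.Form X 2) (U : Set X), (HS.Smooth θ1 ∧ HS.Closed θ1 ∧ HS.Exact θ1) ∧
      (HS.Smooth θ2 ∧ HS.Closed θ2 ∧ HS.Exact θ2) ∧
      (∀ s ∈ Icc (0 : ℝ) 1, TriPos μ (fun x => α x + s • θ1 x) β γ) ∧
      (∀ s ∈ Icc (0 : ℝ) 1, TriPos μ (fun x => (α x + θ1 x) + s • θ2 x) β γ) ∧
      (∀ x, HS.quot μ (fun x => (α x + θ1 x) + θ2 x) β x = 0) ∧
      (∀ x, HS.quot μ (fun x => (α x + θ1 x) + θ2 x) γ x = 0) ∧
      (∀ x, (1 - ε) * HS.quot μ v v x <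
        HS.quot μ (fun x => (α x + θ1 x) + θ2 x) (fun x => (α x + θ1 x) + θ2 x) x) ∧
      IsOpen U ∧ U ⊆ G ∧ HS.vol μ (G \ U) ≤ ENNReal.ofReal ε ∧
      ∀ x ∈ U, FlatPair β (fun x => (α x + θ1 x) + θ2 x) x ∧
        HS.quot μ (fun x => (α x + θ1 x) + θ2 x) (fun x => (α x + θ1 x) + θ2 x) x = 2 := by
  have hfin : HS.vol μ univ ≠ ⊤ := by rw [hvol]; simp
  haveI : IsFiniteMeasure (HS.vol μ) := ⟨lt_of_le_of_ne le_top hfin⟩
  -- constants
  set ε3 := min (1 / 2) (ε / 3) with hε3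
  have hε30 : 0 < ε3 := by positivity
  have hε31 : ε3 ≤ 1 / 2 := min_le_left _ _
  have hε32 : ε3 ≤ ε / 3 := min_le_right _ _
  obtain ⟨ε1, hε1, HK⟩ := stepK hμ hvol (ε := ε3) hε30
  set δ := min (min (1 / 2) (ε / 3)) (min ε1 (ε1 * ε)) with hδ
  have hδ0 : 0 < δ := by positivity
  have hδ2 : δ ≤ ε / 3 := (min_le_left _ _).trans (min_le_right _ _)
  have hδ3 : δ ≤ ε1 := (min_le_right _ _).trans (min_le_left _ _)
  have hδ4 : δ ≤ ε1 * ε := (min_le_right _ _).trans (min_le_right _ _)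
  obtain ⟨θ1, sθ1, cθ1, e1, p1, q1, d1', x1β, x1γ⟩ := stepV softK hcl hμ hb sv pv hv sα cα sβ cβ
    sγ cγ hpos pαα pββ pγγ pαβ pαγ pβγ hδ0
  set α1 : HS.Form X 2 := fun x => α x + θ1 x with hα1
  have sα1 : HS.Smooth α1 := smooth_add sα sθ1
  have cα1 : HS.Closed α1 := closed_add sα sθ1 cα cθ1
  have pα1 : HS.pair μ α1 α1 = 1 := by rw [p1 α1 sα1 cα1, pair_comm, p1 _ sα cα, pαα]
  have t1 : TriPos μ α1 β γ := by
    have := q1 1 (by norm_num)
    simpa only [one_smul] using this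
  set G' : Set X := G ∩ {x | |HS.quot μ α1 α1 x / 2 - 1| < ε1} with hG'
  have hG'o : IsOpen G' := by
    refine hG.inter (isOpen_lt ?_ continuous_const)
    exact (((continuous_quot hμ sα1 sα1).div_const 2).sub continuous_const).abs
  obtain ⟨θ2, U, sθ2, cθ2, e2, q2, x2β, x2γ, d2, hU, hUG, hvolU, hUf⟩ := HK sα1 cα1 sβ cβ sγ cγ t1
    x1β x1γ hG'o (fun x hx => ⟨hflat x hx.1, by rw [hGβ x hx.1]; exact hx.2⟩)
  refine ⟨θ1, θ2, U, ⟨sθ1, cθ1, e1⟩, ⟨sθ2, cθ2, e2⟩, q1, q2, x2β, x2γ, ?_, hU,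
    hUG.trans inter_subset_left, ?_, fun x hx => ⟨(hUf x hx).1, ?_⟩⟩
  · intro x
    have k1 := d1' x
    have k2 := d2 x
    have k3 := hv x
    have k4 : (1 - ε3) * ((1 - δ) * HS.quot μ v v x) < (1 - ε3) * HS.quot μ α1 α1 x :=
      mul_lt_mul_of_pos_left k1 (by linarith)
    have k5 : (1 - ε) ≤ (1 - ε3) * (1 - δ) := by nlinarith
    have k6 := mul_le_mul_of_nonneg_right k5 k3.le
    linarith
  · have hsub : G \ U ⊆ {x | x ∈ G ∧ ε1 ≤ |HS.quot μ α1 α1 x / 2 - 1|} ∪ (G' \ U) := by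
      rintro x ⟨hx, hx'⟩
      by_cases hxG : x ∈ G'
      · exact Or.inr ⟨hxG, hx'⟩
      · left
        refine ⟨hx, ?_⟩
        by_contra hcon
        exact hxG ⟨hx, not_le.1 hcon⟩
    have hbad := bad_small hμ hvol sv sα1 pv pα1 hε1 hδ0 hδ3 d1' hG hGv
    have h1 : δ / (2 * ε1) ≤ ε / 2 := by
      rw [div_le_iff₀ (by positivity)]
      linarith
    calc HS.vol μ (G \ U) ≤ _ := measure_mono hsub
      _ ≤ _ := measure_union_le _ _
      _ ≤ ENNReal.ofReal (ε / 2) + ENNReal.ofReal ε3 :=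
          add_le_add (hbad.trans (ENNReal.ofReal_le_ofReal h1)) hvolU
      _ = ENNReal.ofReal (ε / 2 + ε3) := (ENNReal.ofReal_add (by positivity) hε30.le).symm
      _ ≤ ENNReal.ofReal ε := ENNReal.ofReal_le_ofReal (by linarith)
  · rw [(hUf x hx).2]
    exact hGβ x (hUG hx).1

end

end Vale.Agent.P247.SCY
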