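import Vale.Agent.P247.SCY.FE1

/-!
# P247: orthogonal everywhere, exactly hyperkähler on a large open set
-/

set_option linter.all false

open scoped BigOperators ContDiff Topology Manifold ENNReal
open Set MeasureTheory Metric Filter

namespace Vale.Agent.P247.SCY
open Vale.Agent.P204 Vale.Agent.P204.T4 Vale.Agent.P204.Mfd Vale.Agent.P204.GX

section
variable {X : Type} [TopologicalSpace X] [ChartedSpace E4 X]

theorem smooth_zero2 : HS.Smooth (fun _ => 0 : HS.Form X 2) := by
  intro e he
  have : HS.loc e (fun _ => 0 : HS.Form X 2) = fun _ => 0 := by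
    funext y; ext v; rfl
  rw [this]; exact contDiffOn_const

end

section
variable {X : Type} [TopologicalSpace X] [ChartedSpace E4 X] [IsManifold (𝓡 4) ∞ X]
  [T2Space X]

theorem closed_zero2 : HS.Closed (fun _ => 0 : HS.Form X 2) := exact_closed exact_zero

/-- a linear step in the second form -/
theorem append1 {μ : HS.Form X 4} {w : Fin 3 → HS.Form X 2}
    {W : ℝ → Fin 3 → HS.Form X 2} (h : HS.Deformation μ w W) {θ : HS.Form X 2}
    (hθ : HS.Smooth θ ∧ HS.Closed θ ∧ HS.Exact θ) {u0 u1 u2 : HS.Form X 2}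
    (h0 : W 1 = ![u0, u1, u2])
    (hpos : ∀ s ∈ Icc (0 : ℝ) 1, TriPos μ (fun x => u1 x + s • θ x) u0 u2) :
    ∃ W' : ℝ → Fin 3 → HS.Form X 2, HS.Deformation μ w W' ∧
      W' 1 = ![u0, fun x => u1 x + θ x, u2] := by
  obtain ⟨W', hW', hW'1⟩ := deformation_append h (θ := ![fun _ => 0, θ, fun _ => 0])
    (by
      intro i
      fin_cases i
      · exact ⟨smooth_zero2, closed_zero2, exact_zero⟩
      · exact hθ
      · exact ⟨smooth_zero2, closed_zero2, exact_zero⟩)
    (by
      intro s hs x
      refine posDef_of_tri ?_ x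
      have h1 := (hpos s hs).swap
      rw [h0]
      have e0 : (fun x => (![u0, u1, u2] : Fin 3 → HS.Form X 2) 0 x +
          s • (![fun _ => 0, θ, fun _ => 0] : Fin 3 → HS.Form X 2) 0 x) = u0 := by
        funext x
        show u0 x + s • (0 : _) = u0 x
        rw [smul_zero, add_zero]
      have e2 : (fun x => (![u0, u1, u2] : Fin 3 → HS.Form X 2) 2 x +
          s • (![fun _ => 0, θ, fun _ => 0] : Fin 3 → HS.Form X 2) 2 x) = u2 := by
        funext x
        show u2 x + s • (0 : _) = u2 x
        rw [smul_zero, add_zero]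
      rw [e0, e2]
      exact h1)
  refine ⟨W', hW', ?_⟩
  rw [hW'1, h0]
  funext i x
  fin_cases i
  · show u0 x + 0 = u0 x
    rw [add_zero]
  · rfl
  · show u2 x + 0 = u2 x
    rw [add_zero]

/-- a linear step in the third form -/
theorem append2 {μ : HS.Form X 4} {w : Fin 3 → HS.Form X 2}
    {W : ℝ → Fin 3 → HS.Form X 2} (h : HS.Deformation μ w W) {θ : HS.Form X 2}
    (hθ : HS.Smooth θ ∧ HS.Closed θ ∧ HS.Exact θ) {u0 u1 u2 : HS.Form X 2}
    (h0 : W 1 = ![u0, u1, u2])
    (hpos : ∀ s ∈ Icc (0 : ℝ) 1, TriPos μ (fun x => u2 x + s • θ x) u0 u1) :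
    ∃ W' : ℝ → Fin 3 → HS.Form X 2, HS.Deformation μ w W' ∧
      W' 1 = ![u0, u1, fun x => u2 x + θ x] := by
  obtain ⟨W', hW', hW'1⟩ := deformation_append h (θ := ![fun _ => 0, fun _ => 0, θ])
    (by
      intro i
      fin_cases i
      · exact ⟨smooth_zero2, closed_zero2, exact_zero⟩
      · exact ⟨smooth_zero2, closed_zero2, exact_zero⟩
      · exact hθ)
    (by
      intro s hs x
      refine posDef_of_tri ?_ x
      have h1 := (hpos s hs).rot.rot
      rw [h0]
      have e0 : (fun x => (![u0, u1, u2] : Fin 3 → HS.Form X 2) 0 x +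
          s • (![fun _ => 0, fun _ => 0, θ] : Fin 3 → HS.Form X 2) 0 x) = u0 := by
        funext x
        show u0 x + s • (0 : _) = u0 x
        rw [smul_zero, add_zero]
      have e2 : (fun x => (![u0, u1, u2] : Fin 3 → HS.Form X 2) 1 x +
          s • (![fun _ => 0, fun _ => 0, θ] : Fin 3 → HS.Form X 2) 1 x) = u1 := by
        funext x
        show u1 x + s • (0 : _) = u1 x
        rw [smul_zero, add_zero]
      rw [e0, e2]
      exact h1)
  refine ⟨W', hW', ?_⟩
  rw [hW'1, h0]
  funext i x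
  fin_cases i
  · show u0 x + 0 = u0 x
    rw [add_zero]
  · show u1 x + 0 = u1 x
    rw [add_zero]
  · rfl

end

end Vale.Agent.P247.SCY
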