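import Vale.Agent.P247.SCY.FE2

/-!
# P247: orthogonal everywhere, exactly hyperkähler on a large open set: final assembly
-/

set_option linter.all false

open scoped BigOperators ContDiff Topology Manifold ENNReal
open Set MeasureTheory Metric Filter

namespace Vale.Agent.P247.SCY
open Vale.Agent.P204 Vale.Agent.P204.T4 Vale.Agent.P204.Mfd Vale.Agent.P204.GX

theorem chain_bounds {δ ε : ℝ} (hδ0 : 0 < δ) (hδ1 : δ ≤ 1 / 2) (hδ2 : 9 * δ ≤ ε) {q : Fin 3 → ℝ}
    (a0 : 1 - δ < q 0) (a1 : (1 - δ) * q 0 < q 1) (a2 : (1 - δ) * q 1 < q 2) :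
    (∀ i, 1 - 3 * δ < q i) ∧ ∀ i j, i ≤ j → (1 - ε) * q i < q j := by
  have c3 : (1 - δ) * (1 - δ) < q 1 := by nlinarith
  have c4 : (1 - δ) * ((1 - δ) * (1 - δ)) < q 2 := by nlinarith
  have c5 : 1 - 3 * δ ≤ (1 - δ) * ((1 - δ) * (1 - δ)) := by nlinarith [sq_nonneg δ]
  have c6 : 1 - 3 * δ ≤ (1 - δ) * (1 - δ) := by nlinarith [sq_nonneg δ]
  have p0 : 0 < q 0 := by linarith
  have p1 : 0 < q 1 := lt_trans (mul_pos (by linarith) (by linarith)) c3
  have p2 : 0 < q 2 :=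
    lt_trans (mul_pos (by linarith) (mul_pos (by linarith) (by linarith))) c4
  refine ⟨fun i => ?_, fun i j hij => ?_⟩
  · fin_cases i
    · show 1 - 3 * δ < q 0
      linarith
    · show 1 - 3 * δ < q 1
      linarith
    · show 1 - 3 * δ < q 2
      linarith
  · have mono : ∀ (q q' : ℝ), 0 < q → (1 - δ) * q < q' → (1 - ε) * q < q' := by
      intro q q' hq h
      have : (1 - ε) * q ≤ (1 - δ) * q := mul_le_mul_of_nonneg_right (by linarith) hq.le
      linarith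
    have self : ∀ q : ℝ, 0 < q → (1 - ε) * q < q := by
      intro q hq
      nlinarith
    have c02 : (1 - ε) * q 0 < q 2 := by
      have e3 : (1 - δ) * ((1 - δ) * q 0) < (1 - δ) * q 1 :=
        mul_lt_mul_of_pos_left a1 (by linarith)
      have e4 : (1 - ε) ≤ (1 - δ) * (1 - δ) := by nlinarith [sq_nonneg δ]
      have e5 := mul_le_mul_of_nonneg_right e4 p0.le
      linarith
    fin_cases i <;> fin_cases j
    · exact self _ p0
    · exact mono _ _ p0 a1
    · exact c02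
    · exact absurd hij (by decide)
    · exact self _ p1
    · exact mono _ _ p1 a2
    · exact absurd hij (by decide)
    · exact absurd hij (by decide)
    · exact self _ p2

theorem flatPair_of_flatAt {X : Type} [TopologicalSpace X] [ChartedSpace E4 X]
    [IsManifold (𝓡 4) ∞ X] {μ : HS.Form X 4} {w : Fin 3 → HS.Form X 2} {x : X}
    (h : FlatAt μ w x) : FlatPair (w 0) (w 2) x := by
  obtain ⟨p, ρ, c, m0, hρ, hm0, hp, -, hc, hcp⟩ := h
  refine ⟨p, ρ, c 0, c 2, hρ, hp, ?_, ?_, fun y hy => ⟨hcp y hy 0, hcp y hy 2⟩⟩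
  · rw [hc, hc, if_pos rfl, if_pos rfl]
  · rw [hc, if_neg (by decide), zero_mul]

section
variable {X : Type} [TopologicalSpace X] [ChartedSpace E4 X] [IsManifold (𝓡 4) ∞ X]
  [CompactSpace X] [T2Space X] [Nonempty X] [MeasurableSpace X] [BorelSpace X]

omit [CompactSpace X] [T2Space X] [Nonempty X] [MeasurableSpace X] [BorelSpace X]
  [IsManifold (𝓡 4) ∞ X] in
theorem Qm_vec (μ : HS.Form X 4) (u : Fin 3 → HS.Form X 2) (x : X) (i j : Fin 3) :
    HS.Qm μ u x i j = HS.quot μ (u i) (u j) x / 2 := rfl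

/-- **Theorem OF, from the soft theorems.** -/
theorem finalOF (soft : SoftStatement') (softK : SoftKStatement) (hcl : ClosedExStatement)
    {μ : HS.Form X 4} (hμ : HS.Volume μ) (hvol : HS.vol μ univ = 1 / 2)
    (hb : HS.BPlusLe3 μ) {w : Fin 3 → HS.Form X 2} (hw : HS.Hypersymplectic μ w)
    (hn : HS.Normalized μ w) {ε : ℝ} (hε : 0 < ε) :
    ∃ W : ℝ → Fin 3 → HS.Form X 2, HS.Deformation μ w W ∧
      (∀ x i j, i ≠ j → HS.Qm μ (W 1) x i j = 0) ∧
      (∀ x i j, i ≤ j → (1 - ε) * HS.Qm μ (W 1) x i i < HS.Qm μ (W 1) x j j) ∧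
      (∀ x i, 1 - ε < HS.Qm μ (W 1) x i i) ∧
      (∀ i, ∫ x, |HS.Qm μ (W 1) x i i - 1| ∂(HS.vol μ) < ε) ∧
      ∃ U : Set X, IsOpen U ∧ HS.vol μ Uᶜ < ENNReal.ofReal ε ∧
        ∀ x ∈ U, HS.Qm μ (W 1) x = 1 := by
  have hvol' : (HS.vol μ univ).toReal = 1 / 2 := by rw [hvol]; simp
  have hfin : HS.vol μ univ ≠ ⊤ := by rw [hvol]; simp
  haveI : IsFiniteMeasure (HS.vol μ) := ⟨by rw [hvol]; simp⟩
  obtain ⟨δ, hδ0, hδ1, hδ2⟩ : ∃ δ : ℝ, 0 < δ ∧ δ ≤ 1 / 2 ∧ 9 * δ ≤ ε :=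
    ⟨min (1 / 2) (ε / 9), by positivity, min_le_left _ _, by
      have := min_le_right (1 / 2) (ε / 9); linarith⟩
  -- flat on a large set
  obtain ⟨W, hW, hPD, -, -, U0, hU0, hvolU0, hF⟩ := finalF1 soft hμ hvol hb hw hn hδ0
  have hH := hW.hyper 1 (by simp)
  have nW := normalized_deformation hμ hfin hw hn hW
  set u0 := W 1 0 with hu0
  set u1 := W 1 1 with hu1
  set u2 := W 1 2 with hu2
  have hW1 : W 1 = ![u0, u1, u2] := by
    funext i
    fin_cases i <;> rfl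
  have s0 : HS.Smooth u0 := hH.smooth 0
  have s1 : HS.Smooth u1 := hH.smooth 1
  have s2 : HS.Smooth u2 := hH.smooth 2
  have c0 : HS.Closed u0 := hH.closed 0
  have c1 : HS.Closed u1 := hH.closed 1
  have c2 : HS.Closed u2 := hH.closed 2
  have t0 : TriPos μ u0 u1 u2 := tri_of_posDef hH.posDef
  have n00 : HS.pair μ u0 u0 = 1 := by simpa using nW 0 0
  have n11 : HS.pair μ u1 u1 = 1 := by simpa using nW 1 1
  have n22 : HS.pair μ u2 u2 = 1 := by simpa using nW 2 2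
  have n01 : HS.pair μ u0 u1 = 0 := by simpa using nW 0 1
  have n02 : HS.pair μ u0 u2 = 0 := by simpa using nW 0 2
  have n12 : HS.pair μ u1 u2 = 0 := by simpa using nW 1 2
  have pos0 : ∀ x, 0 < HS.quot μ u0 u0 x := fun x => by
    have := t0 x 1 0 0 (Or.inl one_ne_zero)
    linarith
  have q0 : ∀ x ∈ U0, HS.quot μ u0 u0 x = 2 := by
    intro x hx
    have h1 := congrFun (congrFun (hF x hx).2 0) 0
    rw [Qm_vec, Matrix.one_apply_eq] at h1
    linarith
  -- the second form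
  obtain ⟨θ1, θ2, U1, hθ1, hθ2, k1, k2, o10, o12, l1, hU1, hU10, hvolU1, hF1⟩ :=
    stepCD softK hcl hμ hvol hb s0 n00 pos0 s1 c1 s0 c0 s2 c2 t0.swap n11 n00 n22
      (by rw [pair_comm, n01]) n12 n02 hU0 (fun x hx => flatPair_of_flatAt (hF x hx).1) q0 q0 hδ0
  obtain ⟨W1, hWa, hWa1⟩ := append1 hW hθ1 hW1 k1
  obtain ⟨W2, hWb, hWb1⟩ := append1 hWa hθ2 hWa1 k2
  set v1 : HS.Form X 2 := fun x => (u1 x + θ1 x) + θ2 x with hv1
  have hH2 := hWb.hyper 1 (by simp)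
  have nW2 := normalized_deformation hμ hfin hw hn hWb
  rw [hWb1] at hH2 nW2
  have sv1 : HS.Smooth v1 := hH2.smooth 1
  have cv1 : HS.Closed v1 := hH2.closed 1
  have m11 : HS.pair μ v1 v1 = 1 := by simpa using nW2 1 1
  have m01 : HS.pair μ u0 v1 = 0 := by simpa using nW2 0 1
  have m12 : HS.pair μ v1 u2 = 0 := by simpa using nW2 1 2
  have t1 : TriPos μ u0 v1 u2 := tri_of_posDef (w := ![u0, v1, u2]) hH2.posDef
  have pos1 : ∀ x, 0 < HS.quot μ v1 v1 x := fun x => by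
    have := t1 x 0 1 0 (Or.inr (Or.inl one_ne_zero))
    linarith
  -- the third form
  obtain ⟨θ3, θ4, U2, hθ3, hθ4, k3, k4, o20, o21, l2, hU2, hU21, hvolU2, hF2⟩ :=
    stepCD softK hcl hμ hvol hb sv1 m11 pos1 s2 c2 s0 c0 sv1 cv1 t1.rot n22 n00 m11
      (by rw [pair_comm, n02]) (by rw [pair_comm, m12]) m01 hU1 (fun x hx => (hF1 x hx).1)
      (fun x hx => q0 x (hU10 hx)) (fun x hx => (hF1 x hx).2) hδ0
  obtain ⟨W3, hWc, hWc1⟩ := append2 hWb hθ3 hWb1 k3
  obtain ⟨W4, hWd, hWd1⟩ := append2 hWc hθ4 hWc1 k4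
  set v2 : HS.Form X 2 := fun x => (u2 x + θ3 x) + θ4 x with hv2
  have hH4 := hWd.hyper 1 (by simp)
  have nW4 := normalized_deformation hμ hfin hw hn hWd
  -- orthogonality
  have ho : ∀ x i j, i ≠ j → HS.Qm μ (W4 1) x i j = 0 := by
    rw [hWd1]
    intro x i j hij
    rw [Qm_vec]
    fin_cases i <;> fin_cases j
    · exact absurd rfl hij
    · show HS.quot μ u0 v1 x / 2 = 0
      rw [quot_comm, o10, zero_div]
    · show HS.quot μ u0 v2 x / 2 = 0
      rw [quot_comm, o20, zero_div]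
    · show HS.quot μ v1 u0 x / 2 = 0
      rw [o10, zero_div]
    · exact absurd rfl hij
    · show HS.quot μ v1 v2 x / 2 = 0
      rw [quot_comm, o21, zero_div]
    · show HS.quot μ v2 u0 x / 2 = 0
      rw [o20, zero_div]
    · show HS.quot μ v2 v1 x / 2 = 0
      rw [o21, zero_div]
    · exact absurd rfl hij
  have a0 : ∀ x, 1 - δ < HS.Qm μ (W4 1) x 0 0 := by
    intro x
    rw [hWd1, Qm_vec]
    show 1 - δ < HS.quot μ u0 u0 x / 2
    have h1 := (hPD x).diag_pos (i := 0)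
    rw [Matrix.sub_apply, Matrix.smul_apply, Matrix.one_apply_eq, Qm_vec] at h1
    simp only [smul_eq_mul, mul_one] at h1
    linarith
  have a1 : ∀ x, (1 - δ) * HS.Qm μ (W4 1) x 0 0 < HS.Qm μ (W4 1) x 1 1 := by
    intro x
    rw [hWd1, Qm_vec, Qm_vec]
    show (1 - δ) * (HS.quot μ u0 u0 x / 2) < HS.quot μ v1 v1 x / 2
    have := l1 x
    linarith
  have a2 : ∀ x, (1 - δ) * HS.Qm μ (W4 1) x 1 1 < HS.Qm μ (W4 1) x 2 2 := by
    intro x
    rw [hWd1, Qm_vec, Qm_vec]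
    show (1 - δ) * (HS.quot μ v1 v1 x / 2) < HS.quot μ v2 v2 x / 2
    have := l2 x
    linarith
  have hb' := fun x => chain_bounds hδ0 hδ1 hδ2 (q := fun i => HS.Qm μ (W4 1) x i i) (a0 x) (a1 x)
    (a2 x)
  refine ⟨W4, hWd, ho, fun x i j hij => (hb' x).2 i j hij, fun x i => ?_, fun i => ?_, U2, hU2, ?_,
    fun x hx => ?_⟩
  · have := (hb' x).1 i
    linarith
  · have hreal : (HS.vol μ).real univ = 1 / 2 := hvol'
    have hnii : HS.pair μ (W4 1 i) (W4 1 i) = 1 := by simpa using nW4 i i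
    have hint := integrable_quot hμ hfin (hH4.smooth i) (hH4.smooth i)
    have hle : ∀ x, |HS.Qm μ (W4 1) x i i - 1| ≤
        HS.quot μ (W4 1 i) (W4 1 i) x / 2 - 1 + 2 * (3 * δ) := by
      intro x
      have h3 := (hb' x).1 i
      simp only [Qm_vec] at h3 ⊢
      rw [abs_le]
      constructor <;> linarith
    have hint2 : Integrable (fun x => HS.quot μ (W4 1 i) (W4 1 i) x / 2 - 1 + 2 * (3 * δ))
        (HS.vol μ) := ((hint.div_const 2).sub (integrable_const _)).add (integrable_const _)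
    have h4 : ∫ x, |HS.Qm μ (W4 1) x i i - 1| ∂(HS.vol μ) ≤
        ∫ x, (HS.quot μ (W4 1 i) (W4 1 i) x / 2 - 1 + 2 * (3 * δ)) ∂(HS.vol μ) :=
      integral_mono_of_nonneg (Filter.Eventually.of_forall fun x => abs_nonneg _) hint2
        (Filter.Eventually.of_forall hle)
    have h5 : ∫ x, (HS.quot μ (W4 1 i) (W4 1 i) x / 2 - 1 + 2 * (3 * δ)) ∂(HS.vol μ) = 3 * δ :=
      int_aux hint hnii hreal (3 * δ)
    linarith
  · have hsub : U2ᶜ ⊆ U0ᶜ ∪ ((U0 \ U1) ∪ (U1 \ U2)) := by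
      intro x hx
      by_cases h0 : x ∈ U0
      · by_cases h1 : x ∈ U1
        · exact Or.inr (Or.inr ⟨h1, hx⟩)
        · exact Or.inr (Or.inl ⟨h0, h1⟩)
      · exact Or.inl h0
    calc HS.vol μ U2ᶜ ≤ _ := measure_mono hsub
      _ ≤ HS.vol μ U0ᶜ + HS.vol μ ((U0 \ U1) ∪ (U1 \ U2)) := measure_union_le _ _
      _ ≤ ENNReal.ofReal δ + (ENNReal.ofReal δ + ENNReal.ofReal δ) :=
          add_le_add hvolU0.le ((measure_union_le _ _).trans (add_le_add hvolU1 hvolU2))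
      _ = ENNReal.ofReal (δ + (δ + δ)) := by
          rw [ENNReal.ofReal_add hδ0.le (by positivity), ENNReal.ofReal_add hδ0.le hδ0.le]
      _ < ENNReal.ofReal ε := (ENNReal.ofReal_lt_ofReal_iff hε).2 (by linarith)
  · ext i j
    by_cases hij : i = j
    · subst hij
      rw [Matrix.one_apply_eq, hWd1, Qm_vec]
      fin_cases i
      · show HS.quot μ u0 u0 x / 2 = 1
        rw [q0 x (hU10 (hU21 hx))]; norm_num
      · show HS.quot μ v1 v1 x / 2 = 1
        rw [(hF1 x (hU21 hx)).2]; norm_num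
      · show HS.quot μ v2 v2 x / 2 = 1
        rw [(hF2 x hx).2]; norm_num
    · rw [Matrix.one_apply_ne hij]
      exact ho x i j hij

end

end Vale.Agent.P247.SCY
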