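import Vale.Agent.P247.SCY.EXM3

/-!
# P247, flattening: common tools

Components of a form in a parametrisation, extension by zero of `d1 η`, parametrisations with
prescribed derivative, finite sums with disjoint supports.
-/

set_option linter.all false

open scoped BigOperators ContDiff Topology Manifold ENNReal
open Set MeasureTheory

namespace Vale.Agent.P247.SCY
open Vale.Agent.P204 Vale.Agent.P204.T4 Vale.Agent.P204.Mfd Vale.Agent.P204.GX

section
variable {X : Type} [TopologicalSpace X] [ChartedSpace E4 X] [IsManifold (𝓡 4) ∞ X]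

/-- components of a two-form in a parametrisation -/
noncomputable def cp (p : Par X) (α : HS.Form X 2) (y : V4) : L2 := compL (p.form α y)

theorem cp_smooth (p : Par X) {α : HS.Form X 2} (h : HS.Smooth α) : ContDiff ℝ ∞ (cp p α) :=
  compL.contDiff.comp (p.form_smooth h)

theorem cp_closed (p : Par X) {α : HS.Form X 2} (h : HS.Smooth α) (hc : HS.Closed α) :
    Closed (cp p α) :=
  (closed_iff ((p.form_smooth h).differentiable (by simp))).2 (p.form_closed h hc)

theorem cp_eq (p : Par X) (α : HS.Form X 2) (y : V4) :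
    cp p α y = compL ((bx α (p.psi y)).compContinuousLinearMap (p.dpsi y)) := rfl

theorem ev_cp (p : Par X) (α : HS.Form X 2) (y v w : V4) :
    ev (cp p α y) v w = omv α (p.psi y) (p.dpsi y v) (p.dpsi y w) := by
  unfold cp
  rw [ev_compL]
  exact p.form_apply α y v w

theorem cp_add (p : Par X) (α β : HS.Form X 2) (y : V4) :
    cp p (fun x => α x + β x) y = cp p α y + cp p β y := by
  rw [cp_eq, cp_eq, cp_eq]
  have : bx (fun x => α x + β x) (p.psi y) = bx α (p.psi y) + bx β (p.psi y) := rfl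
  rw [this]
  have h2 : (bx α (p.psi y) + bx β (p.psi y)).compContinuousLinearMap (p.dpsi y) =
      (bx α (p.psi y)).compContinuousLinearMap (p.dpsi y) +
        (bx β (p.psi y)).compContinuousLinearMap (p.dpsi y) := rfl
  rw [h2, map_add]

theorem cp_smul (p : Par X) (c : ℝ) (α : HS.Form X 2) (y : V4) :
    cp p (fun x => c • α x) y = c • cp p α y := by
  rw [cp_eq, cp_eq]
  have : bx (fun x => c • α x) (p.psi y) = c • bx α (p.psi y) := rfl
  rw [this]
  have h2 : (c • bx α (p.psi y)).compContinuousLinearMap (p.dpsi y) =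
      c • (bx α (p.psi y)).compContinuousLinearMap (p.dpsi y) := rfl
  rw [h2, map_smul]

/-- the matrix of the derivative of the parametrisation -/
noncomputable def dm (p : Par X) (y : V4) : M4 := matL ((toE.symm : E4 →L[ℝ] V4).comp (p.dpsi y))

theorem cp_cx (p : Par X) (α : HS.Form X 2) (y : V4) :
    cp p α y = pull (dm p y) (cx α (p.psi y)) := by
  apply ext_ev
  intro v w
  rw [ev_cp, ev_pull, dm, app_matL, app_matL, ev_cx]
  show _ = omv α (p.psi y) (toE (toE.symm (p.dpsi y v))) (toE (toE.symm (p.dpsi y w)))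
  rw [Mfd.toE.apply_symm_apply, Mfd.toE.apply_symm_apply]

theorem m4_dm (p : Par X) (μ : HS.Form X 4) (y : V4) :
    m4 p μ y = det4 (dm p y) * ax μ (p.psi y) HS.bas := top_comp _ _

theorem det_dm_ne (p : Par X) (y : V4) : det4 (dm p y) ≠ 0 := by
  intro h0
  have h3 : pull (dm p y) (pull (matL ((p.dinv (p.psi y)).comp (toE : V4 →L[ℝ] E4))) F0) = F0 := by
    apply ext_ev
    intro v w
    have e : ∀ v : V4, T4.app (matL ((p.dinv (p.psi y)).comp (toE : V4 →L[ℝ] E4)))
        (T4.app (dm p y) v) = v := by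
      intro v
      rw [dm, app_matL, app_matL]
      show p.dinv (p.psi y) (toE (toE.symm (p.dpsi y v))) = v
      rw [Mfd.toE.apply_symm_apply, p.dinv_dpsi]
    rw [ev_pull, ev_pull, e, e]
  have h4 := Q_pull (dm p y) (pull (matL ((p.dinv (p.psi y)).comp (toE : V4 →L[ℝ] E4))) F0)
    (pull (matL ((p.dinv (p.psi y)).comp (toE : V4 →L[ℝ] E4))) F0)
  rw [h3, h0] at h4
  simp [Q, F0] at h4

/-- `quot` in a parametrisation -/
theorem quot_cp (p : Par X) (μ : HS.Form X 4) (α β : HS.Form X 2) (y : V4) :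
    HS.quot μ α β (p.psi y) = Q (cp p α y) (cp p β y) / m4 p μ y := by
  rw [quot_cx, cp_cx, cp_cx, Q_pull, m4_dm, mul_div_mul_left _ _ (det_dm_ne p y), div_eq_inv_mul]

/-! ### extension by zero -/

/-- extension by zero of a compactly supported two-form of a parametrisation -/
noncomputable def E2 (p : Par X) (B : V4 → L2) : HS.Form X 2 := fun x =>
  (open Classical in if x ∈ range p.psi then
    (toAlt (B (p.inv x))).compContinuousLinearMap
      (mfderiv (𝓡 4) 𝓘(ℝ, V4) p.inv x : E4 →L[ℝ] V4) else 0 : E4 [⋀^Fin 2]→L[ℝ] ℝ)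

theorem E2_of_mem (p : Par X) (B : V4 → L2) {x : X} (hx : x ∈ range p.psi) :
    bx (E2 p B) x = (toAlt (B (p.inv x))).compContinuousLinearMap (p.dinv x) := by
  unfold bx E2
  rw [if_pos hx]; rfl

theorem toAlt_zero : toAlt (0 : L2) = 0 := by rw [← toAltL_apply, map_zero]

theorem E2_of_notMem (p : Par X) (B : V4 → L2) {x : X} (hx : x ∉ p.psi '' tsupport B) :
    bx (E2 p B) x = 0 := by
  by_cases h : x ∈ range p.psi
  · obtain ⟨y, rfl⟩ := h
    rw [E2_of_mem p B (mem_range_self y), p.inv_psi]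
    have : B y = 0 := by
      by_contra hne
      exact hx ⟨y, subset_tsupport _ hne, rfl⟩
    rw [this, toAlt_zero]
    ext v; rfl
  · unfold bx E2
    rw [if_neg h]

theorem cp_E2 (p : Par X) (B : V4 → L2) (y : V4) : cp p (E2 p B) y = B y := by
  apply ext_ev
  intro v w
  rw [cp_eq, E2_of_mem p B (mem_range_self y), p.inv_psi, ev_compL]
  rw [comp_apply2, comp_apply2, toAlt_apply, p.dinv_dpsi, p.dinv_dpsi]

theorem loc_E2_of_mem (p : Par X) (B : V4 → L2) {e : OpenPartialHomeomorph X E4}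
    (he : e ∈ atlas E4 X) {z : E4} (hz : z ∈ p.cdom e) :
    HS.loc e (E2 p B) z = (toAlt (B (p.cc e z))).compContinuousLinearMap (fderiv ℝ (p.cc e) z) := by
  have h1 : HS.loc e (E2 p B) z = pullForm e.symm (E2 p B) z := rfl
  rw [h1, p.pullForm_eq (E2 p B) he hz]
  congr 1
  rw [← toAlt_compL (p.form (E2 p B) (p.cc e z))]
  congr 1
  exact cp_E2 p B _

variable [T2Space X]

theorem loc_E2_off (p : Par X) {B : V4 → L2} (hc : HasCompactSupport B)
    {e : OpenPartialHomeomorph X E4} {z : E4} (hz : z ∈ e.target) (hz' : z ∉ p.cdom e) :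
    HS.loc e (E2 p B) =ᶠ[𝓝 z] fun _ => 0 := by
  have hcl : IsClosed (p.psi '' tsupport B) :=
    (hc.isCompact.image p.isOpenEmbedding.continuous).isClosed
  have hop : IsOpen (e.target ∩ e.symm ⁻¹' (p.psi '' tsupport B)ᶜ) :=
    e.isOpen_inter_preimage_symm hcl.isOpen_compl
  have hmem : z ∈ e.target ∩ e.symm ⁻¹' (p.psi '' tsupport B)ᶜ := by
    refine ⟨hz, fun hh => ?_⟩
    obtain ⟨w, _, hw⟩ := hh
    exact hz' ⟨hz, ⟨w, hw⟩⟩
  filter_upwards [hop.mem_nhds hmem] with w hw
  have h1 : HS.loc e (E2 p B) w = (bx (E2 p B) (e.symm w)).compContinuousLinearMap (dsym e w) := rfl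
  rw [h1, E2_of_notMem p B hw.2]
  ext v; rfl

/-- the exterior derivative of `E1 p η` is `E2 p (d1 η)` -/
theorem loc_E2_d1 (p : Par X) {η : V4 → V4} (hs : ContDiff ℝ ∞ η) (hc : HasCompactSupport η)
    {e : OpenPartialHomeomorph X E4} (he : e ∈ atlas E4 X) {z : E4} (hz : z ∈ e.target) :
    extDeriv (HS.loc e (E1 p η)) z = HS.loc e (E2 p (d1 η)) z := by
  by_cases hz' : z ∈ p.cdom e
  · have h1 : HS.loc e (E1 p η) =ᶠ[𝓝 z] fun z =>
        (one1 (η (p.cc e z))).compContinuousLinearMap (fderiv ℝ (p.cc e) z) := by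
      filter_upwards [(p.isOpen_cdom e).mem_nhds hz'] with w hw
      exact loc_E1_of_mem p η he hw
    have hη : Differentiable ℝ η := hs.differentiable (by simp)
    have hd : DifferentiableAt ℝ (fun y => one1 (η y)) (p.cc e z) :=
      one1.differentiableAt.comp _ (hη _)
    rw [h1.extDeriv_eq, extDeriv_pullback (r := ∞) hd (p.cc_smoothAt he hz') minS,
      extDeriv_one1 (hη _), loc_E2_of_mem p _ he hz']
  · have hcd : HasCompactSupport (d1 η) := by
      refine HasCompactSupport.intro hc.isCompact fun y hy => ?_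
      have h0 : η =ᶠ[𝓝 y] fun _ => 0 := by
        filter_upwards [(isClosed_tsupport η).isOpen_compl.mem_nhds hy] with w hw
        exact image_eq_zero_of_notMem_tsupport hw
      have h1 : ∀ i j, pd i (fun y => η y j) y = 0 := by
        intro i j
        unfold pd
        have h2 : (fun y => η y j) =ᶠ[𝓝 y] fun _ => 0 := by
          filter_upwards [h0] with w hw
          rw [hw]; rfl
        rw [h2.fderiv_eq]
        simp
      funext k
      unfold d1
      simp only [h1, sub_self]
      fin_cases k <;> rfl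
    rw [(loc_E1_off p hc hz hz').extDeriv_eq, extDeriv_zero1, (loc_E2_off p hcd hz hz').self_of_nhds]

theorem d1_compact {η : V4 → V4} (hc : HasCompactSupport η) : HasCompactSupport (d1 η) := by
  refine HasCompactSupport.intro hc.isCompact fun y hy => ?_
  have h0 : η =ᶠ[𝓝 y] fun _ => 0 := by
    filter_upwards [(isClosed_tsupport η).isOpen_compl.mem_nhds hy] with w hw
    exact image_eq_zero_of_notMem_tsupport hw
  have h1 : ∀ i j, pd i (fun y => η y j) y = 0 := by
    intro i j
    unfold pd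
    have h2 : (fun y => η y j) =ᶠ[𝓝 y] fun _ => 0 := by
      filter_upwards [h0] with w hw
      rw [hw]; rfl
    rw [h2.fderiv_eq]
    simp
  funext k
  unfold d1
  simp only [h1, sub_self]
  fin_cases k <;> rfl

theorem d1_contDiff {η : V4 → V4} (hs : ContDiff ℝ ∞ η) : ContDiff ℝ ∞ (d1 η) := by
  have h : ∀ i j, ContDiff ℝ ∞ (fun y => pd i (fun y => η y j) y) := by
    intro i j
    have h1 : ContDiff ℝ ∞ (fun y => η y j) := contDiff_pi.1 hs j
    exact (h1.fderiv_right (m := ∞) (by simp)).clm_apply contDiff_const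
  rw [contDiff_pi]
  intro k
  unfold d1
  fin_cases k
  · exact (h 0 1).sub (h 1 0)
  · exact (h 0 2).sub (h 2 0)
  · exact (h 0 3).sub (h 3 0)
  · exact (h 1 2).sub (h 2 1)
  · exact (h 1 3).sub (h 3 1)
  · exact (h 2 3).sub (h 3 2)

theorem E2_exact (p : Par X) {η : V4 → V4} (hs : ContDiff ℝ ∞ η) (hc : HasCompactSupport η) :
    HS.Exact (E2 p (d1 η)) :=
  ⟨E1 p η, E1_smooth p hs hc, fun e he z hz => loc_E2_d1 p hs hc he hz⟩

theorem E2_smooth (p : Par X) {B : V4 → L2} (hs : ContDiff ℝ ∞ B) (hc : HasCompactSupport B) :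
    HS.Smooth (E2 p B) := by
  intro e he z hz
  by_cases hz' : z ∈ p.cdom e
  · have h1 : HS.loc e (E2 p B) =ᶠ[𝓝 z] fun z =>
        (toAlt (B (p.cc e z))).compContinuousLinearMap (fderiv ℝ (p.cc e) z) := by
      filter_upwards [(p.isOpen_cdom e).mem_nhds hz'] with w hw
      exact loc_E2_of_mem p B he hw
    refine (ContDiffAt.congr_of_eventuallyEq ?_ h1).contDiffWithinAt
    have hcc := p.cc_smoothAt he hz'
    exact smoothAt_pullform' (α := fun y => toAlt (B y)) hcc
      (toAltL.contDiff.contDiffAt.comp (p.cc e z) hs.contDiffAt)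
  · exact (ContDiffAt.congr_of_eventuallyEq contDiffAt_const (loc_E2_off p hc hz hz')).contDiffWithinAt

theorem exact_closed {α : HS.Form X 2} (h : HS.Exact α) : HS.Closed α := by
  obtain ⟨η, hη, hd⟩ := h
  intro e he y hy
  have h1 : HS.loc e α =ᶠ[𝓝 y] extDeriv (HS.loc e η) := by
    filter_upwards [e.open_target.mem_nhds hy] with w hw
    exact (hd e he w hw).symm
  rw [h1.extDeriv_eq]
  have h2 : ContDiffAt ℝ ∞ (HS.loc e η) y := (hη e he y hy).contDiffAt (e.open_target.mem_nhds hy)
  exact extDeriv_extDeriv_apply h2 minS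

theorem E2_closed (p : Par X) {η : V4 → V4} (hs : ContDiff ℝ ∞ η) (hc : HasCompactSupport η) :
    HS.Closed (E2 p (d1 η)) := exact_closed (E2_exact p hs hc)

/-! ### finite sums with disjoint supports -/

omit [T2Space X] in
/-- finite sums of smooth exact forms -/
theorem sum_exact {n : ℕ} {θ : Fin n → HS.Form X 2} (h1 : ∀ k, HS.Smooth (θ k))
    (h2 : ∀ k, HS.Exact (θ k)) (s : Finset (Fin n)) :
    HS.Smooth (fun x => ∑ k ∈ s, θ k x) ∧ HS.Exact (fun x => ∑ k ∈ s, θ k x) := by
  classical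
  induction s using Finset.induction_on with
  | empty =>
    refine ⟨?_, ?_⟩
    · intro e he
      have : HS.loc e (fun x => ∑ k ∈ (∅ : Finset (Fin n)), θ k x) = fun _ => 0 := by
        funext y; ext v; rfl
      rw [this]; exact contDiffOn_const
    · exact exact_zero
  | insert a s ha ih =>
    have e : (fun x => ∑ k ∈ insert a s, θ k x) = fun x => θ a x + ∑ k ∈ s, θ k x := by
      funext x; exact Finset.sum_insert ha
    rw [e]
    exact ⟨smooth_add (h1 a) ih.1, exact_add (h2 a) ih.2⟩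

omit [T2Space X] [IsManifold (𝓡 4) ∞ X] in
theorem sum_apply {n : ℕ} {θ : Fin n → HS.Form X 2} {D : Fin n → Set X}
    (hD : Pairwise (Function.onFun Disjoint D)) (h : ∀ k x, x ∉ D k → θ k x = 0) {k : Fin n}
    {x : X} (hx : x ∈ D k) : ∑ k, θ k x = θ k x := by
  refine Finset.sum_eq_single k (fun j _ hj => h j x fun hjx => ?_) fun hk =>
    absurd (Finset.mem_univ k) hk
  exact (Set.disjoint_left.1 (hD hj)) hjx hx

omit [T2Space X] [IsManifold (𝓡 4) ∞ X] in
theorem sum_apply_off {n : ℕ} {θ : Fin n → HS.Form X 2} {D : Fin n → Set X}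
    (h : ∀ k x, x ∉ D k → θ k x = 0) {x : X} (hx : ∀ k, x ∉ D k) : ∑ k, θ k x = 0 :=
  Finset.sum_eq_zero fun k _ => h k x (hx k)

/-! ### parametrisations -/

omit [T2Space X] in
/-- the derivative of a parametrisation as an equivalence -/
noncomputable def dpsiE (p : Par X) (y : V4) : V4 ≃L[ℝ] E4 :=
  ContinuousLinearEquiv.equivOfInverse (p.dpsi y) (p.dinv (p.psi y)) (p.dinv_dpsi y)
    (p.dpsi_dinv y)

omit [T2Space X] in
/-- a parametrisation with prescribed value and derivative at `0` -/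
theorem exists_par_frame (x0 : X) (L : V4 ≃L[ℝ] E4) :
    ∃ p : Par X, p.psi 0 = x0 ∧ p.dpsi 0 = (L : V4 →L[ℝ] E4) := by
  obtain ⟨p, h1, -⟩ := exists_par x0 (ContinuousLinearEquiv.refl ℝ V4)
  refine ⟨p.precomp (L.trans (dpsiE p 0).symm), ?_, ?_⟩
  · rw [Par.precomp_psi, map_zero, h1]
  · rw [Par.precomp_dpsi, map_zero]
    ext v : 1
    show p.dpsi 0 ((dpsiE p 0).symm (L v)) = L v
    exact (dpsiE p 0).apply_symm_apply (L v)

/-- translation of a parametrisation -/
noncomputable def shift (p : Par X) (c : V4) : Par X where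
  e := p.e
  he := p.he
  g := fun y => p.g (y + c)
  gi := fun z => p.gi z - c
  g_smooth := p.g_smooth.comp (contDiff_id.add contDiff_const)
  gi_smooth := by
    have : range (fun y => p.g (y + c)) = range p.g := by
      apply Subset.antisymm
      · rintro _ ⟨y, rfl⟩; exact ⟨_, rfl⟩
      · rintro _ ⟨y, rfl⟩; exact ⟨y - c, by simp⟩
    rw [this]
    exact p.gi_smooth.sub contDiffOn_const
  emb := p.emb.comp (Homeomorph.addRight c).isOpenEmbedding
  rng := by
    rintro _ ⟨y, rfl⟩
    exact p.g_mem _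
  left_inv := by
    intro y
    simp only [p.left_inv, add_sub_cancel_right]

omit [T2Space X] [IsManifold (𝓡 4) ∞ X] in
theorem shift_psi (p : Par X) (c y : V4) : (shift p c).psi y = p.psi (y + c) := rfl

omit [T2Space X] in
theorem shift_dpsi (p : Par X) (c y : V4) : (shift p c).dpsi y = p.dpsi (y + c) := by
  have h1 := mfderiv_comp (I := 𝓘(ℝ, V4)) (I' := 𝓘(ℝ, V4)) (I'' := 𝓡 4) (g := p.psi)
    (f := fun y => y + c) y (p.mdiff_psi (y + c))
    ((differentiableAt_id.add_const c).mdifferentiableAt)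
  rw [mfderiv_eq_fderiv, fderiv_add_const, fderiv_id'] at h1
  exact h1

omit [T2Space X] in
theorem shift_cp (p : Par X) (c : V4) (α : HS.Form X 2) (y : V4) :
    cp (shift p c) α y = cp p α (y + c) := by
  rw [cp_eq, cp_eq, shift_dpsi, shift_psi]

omit [T2Space X] in
theorem precomp_cp (p : Par X) (L : V4 ≃L[ℝ] V4) (α : HS.Form X 2) (y : V4) :
    cp (p.precomp L) α y = pull (matL (L : V4 →L[ℝ] V4)) (cp p α (L y)) := by
  apply ext_ev
  intro v w
  rw [ev_pull, ev_cp, ev_cp, Par.precomp_dpsi, app_matL, app_matL]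
  rfl

end

end Vale.Agent.P247.SCY
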