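import Vale.Agent.P247.SCY.FV4
import Vale.Agent.P247.SCY.FL0

/-!
# P247: gluing local exact modifications in disjoint small balls
-/

set_option linter.all false

open scoped BigOperators ContDiff Topology Manifold ENNReal
open Set MeasureTheory Metric Filter

namespace Vale.Agent.P247.SCY
open Vale.Agent.P204 Vale.Agent.P204.T4 Vale.Agent.P204.Mfd Vale.Agent.P204.GX

theorem tsupport_d1_subset {η : V4 → V4} {y : V4} {r : ℝ} (h : tsupport η ⊆ closedBall y r) :
    tsupport (d1 η) ⊆ closedBall y r := by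
  refine closure_minimal ?_ isClosed_closedBall
  intro z hz
  by_contra hcon
  apply hz
  have hz' : z ∉ tsupport η := fun h' => hcon (h h')
  have h0 : η =ᶠ[𝓝 z] fun _ => 0 := notMem_tsupport_iff_eventuallyEq.1 hz'
  rw [GX.d1_congr h0, GX.d1_zero]

section
variable {X : Type} [TopologicalSpace X] [ChartedSpace E4 X] [IsManifold (𝓡 4) ∞ X]

theorem cp_congr (p : Par X) {α β : HS.Form X 2} {y : V4} (h : bx α (p.psi y) = bx β (p.psi y)) :
    cp p α y = cp p β y := by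
  rw [cp_eq, cp_eq, h]

variable [CompactSpace X] [T2Space X] [MeasurableSpace X] [BorelSpace X]

/-- **Gluing.** Local modifications in arbitrarily small balls around the points of an open set
`G`, with a property `Φ`, are put together on an open subset of `G` of almost full measure. -/
theorem glue {ι : Type} {μ : HS.Form X 4} (hμ : HS.Volume μ) {w : Fin 3 → HS.Form X 2}
    (hw : HS.Hypersymplectic μ w) (hfin : HS.vol μ univ ≠ ⊤) {G : Set X} (hG : IsOpen G)
    {κ : ℝ} (h0 : 0 < κ) (h1 : κ < 1) {Φ : Par X → V4 → ℝ → (ι → V4 → V4) → Prop}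
    (h : ∀ x ∈ G, ∃ p : Par X, ∃ ρ : ℝ, 0 < ρ ∧ p.psi 0 = x ∧
      ∀ y, ‖y‖ < ρ → ∃ r0 : ℝ, 0 < r0 ∧ ∀ r, 0 < r → r < r0 → ∃ η : ι → V4 → V4,
        (∀ i, ContDiff ℝ ∞ (η i)) ∧ (∀ i, tsupport (η i) ⊆ closedBall y r) ∧ Φ p y r η)
    {ε : ℝ≥0∞} (hε : ε ≠ 0) :
    ∃ (θ : ι → HS.Form X 2) (U : Set X),
      (∀ i, HS.Smooth (θ i) ∧ HS.Closed (θ i) ∧ HS.Exact (θ i)) ∧ IsOpen U ∧ U ⊆ G ∧
      HS.vol μ (G \ U) ≤ ε + ENNReal.ofReal (25 / 4 * κ) * HS.vol μ univ ∧
      (∀ x, (∀ i, θ i x = 0) ∨ ∃ (p : Par X) (y : V4) (r : ℝ) (η : ι → V4 → V4), 0 < r ∧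
        (∀ i, ContDiff ℝ ∞ (η i)) ∧ Φ p y r η ∧ p.psi '' closedBall y r ⊆ G ∧
        x ∈ p.psi '' closedBall y r ∧ ∀ i, ∀ z ∈ closedBall y r, cp p (θ i) z = d1 (η i) z) ∧
      (∀ x ∈ U, ∃ (p : Par X) (y : V4) (r : ℝ) (η : ι → V4 → V4), 0 < r ∧
        (∀ i, ContDiff ℝ ∞ (η i)) ∧ Φ p y r η ∧ p.psi '' closedBall y r ⊆ G ∧
        x ∈ p.psi '' ball y ((1 - κ) * r) ∧
        ∀ i, ∀ z ∈ closedBall y r, cp p (θ i) z = d1 (η i) z) := by
  classical
  obtain ⟨S, hS1, hS2, hS3, hS4⟩ := cover_sets hμ hw hfin hG h0 h1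
    (Good := fun p y r => ∃ η : ι → V4 → V4,
        (∀ i, ContDiff ℝ ∞ (η i)) ∧ (∀ i, tsupport (η i) ⊆ closedBall y r) ∧ Φ p y r η) h hε
  haveI : Fintype S := hS1.fintype
  set e := Fintype.equivFin S with he
  set n := Fintype.card S with hn
  set q : Fin n → CBall X := fun k => (e.symm k : CBall X) with hq
  have hqS : ∀ k, q k ∈ S := fun k => (e.symm k).2
  choose η hη1 hη2 hη3 using fun k => (hS2 (q k) (hqS k)).2.1
  have hr : ∀ k, 0 < (q k).2.2 := fun k => (hS2 (q k) (hqS k)).1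
  have hqG : ∀ k, (q k).set ⊆ G := fun k => (hS2 (q k) (hqS k)).2.2
  have hD : Pairwise (Function.onFun Disjoint fun k => (q k).set) := by
    intro k l hkl
    apply hS3 (hqS k) (hqS l)
    intro heq
    apply hkl
    have : e.symm k = e.symm l := Subtype.ext heq
    exact e.symm.injective this
  have hcs : ∀ k i, HasCompactSupport (η k i) := fun k i =>
    (isCompact_closedBall _ _).of_isClosed_subset (isClosed_tsupport _) (hη2 k i)
  set θk : ι → Fin n → HS.Form X 2 := fun i k => E2 (q k).1 (d1 (η k i)) with hθk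
  have hoff : ∀ i k x, x ∉ (q k).set → θk i k x = 0 := by
    intro i k x hx
    have h2 : x ∉ (q k).1.psi '' tsupport (d1 (η k i)) := fun h' =>
      hx (image_mono (tsupport_d1_subset (hη2 k i)) h')
    exact E2_of_notMem (q k).1 (d1 (η k i)) h2
  have hsum := fun i => sum_exact (θ := θk i) (fun k => E2_smooth _ (d1_contDiff (hη1 k i))
    (d1_compact (hcs k i))) (fun k => E2_exact _ (hη1 k i) (hcs k i)) Finset.univ
  have hon : ∀ i k z, z ∈ closedBall (q k).2.1 (q k).2.2 →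
      cp (q k).1 (fun x => ∑ k, θk i k x) z = d1 (η k i) z := by
    intro i k z hz
    rw [← cp_E2 (q k).1 (d1 (η k i)) z]
    apply cp_congr
    exact sum_apply (θ := θk i) hD (hoff i) (k := k) (x := (q k).1.psi z) ⟨z, hz, rfl⟩
  have hUo : IsOpen (⋃ k, (q k).shr κ) := by
    refine isOpen_iUnion fun k => ?_
    exact (q k).1.isOpenEmbedding.isOpenMap _ isOpen_ball
  have hshr : ∀ k, (q k).shr κ ⊆ (q k).set := by
    intro k
    refine image_mono (ball_subset_closedBall.trans (closedBall_subset_closedBall ?_))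
    have := hr k
    nlinarith
  refine ⟨fun i x => ∑ k, θk i k x, ⋃ k, (q k).shr κ, fun i => ⟨(hsum i).1,
    exact_closed (hsum i).2, (hsum i).2⟩, hUo, iUnion_subset fun k => (hshr k).trans (hqG k),
    ?_, ?_, ?_⟩
  · have hUe : (⋃ q ∈ S, CBall.shr κ q) ⊆ ⋃ k, (q k).shr κ := by
      intro x hx
      obtain ⟨q', hq', hx'⟩ := mem_iUnion₂.1 hx
      refine mem_iUnion.2 ⟨e ⟨q', hq'⟩, ?_⟩
      show x ∈ CBall.shr κ ((e.symm (e ⟨q', hq'⟩) : S) : CBall X)
      rw [Equiv.symm_apply_apply]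
      exact hx'
    exact (measure_mono (sdiff_subset_sdiff_right hUe)).trans hS4
  · intro x
    by_cases hx : ∃ k, x ∈ (q k).set
    · obtain ⟨k, hk⟩ := hx
      right
      exact ⟨(q k).1, (q k).2.1, (q k).2.2, η k, hr k, hη1 k, hη3 k, hqG k, hk,
        fun i z hz => hon i k z hz⟩
    · left
      push Not at hx
      intro i
      exact sum_apply_off (θ := θk i) (hoff i) hx
  · intro x hx
    obtain ⟨k, hk⟩ := mem_iUnion.1 hx
    exact ⟨(q k).1, (q k).2.1, (q k).2.2, η k, hr k, hη1 k, hη3 k, hqG k, hk,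
      fun i z hz => hon i k z hz⟩

end

end Vale.Agent.P247.SCY
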