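import Vale.Agent.P247.SCY.FL6

/-!
# P247, flattening: local flattening to constant forms
-/

set_option linter.all false

open MeasureTheory Set Metric Filter Topology
open scoped ContDiff ENNReal NNReal BigOperators Topology

namespace Vale.Agent.P247.SCY
open Vale.Agent.P204 Vale.Agent.P204.T4 Vale.Agent.P204.GX

theorem closed_constL (c : L2) : Closed (fun _ : V4 => c) := by
  intro x i j k
  have : ∀ a b : Fin 4, ∀ l, pd l (fun _ : V4 => ent c a b) x = 0 := by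
    intro a b l; unfold pd; simp
  simp only [this]; ring

theorem flat_adC (κ ε C0 : ℝ) (hκ0 : 0 < κ) (hκ1 : κ < 1) (hε : 0 < ε) (hC0 : 1 ≤ C0) :
    ∃ δ : ℝ, 0 < δ ∧ ∀ (u : Fin 3 → V4 → L2) (m : V4 → ℝ),
      (∀ i, ContDiff ℝ ∞ (u i)) → (∀ i, Closed (u i)) → ContDiff ℝ ∞ m → m 0 = 1 →
      (∀ i, ‖u i 0‖ ≤ C0) →
      (∀ i j, |Q (u i 0) (u j 0) / 2 - if i = j then 1 else 0| < δ) →
      ∃ c : Fin 3 → L2, (∀ i j, Q (c i) (c j) = if i = j then 2 else 0) ∧
      ∃ r0 : ℝ, 0 < r0 ∧ ∀ r : ℝ, 0 < r → r ≤ r0 → ∃ η : Fin 3 → V4 → V4,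
        (∀ i, ContDiff ℝ ∞ (η i)) ∧ (∀ i, tsupport (η i) ⊆ closedBall 0 r) ∧
        (∀ z ∈ closedBall (0 : V4) r, 1 / 2 ≤ m z ∧ m z ≤ 2) ∧
        (∀ z ∈ closedBall (0 : V4) ((1 - κ) * r), ∀ i, u i z + d1 (η i) z = c i) ∧
        (∀ z ∈ closedBall (0 : V4) r, ∀ s ∈ Icc (0 : ℝ) 1, ∀ i j,
          |Q (u i z + s • d1 (η i) z) (u j z + s • d1 (η j) z) / (2 * m z) -
            if i = j then 1 else 0| < ε) := by
  obtain ⟨K, hK1, hcut⟩ := exists_cut hκ0 hκ1
  -- the small parameter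
  set τ := min (1 / (2 * K)) (ε / (96 * K * (2 * C0 + 1) + 1)) with hτ
  have hτ0 : 0 < τ := by
    refine lt_min (by positivity) (by positivity)
  have hτ1 : 2 * K * τ ≤ 1 := by
    have : τ ≤ 1 / (2 * K) := min_le_left _ _
    calc 2 * K * τ ≤ 2 * K * (1 / (2 * K)) := by gcongr
      _ = 1 := by field_simp
  have hτ2 : 96 * K * (2 * C0 + 1) * τ ≤ ε := by
    have h1 : τ ≤ ε / (96 * K * (2 * C0 + 1) + 1) := min_le_right _ _
    calc 96 * K * (2 * C0 + 1) * τ ≤ (96 * K * (2 * C0 + 1) + 1) * τ := by nlinarith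
      _ ≤ (96 * K * (2 * C0 + 1) + 1) * (ε / (96 * K * (2 * C0 + 1) + 1)) := by gcongr
      _ = ε := by field_simp
  obtain ⟨δ1, hδ1, hgs⟩ := exists_gs (η := τ / (6 * C0)) (by positivity)
  refine ⟨min δ1 (ε / 32), lt_min hδ1 (by positivity), fun u m hu hcl hm hm0 hC hG => ?_⟩
  obtain ⟨P, hP1, hP2⟩ := hgs (fun k l => Q (u k 0) (u l 0) / 2)
    (fun k l => by rw [Q_comm]) (fun i j => (hG i j).trans_le (min_le_left _ _))
  -- the target forms
  set c : Fin 3 → L2 := fun i => ∑ k, P i k • u k 0 with hc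
  set V : Fin 3 → V4 → L2 := fun i _ => c i with hV
  have hVs : ∀ i, ContDiff ℝ ∞ (V i) := fun i => contDiff_const
  have hVc : ∀ i, Closed (V i) := fun i => closed_constL _
  have hV0 : ∀ i, V i 0 = c i := fun i => rfl
  have hVQ : ∀ i j, Q (c i) (c j) = if i = j then 2 else 0 := by
    intro i j
    rw [hc, Q_sum_comb, hP2]
    split_ifs <;> ring
  have hα0 : ∀ i, ‖V i 0 - u i 0‖ ≤ τ / 2 := by
    intro i
    rw [hV0]
    refine (comb_sub_le i hP1 hC).trans (le_of_eq ?_)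
    field_simp; norm_num
  -- the radius
  have ev1 : ∀ i, ∀ᶠ z in 𝓝 (0 : V4), ‖V i z - u i z‖ < τ := by
    intro i
    have hcont : Continuous fun z => ‖V i z - u i z‖ :=
      ((hVs i).continuous.sub (hu i).continuous).norm
    exact hcont.continuousAt.eventually (gt_mem_nhds (by
      show ‖V i 0 - u i 0‖ < τ
      have := hα0 i; linarith))
  have ev2 : ∀ i, ∀ᶠ z in 𝓝 (0 : V4), ‖u i z - u i 0‖ < τ := by
    intro i
    have hcont : Continuous fun z => ‖u i z - u i 0‖ := ((hu i).continuous.sub continuous_const).norm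
    exact hcont.continuousAt.eventually (gt_mem_nhds (by
      show ‖u i 0 - u i 0‖ < τ
      rw [sub_self, norm_zero]; exact hτ0))
  have ev3 : ∀ᶠ z in 𝓝 (0 : V4), |m z - 1| < min (1 / 2) (ε / 4) := by
    have hcont : Continuous fun z => |m z - 1| := (hm.continuous.sub continuous_const).abs
    exact hcont.continuousAt.eventually (gt_mem_nhds (by
      show |m 0 - 1| < _
      rw [hm0, sub_self, abs_zero]
      exact lt_min (by norm_num) (by positivity)))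
  have ev := (eventually_all.2 ev1).and ((eventually_all.2 ev2).and ev3)
  obtain ⟨r1, hr1, hball⟩ := Metric.eventually_nhds_iff.1 ev
  refine ⟨c, hVQ, r1 / 2, by positivity, fun r hr hrr => ?_⟩
  have hin : ∀ z ∈ closedBall (0 : V4) r, dist z 0 < r1 := by
    intro z hz
    have := mem_closedBall.1 hz
    linarith
  choose η hη1 hη2 hη3 hη4 using fun i => hcut (fun z => V i z - u i z) ((hVs i).sub (hu i))
    (closed_subL (hVs i) (hu i) (hVc i) (hcl i)) r τ hr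
    (fun z hz => ((hball (hin z hz)).1 i).le)
  have hmz : ∀ z ∈ closedBall (0 : V4) r, |m z - 1| < min (1 / 2) (ε / 4) := fun z hz =>
    (hball (hin z hz)).2.2
  refine ⟨η, hη1, hη2, ?_, ?_, ?_⟩
  · intro z hz
    have h1 := (hmz z hz).trans_le (min_le_left _ _)
    have h2 := abs_lt.1 h1
    constructor <;> linarith [h2.1, h2.2]
  · intro z hz i
    rw [hη3 i z hz]; abel
  · intro z hz s hs i j
    have hm1 := (hmz z hz)
    have hm2 := hm1.trans_le (min_le_left _ _)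
    have hm3 := hm1.trans_le (min_le_right _ _)
    have hd : ∀ i, ‖(u i z + s • d1 (η i) z) - u i 0‖ ≤ 2 * K * τ := by
      intro i
      have e : (u i z + s • d1 (η i) z) - u i 0 = (u i z - u i 0) + s • d1 (η i) z := by abel
      rw [e]
      have h1 : ‖u i z - u i 0‖ < τ := (hball (hin z hz)).2.1 i
      have h2 : ‖s • d1 (η i) z‖ ≤ 1 * (K * τ) := by
        rw [norm_smul, Real.norm_eq_abs, abs_of_nonneg hs.1]
        exact mul_le_mul hs.2 (hη4 i z hz) (norm_nonneg _) zero_le_one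
      have h3 := norm_add_le (u i z - u i 0) (s • d1 (η i) z)
      nlinarith
    have h1 := abs_Q_sub_le (hC i) (hC j) (hd i) (hd j) hτ1
    have h2 := (hG i j).trans_le (min_le_right _ _)
    have h3 : |(if i = j then (1 : ℝ) else 0)| ≤ 1 := by split_ifs <;> simp
    refine final_est (m := m z) (a := 5 / 16 * ε) ?_ h3 ?_ ?_ (by linarith)
    · have := abs_lt.1 hm2; linarith [this.1]
    · have h4 : |Q (u i 0) (u j 0) - 2 * (if i = j then 1 else 0)| ≤ 2 * (ε / 32) := by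
        have e : Q (u i 0) (u j 0) - 2 * (if i = j then 1 else 0) =
          2 * (Q (u i 0) (u j 0) / 2 - if i = j then 1 else 0) := by ring
        rw [e, abs_mul, abs_two]
        linarith
      have h5 : 6 * (2 * K * τ) * (2 * C0 + 1) ≤ ε / 8 := by nlinarith
      calc |Q (u i z + s • d1 (η i) z) (u j z + s • d1 (η j) z) - 2 * (if i = j then 1 else 0)|
          = |(Q (u i z + s • d1 (η i) z) (u j z + s • d1 (η j) z) - Q (u i 0) (u j 0)) +
            (Q (u i 0) (u j 0) - 2 * (if i = j then 1 else 0))| := by congr 1; ring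
        _ ≤ ε / 8 + 2 * (ε / 32) := (abs_add_le _ _).trans (add_le_add (h1.trans h5) h4)
        _ ≤ _ := by linarith
    · linarith


theorem app_smul_one (t : ℝ) (v : V4) : app (t • oneM) v = t • v := by
  rw [app_smulM, app_one]

theorem pull_smul_one (t : ℝ) (A : L2) : pull (t • oneM) A = t ^ 2 • A := by
  apply ext_ev
  intro v w
  rw [ev_pull, app_smul_one, app_smul_one, ev_smul_left, ev_smul_right, ev_smul]; ring

theorem det_smul_one (t : ℝ) : det4 (t • oneM) = t ^ 4 := by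
  simp [det4, mn, oneM, Pi.smul_apply]
  ring

theorem ell_smul_one {t : ℝ} (ht : 0 < t) (y0 : V4) {r : ℝ} (hr : 0 < r) :
    ell y0 (t • oneM) (r / t) = closedBall y0 r := by
  ext y
  constructor
  · rintro ⟨z, hz, rfl⟩
    rw [mem_closedBall_zero_iff] at hz
    show dist (y0 + app (t • oneM) z) y0 ≤ r
    rw [app_smul_one, dist_eq_norm, add_sub_cancel_left, norm_smul, Real.norm_eq_abs, abs_of_pos ht]
    rw [le_div_iff₀ ht] at hz
    linarith
  · intro hy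
    refine ⟨t⁻¹ • (y - y0), ?_, ?_⟩
    · rw [mem_closedBall_zero_iff, norm_smul, norm_inv, Real.norm_eq_abs, abs_of_pos ht,
        inv_mul_le_iff₀ ht]
      rw [mem_closedBall, dist_eq_norm] at hy
      calc ‖y - y0‖ ≤ r := hy
        _ = t * (r / t) := by field_simp
    · show y0 + app (t • oneM) (t⁻¹ • (y - y0)) = y
      rw [app_smul_one, smul_smul, mul_inv_cancel₀ ht.ne', one_smul, add_sub_cancel]

/-- local flattening to constant forms on small balls, in a parametrisation adapted to the triple: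
`u i` have norm at most `C0` in the scale where the density is `1` -/
theorem flat_ball (κ ε C0 : ℝ) (hκ0 : 0 < κ) (hκ1 : κ < 1) (hε : 0 < ε) (hC0 : 1 ≤ C0) :
    ∃ δ : ℝ, 0 < δ ∧ ∀ (u : Fin 3 → V4 → L2) (m : V4 → ℝ) (y0 : V4),
      (∀ i, ContDiff ℝ ∞ (u i)) → (∀ i, Closed (u i)) → ContDiff ℝ ∞ m → 0 < m y0 →
      (∀ i, ‖u i y0‖ ≤ C0 * Real.sqrt (m y0)) →
      (∀ i j, |Q (u i y0) (u j y0) / (2 * m y0) - if i = j then 1 else 0| < δ) →
      ∃ c : Fin 3 → L2, (∀ i j, Q (c i) (c j) = (if i = j then 2 else 0) * m y0) ∧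
      ∃ r0 : ℝ, 0 < r0 ∧ ∀ r : ℝ, 0 < r → r < r0 → ∃ η : Fin 3 → V4 → V4,
        (∀ i, ContDiff ℝ ∞ (η i)) ∧ (∀ i, tsupport (η i) ⊆ closedBall y0 r) ∧
        (∀ z ∈ closedBall y0 r, 0 < m z) ∧
        (∀ z ∈ closedBall y0 ((1 - κ) * r), ∀ i, u i z + d1 (η i) z = c i) ∧
        (∀ z ∈ closedBall y0 r, ∀ s ∈ Icc (0 : ℝ) 1, ∀ i j,
          |Q (u i z + s • d1 (η i) z) (u j z + s • d1 (η j) z) / (2 * m z) -
            if i = j then 1 else 0| < ε) := by
  obtain ⟨δ, hδ, H⟩ := flat_adC κ ε C0 hκ0 hκ1 hε hC0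
  refine ⟨δ, hδ, fun u m y0 hu hcl hm hm0 hC hG => ?_⟩
  set M := m y0 with hM
  -- the scale: `t ^ 4 * M = 1`
  set t := (Real.sqrt (Real.sqrt M))⁻¹ with ht
  have hs1 : 0 < Real.sqrt M := Real.sqrt_pos.2 hm0
  have hs2 : 0 < Real.sqrt (Real.sqrt M) := Real.sqrt_pos.2 hs1
  have ht0 : 0 < t := inv_pos.2 hs2
  have hq1 : Real.sqrt (Real.sqrt M) * Real.sqrt (Real.sqrt M) = Real.sqrt M :=
    Real.mul_self_sqrt hs1.le
  have hq2 : Real.sqrt M * Real.sqrt M = M := Real.mul_self_sqrt hm0.le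
  have ht2 : t ^ 2 * Real.sqrt M = 1 := by
    calc t ^ 2 * Real.sqrt M = t ^ 2 * (Real.sqrt (Real.sqrt M) * Real.sqrt (Real.sqrt M)) := by
          rw [hq1]
      _ = (t * Real.sqrt (Real.sqrt M)) ^ 2 := by ring
      _ = 1 := by rw [ht, inv_mul_cancel₀ hs2.ne', one_pow]
  have ht4 : t ^ 4 * M = 1 := by
    calc t ^ 4 * M = t ^ 4 * (Real.sqrt M * Real.sqrt M) := by rw [hq2]
      _ = (t ^ 2 * Real.sqrt M) * (t ^ 2 * Real.sqrt M) := by ring
      _ = 1 := by rw [ht2, one_mul]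
  have h1 : ∀ v, app (t • oneM) (app (t⁻¹ • oneM) v) = v := fun v => by
    rw [app_smul_one, app_smul_one, smul_smul, mul_inv_cancel₀ ht0.ne', one_smul]
  have h2 : ∀ v, app (t⁻¹ • oneM) (app (t • oneM) v) = v := fun v => by
    rw [app_smul_one, app_smul_one, smul_smul, inv_mul_cancel₀ ht0.ne', one_smul]
  have a0 : aff y0 (t • oneM) 0 = y0 := by unfold aff; rw [app_zero, add_zero]
  set u' : Fin 3 → V4 → L2 := fun i => pf (aff y0 (t • oneM)) (u i) with hu'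
  set m' : V4 → ℝ := fun z => t ^ 4 * m (aff y0 (t • oneM) z) with hm'
  have hu0 : ∀ i z, u' i z = t ^ 2 • u i (aff y0 (t • oneM) z) := by
    intro i z
    show pull (Dm (aff y0 (t • oneM)) z) _ = _
    rw [Dm_aff, pull_smul_one]
  have hu's : ∀ i, ContDiff ℝ ∞ (u' i) := fun i => contDiff_pf (contDiff_aff y0 _) (hu i)
  have hu'c : ∀ i, Closed (u' i) := by
    intro i
    obtain ⟨β, hβ, hd⟩ := exists_prim (hu i) (hcl i)
    show Closed (pf (aff y0 (t • oneM)) (u i))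
    rw [← hd, ← CM.d1_pf1 (contDiff_aff y0 _) hβ]
    exact closed_d1 (contDiff_pf1 (contDiff_aff y0 _) hβ)
  have hm's : ContDiff ℝ ∞ m' := contDiff_const.mul (hm.comp (contDiff_aff y0 _))
  have hQ : ∀ (A B : L2) (c : ℝ), Q (t ^ 2 • A) (t ^ 2 • B) = t ^ 4 * Q A B := by
    intro A B c
    rw [Q_smul_left, Q_smul_right]; ring
  have hQM : ∀ q : ℝ, t ^ 4 * q / 2 = q / (2 * M) := by
    intro q
    have : t ^ 4 = 1 / M := by field_simp; linarith [ht4]
    rw [this]; field_simp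
  obtain ⟨c, hc, r0, hr0, H2⟩ := H u' m' hu's hu'c hm's (by rw [hm']; simp only [a0]; exact ht4)
    (fun i => by
      rw [hu0, a0, norm_smul, Real.norm_eq_abs, abs_of_pos (by positivity)]
      calc t ^ 2 * ‖u i y0‖ ≤ t ^ 2 * (C0 * Real.sqrt M) := by gcongr; exact hC i
        _ = C0 * (t ^ 2 * Real.sqrt M) := by ring
        _ = C0 := by rw [ht2, mul_one])
    (fun i j => by
      rw [hu0, hu0, a0, hQ _ _ 0, hQM]; exact hG i j)
  set b : Fin 3 → L2 := fun i => (t⁻¹) ^ 2 • c i with hb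
  refine ⟨b, fun i j => ?_, r0 * t, mul_pos hr0 ht0, fun r hr hrr => ?_⟩
  · show Q ((t⁻¹) ^ 2 • c i) ((t⁻¹) ^ 2 • c j) = _
    rw [Q_smul_left, Q_smul_right, hc]
    have : (t⁻¹) ^ 2 * ((t⁻¹) ^ 2) = M := by
      have h5 : (t⁻¹) ^ 2 * ((t⁻¹) ^ 2) * (t ^ 4 * M) = M := by field_simp
      rw [ht4, mul_one] at h5
      exact h5
    rw [← mul_assoc, this]; ring
  have hrt : r / t ≤ r0 := by rw [div_le_iff₀ ht0]; exact hrr.le
  obtain ⟨η', k1, k2, k3, k4, k5⟩ := H2 (r / t) (by positivity) hrt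
  have hmem : ∀ {s : ℝ} {z : V4}, 0 < s → z ∈ closedBall y0 s →
      affi y0 (t⁻¹ • oneM) z ∈ closedBall (0 : V4) (s / t) := by
    intro s z hs hz
    rw [← ell_smul_one ht0 y0 hs, mem_ell_iff h1 h2] at hz
    exact hz
  have hd1 : ∀ i y, d1 (pf1 (affi y0 (t⁻¹ • oneM)) (η' i)) y =
      (t⁻¹) ^ 2 • (d1 (η' i) (affi y0 (t⁻¹ • oneM) y)) := by
    intro i y
    rw [CM.d1_pf1 (contDiff_affi y0 _) (k1 i)]
    show pull (Dm (affi y0 (t⁻¹ • oneM)) y) _ = _
    rw [Dm_affi, pull_smul_one]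
  have hue : ∀ i y, u i y = (t⁻¹) ^ 2 • (u' i (affi y0 (t⁻¹ • oneM) y)) := by
    intro i y
    rw [hu0, aff_affi h1, smul_smul]
    have : (t⁻¹) ^ 2 * t ^ 2 = 1 := by field_simp
    rw [this, one_smul]
  have hme : ∀ y, m y = (t⁻¹) ^ 4 * m' (affi y0 (t⁻¹ • oneM) y) := by
    intro y
    show m y = (t⁻¹) ^ 4 * (t ^ 4 * m (aff y0 (t • oneM) (affi y0 (t⁻¹ • oneM) y)))
    rw [aff_affi h1, ← mul_assoc]
    have : (t⁻¹) ^ 4 * t ^ 4 = 1 := by field_simp
    rw [this, one_mul]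
  have hcomb : ∀ (s : ℝ) i y, u i y + s • d1 (pf1 (affi y0 (t⁻¹ • oneM)) (η' i)) y =
      (t⁻¹) ^ 2 • (u' i (affi y0 (t⁻¹ • oneM) y) + s • d1 (η' i) (affi y0 (t⁻¹ • oneM) y)) := by
    intro s i y
    rw [hd1, hue, smul_add, smul_comm]
  refine ⟨fun i => pf1 (affi y0 (t⁻¹ • oneM)) (η' i),
    fun i => contDiff_pf1 (contDiff_affi y0 _) (k1 i), ?_, ?_, ?_, ?_⟩
  · intro i
    refine closure_minimal ?_ isClosed_closedBall
    intro y hy
    rw [← ell_smul_one ht0 y0 hr, mem_ell_iff h1 h2]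
    apply k2 i
    apply subset_tsupport
    intro h0
    apply hy
    show copp (η' i (affi y0 (t⁻¹ • oneM) y)) _ = 0
    rw [h0, copp_zero]
  · intro z hz
    obtain ⟨l1, -⟩ := k3 _ (hmem hr hz)
    rw [hme]
    have : 0 < m' (affi y0 (t⁻¹ • oneM) z) := by linarith
    positivity
  · intro z hz i
    have hz' := hmem (mul_pos (by linarith) hr) hz
    rw [mul_div_assoc] at hz'
    have l := k4 _ hz' i
    have c1 := hcomb 1 i z
    simp only [one_smul] at c1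
    rw [c1, l]
  · intro z hz s hs i j
    have l := k5 _ (hmem hr hz) s hs i j
    rw [hcomb, hcomb, Q_smul_left, Q_smul_right, hme]
    have hti : (t⁻¹) ^ 4 ≠ 0 := by positivity
    have e : (t⁻¹) ^ 2 * ((t⁻¹) ^ 2 * Q (u' i (affi y0 (t⁻¹ • oneM) z) +
        s • d1 (η' i) (affi y0 (t⁻¹ • oneM) z))
        (u' j (affi y0 (t⁻¹ • oneM) z) + s • d1 (η' j) (affi y0 (t⁻¹ • oneM) z))) /
        (2 * ((t⁻¹) ^ 4 * m' (affi y0 (t⁻¹ • oneM) z))) =
        Q (u' i (affi y0 (t⁻¹ • oneM) z) + s • d1 (η' i) (affi y0 (t⁻¹ • oneM) z))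
        (u' j (affi y0 (t⁻¹ • oneM) z) + s • d1 (η' j) (affi y0 (t⁻¹ • oneM) z)) /
          (2 * m' (affi y0 (t⁻¹ • oneM) z)) := by
      rw [show ∀ q : ℝ, (t⁻¹) ^ 2 * ((t⁻¹) ^ 2 * q) = (t⁻¹) ^ 4 * q from fun q => by ring,
        show 2 * ((t⁻¹) ^ 4 * m' (affi y0 (t⁻¹ • oneM) z)) =
          (t⁻¹) ^ 4 * (2 * m' (affi y0 (t⁻¹ • oneM) z)) by ring, mul_div_mul_left _ _ hti]
    rw [e]
    exact l

end Vale.Agent.P247.SCY
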