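import Vale.Agent.P247.SCY.FG1
import Vale.Agent.P247.SCY.FL7

/-!
# P247: parametrisations adapted to a hypersymplectic triple
-/

set_option linter.all false

open scoped BigOperators ContDiff Topology Manifold ENNReal
open Set MeasureTheory Metric Filter

namespace Vale.Agent.P247.SCY
open Vale.Agent.P204 Vale.Agent.P204.T4 Vale.Agent.P204.Mfd Vale.Agent.P204.GX

/-! ### algebra in the unitary frame -/

theorem anti_form {B : L2} (h : pM J0 B = B) : B 0 = 0 ∧ B 5 = 0 ∧ B 4 = -B 1 ∧ B 3 = B 2 := by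
  have h1 : (1 / 2 : ℝ) • (B - pull J0 B) = B := h
  rw [pull_J0] at h1
  have e0 := congrFun h1 0
  have e1 := congrFun h1 1
  have e2 := congrFun h1 2
  have e5 := congrFun h1 5
  simp only [Pi.smul_apply, Pi.sub_apply, smul_eq_mul, Fin.isValue, Nat.succ_eq_add_one,
    Nat.reduceAdd, Matrix.cons_val_zero, Matrix.cons_val_one, Matrix.cons_val] at e0 e1 e2 e5
  exact ⟨by linarith, by linarith, by linarith, by linarith⟩

theorem inv_form {A : L2} (h : pP J0 A = F0) : A 0 = 1 ∧ A 5 = 1 ∧ A 4 = -A 1 ∧ A 3 = A 2 := by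
  have h1 : (1 / 2 : ℝ) • (A + pull J0 A) = F0 := h
  rw [pull_J0] at h1
  have e0 := congrFun h1 0
  have e1 := congrFun h1 1
  have e2 := congrFun h1 2
  have e5 := congrFun h1 5
  simp only [Pi.smul_apply, Pi.add_apply, smul_eq_mul, Fin.isValue, Nat.succ_eq_add_one,
    Nat.reduceAdd, Matrix.cons_val_zero, Matrix.cons_val_one, Matrix.cons_val, F0] at e0 e1 e2 e5
  exact ⟨by linarith, by linarith, by linarith, by linarith⟩

theorem norm_le_of_comp {A : L2} {C : ℝ} (hC : 0 ≤ C) (h : ∀ k, (A k) ^ 2 ≤ C ^ 2) : ‖A‖ ≤ C := by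
  rw [pi_norm_le_iff_of_nonneg hC]
  intro k
  rw [Real.norm_eq_abs]
  exact abs_le_of_sq_le_sq (h k) hC

theorem norm_anti {B : L2} (h : pM J0 B = B) {m : ℝ} (hm : 0 ≤ m) (hQ : Q B B ≤ 4 * m) :
    ‖B‖ ≤ 2 * Real.sqrt m := by
  obtain ⟨h0, h5, h4, h3⟩ := anti_form h
  have hq : Q B B = 2 * (B 1 ^ 2 + B 2 ^ 2) := by simp only [Q, h0, h5, h4, h3]; ring
  rw [hq] at hQ
  have e : (2 * Real.sqrt m) ^ 2 = 4 * m := by rw [mul_pow, Real.sq_sqrt hm]; norm_num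
  refine norm_le_of_comp (by positivity) fun k => ?_
  rw [e]
  have p1 := sq_nonneg (B 1)
  have p2 := sq_nonneg (B 2)
  fin_cases k
  · show B 0 ^ 2 ≤ _; rw [h0]; nlinarith
  · show B 1 ^ 2 ≤ _; linarith
  · show B 2 ^ 2 ≤ _; linarith
  · show B 3 ^ 2 ≤ _; rw [h3]; linarith
  · show B 4 ^ 2 ≤ _; rw [h4, neg_sq]; linarith
  · show B 5 ^ 2 ≤ _; rw [h5]; nlinarith

theorem norm_inv' {A : L2} (h : pP J0 A = F0) {m : ℝ} (hm : 0 ≤ m) (hQ : Q A A ≤ 4 * m) :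
    ‖A‖ ≤ 2 * Real.sqrt m := by
  obtain ⟨h0, h5, h4, h3⟩ := inv_form h
  have hq : Q A A = 2 * (1 + A 1 ^ 2 + A 2 ^ 2) := by simp only [Q, h0, h5, h4, h3]; ring
  rw [hq] at hQ
  have e : (2 * Real.sqrt m) ^ 2 = 4 * m := by rw [mul_pow, Real.sq_sqrt hm]; norm_num
  refine norm_le_of_comp (by positivity) fun k => ?_
  rw [e]
  have p1 := sq_nonneg (A 1)
  have p2 := sq_nonneg (A 2)
  fin_cases k
  · show A 0 ^ 2 ≤ _; rw [h0]; linarith
  · show A 1 ^ 2 ≤ _; linarith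
  · show A 2 ^ 2 ≤ _; linarith
  · show A 3 ^ 2 ≤ _; rw [h3]; linarith
  · show A 4 ^ 2 ≤ _; rw [h4, neg_sq]; linarith
  · show A 5 ^ 2 ≤ _; rw [h5]; linarith

section
variable {X : Type} [TopologicalSpace X] [ChartedSpace E4 X] [IsManifold (𝓡 4) ∞ X]
  [CompactSpace X] [T2Space X] [Nonempty X]

/-- a parametrisation around `x` whose coordinate frame at `x` is unitary for the triple -/
theorem exists_adapted {μ : HS.Form X 4} {w : Fin 3 → HS.Form X 2}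
    (hw : HS.Hypersymplectic μ w) (x : X) : ∃ p : Par X, p.psi 0 = x ∧ 0 < m4 p μ 0 ∧
      pP J0 (cp p (w 0) 0) = F0 ∧ pM J0 (cp p (w 1) 0) = cp p (w 1) 0 ∧
      pM J0 (cp p (w 2) 0) = cp p (w 2) 0 := by
  have htri := tri_of_posDef hw.posDef
  have hdef := defAt_of_triPos htri
  set J : EndField X := Jf (w 0) (w 1) (w 2) with hJd
  have hJ : AlmostComplex J := Jf_almostComplex hdef (hw.smooth 0) (hw.smooth 1) (hw.smooth 2)
  have hT : Tames (w 0) J := Jf_tames hdef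
  obtain ⟨A⟩ := exists_finAtlas hJ
  have hbM : ∀ x, pM J0 (fx A (w 0) (w 1) x) = fx A (w 0) (w 1) x :=
    fx_anti A hJ hT (fun x u v => Jf_anti_B hdef x u v)
  have hcM : ∀ x, pM J0 (fx A (w 0) (w 2) x) = fx A (w 0) (w 2) x :=
    fx_anti A hJ hT (fun x u v => Jf_anti_C hdef x u v)
  have hpos1 : ∀ x, 0 < HS.quot μ (w 1) (w 1) x := by
    intro x
    have := htri x 0 1 0 (Or.inr (Or.inl one_ne_zero))
    linarith
  have hh := hx_pos A hJ hT hbM hpos1 x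
  set L : V4 ≃L[ℝ] E4 := ContinuousLinearEquiv.equivOfInverse (A.FrI (w 0) x) (A.Fr (w 0) x)
    (A.Fr_FrI (w 0) hJ hT x) (A.FrI_Fr (w 0) hJ hT x) with hL
  obtain ⟨p, hp, hd⟩ := exists_par_frame x L
  have hcp : ∀ α : HS.Form X 2, cp p α 0 = fx A (w 0) α x := by
    intro α
    apply ext_ev
    intro v v'
    rw [ev_cp, ev_fx, hd]
    show omv α (p.psi 0) (A.FrI (w 0) x v) (A.FrI (w 0) x v') = _
    exact om_congr α hp _ _
  have hm : m4 p μ 0 = hx A (w 0) μ x := by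
    unfold m4 hx
    rw [hd]
    show ax μ (p.psi 0) (fun i => A.FrI (w 0) x (eb i)) = _
    rw [hp]
  refine ⟨p, hp, by rw [hm]; exact hh, ?_, ?_, ?_⟩
  · rw [hcp]
    letI := A.metric
    exact (A.toCM (w 0) hJ (hw.smooth 0) (hw.closed 0) hT).om_pP x
  · rw [hcp]; exact hbM x
  · rw [hcp]; exact hcM x

/-- in the adapted parametrisation the components of the triple are bounded -/
theorem adapted_bound {μ : HS.Form X 4} {w : Fin 3 → HS.Form X 2} {p : Par X}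
    (hm : 0 < m4 p μ 0) (h0 : pP J0 (cp p (w 0) 0) = F0)
    (h1 : pM J0 (cp p (w 1) 0) = cp p (w 1) 0) (h2 : pM J0 (cp p (w 2) 0) = cp p (w 2) 0)
    (hQ : ∀ i, HS.Qm μ w (p.psi 0) i i ≤ 2) (i : Fin 3) :
    ‖cp p (w i) 0‖ ≤ 2 * Real.sqrt (m4 p μ 0) := by
  have hq : ∀ i, Q (cp p (w i) 0) (cp p (w i) 0) ≤ 4 * m4 p μ 0 := by
    intro i
    have h3 : HS.quot μ (w i) (w i) (p.psi 0) / 2 ≤ 2 := hQ i
    rw [quot_cp, div_div, div_le_iff₀ (by positivity)] at h3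
    linarith
  fin_cases i
  · exact norm_inv' h0 hm.le (hq 0)
  · exact norm_anti h1 hm.le (hq 1)
  · exact norm_anti h2 hm.le (hq 2)

end

end Vale.Agent.P247.SCY
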