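import Vale.Agent.P247.SCY.FG2

/-!
# P247: flattening of a hypersymplectic triple on an open set of almost full measure
-/

set_option linter.all false

open scoped BigOperators ContDiff Topology Manifold ENNReal
open Set MeasureTheory Metric Filter

namespace Vale.Agent.P247.SCY
open Vale.Agent.P204 Vale.Agent.P204.T4 Vale.Agent.P204.Mfd Vale.Agent.P204.GX

section
variable {X : Type} [TopologicalSpace X] [ChartedSpace E4 X] [IsManifold (𝓡 4) ∞ X]

/-- the triple is constant in a parametrisation around `x`, and hyperkähler -/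
def FlatAt (μ : HS.Form X 4) (w : Fin 3 → HS.Form X 2) (x : X) : Prop :=
  ∃ (p : Par X) (ρ : ℝ) (c : Fin 3 → L2) (m0 : ℝ), 0 < ρ ∧ 0 < m0 ∧ p.psi 0 = x ∧
    (∀ y, ‖y‖ < ρ → 0 < m4 p μ y) ∧
    (∀ i j, Q (c i) (c j) = (if i = j then 2 else 0) * m0) ∧
    ∀ y, ‖y‖ < ρ → ∀ i, cp p (w i) y = c i

theorem cp_comb (p : Par X) (α θ : HS.Form X 2) (s : ℝ) (y : V4) :
    cp p (fun x => α x + s • θ x) y = cp p α y + s • cp p θ y := by
  rw [cp_add p α (fun x => s • θ x), cp_smul]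

theorem Qm_cp (p : Par X) (μ : HS.Form X 4) (w : Fin 3 → HS.Form X 2) (y : V4) (i j : Fin 3) :
    HS.Qm μ w (p.psi y) i j = Q (cp p (w i) y) (cp p (w j) y) / (2 * m4 p μ y) := by
  show HS.quot μ (w i) (w j) (p.psi y) / 2 = _
  rw [quot_cp, div_div, mul_comm]

variable [CompactSpace X] [T2Space X] [Nonempty X] [MeasurableSpace X] [BorelSpace X]

theorem stepF (κ ε : ℝ) (hκ0 : 0 < κ) (hκ1 : κ < 1) (hε : 0 < ε) : ∃ δ : ℝ, 0 < δ ∧
    ∀ {X : Type} [TopologicalSpace X] [ChartedSpace E4 X] [IsManifold (𝓡 4) ∞ X]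
      [CompactSpace X] [T2Space X] [Nonempty X] [MeasurableSpace X] [BorelSpace X]
      {μ : HS.Form X 4} (_ : HS.Volume μ) (_ : HS.vol μ univ ≠ ⊤) {w : Fin 3 → HS.Form X 2}
      (_ : HS.Hypersymplectic μ w) {G : Set X} (_ : IsOpen G)
      (_ : ∀ x ∈ G, ∀ i j, |HS.Qm μ w x i j - if i = j then 1 else 0| < δ)
      {e : ℝ≥0∞} (_ : e ≠ 0),
      ∃ (θ : Fin 3 → HS.Form X 2) (U : Set X),
        (∀ i, HS.Smooth (θ i) ∧ HS.Closed (θ i) ∧ HS.Exact (θ i)) ∧ IsOpen U ∧ U ⊆ G ∧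
        HS.vol μ (G \ U) ≤ e + ENNReal.ofReal (25 / 4 * κ) * HS.vol μ univ ∧
        (∀ x, (∀ i, θ i x = 0) ∨ ∀ s ∈ Icc (0 : ℝ) 1, ∀ i j,
          |HS.Qm μ (fun i x => w i x + s • θ i x) x i j - if i = j then 1 else 0| < ε) ∧
        (∀ x ∈ U, FlatAt μ (fun i x => w i x + θ i x) x) := by
  obtain ⟨δ1, hδ1, H⟩ := flat_ball κ ε 3 hκ0 hκ1 hε (by norm_num)
  refine ⟨min δ1 1, lt_min hδ1 one_pos, ?_⟩
  intro X _ _ _ _ _ _ _ _ μ hμ hfin w hw G hG hGδ e he
  set Φ : Par X → V4 → ℝ → (Fin 3 → V4 → V4) → Prop := fun p y r η =>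
    (∃ c : Fin 3 → L2, (∀ i j, Q (c i) (c j) = (if i = j then 2 else 0) * m4 p μ y) ∧
      ∀ z ∈ closedBall y ((1 - κ) * r), ∀ i, cp p (w i) z + d1 (η i) z = c i) ∧
    (∀ z ∈ closedBall y r, 0 < m4 p μ z) ∧
    (∀ z ∈ closedBall y r, ∀ s ∈ Icc (0 : ℝ) 1, ∀ i j,
      |Q (cp p (w i) z + s • d1 (η i) z) (cp p (w j) z + s • d1 (η j) z) / (2 * m4 p μ z) -
            if i = j then 1 else 0| < ε) with hΦ
  have hloc : ∀ x ∈ G, ∃ p : Par X, ∃ ρ : ℝ, 0 < ρ ∧ p.psi 0 = x ∧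
      ∀ y, ‖y‖ < ρ → ∃ r0 : ℝ, 0 < r0 ∧ ∀ r, 0 < r → r < r0 → ∃ η : Fin 3 → V4 → V4,
        (∀ i, ContDiff ℝ ∞ (η i)) ∧ (∀ i, tsupport (η i) ⊆ closedBall y r) ∧ Φ p y r η := by
    intro x hx
    obtain ⟨p, hp, hm, a0, a1, a2⟩ := exists_adapted hw x
    have hQ2 : ∀ i, HS.Qm μ w (p.psi 0) i i ≤ 2 := by
      intro i
      rw [hp]
      have h1 := (hGδ x hx i i).trans_le (min_le_right _ _)
      rw [if_pos rfl] at h1
      have := (abs_lt.1 h1).2
      linarith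
    have hb := adapted_bound hm a0 a1 a2 hQ2
    have hcm : Continuous (m4 p μ) := (contDiff_m4 p hμ.smooth).continuous
    have ev1 : ∀ᶠ y in 𝓝 (0 : V4), 0 < m4 p μ y := hcm.continuousAt.eventually (lt_mem_nhds hm)
    have ev2 : ∀ i, ∀ᶠ y in 𝓝 (0 : V4), ‖cp p (w i) y‖ < 3 * Real.sqrt (m4 p μ y) := by
      intro i
      have c1 : ContinuousAt (fun y => 3 * Real.sqrt (m4 p μ y) - ‖cp p (w i) y‖) 0 :=
        ((continuous_const.mul (Real.continuous_sqrt.comp hcm)).sub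
          (cp_smooth p (hw.smooth i)).continuous.norm).continuousAt
      have h1 : 0 < 3 * Real.sqrt (m4 p μ 0) - ‖cp p (w i) 0‖ := by
        have := hb i
        have := Real.sqrt_pos.2 hm
        linarith
      filter_upwards [c1.eventually (lt_mem_nhds h1)] with y hy
      linarith
    have ev3 : ∀ᶠ y in 𝓝 (0 : V4), p.psi y ∈ G :=
      (hG.preimage p.isOpenEmbedding.continuous).mem_nhds (by
        show p.psi 0 ∈ G
        rw [hp]; exact hx)
    obtain ⟨ρ, hρ, hball⟩ := Metric.eventually_nhds_iff.1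
      (ev1.and ((eventually_all.2 ev2).and ev3))
    refine ⟨p, ρ, hρ, hp, fun y hy => ?_⟩
    obtain ⟨k1, k2, k3⟩ := hball (show dist y 0 < ρ by rwa [dist_zero_right])
    obtain ⟨c, hc, r0, hr0, H2⟩ := H (fun i => cp p (w i)) (m4 p μ) y
      (fun i => cp_smooth p (hw.smooth i)) (fun i => cp_closed p (hw.smooth i) (hw.closed i))
      (contDiff_m4 p hμ.smooth) k1 (fun i => (k2 i).le) (fun i j => by
        have := (hGδ _ k3 i j).trans_le (min_le_left _ _)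
        rwa [Qm_cp] at this)
    refine ⟨r0, hr0, fun r hr hrr => ?_⟩
    obtain ⟨η, l1, l2, l3, l4, l5⟩ := H2 r hr hrr
    exact ⟨η, l1, l2, ⟨c, hc, l4⟩, l3, l5⟩
  obtain ⟨θ, U, g1, g2, g3, g4, g5, g6⟩ := glue hμ hw hfin hG hκ0 hκ1 hloc he
  refine ⟨θ, U, g1, g2, g3, g4, fun x => ?_, fun x hx => ?_⟩
  · rcases g5 x with h | ⟨p, y, r, η, hr, hη, hΦ', -, ⟨z, hz, rfl⟩, hcp⟩
    · left; exact h
    · right
      intro s hs i j
      rw [Qm_cp, cp_comb, cp_comb, hcp i z hz, hcp j z hz]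
      exact hΦ'.2.2 z hz s hs i j
  · obtain ⟨p, y, r, η, hr, hη, ⟨⟨c, hc, hc'⟩, hmp, -⟩, -, ⟨z, hz, rfl⟩, hcp⟩ := g6 x hx
    have hz' := mem_ball.1 hz
    have hsub : ∀ v : V4, ‖v‖ < (1 - κ) * r - dist z y → v + z ∈ closedBall y ((1 - κ) * r) := by
      intro v hv
      rw [mem_closedBall]
      have h1 : dist (v + z) y ≤ dist (v + z) z + dist z y := dist_triangle _ _ _
      have h2 : dist (v + z) z = ‖v‖ := by rw [dist_eq_norm, add_sub_cancel_right]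
      linarith
    have hsub2 : closedBall y ((1 - κ) * r) ⊆ closedBall y r :=
      closedBall_subset_closedBall (by nlinarith)
    refine ⟨shift p z, (1 - κ) * r - dist z y, c, m4 p μ y, by linarith,
      hmp y (mem_closedBall_self hr.le), ?_, fun v hv => ?_, hc, fun v hv i => ?_⟩
    · rw [shift_psi, zero_add]
    · have h1 : m4 (shift p z) μ v = m4 p μ (v + z) := by
        unfold m4
        rw [shift_dpsi, shift_psi]
      rw [h1]
      exact hmp _ (hsub2 (hsub v hv))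
    · rw [shift_cp]
      have h2 := cp_comb p (w i) (θ i) 1 (v + z)
      simp only [one_smul] at h2
      rw [h2, hcp i _ (hsub2 (hsub v hv))]
      exact hc' _ (hsub v hv) i

end

end Vale.Agent.P247.SCY
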