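import Vale.Agent.P247.SCY.FG3

/-!
# P247: appending a linear step to a deformation
-/

set_option linter.all false

open scoped BigOperators ContDiff Topology Manifold ENNReal
open Set MeasureTheory Metric Filter

namespace Vale.Agent.P247.SCY
open Vale.Agent.P204 Vale.Agent.P204.T4 Vale.Agent.P204.Mfd Vale.Agent.P204.GX

theorem posDef_add_smul {M : Matrix (Fin 3) (Fin 3) ℝ} {c : ℝ} (hc : 0 ≤ c)
    (h : (M - c • (1 : Matrix (Fin 3) (Fin 3) ℝ)).PosDef) : M.PosDef := by
  have h1 : (c • (1 : Matrix (Fin 3) (Fin 3) ℝ)).PosSemidef := by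
    have := (Matrix.PosSemidef.one (n := Fin 3) (R := ℝ)).smul hc
    exact this
  have h2 := h.add_posSemidef h1
  rwa [sub_add_cancel] at h2

theorem posDef_near {M : Matrix (Fin 3) (Fin 3) ℝ} (hM : M.IsHermitian) {δ ε : ℝ} (hδ : 3 * δ ≤ ε)
    (h : ∀ i j, |M i j - if i = j then 1 else 0| < δ) :
    (M - (1 - ε) • (1 : Matrix (Fin 3) (Fin 3) ℝ)).PosDef := by
  refine posDef_sub hM hδ (fun i => ?_) fun i j hij => ?_
  · have := h i i
    rw [if_pos rfl] at this
    linarith [(abs_lt.1 this).1]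
  · have := h i j
    rwa [if_neg hij, sub_zero] at this

section
variable {X : Type} [TopologicalSpace X] [ChartedSpace E4 X]

/-- a deformation followed by a linear step -/
theorem deformation_append {μ : HS.Form X 4} {w : Fin 3 → HS.Form X 2}
    {W : ℝ → Fin 3 → HS.Form X 2} (h : HS.Deformation μ w W) {θ : Fin 3 → HS.Form X 2}
    (hθ : ∀ i, HS.Smooth (θ i) ∧ HS.Closed (θ i) ∧ HS.Exact (θ i))
    (hpos : ∀ s ∈ Icc (0 : ℝ) 1, ∀ x, (HS.Qm μ (fun i x => W 1 i x + s • θ i x) x).PosDef) :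
    ∃ W' : ℝ → Fin 3 → HS.Form X 2, HS.Deformation μ w W' ∧
      W' 1 = fun i x => W 1 i x + θ i x := by
  set τ1 : ℝ → ℝ := fun t => Real.smoothTransition (2 * t) with hτ1
  set τ2 : ℝ → ℝ := fun t => Real.smoothTransition (2 * t - 1) with hτ2
  have s1 : ContDiff ℝ ∞ τ1 := Real.smoothTransition.contDiff.comp (by fun_prop)
  have s2 : ContDiff ℝ ∞ τ2 := Real.smoothTransition.contDiff.comp (by fun_prop)
  have m1 : ∀ t, τ1 t ∈ Icc (0 : ℝ) 1 := fun t =>
    ⟨Real.smoothTransition.nonneg _, Real.smoothTransition.le_one _⟩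
  have m2 : ∀ t, τ2 t ∈ Icc (0 : ℝ) 1 := fun t =>
    ⟨Real.smoothTransition.nonneg _, Real.smoothTransition.le_one _⟩
  have hlin : ∀ s ∈ Icc (0 : ℝ) 1, HS.Hypersymplectic μ (fun i x => W 1 i x + s • θ i x) := by
    intro s hs
    have h1 := h.hyper 1 (by simp)
    exact ⟨fun i => smooth_add (h1.smooth i) (smooth_smul (hθ i).1 s), fun i =>
      closed_add (h1.smooth i) (smooth_smul (hθ i).1 s) (h1.closed i) (closed_smul (hθ i).2.1 s),
      hpos s hs⟩
  refine ⟨fun t i x => W (τ1 t) i x + τ2 t • θ i x, ⟨?_, ?_, ?_, ?_⟩, ?_⟩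
  · intro i e he
    have e1 : (fun p : ℝ × E4 => HS.loc e (fun x => W (τ1 p.1) i x + τ2 p.1 • θ i x) p.2) =
        fun p => HS.loc e (W (τ1 p.1) i) p.2 + τ2 p.1 • HS.loc e (θ i) p.2 := by
      funext p
      have h3 := congrFun (loc_add' e (W (τ1 p.1) i) (fun x => τ2 p.1 • θ i x)) p.2
      have h4 := congrFun (loc_smul' e (τ2 p.1) (θ i)) p.2
      rw [h4] at h3
      exact h3
    rw [e1]
    have h3 : ContDiffOn ℝ ∞ (fun p : ℝ × E4 => HS.loc e (W (τ1 p.1) i) p.2)
        (univ ×ˢ e.target) := by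
      have h5 : ContDiffOn ℝ ∞ (fun p : ℝ × E4 => (τ1 p.1, p.2)) (univ ×ˢ e.target) :=
        ((s1.comp contDiff_fst).prodMk contDiff_snd).contDiffOn
      exact (h.smooth i e he).comp h5 (fun p hp => ⟨mem_univ _, hp.2⟩)
    have h4 : ContDiffOn ℝ ∞ (fun p : ℝ × E4 => HS.loc e (θ i) p.2) (univ ×ˢ e.target) :=
      ((hθ i).1 e he).comp contDiff_snd.contDiffOn (fun p hp => hp.2)
    have h5 : ContDiffOn ℝ ∞ (fun p : ℝ × E4 => τ2 p.1) (univ ×ˢ e.target) :=
      (s2.comp contDiff_fst).contDiffOn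
    exact h3.add (h5.smul h4)
  · intro t _
    rcases le_total t (1 / 2) with ht | ht
    · have e2 : τ2 t = 0 := Real.smoothTransition.zero_of_nonpos (by linarith)
      have e1 : (fun i x => W (τ1 t) i x + τ2 t • θ i x) = W (τ1 t) := by
        funext i x
        rw [e2, zero_smul, add_zero]
      show HS.Hypersymplectic μ (fun i x => W (τ1 t) i x + τ2 t • θ i x)
      rw [e1]
      exact h.hyper _ (m1 t)
    · have e1 : τ1 t = 1 := Real.smoothTransition.one_of_one_le (by linarith)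
      show HS.Hypersymplectic μ (fun i x => W (τ1 t) i x + τ2 t • θ i x)
      rw [e1]
      exact hlin _ (m2 t)
  · funext i x
    have e1 : τ1 0 = 0 := Real.smoothTransition.zero_of_nonpos (by norm_num)
    have e2 : τ2 0 = 0 := Real.smoothTransition.zero_of_nonpos (by norm_num)
    show W (τ1 0) i x + τ2 0 • θ i x = w i x
    rw [e1, e2, zero_smul, add_zero, h.start]
  · intro t i
    have : (fun x => W (τ1 t) i x + τ2 t • θ i x - w i x) =
        fun x => (W (τ1 t) i x - w i x) + τ2 t • θ i x := by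
      funext x; abel
    show HS.Exact (fun x => W (τ1 t) i x + τ2 t • θ i x - w i x)
    rw [this]
    exact exact_add (h.exact _ i) (exact_smul (hθ i).2.2 _)
  · funext i x
    have e1 : τ1 1 = 1 := Real.smoothTransition.one_of_one_le (by norm_num)
    have e2 : τ2 1 = 1 := Real.smoothTransition.one_of_one_le (by norm_num)
    show W (τ1 1) i x + τ2 1 • θ i x = W 1 i x + θ i x
    rw [e1, e2, one_smul]

variable [IsManifold (𝓡 4) ∞ X]

/-- `quot` of smooth forms is continuous -/
theorem continuous_quot {μ : HS.Form X 4} (hμ : HS.Volume μ) {α β : HS.Form X 2}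
    (sα : HS.Smooth α) (sβ : HS.Smooth β) : Continuous (HS.quot μ α β) := by
  rw [continuous_iff_continuousAt]
  intro x
  obtain ⟨p, hp, -⟩ := exists_par x (ContinuousLinearEquiv.refl ℝ V4)
  rw [← hp, ← p.isOpenEmbedding.continuousAt_iff]
  have e : HS.quot μ α β ∘ p.psi = fun y => Q (cp p α y) (cp p β y) / m4 p μ y := by
    funext y; exact quot_cp p μ α β y
  rw [e]
  refine ((continuous_Q.comp ((cp_smooth p sα).continuous.prodMk (cp_smooth p sβ).continuous)).div
    (contDiff_m4 p hμ.smooth).continuous fun y => ?_).continuousAt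
  rw [m4_dm]
  refine mul_ne_zero (det_dm_ne p y) fun h0 => ?_
  apply hμ.ne_zero (p.psi y)
  have h2 := AlternatingMap.eq_smul_basis_det bE (ax μ (p.psi y)).toAlternatingMap
  have h4 : (fun i => bE i) = HS.bas := funext bE_apply
  have h5 : (ax μ (p.psi y)).toAlternatingMap (⇑bE) = 0 := by
    rw [show (⇑bE : Fin 4 → E4) = HS.bas from h4]; exact h0
  rw [h5, zero_smul] at h2
  have h6 : ax μ (p.psi y) = 0 := by
    ext v
    exact congrArg (fun f => f v) h2
  exact h6

theorem continuous_Qm {μ : HS.Form X 4} (hμ : HS.Volume μ) {w : Fin 3 → HS.Form X 2}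
    (hw : ∀ i, HS.Smooth (w i)) (i j : Fin 3) : Continuous fun x => HS.Qm μ w x i j := by
  have : (fun x => HS.Qm μ w x i j) = fun x => HS.quot μ (w i) (w j) x / 2 := rfl
  rw [this]
  exact (continuous_quot hμ (hw i) (hw j)).div_const 2

end

end Vale.Agent.P247.SCY
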