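import Vale.Agent.P247.SCY.FG4

/-!
# P247: deformation to a triple which is exactly hyperkähler on an open set of almost full measure
-/

set_option linter.all false

open scoped BigOperators ContDiff Topology Manifold ENNReal
open Set MeasureTheory Metric Filter

namespace Vale.Agent.P247.SCY
open Vale.Agent.P204 Vale.Agent.P204.T4 Vale.Agent.P204.Mfd Vale.Agent.P204.GX

section
variable {X : Type} [TopologicalSpace X] [ChartedSpace E4 X] [IsManifold (𝓡 4) ∞ X]
  [CompactSpace X] [T2Space X] [Nonempty X] [MeasurableSpace X] [BorelSpace X]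

/-- the set where the Gram matrix is close to the identity -/
def goodSet (μ : HS.Form X 4) (w : Fin 3 → HS.Form X 2) (δ : ℝ) : Set X :=
  {x | ∀ i j, |HS.Qm μ w x i j - if i = j then 1 else 0| < δ}

omit [CompactSpace X] [T2Space X] [Nonempty X] [MeasurableSpace X] [BorelSpace X] in
theorem isOpen_goodSet {μ : HS.Form X 4} (hμ : HS.Volume μ) {w : Fin 3 → HS.Form X 2}
    (hw : ∀ i, HS.Smooth (w i)) (δ : ℝ) : IsOpen (goodSet μ w δ) := by
  have e : goodSet μ w δ = ⋂ i, ⋂ j, {x | |HS.Qm μ w x i j - if i = j then 1 else 0| < δ} := by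
    ext x
    simp only [goodSet, mem_setOf_eq, mem_iInter]
  rw [e]
  refine isOpen_iInter_of_finite fun i => isOpen_iInter_of_finite fun j => ?_
  exact isOpen_lt ((continuous_Qm hμ hw i j).sub continuous_const).abs continuous_const

omit [CompactSpace X] [T2Space X] [Nonempty X] [MeasurableSpace X] [BorelSpace X]
  [IsManifold (𝓡 4) ∞ X] in
theorem sub_one_apply' (μ : HS.Form X 4) (w : Fin 3 → HS.Form X 2) (x : X) (i j : Fin 3) :
    (HS.Qm μ w x - 1) i j = HS.Qm μ w x i j - if i = j then 1 else 0 := by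
  rw [Matrix.sub_apply, Matrix.one_apply]

omit [T2Space X] [Nonempty X] in
theorem integrable_Qm {μ : HS.Form X 4} (hμ : HS.Volume μ) (hfin : HS.vol μ univ ≠ ⊤)
    {w : Fin 3 → HS.Form X 2} (hw : ∀ i, HS.Smooth (w i)) (i j : Fin 3) :
    Integrable (fun x => |(HS.Qm μ w x - 1) i j|) (HS.vol μ) := by
  haveI : IsFiniteMeasure (HS.vol μ) := ⟨lt_of_le_of_ne le_top hfin⟩
  have hc : Continuous fun x => |(HS.Qm μ w x - 1) i j| := by
    have e : (fun x => |(HS.Qm μ w x - 1) i j|) =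
        fun x => |HS.Qm μ w x i j - if i = j then 1 else 0| := by
      funext x; rw [sub_one_apply']
    rw [e]
    exact ((continuous_Qm hμ hw i j).sub continuous_const).abs
  obtain ⟨C, hC⟩ := isCompact_univ.exists_bound_of_continuousOn hc.continuousOn
  exact (integrable_const C).mono' hc.measurable.aestronglyMeasurable
    (Filter.Eventually.of_forall fun x => hC x (mem_univ x))

/-- Markov's inequality for the bad set -/
theorem vol_bad {μ : HS.Form X 4} (hμ : HS.Volume μ) (hfin : HS.vol μ univ ≠ ⊤)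
    {w : Fin 3 → HS.Form X 2} (hw : ∀ i, HS.Smooth (w i)) {δ ε : ℝ} (hδ : 0 < δ) (hε : 0 < ε)
    (h : ∀ i j, ∫ x, |(HS.Qm μ w x - 1) i j| ∂(HS.vol μ) < ε) :
    HS.vol μ (goodSet μ w δ)ᶜ ≤ ENNReal.ofReal (9 * (ε / δ)) := by
  haveI : IsFiniteMeasure (HS.vol μ) := ⟨lt_of_le_of_ne le_top hfin⟩
  have hsub : (goodSet μ w δ)ᶜ ⊆ ⋃ i, ⋃ j, {x | δ ≤ |(HS.Qm μ w x - 1) i j|} := by
    intro x hx
    simp only [goodSet, mem_compl_iff, mem_setOf_eq, not_forall, not_lt] at hx
    obtain ⟨i, j, hij⟩ := hx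
    refine mem_iUnion.2 ⟨i, mem_iUnion.2 ⟨j, ?_⟩⟩
    show δ ≤ |(HS.Qm μ w x - 1) i j|
    rw [sub_one_apply']
    exact hij
  have hone : ∀ i j, HS.vol μ {x | δ ≤ |(HS.Qm μ w x - 1) i j|} ≤ ENNReal.ofReal (ε / δ) := by
    intro i j
    have h1 := mul_meas_ge_le_integral_of_nonneg (μ := HS.vol μ)
      (Filter.Eventually.of_forall fun x => abs_nonneg ((HS.Qm μ w x - 1) i j))
      (integrable_Qm hμ hfin hw i j) δ
    have h2 : (HS.vol μ).real {x | δ ≤ |(HS.Qm μ w x - 1) i j|} ≤ ε / δ := by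
      rw [le_div_iff₀ hδ, mul_comm]
      exact h1.trans (h i j).le
    exact (ENNReal.le_ofReal_iff_toReal_le (measure_ne_top _ _) (by positivity)).2 h2
  calc HS.vol μ (goodSet μ w δ)ᶜ ≤ _ := measure_mono hsub
    _ ≤ ∑ i, HS.vol μ (⋃ j, {x | δ ≤ |(HS.Qm μ w x - 1) i j|}) := measure_iUnion_fintype_le _ _
    _ ≤ ∑ i : Fin 3, ∑ j : Fin 3, HS.vol μ {x | δ ≤ |(HS.Qm μ w x - 1) i j|} :=
        Finset.sum_le_sum fun i _ => measure_iUnion_fintype_le _ _
    _ ≤ ∑ i : Fin 3, ∑ j : Fin 3, ENNReal.ofReal (ε / δ) :=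
        Finset.sum_le_sum fun i _ => Finset.sum_le_sum fun j _ => hone i j
    _ = ENNReal.ofReal (9 * (ε / δ)) := by
        have h0 : (0 : ℝ) ≤ ε / δ := by positivity
        simp only [Finset.sum_const, Finset.card_univ, Fintype.card_fin, smul_smul]
        rw [ENNReal.ofReal_mul (by norm_num), nsmul_eq_mul]
        congr 1
        norm_num

end

/-- **Theorem F, from the soft Calabi-Yau theorem.** -/
theorem finalF (soft : SoftStatement') {X : Type} [TopologicalSpace X] [ChartedSpace E4 X]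
    [IsManifold (𝓡 4) ∞ X] [CompactSpace X] [T2Space X] [Nonempty X] [MeasurableSpace X]
    [BorelSpace X] {μ : HS.Form X 4} (hμ : HS.Volume μ) (hvol : HS.vol μ univ = 1 / 2)
    (hb : HS.BPlusLe3 μ) {w : Fin 3 → HS.Form X 2} (hw : HS.Hypersymplectic μ w)
    (hn : HS.Normalized μ w) {ε : ℝ} (hε : 0 < ε) :
    ∃ W : ℝ → Fin 3 → HS.Form X 2, HS.Deformation μ w W ∧
      (∀ x, (HS.Qm μ (W 1) x - (1 - ε) • (1 : Matrix (Fin 3) (Fin 3) ℝ)).PosDef) ∧
      (∀ x i j, i ≠ j → |HS.Qm μ (W 1) x i j| < ε) ∧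
      (∀ i j, ∫ x, |(HS.Qm μ (W 1) x - 1) i j| ∂(HS.vol μ) < ε) ∧
      ∃ U : Set X, IsOpen U ∧ HS.vol μ Uᶜ < ENNReal.ofReal ε ∧
        ∀ x ∈ U, FlatAt μ (W 1) x ∧ ∀ i j, |HS.Qm μ (W 1) x i j - if i = j then 1 else 0| < ε := by
  have hfin : HS.vol μ univ ≠ ⊤ := by rw [hvol]; simp
  haveI : IsFiniteMeasure (HS.vol μ) := ⟨lt_of_le_of_ne le_top hfin⟩
  have hreal : (HS.vol μ).real univ = 1 / 2 := by rw [Measure.real, hvol]; simp
  set κ := min (1 / 2) (ε / 16) with hκ
  have hκ0 : 0 < κ := lt_min (by norm_num) (by positivity)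
  have hκ1 : κ < 1 := (min_le_left _ _).trans_lt (by norm_num)
  have hκ2 : κ ≤ ε / 16 := min_le_right _ _
  set ε2 := min (1 / 12) (ε / 12) with hε2
  have hε20 : 0 < ε2 := lt_min (by norm_num) (by positivity)
  have hε21 : ε2 ≤ 1 / 12 := min_le_left _ _
  have hε22 : ε2 ≤ ε / 12 := min_le_right _ _
  obtain ⟨δ0, hδ0, H⟩ := stepF κ ε2 hκ0 hκ1 hε20
  set δ := min δ0 (ε / 2) with hδd
  have hδ : 0 < δ := lt_min hδ0 (by positivity)
  set ε1 := min (ε / 2) (δ * (ε / 36)) with hε1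
  have hε10 : 0 < ε1 := lt_min (by positivity) (by positivity)
  have hε11 : ε1 ≤ ε / 2 := min_le_left _ _
  have hε12 : ε1 ≤ δ * (ε / 36) := min_le_right _ _
  obtain ⟨W, hW, hW1, hW2, hW3⟩ := final_of_soft soft hμ hvol hb hw hn hε10
  have hH := hW.hyper 1 (by simp)
  set G := goodSet μ (W 1) δ with hG
  have hGo : IsOpen G := isOpen_goodSet hμ hH.smooth δ
  have hGbad := vol_bad hμ hfin hH.smooth hδ hε10 hW3
  obtain ⟨θ, U, hθ, hU, hUG, hvolU, hnear, hflat⟩ := H hμ hfin hH hGo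
    (fun x hx i j => (hx i j).trans_le (min_le_left _ _)) (e := ENNReal.ofReal (ε / 4)) (by
      simpa using hε)
  have hherm : ∀ (s : ℝ) (x : X), (HS.Qm μ (fun i x => W 1 i x + s • θ i x) x).IsHermitian := fun s x =>
    qm_hermitian μ _ x
  have hQ0 : ∀ x, (∀ i, θ i x = 0) → ∀ s : ℝ,
      HS.Qm μ (fun i x => W 1 i x + s • θ i x) x = HS.Qm μ (W 1) x := by
    intro x hx s
    ext i j
    show HS.wedge (W 1 i x + s • θ i x) (W 1 j x + s • θ j x) (HS.tbas x) / _ / 2 =
      HS.wedge (W 1 i x) (W 1 j x) (HS.tbas x) / _ / 2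
    rw [hx i, hx j, smul_zero, add_zero, add_zero]
  have hpos : ∀ s ∈ Icc (0 : ℝ) 1, ∀ x, (HS.Qm μ (fun i x => W 1 i x + s • θ i x) x).PosDef := by
    intro s hs x
    rcases hnear x with h | h
    · rw [hQ0 x h]; exact hH.posDef x
    · exact posDef_add_smul (c := 1 - 1 / 4) (by norm_num)
        (posDef_near (hherm s x) (δ := ε2) (by linarith) (h s hs))
  obtain ⟨W', hW', hW'1⟩ := deformation_append hW hθ hpos
  have hone : (fun i x => W 1 i x + (1 : ℝ) • θ i x) = fun i x => W 1 i x + θ i x := by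
    funext i x; rw [one_smul]
  -- the Gram matrix of the new triple
  have hcase : ∀ x, HS.Qm μ (W' 1) x = HS.Qm μ (W 1) x ∨
      ∀ i j, |HS.Qm μ (W' 1) x i j - if i = j then 1 else 0| < ε2 := by
    intro x
    rw [hW'1, ← hone]
    rcases hnear x with h | h
    · left; exact hQ0 x h 1
    · right; exact h 1 (by simp)
  have hsm' : ∀ i, HS.Smooth (W' 1 i) := (hW'.hyper 1 (by simp)).smooth
  refine ⟨W', hW', fun x => ?_, fun x i j hij => ?_, fun i j => ?_, U, hU, ?_, fun x hx => ⟨?_, ?_⟩⟩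
  · rcases hcase x with h | h
    · rw [h]
      have h1 := hW1 x
      have e : HS.Qm μ (W 1) x - (1 - ε) • (1 : Matrix (Fin 3) (Fin 3) ℝ) =
          (HS.Qm μ (W 1) x - (1 - ε1) • (1 : Matrix (Fin 3) (Fin 3) ℝ)) +
            (ε - ε1) • (1 : Matrix (Fin 3) (Fin 3) ℝ) := by module
      rw [e]
      refine h1.add_posSemidef ?_
      exact (Matrix.PosSemidef.one (n := Fin 3) (R := ℝ)).smul (by linarith)
    · exact posDef_near (qm_hermitian μ _ x) (δ := ε2) (by linarith) h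
  · rcases hcase x with h | h
    · rw [h]; exact (hW2 x i j hij).trans_le (by linarith)
    · have := h i j
      rw [if_neg hij, sub_zero] at this
      exact this.trans_le (by linarith)
  · have hle : ∀ x, |(HS.Qm μ (W' 1) x - 1) i j| ≤ |(HS.Qm μ (W 1) x - 1) i j| + ε2 := by
      intro x
      rcases hcase x with h | h
      · rw [h]; linarith
      · rw [sub_one_apply']
        have := h i j
        have := abs_nonneg ((HS.Qm μ (W 1) x - 1) i j)
        linarith
    have hi := integrable_Qm hμ hfin hH.smooth i j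
    calc ∫ x, |(HS.Qm μ (W' 1) x - 1) i j| ∂(HS.vol μ) ≤
        ∫ x, (|(HS.Qm μ (W 1) x - 1) i j| + ε2) ∂(HS.vol μ) :=
          integral_mono (integrable_Qm hμ hfin hsm' i j) (hi.add (integrable_const _)) hle
      _ = ∫ x, |(HS.Qm μ (W 1) x - 1) i j| ∂(HS.vol μ) + ε2 * (1 / 2) := by
          rw [integral_add hi (integrable_const _), integral_const, hreal, smul_eq_mul, mul_comm]
      _ < ε := by
          have := hW3 i j
          linarith
  · have hsub : Uᶜ ⊆ Gᶜ ∪ (G \ U) := by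
      intro x hx
      by_cases hxG : x ∈ G
      · exact Or.inr ⟨hxG, hx⟩
      · exact Or.inl hxG
    have h1 : 9 * (ε1 / δ) ≤ ε / 4 := by
      rw [mul_div_assoc', div_le_iff₀ hδ]
      linarith
    have h2 : ENNReal.ofReal (25 / 4 * κ) * HS.vol μ univ ≤ ENNReal.ofReal (ε / 4) := by
      rw [hvol, show (1 / 2 : ℝ≥0∞) = ENNReal.ofReal (1 / 2) by
        rw [ENNReal.ofReal_div_of_pos (by norm_num)]; simp, ← ENNReal.ofReal_mul (by positivity)]
      apply ENNReal.ofReal_le_ofReal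
      linarith
    calc HS.vol μ Uᶜ ≤ HS.vol μ (Gᶜ ∪ (G \ U)) := measure_mono hsub
      _ ≤ HS.vol μ Gᶜ + HS.vol μ (G \ U) := measure_union_le _ _
      _ ≤ ENNReal.ofReal (ε / 4) + (ENNReal.ofReal (ε / 4) + ENNReal.ofReal (ε / 4)) :=
          add_le_add (hGbad.trans (ENNReal.ofReal_le_ofReal h1))
            (hvolU.trans (add_le_add le_rfl h2))
      _ = ENNReal.ofReal (ε / 4 + (ε / 4 + ε / 4)) := by
          rw [ENNReal.ofReal_add (by positivity) (by positivity),
            ENNReal.ofReal_add (by positivity) (by positivity)]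
      _ < ENNReal.ofReal ε := (ENNReal.ofReal_lt_ofReal_iff hε).2 (by linarith)
  · rw [hW'1]; exact hflat x hx
  · intro i j
    rcases hcase x with h | h
    · rw [h]
      exact (hUG hx i j).trans_le ((min_le_right _ _).trans (by linarith))
    · exact (h i j).trans_le (by linarith)

end Vale.Agent.P247.SCY
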