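import Vale.Agent.P247.SCY.FP2

/-!
# P247, flattening: a closed invariant form is made constant on a small ball by a potential
-/

set_option linter.all false

open MeasureTheory Set Metric Filter Topology
open scoped ContDiff BigOperators Topology

namespace Vale.Agent.P247.SCY
open Vale.Agent.P204 Vale.Agent.P204.T4 Vale.Agent.P204.GX

theorem df' {f : V4 → ℝ} (h : ContDiff ℝ ∞ f) (y : V4) : DifferentiableAt ℝ f y :=
  (h.differentiable (by simp)) y

/-- the components of the norm of a gradient -/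
theorem norm_fderiv_le {f : V4 → ℝ} (y : V4) {M : ℝ} (h : ∀ i, |T4.pd i f y| ≤ M) :
    ‖fderiv ℝ f y‖ ≤ 4 * M := by
  have hM : 0 ≤ M := (abs_nonneg _).trans (h 0)
  refine ContinuousLinearMap.opNorm_le_bound _ (by positivity) fun v => ?_
  have e : fderiv ℝ f y v = ∑ i, v i * T4.pd i f y := by
    have hv : v = ∑ i, v i • (Pi.single i (1 : ℝ) : V4) := by
      funext j
      simp [Finset.sum_apply, Pi.single_apply]
    conv_lhs => rw [hv]
    rw [map_sum]
    simp only [map_smul, smul_eq_mul]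
    rfl
  rw [e, Real.norm_eq_abs]
  calc |∑ i, v i * T4.pd i f y| ≤ ∑ i, |v i * T4.pd i f y| := Finset.abs_sum_le_sum_abs _ _
    _ ≤ ∑ i : Fin 4, ‖v‖ * M := by
        refine Finset.sum_le_sum fun i _ => ?_
        rw [abs_mul]
        exact mul_le_mul (norm_le_pi_norm v i) (h i) (abs_nonneg _) (norm_nonneg _)
    _ = 4 * M * ‖v‖ := by simp; ring

/-- mean value inequality at the origin -/
theorem mvt0 {f : V4 → ℝ} (hf : ContDiff ℝ ∞ f) (h0 : f 0 = 0) {r M : ℝ}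
    (h : ∀ y, ‖y‖ ≤ r → ∀ i, |T4.pd i f y| ≤ M) {y : V4} (hy : ‖y‖ ≤ r) :
    |f y| ≤ 4 * M * ‖y‖ := by
  have hconv : Convex ℝ (closedBall (0 : V4) r) := convex_closedBall 0 r
  have hr : 0 ≤ r := (norm_nonneg y).trans hy
  have h1 := hconv.norm_image_sub_le_of_norm_fderiv_le (f := f) (C := 4 * M)
    (fun z _ => df' hf z) (fun z hz => norm_fderiv_le z (h z (mem_closedBall_zero_iff.1 hz)))
    (mem_closedBall_self hr) (mem_closedBall_zero_iff.2 hy)
  rwa [h0, sub_zero, sub_zero, Real.norm_eq_abs] at h1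

/-- the quadratic potential of a constant invariant form -/
noncomputable def qp (A : L2) (y : V4) : ℝ :=
  A 0 / 4 * (y 0 * y 0 + y 1 * y 1) + A 5 / 4 * (y 2 * y 2 + y 3 * y 3) + A 1 * (y 1 * y 2) +
    A 2 * (y 0 * y 2)

theorem qp_smooth (A : L2) : ContDiff ℝ ∞ (qp A) := by
  unfold qp
  fun_prop

theorem qp_zero (A : L2) : qp A 0 = 0 := by simp [qp]

theorem hasF_coord (i : Fin 4) (y : V4) :
    HasFDerivAt (fun y : V4 => y i) (ContinuousLinearMap.proj (R := ℝ) (φ := fun _ : Fin 4 => ℝ) i) y :=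
  (ContinuousLinearMap.proj (R := ℝ) (φ := fun _ : Fin 4 => ℝ) i).hasFDerivAt

theorem pd_coordP (i j : Fin 4) (y : V4) : T4.pd i (fun y => y j) y = if i = j then 1 else 0 := by
  unfold T4.pd
  rw [(hasF_coord j y).fderiv]
  show (Pi.single i (1 : ℝ) : V4) j = _
  rw [Pi.single_apply]
  simp only [eq_comm]

theorem pd_qp (A : L2) (y : V4) (i : Fin 4) : T4.pd i (qp A) y =
    ![A 0 / 2 * y 0 + A 2 * y 2, A 0 / 2 * y 1 + A 1 * y 2,
      A 5 / 2 * y 2 + A 1 * y 1 + A 2 * y 0, A 5 / 2 * y 3] i := by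
  have h : HasFDerivAt (qp A)
      ((A 0 / 4) • ((y 0 • (ContinuousLinearMap.proj (R := ℝ) (φ := fun _ : Fin 4 => ℝ) 0) +
        y 0 • (ContinuousLinearMap.proj (R := ℝ) (φ := fun _ : Fin 4 => ℝ) 0)) +
        (y 1 • (ContinuousLinearMap.proj (R := ℝ) (φ := fun _ : Fin 4 => ℝ) 1) +
        y 1 • (ContinuousLinearMap.proj (R := ℝ) (φ := fun _ : Fin 4 => ℝ) 1))) +
      (A 5 / 4) • ((y 2 • (ContinuousLinearMap.proj (R := ℝ) (φ := fun _ : Fin 4 => ℝ) 2) +
        y 2 • (ContinuousLinearMap.proj (R := ℝ) (φ := fun _ : Fin 4 => ℝ) 2)) +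
        (y 3 • (ContinuousLinearMap.proj (R := ℝ) (φ := fun _ : Fin 4 => ℝ) 3) +
        y 3 • (ContinuousLinearMap.proj (R := ℝ) (φ := fun _ : Fin 4 => ℝ) 3))) +
      A 1 • (y 1 • (ContinuousLinearMap.proj (R := ℝ) (φ := fun _ : Fin 4 => ℝ) 2) +
        y 2 • (ContinuousLinearMap.proj (R := ℝ) (φ := fun _ : Fin 4 => ℝ) 1)) +
      A 2 • (y 0 • (ContinuousLinearMap.proj (R := ℝ) (φ := fun _ : Fin 4 => ℝ) 2) +
        y 2 • (ContinuousLinearMap.proj (R := ℝ) (φ := fun _ : Fin 4 => ℝ) 0))) y :=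
    ((((((hasF_coord 0 y).mul (hasF_coord 0 y)).add ((hasF_coord 1 y).mul (hasF_coord 1 y))).const_mul _).add
      ((((hasF_coord 2 y).mul (hasF_coord 2 y)).add ((hasF_coord 3 y).mul (hasF_coord 3 y))).const_mul _)).add
      (((hasF_coord 1 y).mul (hasF_coord 2 y)).const_mul _)).add
      (((hasF_coord 0 y).mul (hasF_coord 2 y)).const_mul _)
  unfold T4.pd
  rw [h.fderiv]
  fin_cases i <;> simp <;> ring

theorem pd_lin (a b c d : ℝ) (k : Fin 4) (y : V4) :
    T4.pd k (fun y : V4 => a * y 0 + b * y 1 + c * y 2 + d * y 3) y = ![a, b, c, d] k := by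
  have h : HasFDerivAt (fun y : V4 => a * y 0 + b * y 1 + c * y 2 + d * y 3)
      (a • (ContinuousLinearMap.proj (R := ℝ) (φ := fun _ : Fin 4 => ℝ) 0) +
        b • (ContinuousLinearMap.proj (R := ℝ) (φ := fun _ : Fin 4 => ℝ) 1) +
        c • (ContinuousLinearMap.proj (R := ℝ) (φ := fun _ : Fin 4 => ℝ) 2) +
        d • (ContinuousLinearMap.proj (R := ℝ) (φ := fun _ : Fin 4 => ℝ) 3)) y :=
    ((((hasF_coord 0 y).const_mul a).add ((hasF_coord 1 y).const_mul b)).add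
      ((hasF_coord 2 y).const_mul c)).add ((hasF_coord 3 y).const_mul d)
  unfold T4.pd
  rw [h.fderiv]
  fin_cases k <;> simp

theorem pd0_qp (A : L2) : T4.pd 0 (qp A) = fun y => A 0 / 2 * y 0 + 0 * y 1 + A 2 * y 2 + 0 * y 3 := by
  funext y; rw [pd_qp]; simp

theorem pd1_qp (A : L2) : T4.pd 1 (qp A) = fun y => 0 * y 0 + A 0 / 2 * y 1 + A 1 * y 2 + 0 * y 3 := by
  funext y; rw [pd_qp]; simp

theorem pd2_qp (A : L2) :
    T4.pd 2 (qp A) = fun y => A 2 * y 0 + A 1 * y 1 + A 5 / 2 * y 2 + 0 * y 3 := by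
  funext y; rw [pd_qp]; simp; ring

theorem pd3_qp (A : L2) : T4.pd 3 (qp A) = fun y => 0 * y 0 + 0 * y 1 + 0 * y 2 + A 5 / 2 * y 3 := by
  funext y; rw [pd_qp]; simp

theorem ddc_qp {A : L2} (hA : pull J0 A = A) (y : V4) : ddc (qp A) y = A := by
  rw [ddc_eq, pd0_qp, pd1_qp, pd2_qp, pd3_qp]
  simp only [pd_lin]
  rw [pull_J0] at hA
  have a3 := congrFun hA 3
  have a4 := congrFun hA 4
  simp only [Matrix.cons_val_zero, Matrix.cons_val_one, Matrix.cons_val, Fin.isValue] at a3 a4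
  funext k
  fin_cases k <;> simp <;> linarith

theorem pd_pd_qp_le (A : L2) (y : V4) (i j : Fin 4) : |T4.pd i (T4.pd j (qp A)) y| ≤ ‖A‖ := by
  have hA : ∀ k, |A k| ≤ ‖A‖ := fun k => norm_le_pi_norm A k
  have h0 := norm_nonneg A
  have hA2 : ∀ k, |A k / 2| ≤ ‖A‖ := fun k => by
    rw [abs_div, abs_two]
    have := hA k
    have := abs_nonneg (A k)
    linarith
  have key : ∀ a b c d : ℝ, |a| ≤ ‖A‖ → |b| ≤ ‖A‖ → |c| ≤ ‖A‖ → |d| ≤ ‖A‖ →
      |T4.pd i (fun y : V4 => a * y 0 + b * y 1 + c * y 2 + d * y 3) y| ≤ ‖A‖ := by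
    intro a b c d ha hb hc hd
    rw [pd_lin]
    fin_cases i
    · exact ha
    · exact hb
    · exact hc
    · exact hd
  have hz : |(0 : ℝ)| ≤ ‖A‖ := by rw [abs_zero]; exact h0
  fin_cases j
  · show |T4.pd i (T4.pd 0 (qp A)) y| ≤ ‖A‖
    rw [pd0_qp]; exact key _ _ _ _ (hA2 0) hz (hA 2) hz
  · show |T4.pd i (T4.pd 1 (qp A)) y| ≤ ‖A‖
    rw [pd1_qp]; exact key _ _ _ _ hz (hA2 0) (hA 1) hz
  · show |T4.pd i (T4.pd 2 (qp A)) y| ≤ ‖A‖
    rw [pd2_qp]; exact key _ _ _ _ (hA 2) (hA 1) (hA2 5) hz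
  · show |T4.pd i (T4.pd 3 (qp A)) y| ≤ ‖A‖
    rw [pd3_qp]; exact key _ _ _ _ hz hz hz (hA2 5)

/-! ### linearity -/

theorem ddc_add {u v : V4 → ℝ} (hu : ContDiff ℝ ∞ u) (hv : ContDiff ℝ ∞ v) (y : V4) :
    ddc (fun y => u y + v y) y = ddc u y + ddc v y := by
  unfold ddc
  have e : dcu (fun y => u y + v y) = dcu u + dcu v := by
    funext z
    have h : ∀ i, T4.pd i (fun y => u y + v y) z = T4.pd i u z + T4.pd i v z := fun i =>
      T4.pd_add (df' hu z) (df' hv z)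
    unfold dcu
    rw [h, h, h, h]
    funext k
    fin_cases k <;> simp [dcu] <;> ring
  rw [e, d1_add ((dcu_smooth hu).differentiable (by simp)) ((dcu_smooth hv).differentiable (by simp))]

theorem ddc_neg (u : V4 → ℝ) (y : V4) : ddc (fun y => -u y) y = -ddc u y := by
  have h1 : ∀ i, T4.pd i (fun y => -u y) = fun y => -T4.pd i u y := fun i => by
    funext z; exact pd_neg' u z i
  rw [ddc_eq, ddc_eq]
  simp only [h1, pd_neg']
  funext k
  fin_cases k <;> simp <;> ring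

theorem ddc_sub {u v : V4 → ℝ} (hu : ContDiff ℝ ∞ u) (hv : ContDiff ℝ ∞ v) (y : V4) :
    ddc (fun y => u y - v y) y = ddc u y - ddc v y := by
  have e : (fun y => u y - v y) = fun y => u y + -v y := by funext z; ring
  rw [e, ddc_add hu hv.neg, ddc_neg, sub_eq_add_neg]

theorem ddc_congr {u v : V4 → ℝ} {y : V4} (h : u =ᶠ[𝓝 y] v) : ddc u y = ddc v y := by
  unfold ddc
  apply d1_congr
  filter_upwards [h.eventuallyEq_nhds] with z hz
  unfold dcu
  rw [pd_congr hz, pd_congr hz, pd_congr hz, pd_congr hz]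

theorem norm_ddc_le {v : V4 → ℝ} {y : V4} {M : ℝ} (h : ∀ i j, |T4.pd i (T4.pd j v) y| ≤ M) :
    ‖ddc v y‖ ≤ 2 * M := by
  have hM : 0 ≤ M := (abs_nonneg _).trans (h 0 0)
  rw [ddc_eq, pi_norm_le_iff_of_nonneg (by positivity)]
  intro k
  rw [Real.norm_eq_abs]
  have t1 : ∀ a b : ℝ, |a| ≤ M → |b| ≤ M → |a + b| ≤ 2 * M := by
    intro a b ha hb
    have := abs_add_le a b
    linarith
  have t2 : ∀ a b : ℝ, |a| ≤ M → |b| ≤ M → |-a + b| ≤ 2 * M := by
    intro a b ha hb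
    exact t1 _ _ (by rwa [abs_neg]) hb
  have t3 : ∀ a b : ℝ, |a| ≤ M → |b| ≤ M → |-a - b| ≤ 2 * M := by
    intro a b ha hb
    rw [sub_eq_add_neg]
    exact t1 _ _ (by rwa [abs_neg]) (by rwa [abs_neg])
  have t4 : ∀ a b : ℝ, |a| ≤ M → |b| ≤ M → |a - b| ≤ 2 * M := by
    intro a b ha hb
    rw [sub_eq_add_neg]
    exact t1 _ _ ha (by rwa [abs_neg])
  fin_cases k
  · exact t1 _ _ (h 0 0) (h 1 1)
  · exact t2 _ _ (h 0 3) (h 2 1)
  · exact t1 _ _ (h 0 2) (h 3 1)
  · exact t3 _ _ (h 1 3) (h 2 0)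
  · exact t4 _ _ (h 1 2) (h 3 0)
  · exact t1 _ _ (h 2 2) (h 3 3)

/-! ### the Taylor polynomial -/

/-- the quadratic polynomial with value `u0`, gradient `g` and symmetric Hessian `H` -/
noncomputable def tp (u0 : ℝ) (g : Fin 4 → ℝ) (H : Fin 4 → Fin 4 → ℝ) (y : V4) : ℝ :=
  u0 + ∑ i, g i * y i + ∑ i, ∑ j, H i j / 2 * (y i * y j)

theorem tp_smooth (u0 : ℝ) (g : Fin 4 → ℝ) (H : Fin 4 → Fin 4 → ℝ) : ContDiff ℝ ∞ (tp u0 g H) := by
  unfold tp
  fun_prop

theorem pd_tp (u0 : ℝ) (g : Fin 4 → ℝ) {H : Fin 4 → Fin 4 → ℝ} (hH : ∀ i j, H i j = H j i)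
    (k : Fin 4) : T4.pd k (tp u0 g H) = fun y => g k + (H k 0 * y 0 + H k 1 * y 1 + H k 2 * y 2 +
      H k 3 * y 3) := by
  funext y
  have h : HasFDerivAt (tp u0 g H)
      ((∑ i, g i • (ContinuousLinearMap.proj (R := ℝ) (φ := fun _ : Fin 4 => ℝ) i)) +
        ∑ i, ∑ j, (H i j / 2) • (y i • (ContinuousLinearMap.proj (R := ℝ) (φ := fun _ : Fin 4 => ℝ) j) +
          y j • (ContinuousLinearMap.proj (R := ℝ) (φ := fun _ : Fin 4 => ℝ) i))) y := by
    unfold tp
    refine HasFDerivAt.add ?_ ?_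
    · refine HasFDerivAt.const_add _ (HasFDerivAt.fun_sum fun i _ => ?_)
      exact (hasF_coord i y).const_mul (g i)
    · refine HasFDerivAt.fun_sum fun i _ => HasFDerivAt.fun_sum fun j _ => ?_
      exact ((hasF_coord i y).mul (hasF_coord j y)).const_mul _
  unfold T4.pd
  rw [h.fderiv]
  have h01 := hH 0 1
  have h02 := hH 0 2
  have h03 := hH 0 3
  have h12 := hH 1 2
  have h13 := hH 1 3
  have h23 := hH 2 3
  fin_cases k <;> simp [Fin.sum_univ_four, h01, h02, h03, h12, h13, h23] <;> ring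

theorem pd_pd_tp (u0 : ℝ) (g : Fin 4 → ℝ) {H : Fin 4 → Fin 4 → ℝ} (hH : ∀ i j, H i j = H j i)
    (i k : Fin 4) (y : V4) : T4.pd i (T4.pd k (tp u0 g H)) y = H i k := by
  rw [pd_tp u0 g hH]
  have h1 : T4.pd i (fun y : V4 => g k + (H k 0 * y 0 + H k 1 * y 1 + H k 2 * y 2 + H k 3 * y 3)) y =
      T4.pd i (fun y : V4 => H k 0 * y 0 + H k 1 * y 1 + H k 2 * y 2 + H k 3 * y 3) y := by
    unfold T4.pd
    rw [fderiv_const_add]
  rw [h1, pd_lin, hH i k]
  fin_cases i <;> rfl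

theorem pd_scale {f : V4 → ℝ} (hf : ContDiff ℝ ∞ f) (c : ℝ) (i : Fin 4) (y : V4) :
    T4.pd i (fun y => f (c • y)) y = c * T4.pd i f (c • y) := by
  have h1 : HasFDerivAt (fun y : V4 => c • y) (c • ContinuousLinearMap.id ℝ V4) y :=
    (hasFDerivAt_id y).const_smul c
  have h2 : HasFDerivAt (fun y => f (c • y)) ((fderiv ℝ f (c • y)).comp
      (c • ContinuousLinearMap.id ℝ V4)) y := (df' hf (c • y)).hasFDerivAt.comp y h1
  unfold T4.pd
  rw [h2.fderiv]
  simp

/-- bounds for the derivatives of a bump function -/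
theorem exists_bump_bound (b : ContDiffBump (0 : V4)) : ∃ B : ℝ, 0 ≤ B ∧
    (∀ i y, |T4.pd i b y| ≤ B) ∧ ∀ i j y, |T4.pd i (T4.pd j b) y| ≤ B := by
  have sb : ContDiff ℝ ∞ (b : V4 → ℝ) := b.contDiff
  have hc : HasCompactSupport (b : V4 → ℝ) := b.hasCompactSupport
  have h1 : ∀ i, ∃ B : ℝ, ∀ y, ‖T4.pd i b y‖ ≤ B := fun i =>
    (pd_hasCompactSupport (i := i) hc).exists_bound_of_continuous (pd_smooth sb i).continuous
  have h2 : ∀ i j, ∃ B : ℝ, ∀ y, ‖T4.pd i (T4.pd j b) y‖ ≤ B := fun i j =>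
    (pd_hasCompactSupport (i := i) (pd_hasCompactSupport (i := j) hc)).exists_bound_of_continuous
      (pd_smooth (pd_smooth sb j) i).continuous
  choose B1 hB1 using h1
  choose B2 hB2 using h2
  have n1 : ∀ i, 0 ≤ B1 i := fun i => (norm_nonneg _).trans (hB1 i 0)
  have n2 : ∀ i j, 0 ≤ B2 i j := fun i j => (norm_nonneg _).trans (hB2 i j 0)
  have n3 : 0 ≤ ∑ i, B1 i := Finset.sum_nonneg fun i _ => n1 i
  have n4 : 0 ≤ ∑ i, ∑ j, B2 i j := Finset.sum_nonneg fun i _ => Finset.sum_nonneg fun j _ => n2 i j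
  refine ⟨(∑ i, B1 i) + ∑ i, ∑ j, B2 i j, by positivity, fun i y => ?_, fun i j y => ?_⟩
  · have e1 := hB1 i y
    rw [Real.norm_eq_abs] at e1
    have e2 := Finset.single_le_sum (f := B1) (fun i _ => n1 i) (Finset.mem_univ i)
    linarith
  · have e1 := hB2 i j y
    rw [Real.norm_eq_abs] at e1
    have e2 := Finset.single_le_sum (f := fun j => B2 i j) (fun j _ => n2 i j) (Finset.mem_univ j)
    have e3 := Finset.single_le_sum (f := fun i => ∑ j, B2 i j)
      (fun i _ => Finset.sum_nonneg fun j _ => n2 i j) (Finset.mem_univ i)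
    linarith

/-- second derivatives of a product -/
theorem pd_pd_mul {f g : V4 → ℝ} (hf : ContDiff ℝ ∞ f) (hg : ContDiff ℝ ∞ g) (i j : Fin 4)
    (y : V4) : T4.pd i (T4.pd j (fun y => f y * g y)) y =
      T4.pd i (T4.pd j f) y * g y + T4.pd j f y * T4.pd i g y + (T4.pd i f y * T4.pd j g y +
        f y * T4.pd i (T4.pd j g) y) := by
  have h1 : T4.pd j (fun y => f y * g y) = fun y => T4.pd j f y * g y + f y * T4.pd j g y := by
    funext z
    exact T4.pd_mul (df' hf z) (df' hg z)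
  rw [h1, T4.pd_add (df' ((pd_smooth hf j).mul hg) y) (df' (hf.mul (pd_smooth hg j)) y),
    T4.pd_mul (df' (pd_smooth hf j) y) (df' hg y), T4.pd_mul (df' hf y) (df' (pd_smooth hg j) y)]

/-- **Flattening by a potential**, at the origin. -/
theorem flat_pot {κ : ℝ} (h0 : 0 < κ) (h1 : κ < 1) : ∃ K : ℝ, 0 < K ∧
    ∀ (a : V4 → L2), ContDiff ℝ ∞ a → Closed a → ∀ ρ : ℝ, 0 < ρ →
      (∀ y, ‖y‖ < ρ → pull J0 (a y) = a y) → ∀ c : L2, pull J0 c = c → ∀ τ : ℝ, ‖c - a 0‖ < τ →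
      ∃ r0 : ℝ, 0 < r0 ∧ ∀ r : ℝ, 0 < r → r ≤ r0 → ∃ v : V4 → ℝ, ContDiff ℝ ∞ v ∧
        tsupport v ⊆ closedBall 0 r ∧ (∀ y, ‖y‖ < (1 - κ) * r → a y + ddc v y = c) ∧
        ∀ y, ‖ddc v y‖ ≤ K * τ := by
  let b : ContDiffBump (0 : V4) := ⟨1 - κ, 1, by linarith, by linarith⟩
  have sb : ContDiff ℝ ∞ (b : V4 → ℝ) := b.contDiff
  obtain ⟨B, hB, hB1, hB2⟩ := exists_bump_bound b
  refine ⟨2 * (24 * B + 1), by positivity, fun a sa ca ρ hρ hinv c hc τ hτ => ?_⟩
  have hτ0 : 0 < τ := lt_of_le_of_lt (norm_nonneg _) hτ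
  obtain ⟨u, su, hu⟩ := exists_pot sa ca hρ hinv
  set A : L2 := c - a 0 with hA
  have hAi : pull J0 A = A := by
    have e : A = c + (-1 : ℝ) • a 0 := by rw [hA]; module
    rw [e, pull_add, pull_smul, hc, hinv 0 (by simpa using hρ)]
  -- the potential of the difference
  set H : Fin 4 → Fin 4 → ℝ := fun i j => T4.pd i (T4.pd j u) 0 with hH
  have hHs : ∀ i j, H i j = H j i := fun i j => pd_symm su.contDiffAt i j
  set T := tp (u 0) (fun i => T4.pd i u 0) H with hT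
  have sT : ContDiff ℝ ∞ T := tp_smooth _ _ _
  set V : V4 → ℝ := fun y => qp A y - (u y - T y) with hV
  have sV : ContDiff ℝ ∞ V := (qp_smooth A).sub (su.sub sT)
  have V0 : V 0 = 0 := by
    have : T 0 = u 0 := by simp [hT, tp]
    rw [hV]
    simp only [qp_zero, this, sub_self]
  have pV : ∀ k, T4.pd k V = fun y => T4.pd k (qp A) y - (T4.pd k u y - T4.pd k T y) := by
    intro k; funext y
    rw [hV, T4.pd_sub (df' (qp_smooth A) y) (df' (su.sub sT) y), T4.pd_sub (df' su y) (df' sT y)]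
  have pV0 : ∀ k, T4.pd k V 0 = 0 := by
    intro k
    rw [pV]
    have e1 : T4.pd k T 0 = T4.pd k u 0 := by
      rw [hT, pd_tp _ _ hHs]; simp
    have e2 : T4.pd k (qp A) 0 = 0 := by
      rw [pd_qp]; fin_cases k <;> simp
    simp only [e1, e2, sub_self]
  have ppV : ∀ i k y, T4.pd i (T4.pd k V) y =
      T4.pd i (T4.pd k (qp A)) y - (T4.pd i (T4.pd k u) y - H i k) := by
    intro i k y
    rw [pV, T4.pd_sub (df' (pd_smooth (qp_smooth A) k) y) (df' ((pd_smooth su k).sub (pd_smooth sT k)) y),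
      T4.pd_sub (df' (pd_smooth su k) y) (df' (pd_smooth sT k) y), hT, pd_pd_tp _ _ hHs]
  -- smallness of the second derivatives
  have hsmall : ∀ᶠ y in 𝓝 (0 : V4), ∀ i k, |T4.pd i (T4.pd k V) y| < τ := by
    rw [Filter.eventually_all]
    intro i
    rw [Filter.eventually_all]
    intro k
    have hc' : Continuous fun y => |T4.pd i (T4.pd k V) y| :=
      (pd_smooth (pd_smooth sV k) i).continuous.abs
    refine hc'.continuousAt.eventually (gt_mem_nhds ?_)
    show |T4.pd i (T4.pd k V) 0| < τ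
    rw [ppV]
    have e : T4.pd i (T4.pd k u) 0 - H i k = 0 := sub_self _
    rw [e, sub_zero]
    exact (pd_pd_qp_le A 0 i k).trans_lt hτ
  obtain ⟨r1, hr1, hr1'⟩ := Metric.eventually_nhds_iff.1 hsmall
  refine ⟨min (r1 / 2) (ρ / 16), by positivity, fun r hr hrr => ?_⟩
  have hrr1 : r < r1 := by have := hrr.trans (min_le_left _ _); linarith
  have hrr2 : r < ρ / 8 := by have := hrr.trans (min_le_right _ _); linarith
  have b2 : ∀ y : V4, ‖y‖ ≤ r → ∀ i k, |T4.pd i (T4.pd k V) y| ≤ τ := fun y hy i k =>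
    (hr1' (by rw [dist_zero_right]; linarith) i k).le
  have b1 : ∀ y : V4, ‖y‖ ≤ r → ∀ k, |T4.pd k V y| ≤ 4 * τ * r := by
    intro y hy k
    have h3 := mvt0 (pd_smooth sV k) (pV0 k) (r := r) (M := τ) (fun z hz i => b2 z hz i k) hy
    have h4 : 4 * τ * ‖y‖ ≤ 4 * τ * r := mul_le_mul_of_nonneg_left hy (by positivity)
    linarith
  have b0 : ∀ y : V4, ‖y‖ ≤ r → |V y| ≤ 16 * τ * r ^ 2 := by
    intro y hy
    have h3 := mvt0 sV V0 (r := r) (M := 4 * τ * r) (fun z hz i => b1 z hz i) hy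
    have h4 : 4 * (4 * τ * r) * ‖y‖ ≤ 4 * (4 * τ * r) * r := mul_le_mul_of_nonneg_left hy (by positivity)
    nlinarith
  set χ : V4 → ℝ := fun y => b (r⁻¹ • y) with hχ
  have sχ : ContDiff ℝ ∞ χ := sb.comp (contDiff_const_smul _)
  have pχ : ∀ k y, T4.pd k χ y = r⁻¹ * T4.pd k b (r⁻¹ • y) := fun k y => pd_scale sb r⁻¹ k y
  have ppχ : ∀ i k y, T4.pd i (T4.pd k χ) y = r⁻¹ * (r⁻¹ * T4.pd i (T4.pd k b) (r⁻¹ • y)) := by
    intro i k y
    have e : T4.pd k χ = fun y => r⁻¹ * T4.pd k b (r⁻¹ • y) := by funext z; exact pχ k z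
    have e2 := pd_scale (pd_smooth sb k) r⁻¹ i y
    rw [e]
    unfold T4.pd at e2 ⊢
    rw [fderiv_const_mul]
    · show r⁻¹ * (fderiv ℝ (fun y => fderiv ℝ (b : V4 → ℝ) (r⁻¹ • y) (Pi.single k 1)) y)
        (Pi.single i 1) = _
      rw [e2]
    · exact df' ((pd_smooth sb k).comp (contDiff_const_smul _)) y
  have hout : ∀ y : V4, r < ‖y‖ → χ =ᶠ[𝓝 y] fun _ => 0 := by
    intro y hy
    have : ∀ᶠ z : V4 in 𝓝 y, r < ‖z‖ := continuous_norm.continuousAt.eventually (lt_mem_nhds hy)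
    filter_upwards [this] with z hz
    apply b.zero_of_le_dist
    rw [dist_zero_right, norm_smul, norm_inv, Real.norm_eq_abs, abs_of_pos hr]
    show 1 ≤ r⁻¹ * ‖z‖
    rw [← div_eq_inv_mul, one_le_div hr]; exact hz.le
  have hin : ∀ y : V4, ‖y‖ < (1 - κ) * r → χ =ᶠ[𝓝 y] fun _ => 1 := by
    intro y hy
    have : ∀ᶠ z : V4 in 𝓝 y, ‖z‖ < (1 - κ) * r :=
      continuous_norm.continuousAt.eventually (gt_mem_nhds hy)
    filter_upwards [this] with z hz
    apply b.one_of_mem_closedBall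
    rw [mem_closedBall_zero_iff, norm_smul, norm_inv, Real.norm_eq_abs, abs_of_pos hr]
    show r⁻¹ * ‖z‖ ≤ 1 - κ
    rw [← div_eq_inv_mul, div_le_iff₀ hr]; exact hz.le
  have χ01 : ∀ y, |χ y| ≤ 1 := fun y => by
    rw [abs_of_nonneg b.nonneg]; exact b.le_one
  refine ⟨fun y => χ y * V y, sχ.mul sV, ?_, fun y hy => ?_, fun y => ?_⟩
  · refine closure_minimal (fun y hy => ?_) isClosed_closedBall
    rw [mem_closedBall_zero_iff]
    by_contra hcon
    push Not at hcon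
    apply hy
    show χ y * V y = 0
    rw [(hout y hcon).self_of_nhds, zero_mul]
  · have e1 : (fun y => χ y * V y) =ᶠ[𝓝 y] V := by
      filter_upwards [hin y hy] with z hz
      rw [hz, one_mul]
    have hyr : ‖y‖ < ρ / 8 := by
      have : (1 - κ) * r ≤ r := by nlinarith
      linarith
    rw [ddc_congr e1]
    have e2 : ddc V y = A - (ddc u y - a 0) := by
      have e4 : ddc T y = a 0 := by
        have hT2 : ∀ i k, T4.pd i (T4.pd k T) y = H i k := by
          intro i k; rw [hT, pd_pd_tp _ _ hHs]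
        rw [← hu 0 (by rw [norm_zero]; positivity), ddc_eq, ddc_eq]
        simp only [hT2]
        rfl
      rw [hV, ddc_sub (qp_smooth A) (su.sub sT), ddc_sub su sT, ddc_qp hAi, e4]
    rw [e2, hu y hyr, hA]
    abel
  · rcases le_or_gt ‖y‖ r with hyr | hyr
    · have hM : ∀ i j, |T4.pd i (T4.pd j (fun y => χ y * V y)) y| ≤ τ * (24 * B + 1) := by
        intro i j
        rw [pd_pd_mul sχ sV]
        have hri : 0 < r⁻¹ := inv_pos.2 hr
        have c1 : |T4.pd i (T4.pd j χ) y * V y| ≤ 16 * B * τ := by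
          rw [ppχ, abs_mul, abs_mul, abs_mul, abs_of_pos hri]
          calc r⁻¹ * (r⁻¹ * |T4.pd i (T4.pd j b) (r⁻¹ • y)|) * |V y|
              ≤ r⁻¹ * (r⁻¹ * B) * (16 * τ * r ^ 2) := by
                gcongr
                · exact hB2 _ _ _
                · exact b0 y hyr
            _ = 16 * B * τ := by field_simp
        have c2 : |T4.pd j χ y * T4.pd i V y| ≤ 4 * B * τ := by
          rw [pχ, abs_mul, abs_mul, abs_of_pos hri]
          calc r⁻¹ * |T4.pd j b (r⁻¹ • y)| * |T4.pd i V y| ≤ r⁻¹ * B * (4 * τ * r) := by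
                gcongr
                · exact hB1 _ _
                · exact b1 y hyr i
            _ = 4 * B * τ := by field_simp
        have c3 : |T4.pd i χ y * T4.pd j V y| ≤ 4 * B * τ := by
          rw [pχ, abs_mul, abs_mul, abs_of_pos hri]
          calc r⁻¹ * |T4.pd i b (r⁻¹ • y)| * |T4.pd j V y| ≤ r⁻¹ * B * (4 * τ * r) := by
                gcongr
                · exact hB1 _ _
                · exact b1 y hyr j
            _ = 4 * B * τ := by field_simp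
        have c4 : |χ y * T4.pd i (T4.pd j V) y| ≤ τ := by
          rw [abs_mul]
          calc |χ y| * |T4.pd i (T4.pd j V) y| ≤ 1 * τ := by
                gcongr
                · exact χ01 y
                · exact b2 y hyr i j
            _ = τ := one_mul τ
        have d1 := abs_add_le (T4.pd i (T4.pd j χ) y * V y + T4.pd j χ y * T4.pd i V y)
          (T4.pd i χ y * T4.pd j V y + χ y * T4.pd i (T4.pd j V) y)
        have d2 := abs_add_le (T4.pd i (T4.pd j χ) y * V y) (T4.pd j χ y * T4.pd i V y)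
        have d3 := abs_add_le (T4.pd i χ y * T4.pd j V y) (χ y * T4.pd i (T4.pd j V) y)
        nlinarith
      have := norm_ddc_le hM
      nlinarith
    · have e1 : (fun y => χ y * V y) =ᶠ[𝓝 y] fun _ => 0 := by
        filter_upwards [hout y hyr] with z hz
        rw [hz, zero_mul]
      have hM : ∀ i j, |T4.pd i (T4.pd j (fun _ : V4 => (0 : ℝ))) y| ≤ 0 := by
        intro i j
        have : T4.pd j (fun _ : V4 => (0 : ℝ)) = fun _ => 0 := by
          funext z; unfold T4.pd; simp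
        rw [this]
        unfold T4.pd
        simp
      rw [ddc_congr e1]
      have := norm_ddc_le hM
      have h3 : 0 ≤ 2 * (24 * B + 1) * τ := by positivity
      linarith

end Vale.Agent.P247.SCY
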