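import Vale.Agent.P247.SCY.FG1
import Vale.Agent.P247.SCY.FP3

/-!
# P247, flattening of one form by potentials: local algebra
-/

set_option linter.all false

open scoped BigOperators ContDiff Topology Manifold ENNReal
open Set MeasureTheory Metric Filter

namespace Vale.Agent.P247.SCY
open Vale.Agent.P204 Vale.Agent.P204.T4 Vale.Agent.P204.Mfd Vale.Agent.P204.GX

/-! ### translation of `flat_pot` -/

theorem pd_shift {f : V4 → ℝ} (i : Fin 4) (c y : V4) :
    T4.pd i (fun y => f (y - c)) y = T4.pd i f (y - c) := by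
  unfold T4.pd
  simp only [sub_eq_add_neg]
  rw [fderiv_comp_add_right (f := f)]

theorem ddc_shift (v : V4 → ℝ) (c y : V4) : ddc (fun y => v (y - c)) y = ddc v (y - c) := by
  have h1 : ∀ i, T4.pd i (fun y => v (y - c)) = fun y => T4.pd i v (y - c) := fun i => by
    funext z; exact pd_shift i c z
  have h2 : ∀ i j, T4.pd i (fun y => T4.pd j v (y - c)) y = T4.pd i (T4.pd j v) (y - c) := fun i j =>
    pd_shift i c y
  rw [ddc_eq, ddc_eq]
  simp only [h1, h2]

theorem closed_shift {a : V4 → L2} (ha : Closed a) (c : V4) : Closed fun y => a (y + c) := by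
  intro x i j k
  have h : ∀ l m n : Fin 4, T4.pd l (fun y => ent (a (y + c)) m n) x =
      T4.pd l (fun y => ent (a y) m n) (x + c) := by
    intro l m n
    unfold T4.pd
    rw [fderiv_comp_add_right (f := fun y => ent (a y) m n)]
  rw [h, h, h]
  exact ha (x + c) i j k

theorem flat_pot_at {κ : ℝ} (h0 : 0 < κ) (h1 : κ < 1) : ∃ K : ℝ, 0 < K ∧
    ∀ (a : V4 → L2), ContDiff ℝ ∞ a → Closed a → ∀ (y0 : V4) (ρ : ℝ), 0 < ρ →
      (∀ y, ‖y - y0‖ < ρ → pull J0 (a y) = a y) → ∀ c : L2, pull J0 c = c → ∀ τ : ℝ,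
      ‖c - a y0‖ < τ →
      ∃ r0 : ℝ, 0 < r0 ∧ ∀ r : ℝ, 0 < r → r ≤ r0 → ∃ v : V4 → ℝ, ContDiff ℝ ∞ v ∧
        tsupport v ⊆ closedBall y0 r ∧ (∀ y, ‖y - y0‖ < (1 - κ) * r → a y + ddc v y = c) ∧
        ∀ y, ‖ddc v y‖ ≤ K * τ := by
  obtain ⟨K, hK, hf⟩ := flat_pot h0 h1
  refine ⟨K, hK, fun a sa ca y0 ρ hρ hinv c hc τ hτ => ?_⟩
  obtain ⟨r0, hr0, h⟩ := hf (fun y => a (y + y0)) (sa.comp (contDiff_id.add contDiff_const))
    (closed_shift ca y0) ρ hρ (fun y hy => hinv (y + y0) (by simpa using hy)) c hc τ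
    (by simpa using hτ)
  refine ⟨r0, hr0, fun r hr hrr => ?_⟩
  obtain ⟨v, sv, v1, v2, v3⟩ := h r hr hrr
  refine ⟨fun y => v (y - y0), sv.comp (contDiff_id.sub contDiff_const), ?_, fun y hy => ?_,
    fun y => ?_⟩
  · refine closure_minimal (fun y hy => ?_) isClosed_closedBall
    have h3 : y - y0 ∈ tsupport v := subset_tsupport _ hy
    have h4 := v1 h3
    rw [mem_closedBall_zero_iff] at h4
    rw [mem_closedBall, dist_eq_norm]; exact h4
  · have h3 := v2 (y - y0) hy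
    simp only [sub_add_cancel] at h3
    rw [ddc_shift]; exact h3
  · rw [ddc_shift]; exact v3 _

theorem tsupport_dcu {v : V4 → ℝ} : tsupport (dcu v) ⊆ tsupport v := by
  refine closure_minimal ?_ (isClosed_tsupport _)
  intro z hz
  by_contra hcon
  apply hz
  have h0 : v =ᶠ[𝓝 z] fun _ => 0 := notMem_tsupport_iff_eventuallyEq.1 hcon
  have h1 : ∀ i, T4.pd i v z = 0 := by
    intro i
    rw [pd_congr h0]
    unfold T4.pd; simp
  funext k
  unfold dcu
  simp only [h1]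
  fin_cases k <;> simp

/-! ### algebra near `F0` -/

theorem norm_F0_le : ‖F0‖ ≤ 1 := by
  rw [pi_norm_le_iff_of_nonneg zero_le_one]
  intro i
  fin_cases i <;> simp [F0]

theorem posDef_nearF0 {A : L2} (hA : pull J0 A = A) (h : ‖A - F0‖ ≤ 1 / 50) : PosDef J0 A := by
  refine ⟨hA, fun v hv => ?_⟩
  have h1 := T4.abs_ev_le (A - F0) v (T4.app J0 v)
  have hJ : ‖T4.app J0 v‖ ≤ ‖v‖ := by
    rw [app_J0, pi_norm_le_iff_of_nonneg (norm_nonneg v)]
    intro i
    fin_cases i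
    · show ‖-v 1‖ ≤ ‖v‖
      rw [norm_neg]; exact norm_le_pi_norm v 1
    · exact norm_le_pi_norm v 0
    · show ‖-v 3‖ ≤ ‖v‖
      rw [norm_neg]; exact norm_le_pi_norm v 3
    · exact norm_le_pi_norm v 2
  have h3 : ‖v‖ ^ 2 ≤ ev F0 v (T4.app J0 v) := by
    rw [CM.ev_F0]
    have h4 : ∀ i, |v i| ≤ Real.sqrt (∑ i, v i ^ 2) := by
      intro i
      apply Real.abs_le_sqrt
      exact Finset.single_le_sum (f := fun i => v i ^ 2) (fun j _ => sq_nonneg _)
        (Finset.mem_univ i)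
    have h5 : ‖v‖ ≤ Real.sqrt (∑ i, v i ^ 2) :=
      (pi_norm_le_iff_of_nonneg (Real.sqrt_nonneg _)).2 h4
    calc ‖v‖ ^ 2 ≤ Real.sqrt (∑ i, v i ^ 2) ^ 2 := pow_le_pow_left₀ (norm_nonneg _) h5 2
      _ = _ := Real.sq_sqrt (Finset.sum_nonneg fun i _ => sq_nonneg _)
  have hv0 : 0 < ‖v‖ := norm_pos_iff.2 hv
  have h6 : 12 * ‖A - F0‖ * ‖v‖ * ‖T4.app J0 v‖ ≤ 12 * (1 / 50) * ‖v‖ * ‖v‖ := by gcongr
  have h7 : ev A v (T4.app J0 v) = ev F0 v (T4.app J0 v) + ev (A - F0) v (T4.app J0 v) := by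
    rw [← ev_add]; congr 1; abel
  rw [h7]
  have h8 := neg_abs_le (ev (A - F0) v (T4.app J0 v))
  nlinarith [sq_nonneg ‖v‖]

theorem Q_near {A : L2} {σ : ℝ} (h : ‖A - F0‖ ≤ σ) (hσ : σ ≤ 1) : |Q A A - 2| ≤ 18 * σ := by
  have h0 : 0 ≤ σ := (norm_nonneg _).trans h
  have e : Q A A - 2 = Q (A - F0) (A + F0) := by
    have h1 : A - F0 = A + (-1 : ℝ) • F0 := by module
    rw [h1]
    simp only [Q_add_left, Q_add_right, Q_smul_left, Q_F0, Q_comm F0 A]
    have : Q A F0 = Q F0 A := Q_comm _ _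
    ring
  rw [e]
  have h1 := abs_Q_le (A - F0) (A + F0)
  have h2 : ‖A + F0‖ ≤ 3 := by
    have e2 : A + F0 = (A - F0) + (2 : ℝ) • F0 := by module
    rw [e2]
    have h3 := norm_add_le (A - F0) ((2 : ℝ) • F0)
    rw [norm_smul, Real.norm_eq_abs, abs_two] at h3
    have h4 := norm_F0_le
    linarith
  have h3 : 6 * ‖A - F0‖ * ‖A + F0‖ ≤ 6 * σ * 3 := by gcongr
  linarith

/-- a form orthogonal to two independent anti-invariant forms is invariant -/
theorem inv_of_orth {A B C : L2} (hB : pull J0 B = -B) (hC : pull J0 C = -C)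
    (hd : 0 < dsc B C) (h1 : Q A B = 0) (h2 : Q A C = 0) : pull J0 A = A := by
  rw [pull_J0] at hB hC
  have b0 := congrFun hB 0
  have b1 := congrFun hB 1
  have b2 := congrFun hB 2
  have b5 := congrFun hB 5
  have c0 := congrFun hC 0
  have c1 := congrFun hC 1
  have c2 := congrFun hC 2
  have c5 := congrFun hC 5
  simp only [Fin.isValue, Matrix.cons_val_zero, Pi.neg_apply, Matrix.cons_val_one,
    Matrix.cons_val, neg_inj] at b0 b1 b2 b5 c0 c1 c2 c5
  have B0 : B 0 = 0 := by linarith only [b0]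
  have B5 : B 5 = 0 := by linarith only [b5]
  have C0' : C 0 = 0 := by linarith only [c0]
  have C5 : C 5 = 0 := by linarith only [c5]
  have q1 : (A 1 - A 4) * B 1 + (A 2 + A 3) * B 2 = 0 := by
    simp only [Q, B0, B5, b1, b2] at h1
    linarith
  have q2 : (A 1 - A 4) * C 1 + (A 2 + A 3) * C 2 = 0 := by
    simp only [Q, C0', C5, c1, c2] at h2
    linarith
  have hΔ : dsc B C = 4 * (B 1 * C 2 - B 2 * C 1) ^ 2 := by
    simp only [dsc, Q, B0, B5, C0', C5, b1, b2, c1, c2]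
    ring
  have hne : B 1 * C 2 - B 2 * C 1 ≠ 0 := by
    intro h
    rw [hΔ, h] at hd
    norm_num at hd
  have e1 : A 1 - A 4 = 0 := by
    have : (A 1 - A 4) * (B 1 * C 2 - B 2 * C 1) = 0 := by linear_combination C 2 * q1 - B 2 * q2
    exact (mul_eq_zero.1 this).resolve_right hne
  have e2 : A 2 + A 3 = 0 := by
    have : (A 2 + A 3) * (B 1 * C 2 - B 2 * C 1) = 0 := by linear_combination B 1 * q2 - C 1 * q1
    exact (mul_eq_zero.1 this).resolve_right hne
  rw [pull_J0]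
  funext k
  fin_cases k
  · rfl
  · show A 4 = A 1; linarith
  · show -A 3 = A 2; linarith
  · show -A 2 = A 3; linarith
  · show A 1 = A 4; linarith
  · rfl

end Vale.Agent.P247.SCY
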