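import Vale.Agent.P247.SCY.FK1

/-!
# P247, flattening of one form by potentials: adapted parametrisations
-/

set_option linter.all false

open scoped BigOperators ContDiff Topology Manifold ENNReal
open Set MeasureTheory Metric Filter

namespace Vale.Agent.P247.SCY
open Vale.Agent.P204 Vale.Agent.P204.T4 Vale.Agent.P204.Mfd Vale.Agent.P204.GX

section
variable {X : Type} [TopologicalSpace X] [ChartedSpace E4 X] [IsManifold (𝓡 4) ∞ X]

/-- the pair `(β, γ)` is flat near `x`: constant and conformal in some parametrisation -/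
def FlatPair (β γ : HS.Form X 2) (x : X) : Prop :=
  ∃ (p : Par X) (ρ : ℝ) (B C : L2), 0 < ρ ∧ p.psi 0 = x ∧ Q B B = Q C C ∧ Q B C = 0 ∧
    ∀ y, ‖y‖ < ρ → cp p β y = B ∧ cp p γ y = C

variable [CompactSpace X] [T2Space X] [Nonempty X] [MeasurableSpace X] [BorelSpace X]

theorem anti_of_pM' {A : L2} (h : pM J0 A = A) : pull J0 A = -A := by
  have h1 : (1 / 2 : ℝ) • (A - pull J0 A) = A := h
  have h2 : pull J0 A = A + (-2 : ℝ) • ((1 / 2 : ℝ) • (A - pull J0 A)) := by module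
  rw [h2, h1]; module

/-- **Adapted parametrisations.** -/
theorem adapt {μ : HS.Form X 4} (hμ : HS.Volume μ) {α β γ : HS.Form X 2} (sα : HS.Smooth α)
    (cα : HS.Closed α) (sβ : HS.Smooth β) (sγ : HS.Smooth γ) (hpos : TriPos μ α β γ)
    (oβ : ∀ x, HS.quot μ α β x = 0) (oγ : ∀ x, HS.quot μ α γ x = 0) {x0 : X}
    (hf : FlatPair β γ x0) {σ : ℝ} (hσ : 0 < σ) :
    ∃ (p : Par X) (ρ : ℝ) (B C : L2), 0 < ρ ∧ p.psi 0 = x0 ∧ Q B B = Q C C ∧ Q B C = 0 ∧
      pull J0 B = -B ∧ pull J0 C = -C ∧ 0 < Q B B ∧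
      Q B B * HS.quot μ α α x0 = 2 * HS.quot μ β β x0 ∧
      ∀ y, ‖y‖ < ρ → cp p β y = B ∧ cp p γ y = C ∧ pull J0 (cp p α y) = cp p α y ∧
        ‖cp p α y - F0‖ < σ ∧ 0 < m4 p μ y := by
  have hdef := defAt_of_triPos hpos
  set J : EndField X := Jf α β γ with hJdef
  have hJ : AlmostComplex J := Jf_almostComplex hdef sα sβ sγ
  have hT : Tames α J := Jf_tames hdef
  have hS : SmoothForm α := sα
  have hC : ClosedForm α := cα
  obtain ⟨A⟩ := exists_finAtlas hJ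
  letI := A.metric
  have bM0 : ∀ x, pM J0 (fx A α β x) = fx A α β x := fx_anti A hJ hT fun x u v => Jf_anti_B hdef x u v
  have cM0 : ∀ x, pM J0 (fx A α γ x) = fx A α γ x := fx_anti A hJ hT fun x u v => Jf_anti_C hdef x u v
  have qββ : ∀ x, 0 < HS.quot μ β β x := fun x => by
    have := hpos x 0 1 0 (Or.inr (Or.inl one_ne_zero))
    linarith
  have hh0 : ∀ x, 0 < hx A α μ x := hx_pos A hJ hT bM0 qββ
  obtain ⟨p, ρ, B, C, hρ, hp0, hBC, hBC0, hpB⟩ := hf
  -- the frame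
  set L0 : V4 ≃L[ℝ] E4 := ContinuousLinearEquiv.equivOfInverse (A.FrI α x0) (A.Fr α x0)
    (A.Fr_FrI α hJ hT x0) (A.FrI_Fr α hJ hT x0) with hL0
  set L : V4 ≃L[ℝ] V4 := L0.trans (dpsiE p 0).symm with hL
  set q := p.precomp L with hq
  have hq0 : q.psi 0 = x0 := by rw [hq, Par.precomp_psi, map_zero, hp0]
  have hqd : ∀ v, q.dpsi 0 v = A.FrI α x0 v := by
    intro v
    rw [hq, Par.precomp_dpsi, map_zero]
    show p.dpsi 0 ((dpsiE p 0).symm (L0 v)) = L0 v
    exact (dpsiE p 0).apply_symm_apply (L0 v)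
  have hq_fx : ∀ δ : HS.Form X 2, cp q δ 0 = fx A α δ x0 := by
    intro δ
    apply ext_ev
    intro v w
    rw [ev_cp, ev_fx, hqd, hqd, hq0]
  set B' := pull (matL (L : V4 →L[ℝ] V4)) B with hB'
  set C' := pull (matL (L : V4 →L[ℝ] V4)) C with hC'
  have hLc : ∀ᶠ y : V4 in 𝓝 0, ‖L y‖ < ρ := by
    have h1 : Continuous fun y : V4 => ‖L y‖ := L.continuous.norm
    have h2 : (fun y : V4 => ‖L y‖) 0 < ρ := by simpa using hρ
    exact h1.continuousAt.eventually (gt_mem_nhds h2)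
  have eB : ∀ y : V4, ‖L y‖ < ρ → cp q β y = B' := fun y hy => by
    rw [hq, precomp_cp, (hpB (L y) hy).1]
  have eC : ∀ y : V4, ‖L y‖ < ρ → cp q γ y = C' := fun y hy => by
    rw [hq, precomp_cp, (hpB (L y) hy).2]
  have hL00 : ‖L (0 : V4)‖ < ρ := by simpa using hρ
  have fB : fx A α β x0 = B' := by rw [← hq_fx, eB 0 hL00]
  have fC : fx A α γ x0 = C' := by rw [← hq_fx, eC 0 hL00]
  have aB : pull J0 B' = -B' := anti_of_pM' (by rw [← fB]; exact bM0 x0)
  have aC : pull J0 C' = -C' := anti_of_pM' (by rw [← fC]; exact cM0 x0)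
  have qB : Q B' B' = Q C' C' := by rw [hB', hC', Q_pull, Q_pull, hBC]
  have qBC : Q B' C' = 0 := by rw [hB', hC', Q_pull, hBC0, mul_zero]
  have qBp : 0 < Q B' B' := by
    have h1 := qββ x0
    rw [quot_eq A hJ hT, fB] at h1
    exact (div_pos_iff_of_pos_right (hh0 x0)).1 h1
  have hdsc : 0 < dsc B' C' := by
    unfold dsc
    rw [qBC, ← qB]
    have := mul_pos qBp qBp
    linarith
  have hm4 : ∀ y : V4, ‖L y‖ < ρ → 0 < m4 q μ y := by
    intro y hy
    have h1 := qββ (q.psi y)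
    rw [quot_cp, eB y hy] at h1
    exact (div_pos_iff_of_pos_left qBp).1 h1
  have hinv : ∀ y : V4, ‖L y‖ < ρ → pull J0 (cp q α y) = cp q α y := by
    intro y hy
    have h1 := oβ (q.psi y)
    have h2 := oγ (q.psi y)
    rw [quot_cp, eB y hy] at h1
    rw [quot_cp, eC y hy] at h2
    exact inv_of_orth aB aC hdsc ((div_eq_zero_iff.1 h1).resolve_right (hm4 y hy).ne')
      ((div_eq_zero_iff.1 h2).resolve_right (hm4 y hy).ne')
  have hα0 : cp q α 0 = F0 := by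
    have h1 : pP J0 (fx A α α x0) = F0 := (CMA A hJ hS hC hT).om_pP x0
    rw [← hq_fx, pP_of_inv (hinv 0 hL00)] at h1
    exact h1
  have hnear : ∀ᶠ y : V4 in 𝓝 0, ‖cp q α y - F0‖ < σ := by
    have h1 : Continuous fun y : V4 => ‖cp q α y - F0‖ :=
      ((cp_smooth q sα).continuous.sub continuous_const).norm
    have h2 : (fun y : V4 => ‖cp q α y - F0‖) 0 < σ := by
      show ‖cp q α 0 - F0‖ < σ
      rw [hα0, sub_self, norm_zero]; exact hσ
    exact h1.continuousAt.eventually (gt_mem_nhds h2)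
  obtain ⟨ρ', hρ', hall⟩ := Metric.eventually_nhds_iff.1 (hLc.and hnear)
  refine ⟨q, ρ', B', C', hρ', hq0, qB, qBC, aB, aC, qBp, ?_, fun y hy => ?_⟩
  · have h1 : HS.quot μ α α x0 = 2 / m4 q μ 0 := by
      rw [← hq0, quot_cp, hα0, Q_F0]
    have h2 : HS.quot μ β β x0 = Q B' B' / m4 q μ 0 := by
      rw [← hq0, quot_cp, eB 0 hL00]
    rw [h1, h2]; ring
  · have h1 := hall (y := y) (by rwa [dist_zero_right])
    exact ⟨eB y h1.1, eC y h1.1, hinv y h1.1, h1.2, hm4 y h1.1⟩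

end

end Vale.Agent.P247.SCY
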