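import Vale.Agent.P247.SCY.Base

/-!
# P247, soft Calabi-Yau, block C: the smoothing operators do not change the class of closed forms
-/

set_option linter.all false

open MeasureTheory Set Metric Filter Topology
open scoped ContDiff ENNReal NNReal BigOperators InnerProductSpace Topology

namespace Vale.Agent.P204.GX
open T4

/-! ### The Poincaré lemma for two-forms on `V4` -/

/-- the integrand of the homotopy operator -/
noncomputable def hop (α : V4 → L2) (t : ℝ) (x : V4) : V4 :=
  fun j => t * ∑ k, x k * ent (α (t • x)) k j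

theorem contDiff_ent_smul {α : V4 → L2} (hα : ContDiff ℝ ∞ α) (k j : Fin 4) :
    ContDiff ℝ ∞ (fun p : ℝ × V4 => ent (α (p.1 • p.2)) k j) := by
  have h1 : ContDiff ℝ ∞ (fun p : ℝ × V4 => p.1 • p.2) := contDiff_fst.smul contDiff_snd
  exact (contDiff_ent k j).comp (hα.comp h1)

theorem contDiff_hop {α : V4 → L2} (hα : ContDiff ℝ ∞ α) :
    ContDiff ℝ ∞ (Function.uncurry (hop α)) := by
  rw [contDiff_pi]
  intro j
  refine contDiff_fst.mul (ContDiff.sum fun k _ => ?_)
  have h2 : ContDiff ℝ ∞ (fun p : ℝ × V4 => p.2 k) := by fun_prop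
  exact h2.mul (contDiff_ent_smul hα k j)

theorem Dm_smul (t : ℝ) (x : V4) (l i : Fin 4) :
    Dm (fun y => t • y) x l i = if l = i then t else 0 := by
  have h : DifferentiableAt ℝ (fun y : V4 => t • y) x := by fun_prop
  rw [Dm_eq h]
  have h2 : fderiv ℝ (fun y : V4 => t • y) x = t • ContinuousLinearMap.id ℝ V4 := by
    rw [fderiv_fun_const_smul differentiableAt_fun_id, fderiv_fun_id]
  rw [h2]
  simp [Pi.single_apply]

theorem pd_hop {α : V4 → L2} (hα : ContDiff ℝ ∞ α) (t : ℝ) (x : V4) (i j : Fin 4) :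
    pd i (fun y => hop α t y j) x =
      t * (ent (α (t • x)) i j + ∑ k, x k * (t * pd i (fun y => ent (α y) k j) (t • x))) := by
  have hs : ∀ k : Fin 4, DifferentiableAt ℝ (fun y : V4 => ent (α (t • y)) k j) x := by
    intro k
    have h1 : ContDiff ℝ ∞ (fun y : V4 => t • y) := by fun_prop
    have := (contDiff_ent k j).comp (hα.comp h1)
    exact this.differentiable (by simp) x
  have hc : ∀ k : Fin 4, DifferentiableAt ℝ (fun y : V4 => y k) x := fun k => by fun_prop
  have hpc : ∀ k : Fin 4, pd i (fun y : V4 => y k) x = if k = i then 1 else 0 := by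
    intro k
    unfold pd
    have : fderiv ℝ (fun y : V4 => y k) x =
        ContinuousLinearMap.proj (R := ℝ) (φ := fun _ : Fin 4 => ℝ) k :=
      (ContinuousLinearMap.proj (R := ℝ) (φ := fun _ : Fin 4 => ℝ) k).fderiv
    rw [this]
    simp [Pi.single_apply]
  have hpe : ∀ k : Fin 4, pd i (fun y : V4 => ent (α (t • y)) k j) x =
      t * pd i (fun y => ent (α y) k j) (t • x) := by
    intro k
    have hd : DifferentiableAt ℝ (fun y : V4 => ent (α y) k j) (t • x) :=
      ((contDiff_ent k j).comp hα).differentiable (by simp) _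
    have hτ : DifferentiableAt ℝ (fun y : V4 => t • y) x := by fun_prop
    rw [pd_comp (f := fun y => ent (α y) k j) (τ := fun y => t • y) hd hτ]
    simp only [Dm_smul]
    simp [mul_comm]
  unfold hop
  rw [pd_const_mul (DifferentiableAt.fun_sum fun k _ => (hc k).fun_mul (hs k)),
    pd_sum (fun k _ => (hc k).fun_mul (hs k))]
  congr 1
  have e : ∀ k : Fin 4, pd i (fun y : V4 => y k * ent (α (t • y)) k j) x =
      (if k = i then ent (α (t • x)) k j else 0) +
        x k * (t * pd i (fun y => ent (α y) k j) (t • x)) := by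
    intro k
    rw [pd_mul (hc k) (hs k), hpc, hpe]
    split_ifs <;> ring
  rw [Finset.sum_congr rfl fun k _ => e k, Finset.sum_add_distrib]
  congr 1
  simp

/-- Poincaré lemma for two-forms on `V4`. -/
theorem exists_prim {α : V4 → L2} (hα : ContDiff ℝ ∞ α) (hcl : Closed α) :
    ∃ β : V4 → V4, ContDiff ℝ ∞ β ∧ d1 β = α := by
  set ν : Measure ℝ := volume.restrict (Icc (0 : ℝ) 1) with hν
  have hνK : ν (Icc (0 : ℝ) 1)ᶜ = 0 := by
    rw [hν, Measure.restrict_apply measurableSet_Icc.compl]
    simp only [compl_inter_self, measure_empty]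
  have hcd := contDiff_hop hα
  have hcomp : ∀ j : Fin 4, ContDiff ℝ ∞ (Function.uncurry fun t y => hop α t y j) := fun j =>
    (contDiff_pi.1 hcd) j
  have hint : ∀ {E : Type} [NormedAddCommGroup E] [NormedSpace ℝ E] {g : ℝ → E},
      Continuous g → Integrable g ν := by
    intro E _ _ g hg
    exact hg.continuousOn.integrableOn_compact isCompact_Icc
  refine ⟨fun x => ∫ t, hop α t x ∂ν, contDiff_integral_param ν isCompact_Icc hνK hcd, ?_⟩
  funext x
  have hpd : ∀ i j : Fin 4, pd i (fun y => (∫ t, hop α t y ∂ν) j) x =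
      ∫ t, pd i (fun y => hop α t y j) x ∂ν := by
    intro i j
    have h1 : (fun y => (∫ t, hop α t y ∂ν) j) = fun y => ∫ t, hop α t y j ∂ν := by
      funext w
      have h2 := (ContinuousLinearMap.proj (R := ℝ) (φ := fun _ : Fin 4 => ℝ) j).integral_comp_comm
        (hint (g := fun t => hop α t w)
          (hcd.continuous.comp (continuous_id.prodMk continuous_const)))
      exact h2.symm
    have h3 := hasFDerivAt_integral_param ν isCompact_Icc hνK
      (f := fun t y => hop α t y j) (hcomp j) x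
    unfold pd
    rw [h1, h3.fderiv]
    have h4 : Continuous fun t => fderiv ℝ (fun y => hop α t y j) x :=
      (contDiff_fderiv_snd (hcomp j)).continuous.comp (continuous_id.prodMk continuous_const)
    exact (ContinuousLinearMap.integral_apply (hint h4) _)
  have hpi : ∀ i j : Fin 4, Integrable (fun t => pd i (fun y => hop α t y j) x) ν := by
    intro i j
    have h4 : Continuous fun t => fderiv ℝ (fun y => hop α t y j) x :=
      (contDiff_fderiv_snd (hcomp j)).continuous.comp (continuous_id.prodMk continuous_const)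
    exact hint (h4.clm_apply continuous_const)
  rw [← ofEnt_ent (d1 (fun y => ∫ t, hop α t y ∂ν) x), ← ofEnt_ent (α x)]
  apply ofEnt_congr
  intro i j
  rw [ent_d1, hpd, hpd, ← integral_sub (hpi i j) (hpi j i)]
  -- the integrand is a derivative
  set G : ℝ → ℝ := fun t => t ^ 2 * ent (α (t • x)) i j with hG
  have hGd : ∀ t, HasDerivAt G
      (pd i (fun y => hop α t y j) x - pd j (fun y => hop α t y i) x) t := by
    intro t
    have hd : DifferentiableAt ℝ (fun y : V4 => ent (α y) i j) (t • x) :=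
      ((contDiff_ent i j).comp hα).differentiable (by simp) _
    have h5 : HasDerivAt (fun s : ℝ => s • x) x t := by
      simpa using (hasDerivAt_id t).smul_const x
    have h6 : HasDerivAt (fun s : ℝ => ent (α (s • x)) i j)
        (fderiv ℝ (fun y : V4 => ent (α y) i j) (t • x) x) t :=
      HasFDerivAt.comp_hasDerivAt (l := fun y : V4 => ent (α y) i j) (f := fun s : ℝ => s • x)
        t hd.hasFDerivAt h5
    have h7 : fderiv ℝ (fun y : V4 => ent (α y) i j) (t • x) x =
        ∑ k, x k * pd k (fun y => ent (α y) i j) (t • x) := by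
      have hx : x = ∑ k, x k • (Pi.single k (1 : ℝ) : V4) := by
        funext l
        simp [Finset.sum_apply, Pi.single_apply]
      conv_lhs => rw [hx, map_sum]
      refine Finset.sum_congr rfl fun k _ => ?_
      rw [map_smul, smul_eq_mul, ← hx]
      rfl
    have h8 : HasDerivAt (fun s : ℝ => s ^ 2) (2 * t) t := by
      simpa using hasDerivAt_pow 2 t
    have h9 := h8.mul h6
    refine h9.congr_deriv ?_
    rw [pd_hop hα, pd_hop hα, h7]
    have hsw : ∀ k l : Fin 4, ∀ m : Fin 4, pd m (fun y => ent (α y) k l) (t • x) =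
        - pd m (fun y => ent (α y) l k) (t • x) := by
      intro k l m
      have e1 : (fun y => ent (α y) k l) = fun y => (-1 : ℝ) * ent (α y) l k := by
        funext y; rw [ent_swap]; ring
      have hdd : DifferentiableAt ℝ (fun y => ent (α y) l k) (t • x) :=
        ((contDiff_ent l k).comp hα).differentiable (by simp) _
      rw [e1, pd_const_mul hdd]
      ring
    have hk : ∀ k : Fin 4, pd k (fun y => ent (α y) i j) (t • x) =
        pd i (fun y => ent (α y) k j) (t • x) - pd j (fun y => ent (α y) k i) (t • x) := by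
      intro k
      have h10 := hcl (t • x) i j k
      have h11 := hsw j k i
      linarith
    have e2 : ent (α (t • x)) j i = - ent (α (t • x)) i j := ent_swap _ _ _
    rw [e2]
    simp only [hk]
    simp only [Fin.sum_univ_four]
    ring
  have hcont : Continuous fun t =>
      pd i (fun y => hop α t y j) x - pd j (fun y => hop α t y i) x := by
    have h4 : ∀ i j : Fin 4, Continuous fun t => pd i (fun y => hop α t y j) x := by
      intro i j
      have h4 : Continuous fun t => fderiv ℝ (fun y => hop α t y j) x :=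
        (contDiff_fderiv_snd (hcomp j)).continuous.comp (continuous_id.prodMk continuous_const)
      exact h4.clm_apply continuous_const
    exact (h4 i j).sub (h4 j i)
  have h12 : ∫ t in (0 : ℝ)..1, (pd i (fun y => hop α t y j) x - pd j (fun y => hop α t y i) x) =
      G 1 - G 0 :=
    intervalIntegral.integral_eq_sub_of_hasDerivAt (fun t _ => hGd t)
      (hcont.intervalIntegrable 0 1)
  rw [hν, integral_Icc_eq_integral_Ioc, ← intervalIntegral.integral_of_le zero_le_one, h12, hG]
  simp

namespace CM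
variable {X : Type} [MetricSpace X] (M : CM X)

/-- the modifications change a closed form by an exact form -/
theorem Mo_sub_mem_Ex (c : M.A) {f : V4 → V4} (hf : ContDiff ℝ ∞ f) (hid : ∀ y, 5 ≤ ‖y‖ → f y = y)
    {u : X → L2} (hu : u ∈ M.Om) (hcl : (⟨u, hu⟩ : M.Om) ∈ M.Cl) :
    (⟨M.Mo c f u, M.Mo_mem_Om c hf hid hu⟩ : M.Om) - ⟨u, hu⟩ ∈ M.Ex := by
  obtain ⟨β, hβ, hd⟩ := exists_prim (hu c) (hcl c)
  have hT : TF1 (pf1 f β - β) :=
    ⟨(contDiff_pf1 hf hβ).sub hβ, hasCompactSupport_pf1_sub hid β⟩
  refine Submodule.subset_span ⟨c, pf1 f β - β, hT, ?_⟩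
  apply Subtype.ext
  show M.Mo c f u - u = M.ext c (d1 (pf1 f β - β))
  have h1 : d1 (pf1 f β - β) = pf f (M.cf c u) - M.cf c u := by
    funext y
    have h2 : pf1 f β - β = pf1 f β + (-1 : ℝ) • β := by
      rw [neg_one_smul, sub_eq_add_neg]
    have hdβ : Differentiable ℝ β := hβ.differentiable (by simp)
    rw [h2, d1_add ((contDiff_pf1 hf hβ).differentiable (by simp)) (hdβ.const_smul _),
      d1_smul _ hdβ, neg_one_smul, ← sub_eq_add_neg, d1_pf1 hf hβ, hd]
    rfl
  rw [h1]
  unfold Mo
  rw [add_sub_cancel_left]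

theorem UL_sub_mem_Ex (L : List M.A) (z : M.A → V4) {u : X → L2} (hu : u ∈ M.Om)
    (hcl : (⟨u, hu⟩ : M.Om) ∈ M.Cl) :
    (⟨M.UL L z u, M.UL_mem_Om L z hu⟩ : M.Om) - ⟨u, hu⟩ ∈ M.Ex := by
  induction L with
  | nil =>
    have : (⟨M.UL [] z u, M.UL_mem_Om [] z hu⟩ : M.Om) - ⟨u, hu⟩ = 0 := by
      apply Subtype.ext
      show u - u = 0
      exact sub_self _
    rw [this]; exact M.Ex.zero_mem
  | cons c L ih =>
    have hO := M.UL_mem_Om L z hu
    have hc : (⟨M.UL L z u, hO⟩ : M.Om) ∈ M.Cl := by
      have h1 := M.Cl.add_mem (M.Ex_le_Cl ih) hcl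
      rwa [sub_add_cancel] at h1
    have h2 := M.Mo_sub_mem_Ex c (contDiff_hz (z c)) (fun y hy => hz_of_ge hy _) hO hc
    have h3 := M.Ex.add_mem h2 ih
    rwa [sub_add_sub_cancel] at h3

variable [MeasurableSpace X] [BorelSpace X] [CompactSpace X]

theorem pr_U_closed (z : M.A → V4) (c c' : M.Om) (hc : c ∈ M.Cl) (hc' : c' ∈ M.Cl) :
    M.pr (c : X → L2) (M.U z (c' : X → L2)) = M.pr (c : X → L2) (c' : X → L2) := by
  have h1 : (⟨M.U z (c' : X → L2), M.U_mem_Om z c'.2⟩ : M.Om) - c' ∈ M.Ex :=
    M.UL_sub_mem_Ex M.AL z c'.2 hc'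
  have h2 := M.stokesX h1 hc
  have h3 : ∫ x, Q (M.U z (c' : X → L2) x - (c' : X → L2) x) ((c : X → L2) x) ∂M.mu = 0 := h2
  have hc1 : ∀ a, Continuous (M.cf a (c : X → L2)) := fun a => (c.2 a).continuous
  have hc2 : ∀ a, Continuous (M.cf a (c' : X → L2)) := fun a => (c'.2 a).continuous
  have hU : ∀ a, Continuous (M.cf a (M.U z (c' : X → L2))) := fun a =>
    (M.U_mem_Om z c'.2 a).continuous
  rw [← sub_eq_zero]
  unfold pr
  rw [← integral_sub (M.integrable_Q hc1 hU) (M.integrable_Q hc1 hc2), ← h3]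
  refine integral_congr_ae (Eventually.of_forall fun x => ?_)
  show Q ((c : X → L2) x) (M.U z (c' : X → L2) x) - Q ((c : X → L2) x) ((c' : X → L2) x) = _
  rw [← Q_sub_right, Q_comm]

end CM
end Vale.Agent.P204.GX

namespace Vale.Agent.P247.SCY
open Vale.Agent.P204 Vale.Agent.P204.T4 Vale.Agent.P204.GX _root_.P204.GX

/-- **Block C** -/
theorem hom : HomStatement := by
  intro X _ _ _ _ _ M
  refine ⟨M.z1, M.z1_pos, fun c hc c' hc' δ h0 h1 => ?_⟩
  rw [M.pr_S0 h0.le h1 (fun a => (c.2 a).continuous) c'.2]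
  have e : ∀ z, M.rr z * M.pr (c : X → L2) (M.U (δ • z) (c' : X → L2)) =
      M.rr z * M.pr (c : X → L2) (c' : X → L2) := fun z => by
    rw [M.pr_U_closed _ c c' hc hc']
  simp only [e]
  rw [integral_mul_const, M.bump_rr.int, one_mul]

end Vale.Agent.P247.SCY
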