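import Vale.Agent.P247.SCY.BaseF
import Vale.Agent.P247.SCY.HOM

/-!
# P247, flattening: linear algebra (Gram-Schmidt) and the volume straightening map
-/

set_option linter.all false

open MeasureTheory Set Metric Filter Topology
open scoped ContDiff ENNReal NNReal BigOperators Topology

namespace Vale.Agent.P247.SCY
open Vale.Agent.P204 Vale.Agent.P204.T4 Vale.Agent.P204.GX

abbrev M3 := Fin 3 → Fin 3 → ℝ

/-- the identity -/
def I3 : M3 := fun i j => if i = j then 1 else 0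

/-- the second pivot -/
noncomputable def gD (G : M3) : ℝ := G 1 1 - G 0 1 ^ 2 / G 0 0
noncomputable def gΔ (G : M3) : ℝ := G 0 0 * G 1 1 - G 0 1 ^ 2
noncomputable def gx (G : M3) : ℝ := (G 0 2 * G 1 1 - G 0 1 * G 1 2) / gΔ G
noncomputable def gy (G : M3) : ℝ := (G 0 0 * G 1 2 - G 0 1 * G 0 2) / gΔ G
/-- the third pivot -/
noncomputable def gF (G : M3) : ℝ := G 2 2 - gx G * G 0 2 - gy G * G 1 2

/-- Gram-Schmidt matrix -/
noncomputable def gs (G : M3) : M3 :=
  ![![(Real.sqrt (G 0 0))⁻¹, 0, 0],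
    ![-(G 0 1 / G 0 0) * (Real.sqrt (gD G))⁻¹, (Real.sqrt (gD G))⁻¹, 0],
    ![-gx G * (Real.sqrt (gF G))⁻¹, -gy G * (Real.sqrt (gF G))⁻¹, (Real.sqrt (gF G))⁻¹]]

theorem I3_00 : I3 0 0 = 1 := rfl
theorem I3_01 : I3 0 1 = 0 := rfl
theorem I3_02 : I3 0 2 = 0 := rfl
theorem I3_11 : I3 1 1 = 1 := rfl
theorem I3_12 : I3 1 2 = 0 := rfl
theorem I3_22 : I3 2 2 = 1 := rfl

theorem gD_I : gD I3 = 1 := by unfold gD; rw [I3_00, I3_01, I3_11]; norm_num
theorem gΔ_I : gΔ I3 = 1 := by unfold gΔ; rw [I3_00, I3_01, I3_11]; norm_num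
theorem gx_I : gx I3 = 0 := by unfold gx; rw [gΔ_I, I3_02, I3_01, I3_11, I3_12]; norm_num
theorem gy_I : gy I3 = 0 := by unfold gy; rw [gΔ_I, I3_02, I3_01, I3_00, I3_12]; norm_num
theorem gF_I : gF I3 = 1 := by unfold gF; rw [gx_I, gy_I, I3_22]; norm_num

theorem gs_I : gs I3 = I3 := by
  unfold gs
  rw [gD_I, gF_I, gx_I, gy_I, I3_00, I3_01]
  funext i j
  fin_cases i <;> fin_cases j <;> simp [I3]

theorem cont_e (i j : Fin 3) : ContinuousAt (fun G : M3 => G i j) I3 := by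
  have : Continuous (fun G : M3 => G i j) := by fun_prop
  exact this.continuousAt

theorem cont_gD : ContinuousAt gD I3 :=
  (cont_e 1 1).sub (((cont_e 0 1).pow 2).div (cont_e 0 0) (by rw [I3_00]; norm_num))

theorem cont_gΔ : ContinuousAt gΔ I3 :=
  ((cont_e 0 0).mul (cont_e 1 1)).sub ((cont_e 0 1).pow 2)

theorem cont_gx : ContinuousAt gx I3 :=
  (((cont_e 0 2).mul (cont_e 1 1)).sub ((cont_e 0 1).mul (cont_e 1 2))).div cont_gΔ
    (by rw [gΔ_I]; norm_num)

theorem cont_gy : ContinuousAt gy I3 :=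
  (((cont_e 0 0).mul (cont_e 1 2)).sub ((cont_e 0 1).mul (cont_e 0 2))).div cont_gΔ
    (by rw [gΔ_I]; norm_num)

theorem cont_gF : ContinuousAt gF I3 :=
  ((cont_e 2 2).sub (cont_gx.mul (cont_e 0 2))).sub (cont_gy.mul (cont_e 1 2))

theorem cont_si {f : M3 → ℝ} (hf : ContinuousAt f I3) (h : f I3 = 1) :
    ContinuousAt (fun G => (Real.sqrt (f G))⁻¹) I3 :=
  (Real.continuous_sqrt.continuousAt.comp hf).inv₀ (by
    show Real.sqrt (f I3) ≠ 0
    rw [h]; norm_num)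

theorem cont_gs : ContinuousAt gs I3 := by
  rw [continuousAt_pi]; intro i
  rw [continuousAt_pi]; intro j
  fin_cases i <;> fin_cases j
  · exact cont_si (cont_e 0 0) I3_00
  · exact continuousAt_const
  · exact continuousAt_const
  · exact (((cont_e 0 1).div (cont_e 0 0) (by rw [I3_00]; norm_num)).neg).mul (cont_si cont_gD gD_I)
  · exact cont_si cont_gD gD_I
  · exact continuousAt_const
  · exact (cont_gx.neg).mul (cont_si cont_gF gF_I)
  · exact (cont_gy.neg).mul (cont_si cont_gF gF_I)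
  · exact cont_si cont_gF gF_I

/-- the bilinear expression `P G Pᵀ` -/
def pgp (P G : M3) (i j : Fin 3) : ℝ := ∑ k, ∑ l, P i k * P j l * G k l

theorem gs_spec {G : M3} (hs : ∀ i j, G i j = G j i) (h0 : 0 < G 0 0) (hΔ : 0 < gΔ G)
    (hF : 0 < gF G) (i j : Fin 3) : pgp (gs G) G i j = if i = j then 1 else 0 := by
  have hD : gD G = gΔ G / G 0 0 := by unfold gD gΔ; field_simp
  have hD0 : 0 < gD G := by rw [hD]; positivity
  have s0 := Real.mul_self_sqrt h0.le
  have sD := Real.mul_self_sqrt hD0.le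
  have sF := Real.mul_self_sqrt hF.le
  have n0 : Real.sqrt (G 0 0) ≠ 0 := (Real.sqrt_pos.2 h0).ne'
  have nD : Real.sqrt (gD G) ≠ 0 := (Real.sqrt_pos.2 hD0).ne'
  have nF : Real.sqrt (gF G) ≠ 0 := (Real.sqrt_pos.2 hF).ne'
  -- the linear equations
  have x1 : gx G * gΔ G = G 0 2 * G 1 1 - G 0 1 * G 1 2 := div_mul_cancel₀ _ hΔ.ne'
  have y1 : gy G * gΔ G = G 0 0 * G 1 2 - G 0 1 * G 0 2 := div_mul_cancel₀ _ hΔ.ne'
  have d1 : gΔ G = G 0 0 * G 1 1 - G 0 1 ^ 2 := rfl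
  have e1 : G 0 0 * gx G + G 0 1 * gy G = G 0 2 := by
    apply mul_right_cancel₀ hΔ.ne'
    linear_combination (G 0 0) * x1 + (G 0 1) * y1 - (G 0 2) * d1
  have e2 : G 0 1 * gx G + G 1 1 * gy G = G 1 2 := by
    apply mul_right_cancel₀ hΔ.ne'
    linear_combination (G 0 1) * x1 + (G 1 1) * y1 - (G 1 2) * d1
  set a := (Real.sqrt (G 0 0))⁻¹ with ha
  set b := (Real.sqrt (gD G))⁻¹ with hb
  set c := (Real.sqrt (gF G))⁻¹ with hc
  have ha2 : a * a * G 0 0 = 1 := by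
    rw [ha]; nth_rewrite 3 [← s0]; field_simp
  have hb2 : b * b * gD G = 1 := by
    rw [hb]; nth_rewrite 3 [← sD]; field_simp
  have hc2 : c * c * gF G = 1 := by
    rw [hc]; nth_rewrite 3 [← sF]; field_simp
  have hDe : gD G = G 1 1 - G 0 1 ^ 2 / G 0 0 := rfl
  have hFe : gF G = G 2 2 - gx G * G 0 2 - gy G * G 1 2 := rfl
  have r00 : gs G 0 0 = a := rfl
  have r01 : gs G 0 1 = 0 := rfl
  have r02 : gs G 0 2 = 0 := rfl
  have r10 : gs G 1 0 = -(G 0 1 / G 0 0) * b := rfl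
  have r11 : gs G 1 1 = b := rfl
  have r12 : gs G 1 2 = 0 := rfl
  have r20 : gs G 2 0 = -gx G * c := rfl
  have r21 : gs G 2 1 = -gy G * c := rfl
  have r22 : gs G 2 2 = c := rfl
  have t10 := hs 1 0
  have t20 := hs 2 0
  have t21 := hs 2 1
  have hq : G 0 1 / G 0 0 * G 0 0 = G 0 1 := by field_simp
  have hq2 : G 0 1 ^ 2 / G 0 0 = G 0 1 / G 0 0 * G 0 1 := by ring
  set q := G 0 1 / G 0 0 with hqd
  have hDe' : gD G = G 1 1 - q * G 0 1 := by rw [hDe, hq2]
  unfold pgp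
  fin_cases i <;> fin_cases j <;>
    simp only [Fin.zero_eta, Fin.mk_one, Fin.reduceFinMk, Fin.isValue, Fin.sum_univ_three, r00, r01, r02, r10, r11, r12, r20,
      r21, r22, t10, t20, t21, zero_mul, mul_zero, add_zero, zero_add, if_true, Fin.reduceEq,
      one_ne_zero, zero_ne_one, ↓reduceIte]
  · exact ha2
  · linear_combination (-a * b) * hq
  · linear_combination (-a * c) * e1
  · linear_combination (-a * b) * hq
  · linear_combination (b * b * q) * hq + hb2 - (b * b) * hDe'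
  · linear_combination (b * c * q) * e1 - (b * c) * e2
  · linear_combination (-a * c) * e1
  · linear_combination (b * c * q) * e1 - (b * c) * e2
  · linear_combination (c * c * gx G) * e1 + (c * c * gy G) * e2 + hc2 - (c * c) * hFe

/-- symmetric matrices near the identity can be brought to the identity by a matrix near the
identity -/
theorem exists_gs {η : ℝ} (hη : 0 < η) : ∃ δ : ℝ, 0 < δ ∧ ∀ G : M3, (∀ i j, G i j = G j i) →
    (∀ i j, |G i j - if i = j then 1 else 0| < δ) →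
    ∃ P : M3, (∀ i j, |P i j - if i = j then 1 else 0| < η) ∧
      ∀ i j, pgp P G i j = if i = j then 1 else 0 := by
  have h1 : ∀ᶠ G in 𝓝 I3, dist (gs G) I3 < η := by
    have := cont_gs
    rw [ContinuousAt, gs_I] at this
    exact this.eventually (Metric.ball_mem_nhds _ hη)
  have h2 : ∀ᶠ G in 𝓝 I3, (0 : ℝ) < G 0 0 :=
    (cont_e 0 0).eventually (lt_mem_nhds (by show (0 : ℝ) < I3 0 0; rw [I3_00]; norm_num))
  have h3 : ∀ᶠ G in 𝓝 I3, 0 < gΔ G := cont_gΔ.eventually (lt_mem_nhds (by rw [gΔ_I]; norm_num))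
  have h4 : ∀ᶠ G in 𝓝 I3, 0 < gF G := cont_gF.eventually (lt_mem_nhds (by rw [gF_I]; norm_num))
  obtain ⟨δ, hδ, hδ'⟩ := Metric.eventually_nhds_iff.1 (h1.and (h2.and (h3.and h4)))
  refine ⟨δ, hδ, fun G hs hG => ?_⟩
  have hd : dist G I3 < δ := by
    rw [dist_pi_lt_iff hδ]; intro i
    rw [dist_pi_lt_iff hδ]; intro j
    rw [Real.dist_eq]
    exact hG i j
  obtain ⟨k1, k2, k3, k4⟩ := hδ' hd
  refine ⟨gs G, fun i j => ?_, gs_spec hs k2 k3 k4⟩
  rw [dist_pi_lt_iff hη] at k1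
  have := k1 i
  rw [dist_pi_lt_iff hη] at this
  have := this j
  rw [Real.dist_eq] at this
  exact this

end Vale.Agent.P247.SCY
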