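import Vale.Agent.P247.SCY.FL1

/-!
# P247, flattening: the volume straightening map
-/

set_option linter.all false

open MeasureTheory Set Metric Filter Topology
open scoped ContDiff ENNReal NNReal BigOperators Topology

namespace Vale.Agent.P247.SCY
open Vale.Agent.P204 Vale.Agent.P204.T4 Vale.Agent.P204.GX

/-- replace the first coordinate -/
def rep0 (s : ℝ) (z : V4) : V4 := ![s, z 1, z 2, z 3]

theorem contDiff_rep0 : ContDiff ℝ ∞ (fun p : ℝ × V4 => rep0 p.1 p.2) := by
  rw [contDiff_pi]; intro i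
  fin_cases i
  · exact contDiff_fst
  · show ContDiff ℝ ∞ (fun p : ℝ × V4 => p.2 1); fun_prop
  · show ContDiff ℝ ∞ (fun p : ℝ × V4 => p.2 2); fun_prop
  · show ContDiff ℝ ∞ (fun p : ℝ × V4 => p.2 3); fun_prop

/-- the integrand of the straightening function -/
noncomputable def sti (m : V4 → ℝ) (t : ℝ) (z : V4) : ℝ := z 0 * m (rep0 (t * z 0) z)

theorem contDiff_sti {m : V4 → ℝ} (hm : ContDiff ℝ ∞ m) :
    ContDiff ℝ ∞ (Function.uncurry (sti m)) := by
  have h1 : ContDiff ℝ ∞ (fun p : ℝ × V4 => p.2 0) := by fun_prop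
  have h2 : ContDiff ℝ ∞ (fun p : ℝ × V4 => (p.1 * p.2 0, p.2)) :=
    (contDiff_fst.mul h1).prodMk contDiff_snd
  exact h1.mul (hm.comp (contDiff_rep0.comp h2))

/-- Lebesgue measure on `[0, 1]` -/
noncomputable abbrev nu01 : Measure ℝ := volume.restrict (Icc (0 : ℝ) 1)

theorem nu01_compl : nu01 (Icc (0 : ℝ) 1)ᶜ = 0 := by
  rw [Measure.restrict_apply measurableSet_Icc.compl]
  simp only [compl_inter_self, measure_empty]

/-- the straightening function -/
noncomputable def stF (m : V4 → ℝ) (z : V4) : ℝ := ∫ t, sti m t z ∂nu01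

theorem contDiff_stF {m : V4 → ℝ} (hm : ContDiff ℝ ∞ m) : ContDiff ℝ ∞ (stF m) :=
  contDiff_integral_param nu01 isCompact_Icc nu01_compl (contDiff_sti hm)

theorem stF_eq (m : V4 → ℝ) (z : V4) : stF m z = ∫ s in (0 : ℝ)..(z 0), m (rep0 s z) := by
  unfold stF sti
  rw [integral_Icc_eq_integral_Ioc, ← intervalIntegral.integral_of_le zero_le_one,
    intervalIntegral.integral_const_mul]
  have h := intervalIntegral.mul_integral_comp_mul_left (a := 0) (b := 1)
    (f := fun s => m (rep0 s z)) (c := z 0)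
  rw [mul_zero, mul_one] at h
  rw [← h]
  congr 1
  refine intervalIntegral.integral_congr fun t _ => ?_
  show m (rep0 (t * z 0) z) = m (rep0 (z 0 * t) z)
  rw [mul_comm]

theorem stF_zero (m : V4 → ℝ) {z : V4} (hz : z 0 = 0) : stF m z = 0 := by
  rw [stF_eq, hz, intervalIntegral.integral_same]

theorem rep0_self (z : V4) : rep0 (z 0) z = z := by
  funext i; fin_cases i <;> rfl

theorem pd_line {f : V4 → ℝ} {z : V4} (hf : DifferentiableAt ℝ f z) (i : Fin 4) :
    HasDerivAt (fun s : ℝ => f (z + s • (Pi.single i (1 : ℝ) : V4))) (pd i f z) 0 := by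
  have h1 : HasDerivAt (fun s : ℝ => z + s • (Pi.single i (1 : ℝ) : V4))
      (Pi.single i (1 : ℝ) : V4) 0 := by
    simpa using ((hasDerivAt_id (0 : ℝ)).smul_const (Pi.single i (1 : ℝ) : V4)).const_add z
  have h2 : HasFDerivAt f (fderiv ℝ f z) (z + (0 : ℝ) • (Pi.single i (1 : ℝ) : V4)) := by
    rw [zero_smul, add_zero]; exact hf.hasFDerivAt
  exact h2.comp_hasDerivAt (0 : ℝ) h1

theorem pd0_stF {m : V4 → ℝ} (hm : ContDiff ℝ ∞ m) (z : V4) : pd 0 (stF m) z = m z := by
  have h1 := pd_line ((contDiff_stF hm).differentiable (by simp) z) 0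
  have hcont : Continuous fun s : ℝ => m (rep0 s z) :=
    hm.continuous.comp (contDiff_rep0.continuous.comp (continuous_id.prodMk continuous_const))
  have h2 : (fun s : ℝ => stF m (z + s • (Pi.single 0 (1 : ℝ) : V4))) =
      fun s => ∫ t in (0 : ℝ)..(z 0 + s), m (rep0 t z) := by
    funext s
    rw [stF_eq]
    have e0 : (z + s • (Pi.single 0 (1 : ℝ) : V4)) 0 = z 0 + s := by simp
    rw [e0]
    refine intervalIntegral.integral_congr fun t _ => ?_
    show m (rep0 t (z + s • (Pi.single 0 (1 : ℝ) : V4))) = m (rep0 t z)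
    congr 1
    funext i
    fin_cases i <;> simp [rep0]
  rw [h2] at h1
  have h3 : HasDerivAt (fun b : ℝ => ∫ t in (0 : ℝ)..b, m (rep0 t z)) (m (rep0 (z 0) z)) (z 0 + 0) := by
    rw [add_zero]
    exact intervalIntegral.integral_hasDerivAt_right (hcont.intervalIntegrable _ _)
      (hcont.stronglyMeasurableAtFilter _ _) hcont.continuousAt
  have h4 : HasDerivAt (fun s : ℝ => z 0 + s) 1 0 := by
    simpa using (hasDerivAt_id (0 : ℝ)).const_add (z 0)
  have h5 := h3.comp (0 : ℝ) h4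
  rw [mul_one, rep0_self] at h5
  exact h1.unique h5

theorem pdj_stF {m : V4 → ℝ} (hm : ContDiff ℝ ∞ m) {j : Fin 4} (hj : j ≠ 0) {z : V4}
    (hz : z 0 = 0) : pd j (stF m) z = 0 := by
  have h1 := pd_line ((contDiff_stF hm).differentiable (by simp) z) j
  have h2 : (fun s : ℝ => stF m (z + s • (Pi.single j (1 : ℝ) : V4))) = fun s => 0 := by
    funext s
    apply stF_zero
    have : (Pi.single j (1 : ℝ) : V4) 0 = 0 := Pi.single_eq_of_ne (Ne.symm hj) _
    simp [this, hz]
  rw [h2] at h1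
  exact h1.unique (hasDerivAt_const _ _)

/-- the straightening map -/
noncomputable def stP (m : V4 → ℝ) (z : V4) : V4 := ![stF m z, z 1, z 2, z 3]

theorem contDiff_stP {m : V4 → ℝ} (hm : ContDiff ℝ ∞ m) : ContDiff ℝ ∞ (stP m) := by
  rw [contDiff_pi]; intro i
  fin_cases i
  · exact contDiff_stF hm
  · show ContDiff ℝ ∞ (fun z : V4 => z 1); fun_prop
  · show ContDiff ℝ ∞ (fun z : V4 => z 2); fun_prop
  · show ContDiff ℝ ∞ (fun z : V4 => z 3); fun_prop

theorem pd_coord (j k : Fin 4) (z : V4) : pd j (fun z : V4 => z k) z = if k = j then 1 else 0 := by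
  unfold pd
  have : fderiv ℝ (fun y : V4 => y k) z =
      ContinuousLinearMap.proj (R := ℝ) (φ := fun _ : Fin 4 => ℝ) k :=
    (ContinuousLinearMap.proj (R := ℝ) (φ := fun _ : Fin 4 => ℝ) k).fderiv
  rw [this]
  simp [Pi.single_apply]

theorem Dm_stP (m : V4 → ℝ) (z : V4) : Dm (stP m) z =
    ![![pd 0 (stF m) z, pd 1 (stF m) z, pd 2 (stF m) z, pd 3 (stF m) z], ![0, 1, 0, 0],
      ![0, 0, 1, 0], ![0, 0, 0, 1]] := by
  funext i j
  fin_cases i
  · fin_cases j <;> rfl
  · show pd j (fun z : V4 => z 1) z = _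
    rw [pd_coord]; fin_cases j <;> rfl
  · show pd j (fun z : V4 => z 2) z = _
    rw [pd_coord]; fin_cases j <;> rfl
  · show pd j (fun z : V4 => z 3) z = _
    rw [pd_coord]; fin_cases j <;> rfl

theorem det_stP {m : V4 → ℝ} (hm : ContDiff ℝ ∞ m) (z : V4) : det4 (Dm (stP m) z) = m z := by
  rw [Dm_stP, ← pd0_stF hm z]
  simp [det4, mn]

theorem Dm_stP_zero {m : V4 → ℝ} (hm : ContDiff ℝ ∞ m) (h0 : m 0 = 1) : Dm (stP m) 0 = oneM := by
  rw [Dm_stP, pd0_stF hm, h0, pdj_stF hm (by decide) (z := 0) rfl, pdj_stF hm (by decide) (z := 0) rfl,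
    pdj_stF hm (by decide) (z := 0) rfl]
  funext i j
  fin_cases i <;> fin_cases j <;> rfl

/-- the pulled back constant form -/
theorem closed_pf_const {f : V4 → V4} (hf : ContDiff ℝ ∞ f) (c : L2) : Closed (pf f fun _ => c) := by
  have h0 : Closed (fun _ : V4 => c) := by
    intro x i j k
    have : ∀ a b : Fin 4, ∀ l, pd l (fun _ : V4 => ent c a b) x = 0 := by
      intro a b l; unfold pd; simp
    simp only [this]; ring
  obtain ⟨β, hβ, hd⟩ := exists_prim (α := fun _ => c) contDiff_const h0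
  rw [← hd, ← CM.d1_pf1 hf hβ]
  exact closed_d1 (contDiff_pf1 hf hβ)

end Vale.Agent.P247.SCY
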