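import Vale.Agent.P247.SCY.FL2

/-!
# P247, flattening: the radial primitive with its bound
-/

set_option linter.all false

open MeasureTheory Set Metric Filter Topology
open scoped ContDiff ENNReal NNReal BigOperators Topology

namespace Vale.Agent.P247.SCY
open Vale.Agent.P204 Vale.Agent.P204.T4 Vale.Agent.P204.GX

theorem abs_ent_le (A : L2) (k l : Fin 4) : |ent A k l| ≤ ‖A‖ := by
  have h1 : ∀ i : Fin 6, |A i| ≤ ‖A‖ := fun i => norm_le_pi_norm A i
  have h0 := norm_nonneg A
  fin_cases k <;> fin_cases l <;> simp only [ent, Fin.isValue, Fin.zero_eta, Matrix.cons_val', Matrix.cons_val_zero, Matrix.cons_val_fin_one, abs_zero, norm_nonneg, Fin.mk_one, Matrix.cons_val_one, ge_iff_le, Fin.reduceFinMk, Matrix.cons_val, abs_neg] <;> first | exact h0 | exact h1 _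

theorem norm_hop_le {α : V4 → L2} {t : ℝ} (ht : t ∈ Icc (0 : ℝ) 1) {x : V4} {B : ℝ} (hB0 : 0 ≤ B)
    (hB : ‖α (t • x)‖ ≤ B) : ‖hop α t x‖ ≤ 4 * ‖x‖ * B := by
  rw [pi_norm_le_iff_of_nonneg (by positivity)]
  intro j
  show ‖t * ∑ k, x k * ent (α (t • x)) k j‖ ≤ _
  rw [norm_mul]
  have h1 : ‖∑ k, x k * ent (α (t • x)) k j‖ ≤ 4 * ‖x‖ * B := by
    calc ‖∑ k, x k * ent (α (t • x)) k j‖ ≤ ∑ k, ‖x k * ent (α (t • x)) k j‖ := norm_sum_le _ _
      _ ≤ ∑ k : Fin 4, ‖x‖ * B := Finset.sum_le_sum fun k _ => by
          rw [norm_mul]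
          exact mul_le_mul (norm_le_pi_norm x k) ((abs_ent_le _ _ _).trans hB) (norm_nonneg _)
            (norm_nonneg _)
      _ = 4 * ‖x‖ * B := by simp; ring
  have h2 : ‖t‖ ≤ 1 := by rw [Real.norm_eq_abs, abs_of_nonneg ht.1]; exact ht.2
  calc ‖t‖ * ‖∑ k, x k * ent (α (t • x)) k j‖ ≤ 1 * (4 * ‖x‖ * B) :=
        mul_le_mul h2 h1 (norm_nonneg _) zero_le_one
    _ = _ := one_mul _

/-- Poincaré lemma for two-forms on `V4`, with a bound of the radial primitive. -/
theorem exists_prim_bd {α : V4 → L2} (hα : ContDiff ℝ ∞ α) (hcl : Closed α) :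
    ∃ β : V4 → V4, ContDiff ℝ ∞ β ∧ d1 β = α ∧ ∀ (x : V4) (B : ℝ),
      (∀ t ∈ Icc (0 : ℝ) 1, ‖α (t • x)‖ ≤ B) → ‖β x‖ ≤ 4 * ‖x‖ * B := by
  set ν : Measure ℝ := volume.restrict (Icc (0 : ℝ) 1) with hν
  have hνK : ν (Icc (0 : ℝ) 1)ᶜ = 0 := by
    rw [hν, Measure.restrict_apply measurableSet_Icc.compl]
    simp only [compl_inter_self, measure_empty]
  have hcd := contDiff_hop hα
  have hcomp : ∀ j : Fin 4, ContDiff ℝ ∞ (Function.uncurry fun t y => hop α t y j) := fun j =>
    (contDiff_pi.1 hcd) j
  have hint : ∀ {E : Type} [NormedAddCommGroup E] [NormedSpace ℝ E] {g : ℝ → E},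
      Continuous g → Integrable g ν := by
    intro E _ _ g hg
    exact hg.continuousOn.integrableOn_compact isCompact_Icc
  refine ⟨fun x => ∫ t, hop α t x ∂ν, contDiff_integral_param ν isCompact_Icc hνK hcd, ?_,
    fun x B hB => ?_⟩
  swap
  · have hB0 : 0 ≤ B := (norm_nonneg _).trans (hB 0 (by simp))
    have h1 : ∀ᵐ t ∂ν, ‖hop α t x‖ ≤ 4 * ‖x‖ * B := by
      rw [hν, ae_restrict_iff' measurableSet_Icc]
      exact Filter.Eventually.of_forall fun t ht => norm_hop_le ht hB0 (hB t ht)
    have h2 := norm_integral_le_of_norm_le_const h1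
    have h3 : ν.real univ = 1 := by
      rw [hν, Measure.real, Measure.restrict_apply_univ, Real.volume_Icc]; simp
    rw [h3, mul_one] at h2
    exact h2
  funext x
  have hpd : ∀ i j : Fin 4, pd i (fun y => (∫ t, hop α t y ∂ν) j) x =
      ∫ t, pd i (fun y => hop α t y j) x ∂ν := by
    intro i j
    have h1 : (fun y => (∫ t, hop α t y ∂ν) j) = fun y => ∫ t, hop α t y j ∂ν := by
      funext w
      have h2 := (ContinuousLinearMap.proj (R := ℝ) (φ := fun _ : Fin 4 => ℝ) j).integral_comp_comm
        (hint (g := fun t => hop α t w)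
          (hcd.continuous.comp (continuous_id.prodMk continuous_const)))
      exact h2.symm
    have h3 := hasFDerivAt_integral_param ν isCompact_Icc hνK
      (f := fun t y => hop α t y j) (hcomp j) x
    unfold pd
    rw [h1, h3.fderiv]
    have h4 : Continuous fun t => fderiv ℝ (fun y => hop α t y j) x :=
      (contDiff_fderiv_snd (hcomp j)).continuous.comp (continuous_id.prodMk continuous_const)
    exact (ContinuousLinearMap.integral_apply (hint h4) _)
  have hpi : ∀ i j : Fin 4, Integrable (fun t => pd i (fun y => hop α t y j) x) ν := by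
    intro i j
    have h4 : Continuous fun t => fderiv ℝ (fun y => hop α t y j) x :=
      (contDiff_fderiv_snd (hcomp j)).continuous.comp (continuous_id.prodMk continuous_const)
    exact hint (h4.clm_apply continuous_const)
  rw [← ofEnt_ent (d1 (fun y => ∫ t, hop α t y ∂ν) x), ← ofEnt_ent (α x)]
  apply ofEnt_congr
  intro i j
  rw [GX.ent_d1, hpd, hpd, ← integral_sub (hpi i j) (hpi j i)]
  -- the integrand is a derivative
  set G : ℝ → ℝ := fun t => t ^ 2 * ent (α (t • x)) i j with hG
  have hGd : ∀ t, HasDerivAt G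
      (pd i (fun y => hop α t y j) x - pd j (fun y => hop α t y i) x) t := by
    intro t
    have hd : DifferentiableAt ℝ (fun y : V4 => ent (α y) i j) (t • x) :=
      ((contDiff_ent i j).comp hα).differentiable (by simp) _
    have h5 : HasDerivAt (fun s : ℝ => s • x) x t := by
      simpa using (hasDerivAt_id t).smul_const x
    have h6 : HasDerivAt (fun s : ℝ => ent (α (s • x)) i j)
        (fderiv ℝ (fun y : V4 => ent (α y) i j) (t • x) x) t :=
      HasFDerivAt.comp_hasDerivAt (l := fun y : V4 => ent (α y) i j) (f := fun s : ℝ => s • x)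
        t hd.hasFDerivAt h5
    have h7 : fderiv ℝ (fun y : V4 => ent (α y) i j) (t • x) x =
        ∑ k, x k * pd k (fun y => ent (α y) i j) (t • x) := by
      have hx : x = ∑ k, x k • (Pi.single k (1 : ℝ) : V4) := by
        funext l
        simp [Finset.sum_apply, Pi.single_apply]
      conv_lhs => rw [hx, map_sum]
      refine Finset.sum_congr rfl fun k _ => ?_
      rw [map_smul, smul_eq_mul, ← hx]
      rfl
    have h8 : HasDerivAt (fun s : ℝ => s ^ 2) (2 * t) t := by
      simpa using hasDerivAt_pow 2 t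
    have h9 := h8.mul h6
    refine h9.congr_deriv ?_
    rw [pd_hop hα, pd_hop hα, h7]
    have hsw : ∀ k l : Fin 4, ∀ m : Fin 4, pd m (fun y => ent (α y) k l) (t • x) =
        - pd m (fun y => ent (α y) l k) (t • x) := by
      intro k l m
      have e1 : (fun y => ent (α y) k l) = fun y => (-1 : ℝ) * ent (α y) l k := by
        funext y; rw [ent_swap]; ring
      have hdd : DifferentiableAt ℝ (fun y => ent (α y) l k) (t • x) :=
        ((contDiff_ent l k).comp hα).differentiable (by simp) _
      rw [e1, pd_const_mul hdd]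
      ring
    have hk : ∀ k : Fin 4, pd k (fun y => ent (α y) i j) (t • x) =
        pd i (fun y => ent (α y) k j) (t • x) - pd j (fun y => ent (α y) k i) (t • x) := by
      intro k
      have h10 := hcl (t • x) i j k
      have h11 := hsw j k i
      linarith
    have e2 : ent (α (t • x)) j i = - ent (α (t • x)) i j := ent_swap _ _ _
    rw [e2]
    simp only [hk]
    simp only [Fin.sum_univ_four]
    ring
  have hcont : Continuous fun t =>
      pd i (fun y => hop α t y j) x - pd j (fun y => hop α t y i) x := by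
    have h4 : ∀ i j : Fin 4, Continuous fun t => pd i (fun y => hop α t y j) x := by
      intro i j
      have h4 : Continuous fun t => fderiv ℝ (fun y => hop α t y j) x :=
        (contDiff_fderiv_snd (hcomp j)).continuous.comp (continuous_id.prodMk continuous_const)
      exact h4.clm_apply continuous_const
    exact (h4 i j).sub (h4 j i)
  have h12 : ∫ t in (0 : ℝ)..1, (pd i (fun y => hop α t y j) x - pd j (fun y => hop α t y i) x) =
      G 1 - G 0 :=
    intervalIntegral.integral_eq_sub_of_hasDerivAt (fun t _ => hGd t)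
      (hcont.intervalIntegrable 0 1)
  rw [hν, integral_Icc_eq_integral_Ioc, ← intervalIntegral.integral_of_le zero_le_one, h12, hG]
  simp

end Vale.Agent.P247.SCY
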