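import Vale.Agent.P247.SCY.FL3

/-!
# P247, flattening: local flattening in adapted coordinates
-/

set_option linter.all false

open MeasureTheory Set Metric Filter Topology
open scoped ContDiff ENNReal NNReal BigOperators Topology

namespace Vale.Agent.P247.SCY
open Vale.Agent.P204 Vale.Agent.P204.T4 Vale.Agent.P204.GX

/-! ### the cut-off functions -/

/-- the cut-off at scale `r` -/
noncomputable def cutr (χ : ContDiffBump (0 : V4)) (r : ℝ) (z : V4) : ℝ := χ (r⁻¹ • z)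

theorem contDiff_bump (χ : ContDiffBump (0 : V4)) : ContDiff ℝ ∞ (χ : V4 → ℝ) := χ.contDiff

theorem contDiff_cutr (χ : ContDiffBump (0 : V4)) (r : ℝ) : ContDiff ℝ ∞ (cutr χ r) := by
  have h : ContDiff ℝ ∞ (fun z : V4 => r⁻¹ • z) := contDiff_const_smul _
  exact (contDiff_bump χ).comp h

theorem cutr_mem (χ : ContDiffBump (0 : V4)) (r : ℝ) (z : V4) : cutr χ r z ∈ Icc (0 : ℝ) 1 :=
  ⟨χ.nonneg, χ.le_one⟩

theorem exists_grad_bound (χ : ContDiffBump (0 : V4)) : ∃ K : ℝ, 0 ≤ K ∧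
    ∀ (r : ℝ), 0 < r → ∀ z, ‖grad (cutr χ r) z‖ ≤ K * r⁻¹ := by
  have hc : HasCompactSupport (fderiv ℝ χ) := χ.hasCompactSupport.fderiv (𝕜 := ℝ)
  have hcont : Continuous (fderiv ℝ χ) := (contDiff_bump χ).continuous_fderiv (by simp)
  obtain ⟨K, hK⟩ := hc.exists_bound_of_continuous hcont
  refine ⟨K, (norm_nonneg _).trans (hK 0), fun r hr z => ?_⟩
  have hK0 : 0 ≤ K := (norm_nonneg _).trans (hK 0)
  rw [pi_norm_le_iff_of_nonneg (by positivity)]
  intro i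
  show ‖fderiv ℝ (cutr χ r) z (Pi.single i 1)‖ ≤ _
  have h1 : HasFDerivAt (cutr χ r) ((fderiv ℝ χ (r⁻¹ • z)).comp
      (r⁻¹ • ContinuousLinearMap.id ℝ V4)) z := by
    have h2 : HasFDerivAt (fun z : V4 => r⁻¹ • z) (r⁻¹ • ContinuousLinearMap.id ℝ V4) z :=
      (hasFDerivAt_id z).const_smul r⁻¹
    exact ((contDiff_bump χ).differentiable (by simp) _).hasFDerivAt.comp z h2
  rw [h1.fderiv]
  have h3 : ((fderiv ℝ χ (r⁻¹ • z)).comp (r⁻¹ • ContinuousLinearMap.id ℝ V4)) (Pi.single i 1) =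
      r⁻¹ * fderiv ℝ χ (r⁻¹ • z) (Pi.single i 1) := by simp
  rw [h3, norm_mul, norm_inv, Real.norm_eq_abs, abs_of_pos hr, mul_comm]
  gcongr
  refine (ContinuousLinearMap.le_opNorm _ _).trans ?_
  have h4 : ‖(Pi.single i (1 : ℝ) : V4)‖ = 1 := by rw [Pi.norm_single]; simp
  rw [h4, mul_one]
  exact hK _

/-- the bump with `1` on the ball of radius `1 - κ / 2` -/
noncomputable def chiK (κ : ℝ) (h0 : 0 < κ) (h1 : κ < 1) : ContDiffBump (0 : V4) :=
  ⟨1 - κ / 2, 1, by linarith, by linarith⟩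

theorem cutr_one {κ : ℝ} (h0 : 0 < κ) (h1 : κ < 1) {r : ℝ} (hr : 0 < r) {z : V4}
    (hz : z ∈ closedBall (0 : V4) ((1 - κ) * r)) : cutr (chiK κ h0 h1) r =ᶠ[𝓝 z] fun _ => 1 := by
  rw [mem_closedBall_zero_iff] at hz
  have hlt : ‖z‖ < (1 - κ / 2) * r := by nlinarith
  have hop : IsOpen {w : V4 | ‖w‖ < (1 - κ / 2) * r} := isOpen_lt continuous_norm continuous_const
  filter_upwards [hop.mem_nhds hlt] with w hw
  apply (chiK κ h0 h1).one_of_mem_closedBall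
  rw [mem_closedBall_zero_iff, norm_smul, norm_inv, Real.norm_eq_abs, abs_of_pos hr]
  show r⁻¹ * ‖w‖ ≤ 1 - κ / 2
  rw [inv_mul_le_iff₀ hr, mul_comm]
  exact le_of_lt hw

theorem cutr_zero {κ : ℝ} (h0 : 0 < κ) (h1 : κ < 1) {r : ℝ} (hr : 0 < r) {z : V4}
    (hz : z ∉ closedBall (0 : V4) r) : cutr (chiK κ h0 h1) r z = 0 := by
  rw [mem_closedBall_zero_iff, not_le] at hz
  apply (chiK κ h0 h1).zero_of_le_dist
  rw [dist_zero_right, norm_smul, norm_inv, Real.norm_eq_abs, abs_of_pos hr]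
  show 1 ≤ r⁻¹ * ‖z‖
  rw [le_inv_mul_iff₀ hr, mul_one]
  exact hz.le

/-! ### algebra -/

theorem Q_sum_comb (P : M3) (c : Fin 3 → L2) (i j : Fin 3) :
    Q (∑ k, P i k • c k) (∑ k, P j k • c k) = 2 * pgp P (fun k l => Q (c k) (c l) / 2) i j := by
  unfold pgp
  simp only [Fin.sum_univ_three, Q_add_left, Q_add_right, Q_smul_left, Q_smul_right]
  ring

theorem abs_Q_sub_le {A B A' B' : L2} {ρ C : ℝ} (hA : ‖A‖ ≤ C) (hB : ‖B‖ ≤ C) (h1 : ‖A' - A‖ ≤ ρ)
    (h2 : ‖B' - B‖ ≤ ρ) (hρ : ρ ≤ 1) : |Q A' B' - Q A B| ≤ 6 * ρ * (2 * C + 1) := by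
  have e : Q A' B' - Q A B = Q (A' - A) B' + Q A (B' - B) := by
    simp only [sub_eq_add_neg, Q_add_left, Q_add_right]
    have n1 : Q (-A) B' = -Q A B' := by have := Q_smul_left (-1) A B'; simpa using this
    have n2 : Q A (-B) = -Q A B := by have := Q_smul_right (-1) A B; simpa using this
    rw [n1, n2]; ring
  have hρ0 : 0 ≤ ρ := (norm_nonneg _).trans h1
  have hC0 : 0 ≤ C := (norm_nonneg _).trans hA
  have hB' : ‖B'‖ ≤ C + ρ := by
    calc ‖B'‖ = ‖B + (B' - B)‖ := by congr 1; abel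
      _ ≤ ‖B‖ + ‖B' - B‖ := norm_add_le _ _
      _ ≤ C + ρ := add_le_add hB h2
  rw [e]
  calc |Q (A' - A) B' + Q A (B' - B)| ≤ |Q (A' - A) B'| + |Q A (B' - B)| := abs_add_le _ _
    _ ≤ 6 * ‖A' - A‖ * ‖B'‖ + 6 * ‖A‖ * ‖B' - B‖ := add_le_add (abs_Q_le _ _) (abs_Q_le _ _)
    _ ≤ 6 * ρ * (C + ρ) + 6 * C * ρ := by gcongr
    _ ≤ 6 * ρ * (2 * C + 1) := by nlinarith

theorem final_est {q m ε a : ℝ} {δij : ℝ} (hm : 1 / 2 ≤ m) (hδ : |δij| ≤ 1)
    (h1 : |q - 2 * δij| ≤ a) (h2 : |m - 1| ≤ a) (h3 : 3 * a < ε) : |q / (2 * m) - δij| < ε := by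
  have hm' : 0 < 2 * m := by linarith
  have e : q / (2 * m) - δij = (q - 2 * m * δij) / (2 * m) := by field_simp
  rw [e, abs_div, abs_of_pos hm', div_lt_iff₀ hm']
  have h4 : |q - 2 * m * δij| ≤ a + 2 * a := by
    calc |q - 2 * m * δij| = |(q - 2 * δij) + (-(2 * (m - 1) * δij))| := by congr 1; ring
      _ ≤ |q - 2 * δij| + |-(2 * (m - 1) * δij)| := abs_add_le _ _
      _ = |q - 2 * δij| + 2 * |m - 1| * |δij| := by rw [abs_neg, abs_mul, abs_mul, abs_two]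
      _ ≤ a + 2 * a * 1 := by
          have := abs_nonneg δij
          have := abs_nonneg (m - 1)
          have : 0 ≤ 2 * a := by linarith
          gcongr
      _ = a + 2 * a := by ring
  have hε : 0 < ε := by
    have := (abs_nonneg _).trans h1
    linarith
  nlinarith

theorem comb_sub_le {P : M3} {c : Fin 3 → L2} {η C : ℝ} (i : Fin 3)
    (hP : ∀ i j, |P i j - if i = j then 1 else 0| < η) (hc : ∀ k, ‖c k‖ ≤ C) :
    ‖(∑ k, P i k • c k) - c i‖ ≤ 3 * η * C := by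
  have e : (∑ k, P i k • c k) - c i = ∑ k, (P i k - if i = k then 1 else 0) • c k := by
    simp only [sub_smul, Finset.sum_sub_distrib, ite_smul, one_smul, zero_smul, Finset.sum_ite_eq,
      Finset.mem_univ, if_true]
  rw [e]
  calc ‖∑ k, (P i k - if i = k then 1 else 0) • c k‖
      ≤ ∑ k, ‖(P i k - if i = k then 1 else 0) • c k‖ := norm_sum_le _ _
    _ ≤ ∑ k : Fin 3, η * C := Finset.sum_le_sum fun k _ => by
        rw [norm_smul, Real.norm_eq_abs]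
        exact mul_le_mul (hP i k).le (hc k) (norm_nonneg _) ((abs_nonneg _).trans (hP i k).le)
    _ = 3 * η * C := by simp; ring

end Vale.Agent.P247.SCY
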