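import Vale.Agent.P247.SCY.FL4

/-!
# P247, flattening: local flattening in adapted coordinates, the main lemma
-/

set_option linter.all false

open MeasureTheory Set Metric Filter Topology
open scoped ContDiff ENNReal NNReal BigOperators Topology

namespace Vale.Agent.P247.SCY
open Vale.Agent.P204 Vale.Agent.P204.T4 Vale.Agent.P204.GX

theorem closed_subL {α β : V4 → L2} (hα : ContDiff ℝ ∞ α) (hβ : ContDiff ℝ ∞ β) (h1 : Closed α)
    (h2 : Closed β) : Closed (fun z => α z - β z) := by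
  obtain ⟨a, ha, ha'⟩ := exists_prim hα h1
  obtain ⟨b, hb, hb'⟩ := exists_prim hβ h2
  have e : (fun z => α z - β z) = d1 (a + (-1 : ℝ) • b) := by
    funext z
    rw [GX.d1_add (ha.differentiable (by simp)) ((hb.differentiable (by simp)).const_smul _),
      GX.d1_smul _ (hb.differentiable (by simp)), ha', hb']
    simp [sub_eq_add_neg]
  rw [e]
  exact closed_d1 (ha.add (contDiff_const.smul hb))

/-- the cut-off primitive: a closed form `α` which is small on the ball of radius `r` is replaced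
by the exact form of a compactly supported one-form, equal to `α` on the smaller ball -/
theorem exists_cut {κ : ℝ} (h0 : 0 < κ) (h1 : κ < 1) : ∃ K : ℝ, 1 ≤ K ∧
    ∀ (α : V4 → L2), ContDiff ℝ ∞ α → Closed α → ∀ (r τ : ℝ), 0 < r →
      (∀ z ∈ closedBall (0 : V4) r, ‖α z‖ ≤ τ) →
      ∃ η : V4 → V4, ContDiff ℝ ∞ η ∧ tsupport η ⊆ closedBall 0 r ∧
        (∀ z ∈ closedBall (0 : V4) ((1 - κ) * r), d1 η z = α z) ∧
        (∀ z ∈ closedBall (0 : V4) r, ‖d1 η z‖ ≤ K * τ) := by
  obtain ⟨K, hK0, hK⟩ := exists_grad_bound (chiK κ h0 h1)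
  refine ⟨1 + 8 * K, by linarith, fun α hα hcl r τ hr hτ => ?_⟩
  obtain ⟨β, hβ, hd, hb⟩ := exists_prim_bd hα hcl
  have hτ0 : 0 ≤ τ := (norm_nonneg _).trans (hτ 0 (by simp [hr.le]))
  have hβb : ∀ z ∈ closedBall (0 : V4) r, ‖β z‖ ≤ 4 * r * τ := by
    intro z hz
    have hz' := mem_closedBall_zero_iff.1 hz
    refine (hb z τ fun t ht => hτ _ ?_).trans ?_
    · rw [mem_closedBall_zero_iff, norm_smul, Real.norm_eq_abs, abs_of_nonneg ht.1]
      calc t * ‖z‖ ≤ 1 * ‖z‖ := mul_le_mul_of_nonneg_right ht.2 (norm_nonneg _)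
        _ ≤ r := by rw [one_mul]; exact hz'
    · gcongr
  have hη : ContDiff ℝ ∞ (fun y => cutr (chiK κ h0 h1) r y • β y) := (contDiff_cutr _ r).smul hβ
  have hd1 : ∀ z, d1 (fun y => cutr (chiK κ h0 h1) r y • β y) z =
      wd (grad (cutr (chiK κ h0 h1) r) z) (β z) + cutr (chiK κ h0 h1) r z • α z := by
    intro z
    rw [T4.EMF.d1_smul ((contDiff_cutr _ r).differentiable (by simp) z) (hβ.differentiable (by simp) z),
      hd]
  refine ⟨fun y => cutr (chiK κ h0 h1) r y • β y, hη, ?_, ?_, ?_⟩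
  · refine closure_minimal ?_ isClosed_closedBall
    intro z hz
    by_contra hcon
    apply hz
    show cutr (chiK κ h0 h1) r z • β z = 0
    rw [cutr_zero h0 h1 hr hcon, zero_smul]
  · intro z hz
    have he : (fun y => cutr (chiK κ h0 h1) r y • β y) =ᶠ[𝓝 z] β := by
      filter_upwards [cutr_one h0 h1 hr hz] with w hw
      rw [hw, one_smul]
    rw [GX.d1_congr he, hd]
  · intro z hz
    rw [hd1]
    have hc := cutr_mem (chiK κ h0 h1) r z
    calc ‖wd (grad (cutr (chiK κ h0 h1) r) z) (β z) + cutr (chiK κ h0 h1) r z • α z‖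
        ≤ ‖wd (grad (cutr (chiK κ h0 h1) r) z) (β z)‖ + ‖cutr (chiK κ h0 h1) r z • α z‖ :=
          norm_add_le _ _
      _ ≤ 2 * ‖grad (cutr (chiK κ h0 h1) r) z‖ * ‖β z‖ + 1 * τ := by
          refine add_le_add (T4.EMF.norm_wd_le _ _) ?_
          rw [norm_smul, Real.norm_eq_abs, abs_of_nonneg hc.1]
          exact mul_le_mul hc.2 (hτ z hz) (norm_nonneg _) zero_le_one
      _ ≤ 2 * (K * r⁻¹) * (4 * r * τ) + 1 * τ := by
          have := hK r hr z
          have := hβb z hz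
          gcongr
      _ = (1 + 8 * K) * τ := by field_simp; ring

theorem flat_ad (κ ε C0 : ℝ) (hκ0 : 0 < κ) (hκ1 : κ < 1) (hε : 0 < ε) (hC0 : 1 ≤ C0) :
    ∃ δ : ℝ, 0 < δ ∧ ∀ (u : Fin 3 → V4 → L2) (m : V4 → ℝ),
      (∀ i, ContDiff ℝ ∞ (u i)) → (∀ i, Closed (u i)) → ContDiff ℝ ∞ m → m 0 = 1 →
      (∀ i, ‖u i 0‖ ≤ C0) →
      (∀ i j, |Q (u i 0) (u j 0) / 2 - if i = j then 1 else 0| < δ) →
      ∃ r0 : ℝ, 0 < r0 ∧ ∀ r : ℝ, 0 < r → r ≤ r0 → ∃ η : Fin 3 → V4 → V4,
        (∀ i, ContDiff ℝ ∞ (η i)) ∧ (∀ i, tsupport (η i) ⊆ closedBall 0 r) ∧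
        (∀ z ∈ closedBall (0 : V4) r, 1 / 2 ≤ m z ∧ m z ≤ 2) ∧
        (∀ z ∈ closedBall (0 : V4) ((1 - κ) * r), ∀ i j,
          Q (u i z + d1 (η i) z) (u j z + d1 (η j) z) = (if i = j then 2 else 0) * m z) ∧
        (∀ z ∈ closedBall (0 : V4) r, ∀ s ∈ Icc (0 : ℝ) 1, ∀ i j,
          |Q (u i z + s • d1 (η i) z) (u j z + s • d1 (η j) z) / (2 * m z) -
            if i = j then 1 else 0| < ε) := by
  obtain ⟨K, hK1, hcut⟩ := exists_cut hκ0 hκ1
  -- the small parameter
  set τ := min (1 / (2 * K)) (ε / (96 * K * (2 * C0 + 1) + 1)) with hτ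
  have hτ0 : 0 < τ := by
    refine lt_min (by positivity) (by positivity)
  have hτ1 : 2 * K * τ ≤ 1 := by
    have : τ ≤ 1 / (2 * K) := min_le_left _ _
    calc 2 * K * τ ≤ 2 * K * (1 / (2 * K)) := by gcongr
      _ = 1 := by field_simp
  have hτ2 : 96 * K * (2 * C0 + 1) * τ ≤ ε := by
    have h1 : τ ≤ ε / (96 * K * (2 * C0 + 1) + 1) := min_le_right _ _
    calc 96 * K * (2 * C0 + 1) * τ ≤ (96 * K * (2 * C0 + 1) + 1) * τ := by nlinarith
      _ ≤ (96 * K * (2 * C0 + 1) + 1) * (ε / (96 * K * (2 * C0 + 1) + 1)) := by gcongr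
      _ = ε := by field_simp
  obtain ⟨δ1, hδ1, hgs⟩ := exists_gs (η := τ / (6 * C0)) (by positivity)
  refine ⟨min δ1 (ε / 32), lt_min hδ1 (by positivity), fun u m hu hcl hm hm0 hC hG => ?_⟩
  obtain ⟨P, hP1, hP2⟩ := hgs (fun k l => Q (u k 0) (u l 0) / 2)
    (fun k l => by rw [Q_comm]) (fun i j => (hG i j).trans_le (min_le_left _ _))
  -- the target forms
  set c : Fin 3 → L2 := fun i => ∑ k, P i k • u k 0 with hc
  set V : Fin 3 → V4 → L2 := fun i => pf (stP m) (fun _ => c i) with hV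
  have hVs : ∀ i, ContDiff ℝ ∞ (V i) := fun i => contDiff_pf (contDiff_stP hm) contDiff_const
  have hVc : ∀ i, Closed (V i) := fun i => closed_pf_const (contDiff_stP hm) _
  have hV0 : ∀ i, V i 0 = c i := by
    intro i
    show pull (Dm (stP m) 0) (c i) = c i
    rw [Dm_stP_zero hm hm0, pull_one]
  have hVQ : ∀ i j z, Q (V i z) (V j z) = (if i = j then 2 else 0) * m z := by
    intro i j z
    show Q (pull (Dm (stP m) z) (c i)) (pull (Dm (stP m) z) (c j)) = _
    rw [Q_pull, det_stP hm, hc, Q_sum_comb, hP2]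
    split_ifs <;> ring
  have hα0 : ∀ i, ‖V i 0 - u i 0‖ ≤ τ / 2 := by
    intro i
    rw [hV0]
    refine (comb_sub_le i hP1 hC).trans (le_of_eq ?_)
    field_simp; norm_num
  -- the radius
  have ev1 : ∀ i, ∀ᶠ z in 𝓝 (0 : V4), ‖V i z - u i z‖ < τ := by
    intro i
    have hcont : Continuous fun z => ‖V i z - u i z‖ :=
      ((hVs i).continuous.sub (hu i).continuous).norm
    exact hcont.continuousAt.eventually (gt_mem_nhds (by
      show ‖V i 0 - u i 0‖ < τ
      have := hα0 i; linarith))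
  have ev2 : ∀ i, ∀ᶠ z in 𝓝 (0 : V4), ‖u i z - u i 0‖ < τ := by
    intro i
    have hcont : Continuous fun z => ‖u i z - u i 0‖ := ((hu i).continuous.sub continuous_const).norm
    exact hcont.continuousAt.eventually (gt_mem_nhds (by
      show ‖u i 0 - u i 0‖ < τ
      rw [sub_self, norm_zero]; exact hτ0))
  have ev3 : ∀ᶠ z in 𝓝 (0 : V4), |m z - 1| < min (1 / 2) (ε / 4) := by
    have hcont : Continuous fun z => |m z - 1| := (hm.continuous.sub continuous_const).abs
    exact hcont.continuousAt.eventually (gt_mem_nhds (by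
      show |m 0 - 1| < _
      rw [hm0, sub_self, abs_zero]
      exact lt_min (by norm_num) (by positivity)))
  have ev := (eventually_all.2 ev1).and ((eventually_all.2 ev2).and ev3)
  obtain ⟨r1, hr1, hball⟩ := Metric.eventually_nhds_iff.1 ev
  refine ⟨r1 / 2, by positivity, fun r hr hrr => ?_⟩
  have hin : ∀ z ∈ closedBall (0 : V4) r, dist z 0 < r1 := by
    intro z hz
    have := mem_closedBall.1 hz
    linarith
  choose η hη1 hη2 hη3 hη4 using fun i => hcut (fun z => V i z - u i z) ((hVs i).sub (hu i))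
    (closed_subL (hVs i) (hu i) (hVc i) (hcl i)) r τ hr
    (fun z hz => ((hball (hin z hz)).1 i).le)
  have hmz : ∀ z ∈ closedBall (0 : V4) r, |m z - 1| < min (1 / 2) (ε / 4) := fun z hz =>
    (hball (hin z hz)).2.2
  refine ⟨η, hη1, hη2, ?_, ?_, ?_⟩
  · intro z hz
    have h1 := (hmz z hz).trans_le (min_le_left _ _)
    have h2 := abs_lt.1 h1
    constructor <;> linarith [h2.1, h2.2]
  · intro z hz i j
    have e : ∀ i, u i z + d1 (η i) z = V i z := by
      intro i
      rw [hη3 i z hz]; abel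
    rw [e, e, hVQ]
  · intro z hz s hs i j
    have hm1 := (hmz z hz)
    have hm2 := hm1.trans_le (min_le_left _ _)
    have hm3 := hm1.trans_le (min_le_right _ _)
    have hd : ∀ i, ‖(u i z + s • d1 (η i) z) - u i 0‖ ≤ 2 * K * τ := by
      intro i
      have e : (u i z + s • d1 (η i) z) - u i 0 = (u i z - u i 0) + s • d1 (η i) z := by abel
      rw [e]
      have h1 : ‖u i z - u i 0‖ < τ := (hball (hin z hz)).2.1 i
      have h2 : ‖s • d1 (η i) z‖ ≤ 1 * (K * τ) := by
        rw [norm_smul, Real.norm_eq_abs, abs_of_nonneg hs.1]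
        exact mul_le_mul hs.2 (hη4 i z hz) (norm_nonneg _) zero_le_one
      have h3 := norm_add_le (u i z - u i 0) (s • d1 (η i) z)
      nlinarith
    have h1 := abs_Q_sub_le (hC i) (hC j) (hd i) (hd j) hτ1
    have h2 := (hG i j).trans_le (min_le_right _ _)
    have h3 : |(if i = j then (1 : ℝ) else 0)| ≤ 1 := by split_ifs <;> simp
    refine final_est (m := m z) (a := 5 / 16 * ε) ?_ h3 ?_ ?_ (by linarith)
    · have := abs_lt.1 hm2; linarith [this.1]
    · have h4 : |Q (u i 0) (u j 0) - 2 * (if i = j then 1 else 0)| ≤ 2 * (ε / 32) := by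
        have e : Q (u i 0) (u j 0) - 2 * (if i = j then 1 else 0) =
          2 * (Q (u i 0) (u j 0) / 2 - if i = j then 1 else 0) := by ring
        rw [e, abs_mul, abs_two]
        linarith
      have h5 : 6 * (2 * K * τ) * (2 * C0 + 1) ≤ ε / 8 := by nlinarith
      calc |Q (u i z + s • d1 (η i) z) (u j z + s • d1 (η j) z) - 2 * (if i = j then 1 else 0)|
          = |(Q (u i z + s • d1 (η i) z) (u j z + s • d1 (η j) z) - Q (u i 0) (u j 0)) +
            (Q (u i 0) (u j 0) - 2 * (if i = j then 1 else 0))| := by congr 1; ring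
        _ ≤ ε / 8 + 2 * (ε / 32) := (abs_add_le _ _).trans (add_le_add (h1.trans h5) h4)
        _ ≤ _ := by linarith
    · linarith

end Vale.Agent.P247.SCY
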