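import Vale.Agent.P247.SCY.FL5

/-!
# P247, flattening: block F1, local flattening
-/

set_option linter.all false

open MeasureTheory Set Metric Filter Topology
open scoped ContDiff ENNReal NNReal BigOperators Topology

namespace Vale.Agent.P247.SCY
open Vale.Agent.P204 Vale.Agent.P204.T4 Vale.Agent.P204.GX

/-- `app T` as a continuous linear map -/
noncomputable def appCL (T : M4) : V4 →L[ℝ] V4 :=
  LinearMap.toContinuousLinearMap
    { toFun := app T
      map_add' := app_add T
      map_smul' := fun c v => app_smul T c v }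

theorem appCL_apply (T : M4) (v : V4) : appCL T v = app T v := rfl

theorem continuous_app (T : M4) : Continuous (app T) := (appCL T).continuous

theorem contDiff_aff (y0 : V4) (T : M4) : ContDiff ℝ ∞ (aff y0 T) := by
  have h : ContDiff ℝ ∞ (fun z : V4 => y0 + appCL T z) :=
    contDiff_const.add (appCL T).contDiff
  exact h

theorem Dm_aff (y0 : V4) (T : M4) (z : V4) : Dm (aff y0 T) z = T := by
  apply m4_ext
  intro v
  have h1 : HasFDerivAt (aff y0 T) (appCL T) z := ((appCL T).hasFDerivAt).const_add y0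
  rw [app_Dm h1.differentiableAt, h1.fderiv]
  rfl

/-- the inverse affine map -/
def affi (y0 : V4) (T' : M4) (y : V4) : V4 := app T' (y - y0)

theorem contDiff_affi (y0 : V4) (T' : M4) : ContDiff ℝ ∞ (affi y0 T') := by
  have h : ContDiff ℝ ∞ (fun z : V4 => appCL T' (z - y0)) :=
    (appCL T').contDiff.comp (contDiff_id.sub contDiff_const)
  exact h

theorem Dm_affi (y0 : V4) (T' : M4) (y : V4) : Dm (affi y0 T') y = T' := by
  apply m4_ext
  intro v
  have h1 : HasFDerivAt (affi y0 T') (appCL T') y := by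
    have h2 : HasFDerivAt (fun y : V4 => y - y0) (ContinuousLinearMap.id ℝ V4) y :=
      (hasFDerivAt_id y).sub_const y0
    exact ((appCL T').hasFDerivAt).comp y h2
  rw [app_Dm h1.differentiableAt, h1.fderiv]
  rfl

section
variable {T T' : M4} (h1 : ∀ v, app T (app T' v) = v) (h2 : ∀ v, app T' (app T v) = v)

include h2 in
theorem affi_aff (y0 z : V4) : affi y0 T' (aff y0 T z) = z := by
  unfold affi aff
  rw [add_sub_cancel_left, h2]

include h1 in
theorem aff_affi (y0 y : V4) : aff y0 T (affi y0 T' y) = y := by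
  unfold affi aff
  rw [h1, add_sub_cancel]

include h1 in
theorem pull_pull (A : L2) : pull T' (pull T A) = A := by
  rw [← pull_mm]
  have : mm T T' = oneM := m4_ext fun v => by rw [app_mm, h1, app_one]
  rw [this, pull_one]

include h1 in
theorem det_mul : det4 T * det4 T' = 1 := by
  rw [← det4_mm]
  have : mm T T' = oneM := m4_ext fun v => by rw [app_mm, h1, app_one]
  rw [this, det4_one]

end

theorem isCompact_ell (y0 : V4) (T : M4) (r : ℝ) : IsCompact (ell y0 T r) :=
  (isCompact_closedBall (0 : V4) r).image (contDiff_aff y0 T).continuous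

theorem mem_ell_iff {T T' : M4} (h1 : ∀ v, app T (app T' v) = v) (h2 : ∀ v, app T' (app T v) = v)
    {y0 y : V4} {r : ℝ} : y ∈ ell y0 T r ↔ affi y0 T' y ∈ closedBall (0 : V4) r := by
  constructor
  · rintro ⟨z, hz, rfl⟩
    rw [affi_aff h2]; exact hz
  · intro h
    exact ⟨_, h, aff_affi h1 y0 y⟩

theorem flatLocal : FlatLocalStatement := by
  intro κ ε C0 hκ0 hκ1 hε
  obtain ⟨δ, hδ, H⟩ := flat_ad κ ε (max C0 1) hκ0 hκ1 hε (le_max_right _ _)
  refine ⟨δ, hδ, fun u m y0 T T' hu hcl hm h1 h2 hdet hC hG => ?_⟩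
  set u' : Fin 3 → V4 → L2 := fun i => pf (aff y0 T) (u i) with hu'
  set m' : V4 → ℝ := fun z => det4 T * m (aff y0 T z) with hm'
  have a0 : aff y0 T 0 = y0 := by unfold aff; rw [app_zero, add_zero]
  have hu0 : ∀ i z, u' i z = pull T (u i (aff y0 T z)) := by
    intro i z
    show pull (Dm (aff y0 T) z) _ = _
    rw [Dm_aff]
  have hu's : ∀ i, ContDiff ℝ ∞ (u' i) := fun i => contDiff_pf (contDiff_aff y0 T) (hu i)
  have hu'c : ∀ i, Closed (u' i) := by
    intro i
    obtain ⟨β, hβ, hd⟩ := exists_prim (hu i) (hcl i)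
    show Closed (pf (aff y0 T) (u i))
    rw [← hd, ← CM.d1_pf1 (contDiff_aff y0 T) hβ]
    exact closed_d1 (contDiff_pf1 (contDiff_aff y0 T) hβ)
  have hm's : ContDiff ℝ ∞ m' := contDiff_const.mul (hm.comp (contDiff_aff y0 T))
  have hdd := det_mul h1
  have hT0 : det4 T ≠ 0 := left_ne_zero_of_mul_eq_one hdd
  have hm0 : m y0 ≠ 0 := right_ne_zero_of_mul_eq_one hdet
  obtain ⟨r0, hr0, H2⟩ := H u' m' hu's hu'c hm's (by rw [hm']; simp only [a0]; exact hdet)
    (fun i => by rw [hu0, a0]; exact (hC i).trans (le_max_left _ _))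
    (fun i j => by rw [hu0, hu0, a0]; exact hG i j)
  refine ⟨r0, hr0, fun r hr hrr => ?_⟩
  obtain ⟨η', k1, k2, k3, k4, k5⟩ := H2 r hr hrr
  -- the transported one-forms
  have hd1 : ∀ i y, d1 (pf1 (affi y0 T') (η' i)) y = pull T' (d1 (η' i) (affi y0 T' y)) := by
    intro i y
    rw [CM.d1_pf1 (contDiff_affi y0 T') (k1 i)]
    show pull (Dm (affi y0 T') y) _ = _
    rw [Dm_affi]
  have hue : ∀ i y, u i y = pull T' (u' i (affi y0 T' y)) := by
    intro i y
    rw [hu0, aff_affi h1, pull_pull h1]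
  have hme : ∀ y, m y = det4 T' * m' (affi y0 T' y) := by
    intro y
    show m y = det4 T' * (det4 T * m (aff y0 T (affi y0 T' y)))
    rw [aff_affi h1, ← mul_assoc, mul_comm (det4 T'), hdd, one_mul]
  have hcomb : ∀ (s : ℝ) i y, u i y + s • d1 (pf1 (affi y0 T') (η' i)) y =
      pull T' (u' i (affi y0 T' y) + s • d1 (η' i) (affi y0 T' y)) := by
    intro s i y
    rw [hd1, hue, pull_add, pull_smul]
  refine ⟨fun i => pf1 (affi y0 T') (η' i), fun i => contDiff_pf1 (contDiff_affi y0 T') (k1 i),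
    ?_, ?_, ?_, ?_⟩
  · intro i
    refine closure_minimal ?_ (isCompact_ell y0 T r).isClosed
    intro y hy
    rw [mem_ell_iff h1 h2]
    apply k2 i
    apply subset_tsupport
    intro h0
    apply hy
    show copp (η' i (affi y0 T' y)) _ = 0
    rw [h0, copp_zero]
  · intro y hy
    rw [mem_ell_iff h1 h2] at hy
    obtain ⟨l1, l2⟩ := k3 _ hy
    set q := m' (affi y0 T' y) with hq
    have hT' : det4 T' ≠ 0 := right_ne_zero_of_mul_eq_one hdd
    have e0 : m y0 = det4 T' := by
      apply mul_left_cancel₀ hT0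
      rw [hdet, hdd]
    have e1 : m y = det4 T' * q := hme y
    have hq0 : 0 < q := by linarith
    refine ⟨by rw [e1]; exact mul_ne_zero hT' hq0.ne', ?_, ?_⟩
    · rw [e1, e0, abs_mul, abs_of_pos hq0]
      have := abs_nonneg (det4 T')
      nlinarith
    · rw [e1, e0, abs_mul, abs_of_pos hq0]
      have := abs_nonneg (det4 T')
      nlinarith
  · intro y hy i j
    rw [mem_ell_iff h1 h2] at hy
    have l := k4 _ hy i j
    have c1 := hcomb 1
    simp only [one_smul] at c1
    rw [c1, c1, Q_pull, l, hme]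
    ring
  · intro y hy s hs i j
    rw [mem_ell_iff h1 h2] at hy
    have l := k5 _ hy s hs i j
    have hT' : det4 T' ≠ 0 := right_ne_zero_of_mul_eq_one hdd
    rw [hcomb, hcomb, Q_pull, hme]
    have e : det4 T' * Q (u' i (affi y0 T' y) + s • d1 (η' i) (affi y0 T' y))
        (u' j (affi y0 T' y) + s • d1 (η' j) (affi y0 T' y)) /
        (2 * (det4 T' * m' (affi y0 T' y))) =
        Q (u' i (affi y0 T' y) + s • d1 (η' i) (affi y0 T' y))
        (u' j (affi y0 T' y) + s • d1 (η' j) (affi y0 T' y)) / (2 * m' (affi y0 T' y)) := by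
      rw [show 2 * (det4 T' * m' (affi y0 T' y)) = det4 T' * (2 * m' (affi y0 T' y)) by ring,
        mul_div_mul_left _ _ hT']
    rw [e]
    exact l

end Vale.Agent.P247.SCY
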