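import Vale.Agent.P247.SCY.FG5

/-!
# P247: diffeomorphisms of `V4` close to the identity, and unimodular parametrisations
-/

set_option linter.all false

open scoped BigOperators ContDiff Topology Manifold ENNReal NNReal
open Set MeasureTheory Metric Filter

namespace Vale.Agent.P247.SCY
open Vale.Agent.P204 Vale.Agent.P204.T4 Vale.Agent.P204.Mfd Vale.Agent.P204.GX

theorem exists_diffeo {g : V4 → V4} (hg : ContDiff ℝ ∞ g)
    (hL : ∀ y y', ‖g y - g y'‖ ≤ 1 / 2 * ‖y - y'‖) :
    ∃ (E : V4 ≃ₜ V4), (∀ y, E y = y + g y) ∧ ContDiff ℝ ∞ E.symm := by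
  set f : V4 → V4 := fun y => y + g y with hf
  have hfs : ContDiff ℝ ∞ f := contDiff_id.add hg
  have hexp : ∀ y y' : V4, ‖y - y'‖ ≤ 2 * ‖f y - f y'‖ := by
    intro y y'
    have h1 : y - y' = (f y - f y') - (g y - g y') := by
      show y - y' = ((y + g y) - (y' + g y')) - (g y - g y')
      abel
    have h2 : ‖y - y'‖ ≤ ‖f y - f y'‖ + ‖g y - g y'‖ := by
      conv_lhs => rw [h1]
      exact norm_sub_le _ _
    have := hL y y'
    linarith only [h2, this]
  have hinj : Function.Injective f := by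
    intro y y' h
    have := hexp y y'
    rw [h, sub_self, norm_zero, mul_zero] at this
    exact sub_eq_zero.1 (norm_le_zero_iff.1 this)
  have hsurj : Function.Surjective f := by
    intro w
    have hc : ContractingWith (1 / 2 : NNReal) (fun y : V4 => w - g y) := by
      refine ⟨by norm_num, LipschitzWith.of_dist_le_mul fun y y' => ?_⟩
      rw [dist_eq_norm, dist_eq_norm]
      have h1 : (w - g y) - (w - g y') = - (g y - g y') := by abel
      rw [h1, norm_neg]
      have := hL y y'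
      simpa only [one_div, NNReal.coe_inv, NNReal.coe_ofNat, ge_iff_le] using this
    refine ⟨ContractingWith.fixedPoint _ hc, ?_⟩
    have hfix : ContractingWith.fixedPoint _ hc = w - g (ContractingWith.fixedPoint _ hc) :=
      (ContractingWith.fixedPoint_isFixedPt hc).symm
    exact eq_sub_iff_add_eq.1 hfix
  set e : V4 ≃ V4 := Equiv.ofBijective f ⟨hinj, hsurj⟩ with he
  have hecont : Continuous e := hfs.continuous
  have hesymm : Continuous e.symm := by
    have : LipschitzWith 2 e.symm := by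
      refine LipschitzWith.of_dist_le_mul fun y y' => ?_
      rw [dist_eq_norm, dist_eq_norm]
      have h1 := hexp (e.symm y) (e.symm y')
      have h2 : ∀ y, f (e.symm y) = y := fun y => e.apply_symm_apply y
      rw [h2, h2] at h1
      simpa only [NNReal.coe_ofNat, ge_iff_le] using h1
    exact this.continuous
  set eh : V4 ≃ₜ V4 := ⟨e, hecont, hesymm⟩ with heh
  have hlip : LipschitzWith (1 / 2 : ℝ≥0) g := by
    refine LipschitzWith.of_dist_le_mul fun y y' => ?_
    rw [dist_eq_norm, dist_eq_norm]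
    have := hL y y'
    simpa only [one_div, NNReal.coe_inv, NNReal.coe_ofNat, ge_iff_le] using this
  have hfd : ∀ y, HasFDerivAt f (ContinuousLinearMap.id ℝ V4 + fderiv ℝ g y) y := fun y =>
    (hasFDerivAt_id y).add (hg.differentiable (by simp) y).hasFDerivAt
  have hlow : ∀ y w, ‖w‖ ≤ 2 * ‖fderiv ℝ f y w‖ := by
    intro y w
    rw [(hfd y).fderiv]
    set D := (ContinuousLinearMap.id ℝ V4 + fderiv ℝ g y) w with hDdef
    have hDw : D = w + fderiv ℝ g y w := rfl
    have h2 : w = D - fderiv ℝ g y w := by rw [hDw]; abel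
    have h4 : ‖fderiv ℝ g y‖ ≤ 1 / 2 := by
      have := norm_fderiv_le_of_lipschitz ℝ hlip (x₀ := y)
      simpa using this
    have h5 : ‖fderiv ℝ g y w‖ ≤ 1 / 2 * ‖w‖ :=
      ((fderiv ℝ g y).le_opNorm w).trans (by gcongr)
    have h6 : ‖w‖ ≤ ‖D‖ + ‖fderiv ℝ g y w‖ := by
      conv_lhs => rw [h2]
      exact norm_sub_le _ _
    linarith only [h5, h6]
  have hder : ∀ y, Function.Injective (fderiv ℝ f y) := by
    intro y
    rw [injective_iff_map_eq_zero]
    intro w hw
    have := hlow y w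
    rw [hw, norm_zero, mul_zero] at this
    exact norm_le_zero_iff.1 this
  set D : V4 → (V4 ≃L[ℝ] V4) := fun y =>
    (LinearEquiv.ofInjectiveEndo (fderiv ℝ f y : V4 →ₗ[ℝ] V4) (hder y)).toContinuousLinearEquiv
    with hD
  have hD' : ∀ y, HasFDerivAt eh (D y : V4 →L[ℝ] V4) y := by
    intro y
    have h1 : (D y : V4 →L[ℝ] V4) = fderiv ℝ f y := by
      ext w; rfl
    rw [h1]
    exact (hfs.differentiable (by simp) y).hasFDerivAt
  exact ⟨eh, fun y => rfl, eh.contDiff_symm hD' hfs⟩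

/-- cutting off a map which vanishes to second order -/
theorem exists_cutmap {g : V4 → V4} (hg : ContDiff ℝ ∞ g) (h0 : g 0 = 0) (h1 : fderiv ℝ g 0 = 0) :
    ∃ G : V4 → V4, ContDiff ℝ ∞ G ∧ (∀ y y', ‖G y - G y'‖ ≤ 1 / 2 * ‖y - y'‖) ∧
      ∃ ρ : ℝ, 0 < ρ ∧ ∀ y, ‖y‖ ≤ ρ → G y = g y := by
  -- the bump
  set χ : ContDiffBump (0 : V4) := ⟨1, 2, one_pos, one_lt_two⟩ with hχ
  have hχs := contDiff_bump χ
  obtain ⟨K, hK⟩ := (χ.hasCompactSupport.fderiv (𝕜 := ℝ)).exists_bound_of_continuous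
    (hχs.continuous_fderiv (by simp))
  have hK0 : 0 ≤ K := (norm_nonneg _).trans (hK 0)
  -- smallness of the derivative near the origin
  set s := 1 / (2 * (1 + 2 * K)) with hs
  have hs0 : 0 < s := by positivity
  have hcont : Continuous fun y => ‖fderiv ℝ g y‖ := (hg.continuous_fderiv (by simp)).norm
  have hev : ∀ᶠ y in 𝓝 (0 : V4), ‖fderiv ℝ g y‖ < s :=
    hcont.continuousAt.eventually (gt_mem_nhds (by
      show ‖fderiv ℝ g 0‖ < s
      rw [h1, norm_zero]; exact hs0))
  obtain ⟨R, hR, hball⟩ := Metric.eventually_nhds_iff.1 hev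
  set r := R / 4 with hr
  have hr0 : 0 < r := by positivity
  have hgd : ∀ y, ‖y‖ ≤ 2 * r → ‖fderiv ℝ g y‖ ≤ s := by
    intro y hy
    refine (hball ?_).le
    rw [dist_zero_right]; linarith
  have hgn : ∀ y, ‖y‖ ≤ 2 * r → ‖g y‖ ≤ s * ‖y‖ := by
    intro y hy
    have h2 := (convex_closedBall (0 : V4) (2 * r)).norm_image_sub_le_of_norm_fderiv_le (𝕜 := ℝ)
      (f := g) (C := s) (fun z _ => hg.differentiable (by simp) z) (fun z hz => hgd z (by
        rwa [mem_closedBall_zero_iff] at hz)) (mem_closedBall_self (by positivity))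
      (mem_closedBall_zero_iff.2 hy)
    rwa [h0, sub_zero, sub_zero] at h2
  set G : V4 → V4 := fun y => cutr χ r y • g y with hG
  have hGs : ContDiff ℝ ∞ G := (contDiff_cutr χ r).smul hg
  have hcd : ∀ y, HasFDerivAt (cutr χ r) ((fderiv ℝ χ (r⁻¹ • y)).comp
      (r⁻¹ • ContinuousLinearMap.id ℝ V4)) y := by
    intro y
    have h2 : HasFDerivAt (fun z : V4 => r⁻¹ • z) (r⁻¹ • ContinuousLinearMap.id ℝ V4) y :=
      (hasFDerivAt_id y).const_smul r⁻¹
    exact ((hχs.differentiable (by simp) _)).hasFDerivAt.comp y h2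
  have hcn : ∀ y, ‖(fderiv ℝ χ (r⁻¹ • y)).comp (r⁻¹ • ContinuousLinearMap.id ℝ V4)‖ ≤ K * r⁻¹ := by
    intro y
    refine (ContinuousLinearMap.opNorm_comp_le _ _).trans ?_
    have : ‖r⁻¹ • ContinuousLinearMap.id ℝ V4‖ ≤ r⁻¹ := by
      rw [norm_smul, norm_inv, Real.norm_eq_abs, abs_of_pos hr0]
      have := ContinuousLinearMap.norm_id_le (𝕜 := ℝ) (E := V4)
      have h3 : 0 < r⁻¹ := by positivity
      nlinarith
    exact mul_le_mul (hK _) this (norm_nonneg _) hK0
  have hzero : ∀ y, 2 * r ≤ ‖y‖ → cutr χ r y = 0 := by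
    intro y hy
    apply χ.zero_of_le_dist
    rw [dist_zero_right, norm_smul, norm_inv, Real.norm_eq_abs, abs_of_pos hr0]
    show 2 ≤ r⁻¹ * ‖y‖
    rw [le_inv_mul_iff₀ hr0]; linarith
  have hGd : ∀ y, ‖fderiv ℝ G y‖ ≤ 1 / 2 := by
    intro y
    rcases le_or_gt ‖y‖ (2 * r) with hy | hy
    · have hfd : HasFDerivAt G (cutr χ r y • fderiv ℝ g y + ((fderiv ℝ χ (r⁻¹ • y)).comp
          (r⁻¹ • ContinuousLinearMap.id ℝ V4)).smulRight (g y)) y :=
        (hcd y).smul (hg.differentiable (by simp) y).hasFDerivAt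
      rw [hfd.fderiv]
      have hc := cutr_mem χ r y
      have e1 : ‖cutr χ r y • fderiv ℝ g y‖ ≤ 1 * s := by
        rw [norm_smul, Real.norm_eq_abs, abs_of_nonneg hc.1]
        exact mul_le_mul hc.2 (hgd y hy) (norm_nonneg _) zero_le_one
      have e2 : ‖((fderiv ℝ χ (r⁻¹ • y)).comp
          (r⁻¹ • ContinuousLinearMap.id ℝ V4)).smulRight (g y)‖ ≤ (K * r⁻¹) * (s * (2 * r)) := by
        rw [ContinuousLinearMap.norm_smulRight_apply]
        refine mul_le_mul (hcn y) ((hgn y hy).trans ?_) (norm_nonneg _) (by positivity)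
        gcongr
      have e3 : (K * r⁻¹) * (s * (2 * r)) = 2 * K * s := by field_simp
      calc _ ≤ _ := norm_add_le _ _
        _ ≤ 1 * s + 2 * K * s := add_le_add e1 (e2.trans e3.le)
        _ = (1 + 2 * K) * s := by ring
        _ = 1 / 2 := by rw [hs]; field_simp
        _ ≤ _ := le_rfl
    · have hz : G =ᶠ[𝓝 y] fun _ => 0 := by
        have hop : IsOpen {z : V4 | 2 * r < ‖z‖} := isOpen_lt continuous_const continuous_norm
        filter_upwards [hop.mem_nhds hy] with z hz
        show cutr χ r z • g z = 0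
        rw [hzero z (le_of_lt hz), zero_smul]
      rw [hz.fderiv_eq, fderiv_fun_const]
      simp
  refine ⟨G, hGs, fun y y' => ?_, r, hr0, fun y hy => ?_⟩
  · exact convex_univ.norm_image_sub_le_of_norm_fderiv_le (𝕜 := ℝ) (f := G)
      (fun z _ => hGs.differentiable (by simp) z) (fun z _ => hGd z) (mem_univ y') (mem_univ y)
  · show cutr χ r y • g y = g y
    have : cutr χ r y = 1 := by
      apply χ.one_of_mem_closedBall
      rw [mem_closedBall_zero_iff, norm_smul, norm_inv, Real.norm_eq_abs, abs_of_pos hr0]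
      show r⁻¹ * ‖y‖ ≤ 1
      rw [inv_mul_le_iff₀ hr0]; linarith
    rw [this, one_smul]

end Vale.Agent.P247.SCY
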