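import Vale.Agent.P247.SCY.FM1

/-!
# P247: unimodular parametrisations
-/

set_option linter.all false

open scoped BigOperators ContDiff Topology Manifold ENNReal NNReal
open Set MeasureTheory Metric Filter

namespace Vale.Agent.P247.SCY
open Vale.Agent.P204 Vale.Agent.P204.T4 Vale.Agent.P204.Mfd Vale.Agent.P204.GX

section
variable {X : Type} [TopologicalSpace X] [ChartedSpace E4 X]

/-- composition of a parametrisation with a diffeomorphism of `V4` -/
noncomputable def preD (p : Par X) (E : V4 ≃ₜ V4) (h1 : ContDiff ℝ ∞ E) (h2 : ContDiff ℝ ∞ E.symm) :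
    Par X where
  e := p.e
  he := p.he
  g := fun y => p.g (E y)
  gi := fun z => E.symm (p.gi z)
  g_smooth := p.g_smooth.comp h1
  gi_smooth := by
    have : range (fun y => p.g (E y)) = range p.g := by
      apply Subset.antisymm
      · rintro _ ⟨y, rfl⟩; exact ⟨_, rfl⟩
      · rintro _ ⟨y, rfl⟩; exact ⟨E.symm y, by simp⟩
    rw [this]
    exact h2.comp_contDiffOn p.gi_smooth
  emb := p.emb.comp E.isOpenEmbedding
  rng := by
    rintro _ ⟨y, rfl⟩
    exact p.g_mem _
  left_inv := by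
    intro y
    simp only [p.left_inv, Homeomorph.symm_apply_apply]

theorem preD_psi (p : Par X) (E : V4 ≃ₜ V4) (h1 : ContDiff ℝ ∞ E) (h2 : ContDiff ℝ ∞ E.symm)
    (y : V4) : (preD p E h1 h2).psi y = p.psi (E y) := rfl

variable [IsManifold (𝓡 4) ∞ X]

theorem preD_dpsi (p : Par X) (E : V4 ≃ₜ V4) (h1 : ContDiff ℝ ∞ E) (h2 : ContDiff ℝ ∞ E.symm)
    (y : V4) : (preD p E h1 h2).dpsi y = (p.dpsi (E y)).comp (fderiv ℝ E y) := by
  have h3 := mfderiv_comp (I := 𝓘(ℝ, V4)) (I' := 𝓘(ℝ, V4)) (I'' := 𝓡 4) (g := p.psi) (f := E) y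
    (p.mdiff_psi (E y)) (h1.differentiable (by simp) y).mdifferentiableAt
  rw [mfderiv_eq_fderiv] at h3
  exact h3

theorem preD_m4 (p : Par X) (E : V4 ≃ₜ V4) (h1 : ContDiff ℝ ∞ E) (h2 : ContDiff ℝ ∞ E.symm)
    (μ : HS.Form X 4) (y : V4) :
    m4 (preD p E h1 h2) μ y = det4 (Dm E y) * m4 p μ (E y) := by
  unfold m4
  have e := top_comp2 (ax μ (p.psi (E y))) (p.dpsi (E y)) (fderiv ℝ E y)
  have e2 : matL (fderiv ℝ E y) = Dm E y := by
    apply mat_ext
    intro v
    rw [app_matL, app_Dm (h1.differentiable (by simp) y)]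
  rw [e2] at e
  rw [← e, preD_dpsi, preD_psi]
  rfl

theorem preD_cp (p : Par X) (E : V4 ≃ₜ V4) (h1 : ContDiff ℝ ∞ E) (h2 : ContDiff ℝ ∞ E.symm)
    (α : HS.Form X 2) (y : V4) :
    cp (preD p E h1 h2) α y = pull (Dm E y) (cp p α (E y)) := by
  apply ext_ev
  intro v w
  rw [ev_pull, ev_cp, ev_cp, preD_dpsi, app_Dm (h1.differentiable (by simp) y),
    app_Dm (h1.differentiable (by simp) y)]
  rfl

/-- every parametrisation with positive density at `0` can be changed near `0`, with the same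
one-jet at `0`, to have constant density near `0` -/
theorem exists_unimodular (p : Par X) {μ : HS.Form X 4} (hμ : HS.Volume μ) (hm : m4 p μ 0 ≠ 0) :
    ∃ q : Par X, q.psi 0 = p.psi 0 ∧ (∀ α : HS.Form X 2, cp q α 0 = cp p α 0) ∧
      ∃ ρ : ℝ, 0 < ρ ∧ ∀ y, ‖y‖ < ρ → m4 q μ y = m4 p μ 0 := by
  set m : V4 → ℝ := fun y => m4 p μ y / m4 p μ 0 with hmd
  have hms : ContDiff ℝ ∞ m := (contDiff_m4 p hμ.smooth).div_const _
  have hm0 : m 0 = 1 := div_self hm
  -- the perturbation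
  set g : V4 → V4 := fun y => stP m y - y with hg
  have hgs : ContDiff ℝ ∞ g := (contDiff_stP hms).sub contDiff_id
  have hP0 : stP m 0 = 0 := by
    funext i
    fin_cases i
    · exact stF_zero m (z := 0) rfl
    · rfl
    · rfl
    · rfl
  have hg0 : g 0 = 0 := by
    show stP m 0 - 0 = 0
    rw [hP0, sub_zero]
  have hPd : fderiv ℝ (stP m) 0 = ContinuousLinearMap.id ℝ V4 := by
    ext v i
    rw [← app_Dm ((contDiff_stP hms).differentiable (by simp) 0), Dm_stP_zero hms hm0, app_one]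
    rfl
  have hgd : fderiv ℝ g 0 = 0 := by
    have h1 : HasFDerivAt g (fderiv ℝ (stP m) 0 - ContinuousLinearMap.id ℝ V4) 0 :=
      ((contDiff_stP hms).differentiable (by simp) 0).hasFDerivAt.sub (hasFDerivAt_id 0)
    rw [h1.fderiv, hPd, sub_self]
  obtain ⟨G, hGs, hGL, ρ, hρ, hGe⟩ := exists_cutmap hgs hg0 hgd
  obtain ⟨E, hE, hEs⟩ := exists_diffeo hGs hGL
  have hEf : ContDiff ℝ ∞ E := by
    have : (E : V4 → V4) = fun y => y + G y := funext hE
    rw [this]
    exact contDiff_id.add hGs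
  have hE' : ∀ y, ‖y‖ ≤ ρ → E y = stP m y := by
    intro y hy
    rw [hE, hGe y hy]
    show y + (stP m y - y) = stP m y
    abel
  have hE0 : E 0 = 0 := by rw [hE' 0 (by simp [hρ.le]), hP0]
  have hE0' : E.symm 0 = 0 := by
    have := E.symm_apply_apply 0
    rwa [hE0] at this
  -- the derivative of the inverse
  have hinv : ∀ y, mm (Dm E (E.symm y)) (Dm E.symm y) = oneM := by
    intro y
    have h1 := Dm_comp (f := E.symm) (g := E) (y := y) (hEf.differentiable (by simp) _)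
      (hEs.differentiable (by simp) _)
    have h2 : (fun x => E (E.symm x)) = fun x => x := funext fun x => E.apply_symm_apply x
    rw [h2, Dm_id] at h1
    exact h1.symm
  have hDE : ∀ y, ‖y‖ < ρ → Dm E y = Dm (stP m) y := by
    intro y hy
    apply Dm_congr
    have hop : IsOpen {z : V4 | ‖z‖ < ρ} := isOpen_lt continuous_norm continuous_const
    filter_upwards [hop.mem_nhds hy] with z hz
    exact hE' z (le_of_lt hz)
  refine ⟨preD p E.symm hEs (by rw [Homeomorph.symm_symm]; exact hEf), ?_, ?_, ?_⟩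
  · rw [preD_psi, hE0']
  · intro α
    rw [preD_cp, hE0']
    have h1 := hinv 0
    rw [hE0', hDE 0 (by simpa using hρ), Dm_stP_zero hms hm0, one_mm] at h1
    rw [h1, pull_one]
  · have hcont : ContinuousAt (fun y => ‖E.symm y‖) 0 := E.symm.continuous.norm.continuousAt
    obtain ⟨ρ', hρ', hball⟩ := Metric.eventually_nhds_iff.1 (hcont.eventually (gt_mem_nhds (by
      show ‖E.symm 0‖ < ρ
      rw [hE0', norm_zero]; exact hρ)))
    refine ⟨ρ', hρ', fun y hy => ?_⟩
    have hy' : ‖E.symm y‖ < ρ := hball (by rwa [dist_zero_right])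
    rw [preD_m4]
    have h1 := congrArg det4 (hinv y)
    rw [det4_mm, det4_one, hDE _ hy', det_stP hms] at h1
    have h2 : m4 p μ (E.symm y) = m (E.symm y) * m4 p μ 0 := by
      rw [hmd]; field_simp
    rw [h2, ← mul_assoc, mul_comm (det4 _), h1, one_mul]

variable [CompactSpace X] [T2Space X] [Nonempty X]

/-- an adapted parametrisation with constant density near `0` -/
theorem exists_adapted1 {μ : HS.Form X 4} (hμ : HS.Volume μ) {w : Fin 3 → HS.Form X 2}
    (hw : HS.Hypersymplectic μ w) (x : X) : ∃ p : Par X, p.psi 0 = x ∧ 0 < m4 p μ 0 ∧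
      pP J0 (cp p (w 0) 0) = F0 ∧ pM J0 (cp p (w 1) 0) = cp p (w 1) 0 ∧
      pM J0 (cp p (w 2) 0) = cp p (w 2) 0 ∧
      ∃ ρ : ℝ, 0 < ρ ∧ ∀ y, ‖y‖ < ρ → m4 p μ y = m4 p μ 0 := by
  obtain ⟨p, h1, h2, h3, h4, h5⟩ := exists_adapted hw x
  obtain ⟨q, k1, k2, ρ, hρ, k3⟩ := exists_unimodular p hμ h2.ne'
  have hq : m4 q μ 0 = m4 p μ 0 := k3 0 (by simpa using hρ)
  refine ⟨q, by rw [k1, h1], by rw [hq]; exact h2, by rw [k2]; exact h3, by rw [k2]; exact h4,
    by rw [k2]; exact h5, ρ, hρ, fun y hy => ?_⟩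
  rw [hq]; exact k3 y hy

end

end Vale.Agent.P247.SCY
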