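import Vale.Agent.P247.SCY.HOM

/-!
# P247, flattening: the Cauchy transform with parameters
-/

set_option linter.all false

open MeasureTheory Set Metric Filter Topology
open scoped ContDiff BigOperators Topology

namespace Vale.Agent.P247.SCY
open Vale.Agent.P204 Vale.Agent.P204.T4 Vale.Agent.P204.GX

/-- the vector `r cos θ a + r sin θ b` -/
noncomputable def wv (a b : V4) (s : ℝ × ℝ) : V4 :=
  (s.1 * Real.cos s.2) • a + (s.1 * Real.sin s.2) • b

theorem wv_smooth (a b : V4) : ContDiff ℝ ∞ (wv a b) := by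
  unfold wv
  have h1 : ContDiff ℝ ∞ fun s : ℝ × ℝ => s.1 * Real.cos s.2 :=
    contDiff_fst.mul (Real.contDiff_cos.comp contDiff_snd)
  have h2 : ContDiff ℝ ∞ fun s : ℝ × ℝ => s.1 * Real.sin s.2 :=
    contDiff_fst.mul (Real.contDiff_sin.comp contDiff_snd)
  exact (h1.smul contDiff_const).add (h2.smul contDiff_const)

/-- the factor `e^{-iθ}` -/
noncomputable def ef (θ : ℝ) : ℂ := Real.cos θ - Real.sin θ * Complex.I

theorem ef_smooth : ContDiff ℝ ∞ ef := by
  unfold ef
  have h1 : ContDiff ℝ ∞ fun θ : ℝ => ((Real.cos θ : ℝ) : ℂ) :=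
    Complex.ofRealCLM.contDiff.comp Real.contDiff_cos
  have h2 : ContDiff ℝ ∞ fun θ : ℝ => ((Real.sin θ : ℝ) : ℂ) :=
    Complex.ofRealCLM.contDiff.comp Real.contDiff_sin
  exact h1.sub (h2.mul contDiff_const)

/-- the region of integration -/
def Kr (R : ℝ) : Set (ℝ × ℝ) := Icc 0 R ×ˢ Icc 0 (2 * Real.pi)

theorem Kr_compact (R : ℝ) : IsCompact (Kr R) := isCompact_Icc.prod isCompact_Icc

/-- the measure -/
noncomputable def nuR (R : ℝ) : Measure (ℝ × ℝ) := volume.restrict (Kr R)

theorem nuR_compl (R : ℝ) : nuR R (Kr R)ᶜ = 0 := by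
  unfold nuR
  rw [Measure.restrict_apply (Kr_compact R).measurableSet.compl]
  simp

instance nuR_finite (R : ℝ) : IsFiniteMeasure (nuR R) :=
  ⟨by unfold nuR; rw [Measure.restrict_apply_univ]; exact (Kr_compact R).measure_lt_top⟩

/-- the Cauchy transform in the plane of `a, b`, of a function vanishing for large arguments -/
noncomputable def CT (a b : V4) (R : ℝ) (G : V4 → ℂ) (y : V4) : ℂ :=
  -(1 / (2 * Real.pi) : ℂ) * ∫ s, ef s.2 * G (y + wv a b s) ∂(nuR R)

/-- twice the `∂̄`-operator in the plane of `a, b` -/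
noncomputable def Db (a b : V4) (f : V4 → ℂ) (y : V4) : ℂ :=
  fderiv ℝ f y a + Complex.I * fderiv ℝ f y b

section
variable {a b : V4} {G : V4 → ℂ}

theorem integrand_smooth (hG : ContDiff ℝ ∞ G) :
    ContDiff ℝ ∞ (Function.uncurry fun (s : ℝ × ℝ) (y : V4) => ef s.2 * G (y + wv a b s)) := by
  have h1 : ContDiff ℝ ∞ fun p : (ℝ × ℝ) × V4 => ef p.1.2 :=
    ef_smooth.comp (contDiff_snd.comp contDiff_fst)
  have h2 : ContDiff ℝ ∞ fun p : (ℝ × ℝ) × V4 => G (p.2 + wv a b p.1) :=
    hG.comp (contDiff_snd.add ((wv_smooth a b).comp contDiff_fst))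
  exact h1.mul h2

theorem CT_smooth (R : ℝ) (hG : ContDiff ℝ ∞ G) : ContDiff ℝ ∞ (CT a b R G) := by
  unfold CT
  exact contDiff_const.mul
    (contDiff_integral_param (nuR R) (Kr_compact R) (nuR_compl R) (integrand_smooth hG))

theorem integrable_cont (R : ℝ) {f : ℝ × ℝ → ℂ} (hf : Continuous f) : Integrable f (nuR R) := by
  unfold nuR
  exact hf.continuousOn.integrableOn_compact (Kr_compact R)

theorem CT_fderiv (R : ℝ) (hG : ContDiff ℝ ∞ G) (y v : V4) :
    fderiv ℝ (CT a b R G) y v = CT a b R (fun y => fderiv ℝ G y v) y := by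
  have hG' : ContDiff ℝ ∞ (fderiv ℝ G) := hG.fderiv_right (m := ∞) (by simp)
  have h1 := hasFDerivAt_integral_param (nuR R) (Kr_compact R) (nuR_compl R)
    (integrand_smooth (a := a) (b := b) hG) y
  have h2 : ∀ s : ℝ × ℝ, fderiv ℝ (fun y => ef s.2 * G (y + wv a b s)) y =
      ef s.2 • fderiv ℝ G (y + wv a b s) := by
    intro s
    have h3 : HasFDerivAt (fun y => G (y + wv a b s)) (fderiv ℝ G (y + wv a b s)) y := by
      have h5 : HasFDerivAt (fun y : V4 => y + wv a b s) (ContinuousLinearMap.id ℝ V4) y :=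
        (hasFDerivAt_id y).add_const (wv a b s)
      have h6 := ((hG.differentiable (by simp)) (y + wv a b s)).hasFDerivAt.comp y h5
      rw [ContinuousLinearMap.comp_id] at h6
      exact h6
    exact (h3.const_mul (ef s.2)).fderiv
  have h4 : HasFDerivAt (CT a b R G) (-(1 / (2 * Real.pi) : ℂ) •
      ∫ s, fderiv ℝ (fun y => ef s.2 * G (y + wv a b s)) y ∂(nuR R)) y := h1.const_mul _
  rw [h4.fderiv]
  simp only [h2]
  have hc : Continuous fun s : ℝ × ℝ => ef s.2 • fderiv ℝ G (y + wv a b s) :=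
    (ef_smooth.continuous.comp continuous_snd).smul
      (hG'.continuous.comp (continuous_const.add (wv_smooth a b).continuous))
  have hint : Integrable (fun s : ℝ × ℝ => ef s.2 • fderiv ℝ G (y + wv a b s)) (nuR R) := by
    unfold nuR
    exact hc.continuousOn.integrableOn_compact (Kr_compact R)
  show -(1 / (2 * Real.pi) : ℂ) • ((∫ s, ef s.2 • fderiv ℝ G (y + wv a b s) ∂(nuR R)) v) = _
  rw [ContinuousLinearMap.integral_apply hint]
  rfl

theorem nuR_prod (R : ℝ) : nuR R =
    (volume.restrict (Icc (0 : ℝ) R)).prod (volume.restrict (Icc (0 : ℝ) (2 * Real.pi))) := by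
  unfold nuR Kr
  rw [Measure.prod_restrict]; rfl

theorem wv_hasDerivAt_fst (a b : V4) (r θ : ℝ) :
    HasDerivAt (fun r => wv a b (r, θ)) (Real.cos θ • a + Real.sin θ • b) r := by
  unfold wv
  have h1 : HasDerivAt (fun r : ℝ => r * Real.cos θ) (Real.cos θ) r := by
    simpa using (hasDerivAt_id r).mul_const (Real.cos θ)
  have h2 : HasDerivAt (fun r : ℝ => r * Real.sin θ) (Real.sin θ) r := by
    simpa using (hasDerivAt_id r).mul_const (Real.sin θ)
  exact (h1.smul_const a).add (h2.smul_const b)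

theorem wv_hasDerivAt_snd (a b : V4) (r θ : ℝ) :
    HasDerivAt (fun θ => wv a b (r, θ)) ((r * -Real.sin θ) • a + (r * Real.cos θ) • b) θ := by
  unfold wv
  have h1 : HasDerivAt (fun θ : ℝ => r * Real.cos θ) (r * -Real.sin θ) θ :=
    (Real.hasDerivAt_cos θ).const_mul r
  have h2 : HasDerivAt (fun θ : ℝ => r * Real.sin θ) (r * Real.cos θ) θ :=
    (Real.hasDerivAt_sin θ).const_mul r
  exact (h1.smul_const a).add (h2.smul_const b)

/-- **The Cauchy-Pompeiu formula.** -/
theorem Db_CT {R : ℝ} (hR : 0 ≤ R) (hG : ContDiff ℝ ∞ G) (y : V4) :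
    Db a b (CT a b R G) y = G y - (1 / (2 * Real.pi) : ℂ) *
      ∫ θ in Icc (0 : ℝ) (2 * Real.pi), G (y + wv a b (R, θ)) := by
  have hG' : ContDiff ℝ ∞ (fderiv ℝ G) := hG.fderiv_right (m := ∞) (by simp)
  have hpi : (0 : ℝ) ≤ 2 * Real.pi := by positivity
  have cG : ∀ v : V4, Continuous fun s : ℝ × ℝ => fderiv ℝ G (y + wv a b s) v := fun v =>
    (hG'.continuous.comp (continuous_const.add (wv_smooth a b).continuous)).clm_apply
      continuous_const
  have ccos : Continuous fun s : ℝ × ℝ => ((Real.cos s.2 : ℝ) : ℂ) :=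
    Complex.continuous_ofReal.comp (Real.continuous_cos.comp continuous_snd)
  have csin : Continuous fun s : ℝ × ℝ => ((Real.sin s.2 : ℝ) : ℂ) :=
    Complex.continuous_ofReal.comp (Real.continuous_sin.comp continuous_snd)
  set A : ℝ × ℝ → ℂ := fun s => (Real.cos s.2 : ℂ) * fderiv ℝ G (y + wv a b s) a +
    (Real.sin s.2 : ℂ) * fderiv ℝ G (y + wv a b s) b with hA
  set B : ℝ × ℝ → ℂ := fun s => (Real.cos s.2 : ℂ) * fderiv ℝ G (y + wv a b s) b -
    (Real.sin s.2 : ℂ) * fderiv ℝ G (y + wv a b s) a with hB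
  have cA : Continuous A := (ccos.mul (cG a)).add (csin.mul (cG b))
  have cB : Continuous B := (ccos.mul (cG b)).sub (csin.mul (cG a))
  -- the two integrals
  have iA : ∫ s, A s ∂(nuR R) = (∫ θ in Icc (0 : ℝ) (2 * Real.pi), G (y + wv a b (R, θ))) -
      (2 * Real.pi) * G y := by
    have hint : Integrable A ((volume.restrict (Icc (0 : ℝ) R)).prod
        (volume.restrict (Icc (0 : ℝ) (2 * Real.pi)))) := by
      rw [← nuR_prod]; exact integrable_cont R cA
    rw [nuR_prod, integral_prod_symm _ hint]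
    have h1 : ∀ θ : ℝ, ∫ r in Icc (0 : ℝ) R, A (r, θ) = G (y + wv a b (R, θ)) - G y := by
      intro θ
      rw [integral_Icc_eq_integral_Ioc, ← intervalIntegral.integral_of_le hR]
      have h2 : ∀ r ∈ uIcc (0 : ℝ) R, HasDerivAt (fun r => G (y + wv a b (r, θ))) (A (r, θ)) r := by
        intro r _
        have h3 : HasDerivAt (fun r => G (y + wv a b (r, θ)))
            (fderiv ℝ G (y + wv a b (r, θ)) (Real.cos θ • a + Real.sin θ • b)) r :=
          ((hG.differentiable (by simp)) (y + wv a b (r, θ))).hasFDerivAt.comp_hasDerivAt r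
            ((wv_hasDerivAt_fst a b r θ).const_add y)
        have e3 : fderiv ℝ G (y + wv a b (r, θ)) (Real.cos θ • a + Real.sin θ • b) = A (r, θ) := by
          rw [map_add, map_smul, map_smul, Complex.real_smul, Complex.real_smul]
        rwa [e3] at h3
      have h4 := intervalIntegral.integral_eq_sub_of_hasDerivAt h2
        ((cA.comp (continuous_id.prodMk continuous_const)).intervalIntegrable _ _)
      rw [h4]
      have h5 : wv a b (0, θ) = 0 := by unfold wv; simp
      rw [h5, add_zero]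
    simp only [h1]
    have c1 : Continuous fun θ : ℝ => G (y + wv a b (R, θ)) :=
      hG.continuous.comp (continuous_const.add
        ((wv_smooth a b).continuous.comp (continuous_const.prodMk continuous_id)))
    rw [integral_sub (c1.continuousOn.integrableOn_compact isCompact_Icc)
      (continuous_const.continuousOn.integrableOn_compact isCompact_Icc)]
    congr 1
    rw [setIntegral_const]
    simp only [Measure.real, Real.volume_Icc, sub_zero, ENNReal.toReal_ofReal hpi,
      Complex.real_smul, Complex.ofReal_mul, Complex.ofReal_ofNat]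
  have iB : ∫ s, B s ∂(nuR R) = 0 := by
    have hint : Integrable B ((volume.restrict (Icc (0 : ℝ) R)).prod
        (volume.restrict (Icc (0 : ℝ) (2 * Real.pi)))) := by
      rw [← nuR_prod]; exact integrable_cont R cB
    rw [nuR_prod, integral_prod _ hint]
    have h1 : ∀ᵐ r ∂(volume.restrict (Icc (0 : ℝ) R)),
        ∫ θ in Icc (0 : ℝ) (2 * Real.pi), B (r, θ) = 0 := by
      have h0 : ∀ᵐ r ∂(volume.restrict (Icc (0 : ℝ) R)), r ≠ 0 :=
        (Measure.ae_ne volume 0).filter_mono (ae_mono Measure.restrict_le_self)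
      filter_upwards [h0] with r hr
      have h2 : ∀ θ ∈ uIcc (0 : ℝ) (2 * Real.pi),
          HasDerivAt (fun θ => G (y + wv a b (r, θ))) ((r : ℂ) * B (r, θ)) θ := by
        intro θ _
        have h3 : HasDerivAt (fun θ => G (y + wv a b (r, θ)))
            (fderiv ℝ G (y + wv a b (r, θ)) ((r * -Real.sin θ) • a + (r * Real.cos θ) • b)) θ :=
          ((hG.differentiable (by simp)) (y + wv a b (r, θ))).hasFDerivAt.comp_hasDerivAt θ
            ((wv_hasDerivAt_snd a b r θ).const_add y)
        have e3 : fderiv ℝ G (y + wv a b (r, θ)) ((r * -Real.sin θ) • a + (r * Real.cos θ) • b) =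
            (r : ℂ) * B (r, θ) := by
          rw [map_add, map_smul, map_smul, Complex.real_smul, Complex.real_smul, hB]
          push_cast
          ring
        rwa [e3] at h3
      have h4 := intervalIntegral.integral_eq_sub_of_hasDerivAt h2
        ((continuous_const.mul (cB.comp (continuous_const.prodMk continuous_id))).intervalIntegrable _ _)
      have h5 : wv a b (r, 2 * Real.pi) = wv a b (r, 0) := by
        unfold wv; simp
      rw [h5, sub_self, intervalIntegral.integral_const_mul] at h4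
      have h6 : (r : ℂ) ≠ 0 := by exact_mod_cast hr
      have h7 := (mul_eq_zero.1 h4).resolve_left h6
      rw [integral_Icc_eq_integral_Ioc, ← intervalIntegral.integral_of_le hpi]
      exact h7
    rw [integral_congr_ae h1, integral_zero]
  unfold Db
  rw [CT_fderiv R hG, CT_fderiv R hG]
  unfold CT
  have i1 : Integrable (fun s : ℝ × ℝ => ef s.2 * fderiv ℝ G (y + wv a b s) a) (nuR R) :=
    integrable_cont R ((ef_smooth.continuous.comp continuous_snd).mul (cG a))
  have i2 : Integrable (fun s : ℝ × ℝ => Complex.I * (ef s.2 * fderiv ℝ G (y + wv a b s) b)) (nuR R) :=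
    integrable_cont R (continuous_const.mul ((ef_smooth.continuous.comp continuous_snd).mul (cG b)))
  have key : (∫ s, ef s.2 * fderiv ℝ G (y + wv a b s) a ∂(nuR R)) +
      Complex.I * ∫ s, ef s.2 * fderiv ℝ G (y + wv a b s) b ∂(nuR R) =
      (∫ s, A s ∂(nuR R)) + Complex.I * ∫ s, B s ∂(nuR R) := by
    have i3 : Integrable (fun s => Complex.I * B s) (nuR R) :=
      integrable_cont R (continuous_const.mul cB)
    rw [← integral_const_mul, ← integral_const_mul, ← integral_add i1 i2,
      ← integral_add (integrable_cont R cA) i3]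
    congr 1
    funext s
    simp only [hA, hB, ef]
    linear_combination (-(Real.sin s.2 : ℂ)) * (fderiv ℝ G (y + wv a b s) b) * Complex.I_sq
  have hpi' : (2 * Real.pi : ℂ) ≠ 0 := by
    have := Real.pi_pos.ne'
    exact_mod_cast mul_ne_zero two_ne_zero this
  calc _ = -(1 / (2 * Real.pi) : ℂ) * ((∫ s, ef s.2 * fderiv ℝ G (y + wv a b s) a ∂(nuR R)) +
      Complex.I * ∫ s, ef s.2 * fderiv ℝ G (y + wv a b s) b ∂(nuR R)) := by ring
    _ = _ := by
      rw [key, iA, iB, mul_zero, add_zero]
      field_simp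
      ring

end

/-- projection to a coordinate plane -/
noncomputable def prj (i j : Fin 4) : V4 →L[ℝ] V4 :=
  ContinuousLinearMap.pi fun k => if k = i ∨ k = j then ContinuousLinearMap.proj k else 0

theorem prj_apply (i j : Fin 4) (y : V4) (k : Fin 4) :
    prj i j y k = if k = i ∨ k = j then y k else 0 := by
  show (if k = i ∨ k = j then (ContinuousLinearMap.proj k : V4 →L[ℝ] ℝ) else 0) y = _
  split_ifs <;> rfl

theorem prj_lt {i j : Fin 4} {y : V4} {r : ℝ} (hr : 0 < r) :
    ‖prj i j y‖ < r ↔ |y i| < r ∧ |y j| < r := by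
  rw [pi_norm_lt_iff hr]
  constructor
  · intro h
    have h1 := h i
    have h2 := h j
    rw [prj_apply] at h1 h2
    simp at h1 h2
    exact ⟨h1, h2⟩
  · rintro ⟨h1, h2⟩ k
    rw [prj_apply]
    split_ifs with hk
    · rcases hk with rfl | rfl
      · exact h1
      · exact h2
    · simpa using hr

/-- **Solving the `∂̄`-equation in a coordinate plane, with parameters.** -/
theorem exists_Db {i j k l : Fin 4} (hik : i ≠ k) (hil : i ≠ l) (hjk : j ≠ k) (hjl : j ≠ l)
    (hij : i ≠ j) {ζ : V4 → ℂ} (hζ : ContDiff ℝ ∞ ζ) {ρ : ℝ} (hρ : 0 < ρ) :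
    ∃ f : V4 → ℂ, ContDiff ℝ ∞ f ∧
      (∀ y : V4, |y i| < ρ / 8 → |y j| < ρ / 8 → Db (eb i) (eb j) f y = ζ y) ∧
      (∀ y : V4, (∀ z : V4, |z i| < ρ / 4 → |z j| < ρ / 4 → z k = y k → z l = y l →
        Db (eb k) (eb l) ζ z = 0) → Db (eb k) (eb l) f y = 0) := by
  let b : ContDiffBump (0 : V4) := ⟨ρ / 8, ρ / 4, by positivity, by linarith⟩
  set χ : V4 → ℝ := fun y => b (prj i j y) with hχ
  have sχ : ContDiff ℝ ∞ χ := b.contDiff.comp (prj i j).contDiff
  set G : V4 → ℂ := fun y => (χ y : ℂ) * ζ y with hG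
  have sG : ContDiff ℝ ∞ G := (Complex.ofRealCLM.contDiff.comp sχ).mul hζ
  have ebi : ∀ m n : Fin 4, (eb m : V4) n = if n = m then 1 else 0 := by
    intro m n
    unfold eb
    rw [Pi.single_apply]
  have hwi : ∀ s : ℝ × ℝ, wv (eb i) (eb j) s i = s.1 * Real.cos s.2 := by
    intro s
    simp [wv, ebi, hij]
  have hwj : ∀ s : ℝ × ℝ, wv (eb i) (eb j) s j = s.1 * Real.sin s.2 := by
    intro s
    simp [wv, ebi, hij.symm]
  have hwk : ∀ s : ℝ × ℝ, wv (eb i) (eb j) s k = 0 := by
    intro s
    simp [wv, ebi, hik.symm, hjk.symm]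
  have hwl : ∀ s : ℝ × ℝ, wv (eb i) (eb j) s l = 0 := by
    intro s
    simp [wv, ebi, hil.symm, hjl.symm]
  have χ_one : ∀ y : V4, |y i| < ρ / 8 → |y j| < ρ / 8 → χ y = 1 := by
    intro y h1 h2
    apply b.one_of_mem_closedBall
    rw [mem_closedBall_zero_iff]
    exact ((prj_lt (by positivity)).2 ⟨h1, h2⟩).le
  have χ_ne : ∀ y : V4, χ y ≠ 0 → |y i| < ρ / 4 ∧ |y j| < ρ / 4 := by
    intro y h
    have h1 : prj i j y ∈ Function.support b := h
    rw [b.support_eq, mem_ball_zero_iff] at h1
    exact (prj_lt (by positivity)).1 h1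
  refine ⟨CT (eb i) (eb j) ρ G, CT_smooth ρ sG, fun y h1 h2 => ?_, fun y h => ?_⟩
  · rw [Db_CT hρ.le sG]
    have h3 : ∀ θ : ℝ, G (y + wv (eb i) (eb j) (ρ, θ)) = 0 := by
      intro θ
      by_contra hne
      have h4 : χ (y + wv (eb i) (eb j) (ρ, θ)) ≠ 0 := by
        intro h0
        apply hne
        show (χ (y + wv (eb i) (eb j) (ρ, θ)) : ℂ) * _ = 0
        rw [h0]; simp
      obtain ⟨h5, h6⟩ := χ_ne _ h4
      rw [Pi.add_apply, hwi] at h5
      rw [Pi.add_apply, hwj] at h6
      have h7 := Real.sin_sq_add_cos_sq θ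
      have e1 := abs_lt.1 h1
      have e2 := abs_lt.1 h2
      have e5 := abs_lt.1 h5
      have e6 := abs_lt.1 h6
      simp only at e5 e6
      have c1 : |ρ * Real.cos θ| < ρ / 2 := by
        rw [abs_lt]; constructor <;> linarith
      have c2 : |ρ * Real.sin θ| < ρ / 2 := by
        rw [abs_lt]; constructor <;> linarith
      have c3 : (ρ * Real.cos θ) ^ 2 < (ρ / 2) ^ 2 := by
        rw [← sq_abs (ρ * Real.cos θ)]
        exact pow_lt_pow_left₀ c1 (abs_nonneg _) two_ne_zero
      have c4 : (ρ * Real.sin θ) ^ 2 < (ρ / 2) ^ 2 := by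
        rw [← sq_abs (ρ * Real.sin θ)]
        exact pow_lt_pow_left₀ c2 (abs_nonneg _) two_ne_zero
      have c5 : (ρ * Real.cos θ) ^ 2 + (ρ * Real.sin θ) ^ 2 = ρ ^ 2 := by
        linear_combination ρ ^ 2 * h7
      nlinarith
    simp only [h3, integral_zero, mul_zero, sub_zero]
    show (χ y : ℂ) * ζ y = ζ y
    rw [χ_one y h1 h2]; simp
  · unfold Db
    rw [CT_fderiv ρ sG, CT_fderiv ρ sG]
    unfold CT
    have hG' : ContDiff ℝ ∞ (fderiv ℝ G) := sG.fderiv_right (m := ∞) (by simp)
    have cG : ∀ v : V4, Continuous fun s : ℝ × ℝ => fderiv ℝ G (y + wv (eb i) (eb j) s) v := fun v =>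
      (hG'.continuous.comp (continuous_const.add (wv_smooth (eb i) (eb j)).continuous)).clm_apply
        continuous_const
    have i1 : Integrable (fun s : ℝ × ℝ => ef s.2 * fderiv ℝ G (y + wv (eb i) (eb j) s) (eb k))
        (nuR ρ) := integrable_cont ρ ((ef_smooth.continuous.comp continuous_snd).mul (cG _))
    have i2 : Integrable (fun s : ℝ × ℝ =>
        Complex.I * (ef s.2 * fderiv ℝ G (y + wv (eb i) (eb j) s) (eb l))) (nuR ρ) :=
      integrable_cont ρ (continuous_const.mul ((ef_smooth.continuous.comp continuous_snd).mul (cG _)))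
    have key : (∫ s, ef s.2 * fderiv ℝ G (y + wv (eb i) (eb j) s) (eb k) ∂(nuR ρ)) +
        Complex.I * ∫ s, ef s.2 * fderiv ℝ G (y + wv (eb i) (eb j) s) (eb l) ∂(nuR ρ) = 0 := by
      rw [← integral_const_mul, ← integral_add i1 i2]
      have h0 : ∀ s : ℝ × ℝ, ef s.2 * fderiv ℝ G (y + wv (eb i) (eb j) s) (eb k) +
          Complex.I * (ef s.2 * fderiv ℝ G (y + wv (eb i) (eb j) s) (eb l)) = 0 := by
        intro s
        set z := y + wv (eb i) (eb j) s with hz
        -- the derivative of the cut-off vanishes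
        have hd : ∀ m : Fin 4, m = k ∨ m = l → fderiv ℝ G z (eb m) = (χ z : ℂ) * fderiv ℝ ζ z (eb m) := by
          intro m hm
          have hp : prj i j (eb m) = 0 := by
            funext n
            rw [prj_apply, ebi]
            rcases hm with rfl | rfl
            · split_ifs with h1 h2
              · rcases h1 with rfl | rfl
                · exact absurd h2 hik
                · exact absurd h2 hjk
              · rfl
              · rfl
            · split_ifs with h1 h2
              · rcases h1 with rfl | rfl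
                · exact absurd h2 hil
                · exact absurd h2 hjl
              · rfl
              · rfl
          have h1 : HasFDerivAt χ ((fderiv ℝ b (prj i j z)).comp (prj i j)) z :=
            (b.contDiff.differentiable (n := ∞) (by simp) _).hasFDerivAt.comp z (prj i j).hasFDerivAt
          have h2 : HasFDerivAt (fun y => (χ y : ℂ))
              (Complex.ofRealCLM.comp ((fderiv ℝ b (prj i j z)).comp (prj i j))) z :=
            Complex.ofRealCLM.hasFDerivAt.comp z h1
          have h3 := h2.mul ((hζ.differentiable (by simp)) z).hasFDerivAt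
          have h4 : fderiv ℝ G z = _ := h3.fderiv
          rw [h4]
          simp [hp]
        have h5 : ef s.2 * fderiv ℝ G z (eb k) + Complex.I * (ef s.2 * fderiv ℝ G z (eb l)) =
            ef s.2 * ((χ z : ℂ) * Db (eb k) (eb l) ζ z) := by
          rw [hd k (Or.inl rfl), hd l (Or.inr rfl)]
          unfold Db
          ring
        rw [h5]
        by_cases hχz : χ z = 0
        · rw [hχz]; simp
        · obtain ⟨a1, a2⟩ := χ_ne z hχz
          have a3 : Db (eb k) (eb l) ζ z = 0 := by
            apply h z a1 a2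
            · rw [hz, Pi.add_apply, hwk, add_zero]
            · rw [hz, Pi.add_apply, hwl, add_zero]
          rw [a3]; simp
      simp only [h0, integral_zero]
    calc _ = -(1 / (2 * Real.pi) : ℂ) *
        ((∫ s, ef s.2 * fderiv ℝ G (y + wv (eb i) (eb j) s) (eb k) ∂(nuR ρ)) +
        Complex.I * ∫ s, ef s.2 * fderiv ℝ G (y + wv (eb i) (eb j) s) (eb l) ∂(nuR ρ)) := by ring
      _ = 0 := by rw [key, mul_zero]

end Vale.Agent.P247.SCY
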