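import Vale.Agent.P247.SCY.FP1

/-!
# P247, flattening: the local potential of a closed invariant two-form
-/

set_option linter.all false

open MeasureTheory Set Metric Filter Topology
open scoped ContDiff BigOperators Topology

namespace Vale.Agent.P247.SCY
open Vale.Agent.P204 Vale.Agent.P204.T4 Vale.Agent.P204.GX

theorem Db_real {f : V4 → ℂ} (hf : ContDiff ℝ ∞ f) (i j : Fin 4) (y : V4) :
    Db (eb i) (eb j) f y = ((T4.pd i (fun y => (f y).re) y - T4.pd j (fun y => (f y).im) y : ℝ) : ℂ) +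
      ((T4.pd i (fun y => (f y).im) y + T4.pd j (fun y => (f y).re) y : ℝ) : ℂ) * Complex.I := by
  have hd := ((hf.differentiable (by simp)) y).hasFDerivAt
  have h1 : HasFDerivAt (fun y => (f y).re) (Complex.reCLM.comp (fderiv ℝ f y)) y :=
    Complex.reCLM.hasFDerivAt.comp y hd
  have h2 : HasFDerivAt (fun y => (f y).im) (Complex.imCLM.comp (fderiv ℝ f y)) y :=
    Complex.imCLM.hasFDerivAt.comp y hd
  have e1 : ∀ k, T4.pd k (fun y => (f y).re) y = (fderiv ℝ f y (eb k)).re := by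
    intro k; unfold T4.pd; rw [h1.fderiv]; rfl
  have e2 : ∀ k, T4.pd k (fun y => (f y).im) y = (fderiv ℝ f y (eb k)).im := by
    intro k; unfold T4.pd; rw [h2.fderiv]; rfl
  unfold Db
  rw [e1, e1, e2, e2]
  apply Complex.ext
  · simp; ring
  · simp

/-- the real form of `exists_Db` -/
theorem exists_DbR {i j k l : Fin 4} (hik : i ≠ k) (hil : i ≠ l) (hjk : j ≠ k) (hjl : j ≠ l)
    (hij : i ≠ j) {ζa ζb : V4 → ℝ} (ha : ContDiff ℝ ∞ ζa) (hb : ContDiff ℝ ∞ ζb) {ρ : ℝ}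
    (hρ : 0 < ρ) :
    ∃ φ ψ : V4 → ℝ, ContDiff ℝ ∞ φ ∧ ContDiff ℝ ∞ ψ ∧
      (∀ y : V4, |y i| < ρ / 8 → |y j| < ρ / 8 →
        T4.pd i φ y - T4.pd j ψ y = ζa y ∧ T4.pd i ψ y + T4.pd j φ y = ζb y) ∧
      (∀ y : V4, (∀ z : V4, |z i| < ρ / 4 → |z j| < ρ / 4 → z k = y k → z l = y l →
        T4.pd k ζa z - T4.pd l ζb z = 0 ∧ T4.pd k ζb z + T4.pd l ζa z = 0) →
        T4.pd k φ y - T4.pd l ψ y = 0 ∧ T4.pd k ψ y + T4.pd l φ y = 0) := by
  have hζ : ContDiff ℝ ∞ fun y => (ζa y : ℂ) + (ζb y : ℂ) * Complex.I :=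
    (Complex.ofRealCLM.contDiff.comp ha).add
      ((Complex.ofRealCLM.contDiff.comp hb).mul contDiff_const)
  obtain ⟨f, sf, h1, h2⟩ := exists_Db hik hil hjk hjl hij hζ hρ
  have re_eq : (fun y => ((ζa y : ℂ) + (ζb y : ℂ) * Complex.I).re) = ζa := by
    funext y; simp
  have im_eq : (fun y => ((ζa y : ℂ) + (ζb y : ℂ) * Complex.I).im) = ζb := by
    funext y; simp
  refine ⟨fun y => (f y).re, fun y => (f y).im, Complex.reCLM.contDiff.comp sf,
    Complex.imCLM.contDiff.comp sf, fun y a1 a2 => ?_, fun y h => ?_⟩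
  · have h3 := h1 y a1 a2
    rw [Db_real sf] at h3
    have e1 := congrArg Complex.re h3
    have e2 := congrArg Complex.im h3
    simp only [Complex.add_re, Complex.add_im, Complex.mul_re, Complex.mul_im, Complex.ofReal_re,
      Complex.ofReal_im, Complex.I_re, Complex.I_im, mul_zero, mul_one, sub_zero, add_zero,
      zero_add, zero_mul, sub_self] at e1 e2
    exact ⟨e1, e2⟩
  · have h3 := h2 y (fun z a1 a2 a3 a4 => by
      obtain ⟨b1, b2⟩ := h z a1 a2 a3 a4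
      rw [Db_real hζ, re_eq, im_eq, b1, b2]
      simp)
    rw [Db_real sf] at h3
    have e1 := congrArg Complex.re h3
    have e2 := congrArg Complex.im h3
    simp only [Complex.add_re, Complex.add_im, Complex.mul_re, Complex.mul_im, Complex.ofReal_re,
      Complex.ofReal_im, Complex.I_re, Complex.I_im, mul_zero, mul_one, sub_zero, add_zero,
      zero_add, zero_mul, sub_self, Complex.zero_re, Complex.zero_im] at e1 e2
    exact ⟨e1, e2⟩

/-- the one-form `-du ∘ J0` -/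
noncomputable def dcu (u : V4 → ℝ) (y : V4) : V4 :=
  ![-T4.pd 1 u y, T4.pd 0 u y, -T4.pd 3 u y, T4.pd 2 u y]

/-- the two-form `dd^c u` -/
noncomputable def ddc (u : V4 → ℝ) : V4 → L2 := d1 (dcu u)

theorem pd_smooth {u : V4 → ℝ} (hu : ContDiff ℝ ∞ u) (i : Fin 4) : ContDiff ℝ ∞ (T4.pd i u) :=
  (hu.fderiv_right (m := ∞) (by simp)).clm_apply contDiff_const

theorem dcu_smooth {u : V4 → ℝ} (hu : ContDiff ℝ ∞ u) : ContDiff ℝ ∞ (dcu u) := by
  rw [contDiff_pi]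
  intro i
  unfold dcu
  fin_cases i
  · exact (pd_smooth hu 1).neg
  · exact pd_smooth hu 0
  · exact (pd_smooth hu 3).neg
  · exact pd_smooth hu 2

theorem d1_eq (a : V4 → V4) (y : V4) : d1 a y =
    ![T4.pd 0 (fun y => a y 1) y - T4.pd 1 (fun y => a y 0) y,
      T4.pd 0 (fun y => a y 2) y - T4.pd 2 (fun y => a y 0) y,
      T4.pd 0 (fun y => a y 3) y - T4.pd 3 (fun y => a y 0) y,
      T4.pd 1 (fun y => a y 2) y - T4.pd 2 (fun y => a y 1) y,
      T4.pd 1 (fun y => a y 3) y - T4.pd 3 (fun y => a y 1) y,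
      T4.pd 2 (fun y => a y 3) y - T4.pd 3 (fun y => a y 2) y] := rfl

theorem pd_neg' (u : V4 → ℝ) (y : V4) (i : Fin 4) : T4.pd i (fun y => -u y) y = -T4.pd i u y := by
  unfold T4.pd
  rw [fderiv_fun_neg]; rfl

/-- components of `dd^c u` -/
theorem ddc_eq (u : V4 → ℝ) (y : V4) : ddc u y =
    ![T4.pd 0 (T4.pd 0 u) y + T4.pd 1 (T4.pd 1 u) y,
      -T4.pd 0 (T4.pd 3 u) y + T4.pd 2 (T4.pd 1 u) y,
      T4.pd 0 (T4.pd 2 u) y + T4.pd 3 (T4.pd 1 u) y,
      -T4.pd 1 (T4.pd 3 u) y - T4.pd 2 (T4.pd 0 u) y,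
      T4.pd 1 (T4.pd 2 u) y - T4.pd 3 (T4.pd 0 u) y,
      T4.pd 2 (T4.pd 2 u) y + T4.pd 3 (T4.pd 3 u) y] := by
  unfold ddc
  rw [d1_eq]
  have e0 : (fun y => dcu u y 0) = fun y => -T4.pd 1 u y := rfl
  have e1 : (fun y => dcu u y 1) = T4.pd 0 u := rfl
  have e2 : (fun y => dcu u y 2) = fun y => -T4.pd 3 u y := rfl
  have e3 : (fun y => dcu u y 3) = T4.pd 2 u := rfl
  rw [e0, e1, e2, e3, pd_neg', pd_neg', pd_neg', pd_neg', pd_neg', pd_neg']
  congr 1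
  · ring
  · congr 1
    · ring
    · congr 1
      · ring
      · congr 1
        congr 1
        congr 1
        ring

/-- `dd^c u` is of type `(1,1)` -/
theorem ddc_inv {u : V4 → ℝ} (hu : ContDiff ℝ ∞ u) (y : V4) : pull J0 (ddc u y) = ddc u y := by
  rw [pull_J0, ddc_eq]
  have s1 := pd_symm (x := y) hu.contDiffAt 1 2
  have s2 := pd_symm (x := y) hu.contDiffAt 0 3
  have s3 := pd_symm (x := y) hu.contDiffAt 1 3
  have s4 := pd_symm (x := y) hu.contDiffAt 0 2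
  funext k
  fin_cases k <;> simp <;> linarith

/-- **Local potentials.** -/
theorem exists_pot {a : V4 → L2} (ha : ContDiff ℝ ∞ a) (hc : Closed a) {ρ : ℝ} (hρ : 0 < ρ)
    (hJ : ∀ y, ‖y‖ < ρ → pull J0 (a y) = a y) :
    ∃ u : V4 → ℝ, ContDiff ℝ ∞ u ∧ ∀ y, ‖y‖ < ρ / 8 → ddc u y = a y := by
  obtain ⟨β, sβ, hβ⟩ := exists_prim ha hc
  have sb : ∀ i, ContDiff ℝ ∞ fun y => β y i := fun i => contDiff_pi.1 sβ i
  -- first step
  obtain ⟨φ1, ψ1, sφ1, sψ1, p1, -⟩ := exists_DbR (i := 2) (j := 3) (k := 0) (l := 1) (by decide)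
    (by decide) (by decide) (by decide) (by decide) (sb 2) (sb 3) hρ
  set ga : V4 → ℝ := fun y => β y 0 - (T4.pd 0 φ1 y - T4.pd 1 ψ1 y) with hga
  set gb : V4 → ℝ := fun y => β y 1 - (T4.pd 0 ψ1 y + T4.pd 1 φ1 y) with hgb
  have sga : ContDiff ℝ ∞ ga := (sb 0).sub ((pd_smooth sφ1 0).sub (pd_smooth sψ1 1))
  have sgb : ContDiff ℝ ∞ gb := (sb 1).sub ((pd_smooth sψ1 0).add (pd_smooth sφ1 1))
  obtain ⟨φ2, ψ2, sφ2, sψ2, p2, p3⟩ := exists_DbR (i := 0) (j := 1) (k := 2) (l := 3) (by decide)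
    (by decide) (by decide) (by decide) (by decide) sga sgb hρ
  have df : ∀ {f : V4 → ℝ}, ContDiff ℝ ∞ f → ∀ y, DifferentiableAt ℝ f y := fun h y =>
    (h.differentiable (by simp)) y
  have norm_comp : ∀ (y : V4) (r : ℝ), ‖y‖ < r → ∀ i, |y i| < r := fun y r h i =>
    lt_of_le_of_lt (norm_le_pi_norm y i) h
  -- the second right-hand side is holomorphic in the second variable
  have hol : ∀ z : V4, ‖z‖ < ρ → |z 2| < ρ / 8 → |z 3| < ρ / 8 →
      T4.pd 2 ga z - T4.pd 3 gb z = 0 ∧ T4.pd 2 gb z + T4.pd 3 ga z = 0 := by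
    intro z hz h2 h3
    -- the equations of the first step hold near `z`
    have hnb : ∀ᶠ y in 𝓝 z, |y 2| < ρ / 8 ∧ |y 3| < ρ / 8 := by
      have c2 : Continuous fun y : V4 => |y 2| := (continuous_apply 2).abs
      have c3 : Continuous fun y : V4 => |y 3| := (continuous_apply 3).abs
      exact (c2.continuousAt.eventually (gt_mem_nhds h2)).and
        (c3.continuousAt.eventually (gt_mem_nhds h3))
    have q1 : (fun y => T4.pd 2 φ1 y - T4.pd 3 ψ1 y) =ᶠ[𝓝 z] fun y => β y 2 := by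
      filter_upwards [hnb] with y hy using (p1 y hy.1 hy.2).1
    have q2 : (fun y => T4.pd 2 ψ1 y + T4.pd 3 φ1 y) =ᶠ[𝓝 z] fun y => β y 3 := by
      filter_upwards [hnb] with y hy using (p1 y hy.1 hy.2).2
    have r10 := pd_congr q1 0
    have r11 := pd_congr q1 1
    have r20 := pd_congr q2 0
    have r21 := pd_congr q2 1
    rw [T4.pd_sub (df (pd_smooth sφ1 2) z) (df (pd_smooth sψ1 3) z)] at r10 r11
    rw [T4.pd_add (df (pd_smooth sψ1 2) z) (df (pd_smooth sφ1 3) z)] at r20 r21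
    -- invariance
    have hinv := hJ z hz
    rw [← hβ, pull_J0, d1_eq] at hinv
    have v1 := congrFun hinv 1
    have v2 := congrFun hinv 2
    simp only [Matrix.cons_val_zero, Matrix.cons_val_one, Matrix.cons_val, Fin.isValue] at v1 v2
    have sy : ∀ {f : V4 → ℝ}, ContDiff ℝ ∞ f → ∀ i j, T4.pd i (T4.pd j f) z = T4.pd j (T4.pd i f) z :=
      fun h i j => pd_symm h.contDiffAt i j
    have d0 := df (sb 0) z
    have d1' := df (sb 1) z
    have dA : DifferentiableAt ℝ (fun y => T4.pd 0 φ1 y - T4.pd 1 ψ1 y) z :=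
      df ((pd_smooth sφ1 0).sub (pd_smooth sψ1 1)) z
    have dB : DifferentiableAt ℝ (fun y => T4.pd 0 ψ1 y + T4.pd 1 φ1 y) z :=
      df ((pd_smooth sψ1 0).add (pd_smooth sφ1 1)) z
    have eA : ∀ k, T4.pd k (fun y => T4.pd 0 φ1 y - T4.pd 1 ψ1 y) z =
        T4.pd k (T4.pd 0 φ1) z - T4.pd k (T4.pd 1 ψ1) z := fun k =>
      T4.pd_sub (df (pd_smooth sφ1 0) z) (df (pd_smooth sψ1 1) z)
    have eB : ∀ k, T4.pd k (fun y => T4.pd 0 ψ1 y + T4.pd 1 φ1 y) z =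
        T4.pd k (T4.pd 0 ψ1) z + T4.pd k (T4.pd 1 φ1) z := fun k =>
      T4.pd_add (df (pd_smooth sψ1 0) z) (df (pd_smooth sφ1 1) z)
    have g2 : T4.pd 2 ga z = T4.pd 2 (fun y => β y 0) z -
        (T4.pd 2 (T4.pd 0 φ1) z - T4.pd 2 (T4.pd 1 ψ1) z) := by
      rw [hga, T4.pd_sub d0 dA, eA]
    have g3 : T4.pd 3 ga z = T4.pd 3 (fun y => β y 0) z -
        (T4.pd 3 (T4.pd 0 φ1) z - T4.pd 3 (T4.pd 1 ψ1) z) := by
      rw [hga, T4.pd_sub d0 dA, eA]
    have k2 : T4.pd 2 gb z = T4.pd 2 (fun y => β y 1) z -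
        (T4.pd 2 (T4.pd 0 ψ1) z + T4.pd 2 (T4.pd 1 φ1) z) := by
      rw [hgb, T4.pd_sub d1' dB, eB]
    have k3 : T4.pd 3 gb z = T4.pd 3 (fun y => β y 1) z -
        (T4.pd 3 (T4.pd 0 ψ1) z + T4.pd 3 (T4.pd 1 φ1) z) := by
      rw [hgb, T4.pd_sub d1' dB, eB]
    rw [g2, g3, k2, k3, sy sφ1 2 0, sy sφ1 2 1, sy sφ1 3 0, sy sφ1 3 1, sy sψ1 2 0, sy sψ1 2 1,
      sy sψ1 3 0, sy sψ1 3 1]
    constructor <;> linarith
  -- the sum solves all equations
  set φ : V4 → ℝ := fun y => φ1 y + φ2 y with hφ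
  set ψ : V4 → ℝ := fun y => ψ1 y + ψ2 y with hψ
  have sφ : ContDiff ℝ ∞ φ := sφ1.add sφ2
  have sψ : ContDiff ℝ ∞ ψ := sψ1.add sψ2
  refine ⟨ψ, sψ, fun y hy => ?_⟩
  have hall : ∀ z : V4, ‖z‖ < ρ / 8 →
      T4.pd 0 φ z - T4.pd 1 ψ z = β z 0 ∧ T4.pd 0 ψ z + T4.pd 1 φ z = β z 1 ∧
      T4.pd 2 φ z - T4.pd 3 ψ z = β z 2 ∧ T4.pd 2 ψ z + T4.pd 3 φ z = β z 3 := by
    intro z hz
    have hc := norm_comp z _ hz
    have aφ : ∀ k, T4.pd k φ z = T4.pd k φ1 z + T4.pd k φ2 z := fun k =>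
      T4.pd_add (df sφ1 z) (df sφ2 z)
    have aψ : ∀ k, T4.pd k ψ z = T4.pd k ψ1 z + T4.pd k ψ2 z := fun k =>
      T4.pd_add (df sψ1 z) (df sψ2 z)
    obtain ⟨m1, m2⟩ := p1 z (hc 2) (hc 3)
    obtain ⟨m3, m4⟩ := p2 z (hc 0) (hc 1)
    obtain ⟨m5, m6⟩ := p3 z (fun x x0 x1 x2 x3 => by
      refine hol x ?_ (by rw [x2]; exact hc 2) (by rw [x3]; exact hc 3)
      rw [pi_norm_lt_iff hρ]
      intro i
      rw [Real.norm_eq_abs]
      fin_cases i
      · exact x0.trans (by linarith)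
      · exact x1.trans (by linarith)
      · show |x 2| < ρ
        rw [x2]; exact (hc 2).trans (by linarith)
      · show |x 3| < ρ
        rw [x3]; exact (hc 3).trans (by linarith))
    rw [hga] at m3
    rw [hgb] at m4
    simp only at m3 m4
    rw [aφ, aφ, aφ, aφ, aψ, aψ, aψ, aψ]
    refine ⟨by linarith, by linarith, by linarith, by linarith⟩
  -- near `y` the primitive is `dφ + dcu ψ`
  have hnb : β =ᶠ[𝓝 y] (grad φ + dcu ψ) := by
    have hb : ∀ᶠ z in 𝓝 y, ‖z‖ < ρ / 8 :=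
      continuous_norm.continuousAt.eventually (gt_mem_nhds hy)
    filter_upwards [hb] with z hz
    obtain ⟨n0, n1, n2, n3⟩ := hall z hz
    funext i
    fin_cases i
    · show β z 0 = T4.pd 0 φ z + -T4.pd 1 ψ z
      linarith
    · show β z 1 = T4.pd 1 φ z + T4.pd 0 ψ z
      linarith
    · show β z 2 = T4.pd 2 φ z + -T4.pd 3 ψ z
      linarith
    · show β z 3 = T4.pd 3 φ z + T4.pd 2 ψ z
      linarith
  have sg : ContDiff ℝ ∞ (grad φ) := by
    rw [contDiff_pi]; intro i; exact pd_smooth sφ i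
  rw [← hβ, d1_congr hnb, d1_add (sg.differentiable (by simp)) ((dcu_smooth sψ).differentiable (by simp))]
  have hz : d1 (grad φ) y = 0 := by
    rw [d1_eq]
    have sy : ∀ i j, T4.pd i (fun y => grad φ y j) y - T4.pd j (fun y => grad φ y i) y = 0 := by
      intro i j
      exact sub_eq_zero.2 (pd_symm sφ.contDiffAt i j)
    rw [sy, sy, sy, sy, sy, sy]
    funext k
    fin_cases k <;> rfl
  rw [hz, zero_add]
  rfl

end Vale.Agent.P247.SCY
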