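import Vale.Agent.P247.SCY.FX2

/-!
# P247: triples reached through triples with a given property
-/

set_option linter.all false

open scoped BigOperators ContDiff Topology Manifold ENNReal
open Set MeasureTheory Metric Filter

namespace Vale.Agent.P247.SCY
open Vale.Agent.P204 Vale.Agent.P204.T4 Vale.Agent.P204.Mfd Vale.Agent.P204.GX

section
variable {X : Type} [TopologicalSpace X] [ChartedSpace E4 X]

/-- `w'` is the end of a deformation of `w` through triples with the property `P` -/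
def Reach (μ : HS.Form X 4) (P : (Fin 3 → HS.Form X 2) → Prop) (w w' : Fin 3 → HS.Form X 2) :
    Prop :=
  ∃ W : ℝ → Fin 3 → HS.Form X 2, HS.Deformation μ w W ∧ W 1 = w' ∧ ∀ t ∈ Icc (0 : ℝ) 1, P (W t)

theorem Reach.mono {μ : HS.Form X 4} {P P' : (Fin 3 → HS.Form X 2) → Prop}
    {w w' : Fin 3 → HS.Form X 2} (h : Reach μ P w w') (hP : ∀ v, P v → P' v) : Reach μ P' w w' := by
  obtain ⟨W, h1, h2, h3⟩ := h
  exact ⟨W, h1, h2, fun t ht => hP _ (h3 t ht)⟩

theorem Reach.hyper {μ : HS.Form X 4} {P : (Fin 3 → HS.Form X 2) → Prop}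
    {w w' : Fin 3 → HS.Form X 2} (h : Reach μ P w w') : HS.Hypersymplectic μ w' := by
  obtain ⟨W, h1, h2, h3⟩ := h
  rw [← h2]; exact h1.hyper 1 (by simp)

theorem Reach.prop {μ : HS.Form X 4} {P : (Fin 3 → HS.Form X 2) → Prop}
    {w w' : Fin 3 → HS.Form X 2} (h : Reach μ P w w') : P w' := by
  obtain ⟨W, h1, h2, h3⟩ := h
  rw [← h2]; exact h3 1 (by simp)

theorem smooth_zero' {k : ℕ} : HS.Smooth (fun _ => 0 : HS.Form X k) := by
  intro e he
  have : HS.loc e (fun _ => 0 : HS.Form X k) = fun _ => 0 := by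
    funext y; ext v; rfl
  rw [this]
  exact contDiffOn_const

theorem closed_zero' {k : ℕ} : HS.Closed (fun _ => 0 : HS.Form X k) := by
  intro e he y hy
  have h0 : HS.loc e (fun _ => 0 : HS.Form X k) = fun _ => 0 := by
    funext y; ext v; rfl
  rw [h0]
  have h3 := extDeriv_fun_smul (0 : ℝ) (fun _ : E4 => (0 : E4 [⋀^Fin k]→L[ℝ] ℝ)) (x := y)
  simp only [zero_smul] at h3
  exact h3

theorem exact_zero' : HS.Exact (fun _ => 0 : HS.Form X 2) := by
  refine ⟨fun _ => 0, smooth_zero', fun e he y hy => ?_⟩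
  have h := closed_zero' (X := X) (k := 1) e he y hy
  rw [h]
  ext v; rfl

theorem reach_refl {μ : HS.Form X 4} {P : (Fin 3 → HS.Form X 2) → Prop}
    {w : Fin 3 → HS.Form X 2} (hw : HS.Hypersymplectic μ w) (hP : P w) : Reach μ P w w := by
  refine ⟨fun _ => w, ⟨fun i e he => ?_, fun t _ => hw, rfl, fun t i => ?_⟩, rfl, fun t _ => hP⟩
  · exact (hw.smooth i e he).comp contDiff_snd.contDiffOn (fun p hp => hp.2)
  · have : (fun x => w i x - w i x) = fun _ => (0 : E4 [⋀^Fin 2]→L[ℝ] ℝ) := by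
      funext x; exact sub_self _
    show HS.Exact (fun x => w i x - w i x)
    rw [this]
    exact exact_zero'

theorem Reach.append {μ : HS.Form X 4} {P : (Fin 3 → HS.Form X 2) → Prop}
    {w w' : Fin 3 → HS.Form X 2} (h : Reach μ P w w') {θ : Fin 3 → HS.Form X 2}
    (hθ : ∀ i, HS.Smooth (θ i) ∧ HS.Closed (θ i) ∧ HS.Exact (θ i))
    (hpos : ∀ s ∈ Icc (0 : ℝ) 1, ∀ x, (HS.Qm μ (fun i x => w' i x + s • θ i x) x).PosDef)
    (hP : ∀ s ∈ Icc (0 : ℝ) 1, P (fun i x => w' i x + s • θ i x)) :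
    Reach μ P w (fun i x => w' i x + θ i x) := by
  obtain ⟨W, h, hW1, hWP⟩ := h
  subst hW1
  set τ1 : ℝ → ℝ := fun t => Real.smoothTransition (2 * t) with hτ1
  set τ2 : ℝ → ℝ := fun t => Real.smoothTransition (2 * t - 1) with hτ2
  have s1 : ContDiff ℝ ∞ τ1 := Real.smoothTransition.contDiff.comp (by fun_prop)
  have s2 : ContDiff ℝ ∞ τ2 := Real.smoothTransition.contDiff.comp (by fun_prop)
  have m1 : ∀ t, τ1 t ∈ Icc (0 : ℝ) 1 := fun t =>
    ⟨Real.smoothTransition.nonneg _, Real.smoothTransition.le_one _⟩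
  have m2 : ∀ t, τ2 t ∈ Icc (0 : ℝ) 1 := fun t =>
    ⟨Real.smoothTransition.nonneg _, Real.smoothTransition.le_one _⟩
  have hlin : ∀ s ∈ Icc (0 : ℝ) 1, HS.Hypersymplectic μ (fun i x => W 1 i x + s • θ i x) := by
    intro s hs
    have h1 := h.hyper 1 (by simp)
    exact ⟨fun i => smooth_add (h1.smooth i) (smooth_smul (hθ i).1 s), fun i =>
      closed_add (h1.smooth i) (smooth_smul (hθ i).1 s) (h1.closed i) (closed_smul (hθ i).2.1 s),
      hpos s hs⟩
  have hcase : ∀ t, (fun i x => W (τ1 t) i x + τ2 t • θ i x) = W (τ1 t) ∨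
      τ1 t = 1 := by
    intro t
    rcases le_total t (1 / 2) with ht | ht
    · left
      have e2 : τ2 t = 0 := Real.smoothTransition.zero_of_nonpos (by linarith)
      funext i x
      rw [e2, zero_smul, add_zero]
    · right
      exact Real.smoothTransition.one_of_one_le (by linarith)
  refine ⟨fun t i x => W (τ1 t) i x + τ2 t • θ i x, ⟨?_, ?_, ?_, ?_⟩, ?_, ?_⟩
  · intro i e he
    have e1 : (fun p : ℝ × E4 => HS.loc e (fun x => W (τ1 p.1) i x + τ2 p.1 • θ i x) p.2) =
        fun p => HS.loc e (W (τ1 p.1) i) p.2 + τ2 p.1 • HS.loc e (θ i) p.2 := by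
      funext p
      have h3 := congrFun (loc_add' e (W (τ1 p.1) i) (fun x => τ2 p.1 • θ i x)) p.2
      have h4 := congrFun (loc_smul' e (τ2 p.1) (θ i)) p.2
      rw [h4] at h3
      exact h3
    rw [e1]
    have h3 : ContDiffOn ℝ ∞ (fun p : ℝ × E4 => HS.loc e (W (τ1 p.1) i) p.2)
        (univ ×ˢ e.target) := by
      have h5 : ContDiffOn ℝ ∞ (fun p : ℝ × E4 => (τ1 p.1, p.2)) (univ ×ˢ e.target) :=
        ((s1.comp contDiff_fst).prodMk contDiff_snd).contDiffOn
      exact (h.smooth i e he).comp h5 (fun p hp => ⟨mem_univ _, hp.2⟩)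
    have h4 : ContDiffOn ℝ ∞ (fun p : ℝ × E4 => HS.loc e (θ i) p.2) (univ ×ˢ e.target) :=
      ((hθ i).1 e he).comp contDiff_snd.contDiffOn (fun p hp => hp.2)
    have h5 : ContDiffOn ℝ ∞ (fun p : ℝ × E4 => τ2 p.1) (univ ×ˢ e.target) :=
      (s2.comp contDiff_fst).contDiffOn
    exact h3.add (h5.smul h4)
  · intro t _
    rcases hcase t with e | e
    · show HS.Hypersymplectic μ (fun i x => W (τ1 t) i x + τ2 t • θ i x)
      rw [e]
      exact h.hyper _ (m1 t)
    · show HS.Hypersymplectic μ (fun i x => W (τ1 t) i x + τ2 t • θ i x)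
      rw [e]
      exact hlin _ (m2 t)
  · funext i x
    have e1 : τ1 0 = 0 := Real.smoothTransition.zero_of_nonpos (by norm_num)
    have e2 : τ2 0 = 0 := Real.smoothTransition.zero_of_nonpos (by norm_num)
    show W (τ1 0) i x + τ2 0 • θ i x = w i x
    rw [e1, e2, zero_smul, add_zero, h.start]
  · intro t i
    have : (fun x => W (τ1 t) i x + τ2 t • θ i x - w i x) =
        fun x => (W (τ1 t) i x - w i x) + τ2 t • θ i x := by
      funext x; abel
    show HS.Exact (fun x => W (τ1 t) i x + τ2 t • θ i x - w i x)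
    rw [this]
    exact exact_add (h.exact _ i) (exact_smul (hθ i).2.2 _)
  · funext i x
    have e1 : τ1 1 = 1 := Real.smoothTransition.one_of_one_le (by norm_num)
    have e2 : τ2 1 = 1 := Real.smoothTransition.one_of_one_le (by norm_num)
    show W (τ1 1) i x + τ2 1 • θ i x = W 1 i x + θ i x
    rw [e1, e2, one_smul]
  · intro t _
    rcases hcase t with e | e
    · show P (fun i x => W (τ1 t) i x + τ2 t • θ i x)
      rw [e]
      exact hWP _ (m1 t)
    · show P (fun i x => W (τ1 t) i x + τ2 t • θ i x)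
      rw [e]
      exact hP _ (m2 t)

end

end Vale.Agent.P247.SCY
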