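import Vale.Agent.P247.SCY.FR1

/-!
# P247: segments between almost orthonormal triples, linear algebra
-/

set_option linter.all false

open scoped BigOperators ContDiff Topology Manifold ENNReal
open Set MeasureTheory Metric Filter

namespace Vale.Agent.P247.SCY
open Vale.Agent.P204 Vale.Agent.P204.T4 Vale.Agent.P204.Mfd Vale.Agent.P204.GX

/-- every four vectors have an isotropic combination -/
theorem exists_isotropic (A A' B C : L2) : ∃ a a' b c : ℝ, (a ≠ 0 ∨ a' ≠ 0 ∨ b ≠ 0 ∨ c ≠ 0) ∧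
    Q (a • A + a' • A' + b • B + c • C) (a • A + a' • A' + b • B + c • C) = 0 := by
  set g : (Fin 4 → ℝ) →ₗ[ℝ] L2 :=
    { toFun := fun v => v 0 • A + v 1 • A' + v 2 • B + v 3 • C
      map_add' := fun v w => by simp only [Pi.add_apply, add_smul]; abel
      map_smul' := fun r v => by
        simp only [Pi.smul_apply, smul_eq_mul, RingHom.id_apply, smul_add, mul_smul] } with hg
  set p : L2 →ₗ[ℝ] (Fin 3 → ℝ) :=
    { toFun := fun w => ![w 3, w 4, w 5]
      map_add' := fun v w => by ext i; fin_cases i <;> rfl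
      map_smul' := fun r v => by ext i; fin_cases i <;> rfl } with hp
  have hker : LinearMap.ker (p ∘ₗ g) ≠ ⊥ := by
    apply LinearMap.ker_ne_bot_of_finrank_lt
    simp
  obtain ⟨v, hv, hv0⟩ := Submodule.exists_mem_ne_zero_of_ne_bot hker
  have h0 : p (g v) = 0 := hv
  have h3 : (g v) 3 = 0 := congrFun h0 0
  have h4 : (g v) 4 = 0 := congrFun h0 1
  have h5 : (g v) 5 = 0 := congrFun h0 2
  refine ⟨v 0, v 1, v 2, v 3, ?_, ?_⟩
  · by_contra hcon
    push Not at hcon
    apply hv0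
    funext i
    fin_cases i
    · exact hcon.1
    · exact hcon.2.1
    · exact hcon.2.2.1
    · exact hcon.2.2.2
  · show Q (g v) (g v) = 0
    simp only [Q, h3, h4, h5]
    ring

theorem proj_small {b d y x1 x2 u v ε : ℝ} (hε : 0 < ε) (hε4 : ε ≤ 1 / 4) (hb : 1 - ε < b)
    (hd : 1 - ε < d) (hy : |y| < ε) (h1 : |x1| < ε) (h2 : |x2| < ε) (e1 : x1 = u * b + v * y)
    (e2 : x2 = u * y + v * d) : u * x1 + v * x2 ≤ ε := by
  have hP : (1 - 2 * ε) * (u ^ 2 + v ^ 2) ≤ u * x1 + v * x2 := by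
    have hyy := abs_lt.1 hy
    rw [e1, e2]
    nlinarith [sq_nonneg (u + v), sq_nonneg (u - v), sq_nonneg u, sq_nonneg v,
      mul_nonneg (sub_nonneg.2 hb.le) (sq_nonneg u), mul_nonneg (sub_nonneg.2 hd.le) (sq_nonneg v),
      mul_nonneg (sub_nonneg.2 hyy.2.le) (sq_nonneg (u - v)),
      mul_nonneg (by linarith : (0 : ℝ) ≤ y + ε) (sq_nonneg (u + v))]
  have hU : u * x1 + v * x2 ≤ ε * (|u| + |v|) := by
    have k1 : u * x1 ≤ |u| * ε := by
      calc u * x1 ≤ |u * x1| := le_abs_self _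
        _ = |u| * |x1| := abs_mul _ _
        _ ≤ |u| * ε := mul_le_mul_of_nonneg_left h1.le (abs_nonneg _)
    have k2 : v * x2 ≤ |v| * ε := by
      calc v * x2 ≤ |v * x2| := le_abs_self _
        _ = |v| * |x2| := abs_mul _ _
        _ ≤ |v| * ε := mul_le_mul_of_nonneg_left h2.le (abs_nonneg _)
    linarith
  set m := |u| + |v| with hm
  have hm0 : 0 ≤ m := by positivity
  have hm2 : m ^ 2 ≤ 2 * (u ^ 2 + v ^ 2) := by
    rw [hm, ← sq_abs u, ← sq_abs v]
    nlinarith [sq_nonneg (|u| - |v|)]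
  have h3 : (1 / 4) * m ^ 2 ≤ ε * m := by
    have : (1 - 2 * ε) * (m ^ 2 / 2) ≤ (1 - 2 * ε) * (u ^ 2 + v ^ 2) :=
      mul_le_mul_of_nonneg_left (by linarith) (by linarith)
    have h4 : (1 / 4) * m ^ 2 ≤ (1 - 2 * ε) * (m ^ 2 / 2) := by
      nlinarith [sq_nonneg m]
    linarith
  have h5 : m ≤ 4 * ε := by
    rcases hm0.eq_or_lt with h | h
    · rw [← h]; positivity
    · nlinarith
  calc u * x1 + v * x2 ≤ ε * m := hU
    _ ≤ ε * (4 * ε) := mul_le_mul_of_nonneg_left h5 hε.le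
    _ ≤ ε * 1 := mul_le_mul_of_nonneg_left (by linarith) hε.le
    _ = ε := mul_one _

/-- a positive quadratic segment in a Lorentzian plane -/
theorem seg_poly {D0 D1 M : ℝ} (h0 : 0 < D0) (h1 : 0 < D1) (hM : D0 * D1 ≤ M ^ 2)
    (hpos : ∀ s ∈ Icc (0 : ℝ) 1, 0 < (1 - s) ^ 2 * D0 + 2 * s * (1 - s) * M + s ^ 2 * D1) {m : ℝ}
    (hm : 0 ≤ m) (hm0 : m ≤ D0) (hm1 : m ≤ D1) :
    ∀ s ∈ Icc (0 : ℝ) 1, m ≤ (1 - s) ^ 2 * D0 + 2 * s * (1 - s) * M + s ^ 2 * D1 := by
  have hMpos : 0 < M := by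
    by_contra hneg
    push Not at hneg
    have hden : 0 < D0 - 2 * M + D1 := by linarith
    have hs : (D0 - M) / (D0 - 2 * M + D1) ∈ Icc (0 : ℝ) 1 :=
      ⟨div_nonneg (by linarith) hden.le, by rw [div_le_one hden]; linarith⟩
    have h2 := hpos _ hs
    set S := D0 - 2 * M + D1 with hS
    set t := (D0 - M) / S with ht
    have t1 : t * S = D0 - M := div_mul_cancel₀ _ hden.ne'
    have t2 : (1 - t) * S = D1 - M := by rw [sub_mul, t1, hS]; ring
    have e : S ^ 2 * ((1 - t) ^ 2 * D0 + 2 * t * (1 - t) * M + t ^ 2 * D1) =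
        S * (D0 * D1 - M ^ 2) := by
      calc _ = ((1 - t) * S) ^ 2 * D0 + 2 * (t * S) * ((1 - t) * S) * M + (t * S) ^ 2 * D1 := by ring
        _ = S * (D0 * D1 - M ^ 2) := by rw [t1, t2, hS]; ring
    have h3 : 0 < S ^ 2 * ((1 - t) ^ 2 * D0 + 2 * t * (1 - t) * M + t ^ 2 * D1) := by positivity
    rw [e] at h3
    have h4 := (mul_pos_iff_of_pos_left hden).1 h3
    linarith
  have hMm : m ≤ M := by
    by_contra hlt
    push Not at hlt
    have h2 : M ^ 2 < m ^ 2 := by nlinarith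
    have h3 : m ^ 2 ≤ D0 * D1 := by nlinarith
    linarith
  intro s hs
  have a1 : 0 ≤ (1 - s) ^ 2 := sq_nonneg _
  have a2 : 0 ≤ 2 * s * (1 - s) := mul_nonneg (mul_nonneg two_pos.le hs.1) (by linarith [hs.2])
  have a3 : 0 ≤ s ^ 2 := sq_nonneg _
  have b1 := mul_le_mul_of_nonneg_left hm0 a1
  have b2 := mul_le_mul_of_nonneg_left hMm a2
  have b3 := mul_le_mul_of_nonneg_left hm1 a3
  nlinarith

theorem seg_lower (k : ℝ) {A A' B C : L2} {ε : ℝ} (hε : 0 < ε) (hε4 : ε ≤ 1 / 4)
    (hA : 1 - ε < k * Q A A) (hA' : 1 - ε < k * Q A' A') (hB : 1 - ε < k * Q B B)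
    (hC : 1 - ε < k * Q C C) (hAB : |k * Q A B| < ε) (hAC : |k * Q A C| < ε)
    (hA'B : |k * Q A' B| < ε) (hA'C : |k * Q A' C| < ε) (hBC : |k * Q B C| < ε)
    (hpos : ∀ s ∈ Icc (0 : ℝ) 1, ∀ b c : ℝ,
      0 < k * Q (A + s • (A' - A) + b • B + c • C) (A + s • (A' - A) + b • B + c • C)) :
    ∀ s ∈ Icc (0 : ℝ) 1, 1 - 2 * ε ≤ k * Q (A + s • (A' - A)) (A + s • (A' - A)) := by
  set b := k * Q B B with hb
  set d := k * Q C C with hd
  set y := k * Q B C with hy
  have hyy := abs_lt.1 hBC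
  have hdet : 0 < b * d - y ^ 2 := by
    have h1 : (1 - ε) * (1 - ε) ≤ b * d := mul_le_mul hB.le hC.le (by linarith) (by linarith)
    have h2 : y ^ 2 ≤ ε ^ 2 := by nlinarith [hyy.1, hyy.2]
    nlinarith
  -- the projections
  have proj : ∀ E : L2, |k * Q E B| < ε → |k * Q E C| < ε → 1 - ε < k * Q E E → ∃ u v : ℝ,
      k * Q (E + u • B + v • C) B = 0 ∧ k * Q (E + u • B + v • C) C = 0 ∧
      1 - 2 * ε < k * Q (E + u • B + v • C) (E + u • B + v • C) := by
    intro E h1 h2 h3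
    set x1 := k * Q E B with hx1
    set x2 := k * Q E C with hx2
    set u := (x1 * d - x2 * y) / (b * d - y ^ 2) with hu
    set v := (x2 * b - x1 * y) / (b * d - y ^ 2) with hv
    have hne := hdet.ne'
    have e1 : x1 = u * b + v * y := by
      have : u * b + v * y = (x1 * (b * d - y ^ 2)) / (b * d - y ^ 2) := by
        rw [hu, hv, div_mul_eq_mul_div, div_mul_eq_mul_div, ← add_div]; congr 1; ring
      rw [this, mul_div_assoc, div_self hne, mul_one]
    have e2 : x2 = u * y + v * d := by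
      have : u * y + v * d = (x2 * (b * d - y ^ 2)) / (b * d - y ^ 2) := by
        rw [hu, hv, div_mul_eq_mul_div, div_mul_eq_mul_div, ← add_div]; congr 1; ring
      rw [this, mul_div_assoc, div_self hne, mul_one]
    refine ⟨-u, -v, ?_, ?_, ?_⟩
    · have : k * Q (E + -u • B + -v • C) B = x1 - u * b - v * y := by
        rw [hx1, hb, hy, Q_add_left, Q_add_left, Q_smul_left, Q_smul_left, Q_comm C B]; ring
      rw [this]; linarith
    · have : k * Q (E + -u • B + -v • C) C = x2 - u * y - v * d := by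
        rw [hx2, hd, hy, Q_add_left, Q_add_left, Q_smul_left, Q_smul_left]; ring
      rw [this]; linarith
    · have h4 := proj_small hε hε4 hB hC hBC h1 h2 e1 e2
      have : k * Q (E + -u • B + -v • C) (E + -u • B + -v • C) =
          k * Q E E - 2 * (u * x1 + v * x2) + (u * (u * b + v * y) + v * (u * y + v * d)) := by
        rw [hx1, hx2, hb, hy, hd]
        simp only [Q_add_left, Q_add_right, Q_smul_left, Q_smul_right, Q_comm C B, Q_comm B E,
          Q_comm C E]
        ring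
      rw [this, ← e1, ← e2]
      linarith
  obtain ⟨u, v, a1, a2, a3⟩ := proj A hAB hAC hA
  obtain ⟨u', v', a1', a2', a3'⟩ := proj A' hA'B hA'C hA'
  set Z := A + u • B + v • C with hZ
  set Z' := A' + u' • B + v' • C with hZ'
  set D0 := k * Q Z Z with hD0
  set D1 := k * Q Z' Z' with hD1
  set M := k * Q Z Z' with hM
  have hD0p : 0 < D0 := by linarith
  have hD1p : 0 < D1 := by linarith
  have hbp : 0 < b := by linarith
  -- Lorentzian
  have hMM : D0 * D1 ≤ M ^ 2 := by
    obtain ⟨p, p', r, t, hne, h0⟩ := exists_isotropic Z Z' B C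
    have h1 : k * Q (p • Z + p' • Z' + r • B + t • C) (p • Z + p' • Z' + r • B + t • C) =
        p ^ 2 * D0 + 2 * p * p' * M + p' ^ 2 * D1 + (r ^ 2 * b + 2 * r * t * y + t ^ 2 * d) +
        2 * (p * r * (k * Q Z B) + p * t * (k * Q Z C) + p' * r * (k * Q Z' B) +
          p' * t * (k * Q Z' C)) := by
      rw [hD0, hD1, hM, hb, hy, hd]
      simp only [Q_add_left, Q_add_right, Q_smul_left, Q_smul_right, Q_comm C B, Q_comm B Z,
        Q_comm C Z, Q_comm B Z', Q_comm C Z', Q_comm Z' Z]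
      ring
    rw [h0, mul_zero, a1, a2, a1', a2'] at h1
    have h2 : 0 ≤ r ^ 2 * b + 2 * r * t * y + t ^ 2 * d := by
      have : b * (r ^ 2 * b + 2 * r * t * y + t ^ 2 * d) =
          (r * b + t * y) ^ 2 + t ^ 2 * (b * d - y ^ 2) := by ring
      have h3 : 0 ≤ b * (r ^ 2 * b + 2 * r * t * y + t ^ 2 * d) := by rw [this]; positivity
      exact nonneg_of_mul_nonneg_right h3 hbp
    have h3 : p ^ 2 * D0 + 2 * p * p' * M + p' ^ 2 * D1 ≤ 0 := by linarith
    have hp : p ≠ 0 ∨ p' ≠ 0 := by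
      by_contra hcon
      push Not at hcon
      rw [hcon.1, hcon.2] at h1 hne
      have h4 : r ^ 2 * b + 2 * r * t * y + t ^ 2 * d = 0 := by linarith
      have h5 : (r * b + t * y) ^ 2 + t ^ 2 * (b * d - y ^ 2) = 0 := by
        have : b * (r ^ 2 * b + 2 * r * t * y + t ^ 2 * d) =
          (r * b + t * y) ^ 2 + t ^ 2 * (b * d - y ^ 2) := by ring
        rw [← this, h4, mul_zero]
      have h6 : t = 0 := by
        by_contra ht
        have : 0 < t ^ 2 * (b * d - y ^ 2) := by positivity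
        have := sq_nonneg (r * b + t * y)
        linarith
      rw [h6] at h5
      have h7 : (r * b) ^ 2 = 0 := by linarith [h5]
      have h8 : r = 0 := by
        have := pow_eq_zero_iff (n := 2) (by norm_num) |>.1 h7
        rcases mul_eq_zero.1 this with h | h
        · exact h
        · exact absurd h hbp.ne'
      rcases hne with h | h | h | h
      · exact h rfl
      · exact h rfl
      · exact h h8
      · exact h h6
    have h4 : (p * D0 + p' * M) ^ 2 + p' ^ 2 * (D0 * D1 - M ^ 2) ≤ 0 := by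
      have : (p * D0 + p' * M) ^ 2 + p' ^ 2 * (D0 * D1 - M ^ 2) =
          D0 * (p ^ 2 * D0 + 2 * p * p' * M + p' ^ 2 * D1) := by ring
      rw [this]
      exact mul_nonpos_of_nonneg_of_nonpos hD0p.le h3
    by_contra hlt
    push Not at hlt
    have h5 : 0 < D0 * D1 - M ^ 2 := by linarith
    have h6 := sq_nonneg (p * D0 + p' * M)
    have h7 : p' = 0 := by
      by_contra hp'
      have : 0 < p' ^ 2 * (D0 * D1 - M ^ 2) := by positivity
      linarith
    rw [h7] at h3
    have h8 : p ≠ 0 := by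
      rcases hp with h | h
      · exact h
      · exact absurd h7 h
    have : 0 < p ^ 2 * D0 := by positivity
    linarith
  -- the segment
  have hseg : ∀ s : ℝ, k * Q (A + s • (A' - A) + ((1 - s) * u + s * u') • B +
      ((1 - s) * v + s * v') • C) (A + s • (A' - A) + ((1 - s) * u + s * u') • B +
      ((1 - s) * v + s * v') • C) = (1 - s) ^ 2 * D0 + 2 * s * (1 - s) * M + s ^ 2 * D1 := by
    intro s
    have e : A + s • (A' - A) + ((1 - s) * u + s * u') • B + ((1 - s) * v + s * v') • C =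
        (1 - s) • Z + s • Z' := by rw [hZ, hZ']; module
    rw [e, hD0, hD1, hM]
    simp only [Q_add_left, Q_add_right, Q_smul_left, Q_smul_right, Q_comm Z' Z]
    ring
  have hfin := seg_poly hD0p hD1p hMM (fun s hs => by rw [← hseg]; exact hpos s hs _ _)
    (m := 1 - 2 * ε) (by linarith) a3.le a3'.le
  intro s hs
  refine (hfin s hs).trans ?_
  rw [← hseg]
  -- Pythagoras
  set u1 := (1 - s) * u + s * u' with hu1
  set v1 := (1 - s) * v + s * v' with hv1
  set E := A + s • (A' - A) with hE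
  have o1 : k * Q (E + u1 • B + v1 • C) B = 0 := by
    have e : E + u1 • B + v1 • C = (1 - s) • Z + s • Z' := by rw [hE, hu1, hv1, hZ, hZ']; module
    rw [e, Q_add_left, Q_smul_left, Q_smul_left]
    linear_combination (1 - s) * a1 + s * a1'
  have o2 : k * Q (E + u1 • B + v1 • C) C = 0 := by
    have e : E + u1 • B + v1 • C = (1 - s) • Z + s • Z' := by rw [hE, hu1, hv1, hZ, hZ']; module
    rw [e, Q_add_left, Q_smul_left, Q_smul_left]
    linear_combination (1 - s) * a2 + s * a2'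
  have e1 : k * Q E E = k * Q (E + u1 • B + v1 • C) (E + u1 • B + v1 • C) +
      (u1 ^ 2 * b + 2 * u1 * v1 * y + v1 ^ 2 * d) - 2 * (u1 * (k * Q (E + u1 • B + v1 • C) B) +
        v1 * (k * Q (E + u1 • B + v1 • C) C)) := by
    rw [hb, hy, hd]
    simp only [Q_add_left, Q_add_right, Q_smul_left, Q_smul_right, Q_comm C B, Q_comm B E,
      Q_comm C E]
    ring
  have h2 : 0 ≤ u1 ^ 2 * b + 2 * u1 * v1 * y + v1 ^ 2 * d := by
    have : b * (u1 ^ 2 * b + 2 * u1 * v1 * y + v1 ^ 2 * d) =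
        (u1 * b + v1 * y) ^ 2 + v1 ^ 2 * (b * d - y ^ 2) := by ring
    have h3 : 0 ≤ b * (u1 ^ 2 * b + 2 * u1 * v1 * y + v1 ^ 2 * d) := by rw [this]; positivity
    exact nonneg_of_mul_nonneg_right h3 hbp
  rw [e1, o1, o2]
  linarith

end Vale.Agent.P247.SCY
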