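import Vale.Agent.P247.SCY.FR2

/-!
# P247: almost orthonormal triples and steps which change one form
-/

set_option linter.all false

open scoped BigOperators ContDiff Topology Manifold ENNReal
open Set MeasureTheory Metric Filter

namespace Vale.Agent.P247.SCY
open Vale.Agent.P204 Vale.Agent.P204.T4 Vale.Agent.P204.Mfd Vale.Agent.P204.GX

theorem abs_conv {a b s ε : ℝ} (ha : |a| < ε) (hb : |b| < ε) (h0 : 0 ≤ s) (h1 : 0 ≤ 1 - s) :
    |(1 - s) * a + s * b| < ε := by
  set m := max |a| |b| with hm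
  have c1 : |a| ≤ m := le_max_left _ _
  have c2 : |b| ≤ m := le_max_right _ _
  have c3 : m < ε := max_lt ha hb
  have c4 := abs_add_le ((1 - s) * a) (s * b)
  rw [abs_mul, abs_mul, abs_of_nonneg h0, abs_of_nonneg h1] at c4
  have c5 := mul_le_mul_of_nonneg_left c1 h1
  have c6 := mul_le_mul_of_nonneg_left c2 h0
  linarith

section
variable {X : Type} [TopologicalSpace X] [ChartedSpace E4 X]

/-- the Gram matrix is `ε`-close to the identity from below and off the diagonal -/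
def Near (μ : HS.Form X 4) (ε : ℝ) (w : Fin 3 → HS.Form X 2) : Prop :=
  ∀ x, (∀ i, 1 - ε < HS.Qm μ w x i i) ∧ ∀ i j, i ≠ j → |HS.Qm μ w x i j| < ε

theorem Near.mono {μ : HS.Form X 4} {ε ε' : ℝ} {w : Fin 3 → HS.Form X 2} (h : Near μ ε w)
    (hε : ε ≤ ε') : Near μ ε' w := fun x =>
  ⟨fun i => by linarith [(h x).1 i], fun i j hij => ((h x).2 i j hij).trans_le hε⟩

/-- the other two indices -/
def o1 (k : Fin 3) : Fin 3 := if k = 0 then 1 else 0
def o2 (k : Fin 3) : Fin 3 := if k = 2 then 1 else 2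

theorem o1_ne (k : Fin 3) : o1 k ≠ k := by fin_cases k <;> decide
theorem o2_ne (k : Fin 3) : o2 k ≠ k := by fin_cases k <;> decide
theorem o12_ne (k : Fin 3) : o1 k ≠ o2 k := by fin_cases k <;> decide
theorem o_cases (k i : Fin 3) : i = k ∨ i = o1 k ∨ i = o2 k := by
  fin_cases k <;> fin_cases i <;> decide

theorem tri_o {μ : HS.Form X 4} {w : Fin 3 → HS.Form X 2} (k : Fin 3) :
    TriPos μ (w 0) (w 1) (w 2) ↔ TriPos μ (w k) (w (o1 k)) (w (o2 k)) := by
  fin_cases k
  · exact Iff.rfl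
  · exact ⟨fun h => h.swap, fun h => h.swap⟩
  · exact ⟨fun h => h.rot, fun h => h.rot.rot⟩

/-- the triple with the form `θ` at the place `k` -/
noncomputable def sgl (k : Fin 3) (θ : HS.Form X 2) : Fin 3 → HS.Form X 2 :=
  fun i x => if i = k then θ x else 0

theorem sgl_self (k : Fin 3) (θ : HS.Form X 2) : sgl k θ k = θ := by
  funext x; exact if_pos rfl

theorem sgl_ne {k i : Fin 3} (h : i ≠ k) (θ : HS.Form X 2) : sgl k θ i = fun _ => 0 := by
  funext x; exact if_neg h

theorem sgl_props {k : Fin 3} {θ : HS.Form X 2}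
    (h : HS.Smooth θ ∧ HS.Closed θ ∧ HS.Exact θ) (i : Fin 3) :
    HS.Smooth (sgl k θ i) ∧ HS.Closed (sgl k θ i) ∧ HS.Exact (sgl k θ i) := by
  rcases eq_or_ne i k with rfl | hi
  · rw [sgl_self]; exact h
  · rw [sgl_ne hi]; exact ⟨smooth_zero', closed_zero', exact_zero'⟩

/-- the triple `w + θ` -/
noncomputable def addT (w θ : Fin 3 → HS.Form X 2) : Fin 3 → HS.Form X 2 := fun i x => w i x + θ i x

/-- the triple `w + s θ` -/
noncomputable def segT (w θ : Fin 3 → HS.Form X 2) (s : ℝ) : Fin 3 → HS.Form X 2 :=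
  fun i x => w i x + s • θ i x

theorem segT_one (w θ : Fin 3 → HS.Form X 2) : segT w θ 1 = addT w θ := by
  funext i x
  show w i x + (1 : ℝ) • θ i x = w i x + θ i x
  rw [one_smul]

theorem segT_self (w : Fin 3 → HS.Form X 2) (k : Fin 3) (θ : HS.Form X 2) (s : ℝ) :
    segT w (sgl k θ) s k = fun x => w k x + s • θ x := by
  funext x
  show w k x + s • (if k = k then θ x else 0) = _
  rw [if_pos rfl]

theorem segT_ne (w : Fin 3 → HS.Form X 2) {k i : Fin 3} (h : i ≠ k) (θ : HS.Form X 2) (s : ℝ) :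
    segT w (sgl k θ) s i = w i := by
  funext x
  show w i x + s • (if i = k then θ x else 0) = _
  rw [if_neg h, smul_zero, add_zero]

theorem addT_self (w : Fin 3 → HS.Form X 2) (k : Fin 3) (θ : HS.Form X 2) :
    addT w (sgl k θ) k = fun x => w k x + θ x := by
  funext x
  show w k x + (if k = k then θ x else 0) = _
  rw [if_pos rfl]

theorem addT_ne (w : Fin 3 → HS.Form X 2) {k i : Fin 3} (h : i ≠ k) (θ : HS.Form X 2) :
    addT w (sgl k θ) i = w i := by
  funext x
  show w i x + (if i = k then θ x else 0) = _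
  rw [if_neg h, add_zero]

theorem tri_sgl {μ : HS.Form X 4} {w : Fin 3 → HS.Form X 2} {k : Fin 3} {θ : HS.Form X 2} {s : ℝ}
    (h : TriPos μ (fun x => w k x + s • θ x) (w (o1 k)) (w (o2 k))) :
    ∀ x, (HS.Qm μ (segT w (sgl k θ) s) x).PosDef := by
  apply posDef_of_tri
  rw [tri_o k, segT_self, segT_ne w (o1_ne k), segT_ne w (o2_ne k)]
  exact h

theorem Qm_quot (μ : HS.Form X 4) (w : Fin 3 → HS.Form X 2) (x : X) (i j : Fin 3) :
    HS.Qm μ w x i j = HS.quot μ (w i) (w j) x / 2 := rfl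

theorem Qm_cx (μ : HS.Form X 4) (w : Fin 3 → HS.Form X 2) (x : X) (i j : Fin 3) :
    HS.Qm μ w x i j = ((ax μ x HS.bas)⁻¹ / 2) * Q (cx (w i) x) (cx (w j) x) := by
  rw [Qm_quot, quot_cx]; ring

theorem near_single {μ : HS.Form X 4} {w : Fin 3 → HS.Form X 2} {k : Fin 3} {θ : HS.Form X 2}
    {ε : ℝ} (hε : 0 < ε) (hε4 : ε ≤ 1 / 4) (h0 : Near μ ε w)
    (h1 : Near μ ε (addT w (sgl k θ)))
    (htri : ∀ s ∈ Icc (0 : ℝ) 1, TriPos μ (fun x => w k x + s • θ x) (w (o1 k)) (w (o2 k))) :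
    ∀ s ∈ Icc (0 : ℝ) 1, Near μ (3 * ε) (segT w (sgl k θ) s) := by
  intro s hs x
  set c := (ax μ x HS.bas)⁻¹ / 2 with hc
  set A := cx (w k) x with hA
  set T := cx θ x with hT
  set B := cx (w (o1 k)) x with hB
  set C := cx (w (o2 k)) x with hC
  have eA : cx (segT w (sgl k θ) s k) x = A + s • T := by
    rw [segT_self, cx_add (w k) (fun x => s • θ x), cx_smul]
  have eA' : cx (addT w (sgl k θ) k) x = A + T := by
    rw [addT_self, cx_add (w k) θ]
  have f0 : ∀ i j, HS.Qm μ w x i j = c * Q (cx (w i) x) (cx (w j) x) := fun i j => Qm_cx μ w x i j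
  have n0 := h0 x
  have n1 := h1 x
  have k1 : 1 - ε < c * Q A A := by rw [← f0]; exact n0.1 k
  have k2 : 1 - ε < c * Q (A + T) (A + T) := by
    have := n1.1 k
    rw [Qm_cx, eA'] at this
    exact this
  have k3 : 1 - ε < c * Q B B := by rw [← f0]; exact n0.1 _
  have k4 : 1 - ε < c * Q C C := by rw [← f0]; exact n0.1 _
  have k5 : |c * Q A B| < ε := by rw [← f0]; exact n0.2 _ _ (o1_ne k).symm
  have k6 : |c * Q A C| < ε := by rw [← f0]; exact n0.2 _ _ (o2_ne k).symm
  have k7 : |c * Q B C| < ε := by rw [← f0]; exact n0.2 _ _ (o12_ne k)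
  have k8 : |c * Q (A + T) B| < ε := by
    have := n1.2 k (o1 k) (o1_ne k).symm
    rw [Qm_cx, eA', addT_ne w (o1_ne k)] at this
    exact this
  have k9 : |c * Q (A + T) C| < ε := by
    have := n1.2 k (o2 k) (o2_ne k).symm
    rw [Qm_cx, eA', addT_ne w (o2_ne k)] at this
    exact this
  have hT' : (A + T) - A = T := add_sub_cancel_left _ _
  have hpos : ∀ s ∈ Icc (0 : ℝ) 1, ∀ b d : ℝ,
      0 < c * Q (A + s • ((A + T) - A) + b • B + d • C) (A + s • ((A + T) - A) + b • B + d • C) := by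
    intro s hs b d
    have h := htri s hs x 1 b d (Or.inl one_ne_zero)
    simp only [quot_cx, cx_add (w k) (fun x => s • θ x), cx_smul] at h
    have e := Q_comb (A + s • T) B C 1 b d
    rw [one_smul] at e
    rw [hT', e]
    have e2 : c * (1 ^ 2 * Q (A + s • T) (A + s • T) + b ^ 2 * Q B B + d ^ 2 * Q C C +
        2 * 1 * b * Q (A + s • T) B + 2 * 1 * d * Q (A + s • T) C + 2 * b * d * Q B C) =
        (1 ^ 2 * ((ax μ x HS.bas)⁻¹ * Q (A + s • T) (A + s • T)) +
          b ^ 2 * ((ax μ x HS.bas)⁻¹ * Q B B) + d ^ 2 * ((ax μ x HS.bas)⁻¹ * Q C C) +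
          2 * 1 * b * ((ax μ x HS.bas)⁻¹ * Q (A + s • T) B) +
          2 * 1 * d * ((ax μ x HS.bas)⁻¹ * Q (A + s • T) C) +
          2 * b * d * ((ax μ x HS.bas)⁻¹ * Q B C)) / 2 := by rw [hc]; ring
    rw [e2]
    exact half_pos h
  have key := seg_lower c hε hε4 k1 k2 k3 k4 k5 k6 k8 k9 k7 hpos s hs
  rw [hT'] at key
  have hlin : ∀ Z : L2, |c * Q A Z| < ε → |c * Q (A + T) Z| < ε → |c * Q (A + s • T) Z| < ε := by
    intro Z z1 z2
    have e : c * Q (A + s • T) Z = (1 - s) * (c * Q A Z) + s * (c * Q (A + T) Z) := by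
      simp only [Q_add_left, Q_smul_left]; ring
    rw [e]
    have b1 := hs.1
    have b2 : 0 ≤ 1 - s := by linarith [hs.2]
    exact abs_conv z1 z2 b1 b2
  have m1 : |HS.Qm μ (segT w (sgl k θ) s) x k (o1 k)| < ε := by
    rw [Qm_cx, eA, segT_ne w (o1_ne k)]
    exact hlin B k5 k8
  have m2 : |HS.Qm μ (segT w (sgl k θ) s) x k (o2 k)| < ε := by
    rw [Qm_cx, eA, segT_ne w (o2_ne k)]
    exact hlin C k6 k9
  have m3 : |HS.Qm μ (segT w (sgl k θ) s) x (o1 k) (o2 k)| < ε := by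
    rw [Qm_cx, segT_ne w (o1_ne k), segT_ne w (o2_ne k)]
    exact k7
  have sym : ∀ i j, HS.Qm μ (segT w (sgl k θ) s) x i j =
      HS.Qm μ (segT w (sgl k θ) s) x j i := by
    intro i j
    rw [Qm_quot, Qm_quot, quot_comm]
  have h3 : ε < 3 * ε := by linarith
  refine ⟨fun i => ?_, fun i j hij => ?_⟩
  · rcases o_cases k i with h | h | h
    · rw [h, Qm_cx, eA]
      have : 1 - 3 * ε < 1 - 2 * ε := by linarith
      exact this.trans_le key
    · rw [h, Qm_cx, segT_ne w (o1_ne k)]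
      have : 1 - 3 * ε < 1 - ε := by linarith
      exact this.trans k3
    · rw [h, Qm_cx, segT_ne w (o2_ne k)]
      have : 1 - 3 * ε < 1 - ε := by linarith
      exact this.trans k4
  · rcases o_cases k i with h | h | h <;> rcases o_cases k j with h' | h' | h' <;> rw [h, h']
    · exact absurd (h.trans h'.symm) hij
    · exact m1.trans h3
    · exact m2.trans h3
    · rw [sym]; exact m1.trans h3
    · exact absurd (h.trans h'.symm) hij
    · exact m3.trans h3
    · rw [sym]; exact m2.trans h3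
    · rw [sym]; exact m3.trans h3
    · exact absurd (h.trans h'.symm) hij

end

end Vale.Agent.P247.SCY
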