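import Vale.Agent.P247.SCY.FR3
import Vale.Agent.P247.SCY.FE3

/-!
# P247: the stage of the three exact steps, through almost orthonormal triples
-/

set_option linter.all false

open scoped BigOperators ContDiff Topology Manifold ENNReal
open Set MeasureTheory Metric Filter

namespace Vale.Agent.P247.SCY
open Vale.Agent.P204 Vale.Agent.P204.T4 Vale.Agent.P204.Mfd Vale.Agent.P204.GX

section
variable {X : Type} [TopologicalSpace X] [ChartedSpace E4 X]

theorem Reach.single {μ : HS.Form X 4} {P : (Fin 3 → HS.Form X 2) → Prop}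
    {w w' : Fin 3 → HS.Form X 2} (h : Reach μ P w w') {k : Fin 3} {θ : HS.Form X 2}
    (hθ : HS.Smooth θ ∧ HS.Closed θ ∧ HS.Exact θ)
    (htri : ∀ s ∈ Icc (0 : ℝ) 1, TriPos μ (fun x => w' k x + s • θ x) (w' (o1 k)) (w' (o2 k)))
    (hP : ∀ s ∈ Icc (0 : ℝ) 1, P (segT w' (sgl k θ) s)) :
    Reach μ P w (addT w' (sgl k θ)) :=
  h.append (sgl_props hθ) (fun s hs => tri_sgl (htri s hs)) hP

/-- a step which keeps the triple almost orthonormal -/
theorem near_step {μ : HS.Form X 4} {w : Fin 3 → HS.Form X 2} {k : Fin 3} {θ : HS.Form X 2}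
    {ε : ℝ} (h0 : Near μ ε w)
    (h1 : ∀ x, 2 * (1 - ε) < HS.quot μ (fun x => w k x + θ x) (fun x => w k x + θ x) x)
    (h2 : ∀ x, |HS.quot μ (fun x => w k x + θ x) (w (o1 k)) x| < ε)
    (h3 : ∀ x, |HS.quot μ (fun x => w k x + θ x) (w (o2 k)) x| < ε) :
    Near μ ε (addT w (sgl k θ)) := by
  intro x
  have m0 : 1 - ε < HS.Qm μ (addT w (sgl k θ)) x k k := by
    rw [Qm_quot, addT_self]
    have := h1 x
    linarith
  have half : ∀ r : ℝ, |r| < ε → |r / 2| < ε := by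
    intro r hr
    rw [abs_div, abs_two]
    have := abs_nonneg r
    linarith
  have m1 : |HS.Qm μ (addT w (sgl k θ)) x k (o1 k)| < ε := by
    rw [Qm_quot, addT_self, addT_ne w (o1_ne k)]
    exact half _ (h2 x)
  have m2 : |HS.Qm μ (addT w (sgl k θ)) x k (o2 k)| < ε := by
    rw [Qm_quot, addT_self, addT_ne w (o2_ne k)]
    exact half _ (h3 x)
  have m3 : |HS.Qm μ (addT w (sgl k θ)) x (o1 k) (o2 k)| < ε := by
    rw [Qm_quot, addT_ne w (o1_ne k), addT_ne w (o2_ne k)]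
    exact (h0 x).2 _ _ (o12_ne k)
  have sym : ∀ i j, HS.Qm μ (addT w (sgl k θ)) x i j = HS.Qm μ (addT w (sgl k θ)) x j i := by
    intro i j
    rw [Qm_quot, Qm_quot, quot_comm]
  refine ⟨fun i => ?_, fun i j hij => ?_⟩
  · rcases o_cases k i with h | h | h
    · rw [h]; exact m0
    · rw [h, Qm_quot, addT_ne w (o1_ne k)]
      exact (h0 x).1 _
    · rw [h, Qm_quot, addT_ne w (o2_ne k)]
      exact (h0 x).1 _
  · rcases o_cases k i with h | h | h <;> rcases o_cases k j with h' | h' | h' <;> rw [h, h']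
    · exact absurd (h.trans h'.symm) hij
    · exact m1
    · exact m2
    · rw [sym]; exact m1
    · exact absurd (h.trans h'.symm) hij
    · exact m3
    · rw [sym]; exact m2
    · rw [sym]; exact m3
    · exact absurd (h.trans h'.symm) hij

/-- the property of the paths: they stay almost orthonormal if they start so -/
def PN (μ : HS.Form X 4) (ε' : ℝ) (w v : Fin 3 → HS.Form X 2) : Prop :=
  ∀ ε, ε' ≤ ε → ε ≤ 1 / 4 → Near μ ε w → Near μ (3 * ε) v

end

section
variable {X : Type} [TopologicalSpace X] [ChartedSpace E4 X] [IsManifold (𝓡 4) ∞ X]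
  [CompactSpace X] [T2Space X] [Nonempty X] [MeasurableSpace X] [BorelSpace X]

theorem Reach.normalized {μ : HS.Form X 4} (hμ : HS.Volume μ) (hfin : HS.vol μ univ ≠ ⊤)
    {P : (Fin 3 → HS.Form X 2) → Prop}
    {w w' : Fin 3 → HS.Form X 2} (hw : HS.Hypersymplectic μ w) (hn : HS.Normalized μ w)
    (h : Reach μ P w w') : HS.Normalized μ w' := by
  obtain ⟨W, h1, h2, h3⟩ := h
  rw [← h2]; exact normalized_deformation hμ hfin hw hn h1

/-- one exact step in the component `k` -/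
theorem stepEk (softK : SoftKStatement) (hcl : ClosedExStatement) {μ : HS.Form X 4}
    (hμ : HS.Volume μ) (hvol : (HS.vol μ univ).toReal = 1 / 2) (hb : HS.BPlusLe3 μ)
    {w : Fin 3 → HS.Form X 2} (hw : HS.Hypersymplectic μ w)
    (hn : HS.Normalized μ w) (k : Fin 3) {ε : ℝ} (hε : 0 < ε) :
    ∃ θ : HS.Form X 2, (HS.Smooth θ ∧ HS.Closed θ ∧ HS.Exact θ) ∧
      (∀ s ∈ Icc (0 : ℝ) 1, TriPos μ (fun x => w k x + s • θ x) (w (o1 k)) (w (o2 k))) ∧
      (∀ x, 2 * (1 - ε) < HS.quot μ (fun x => w k x + θ x) (fun x => w k x + θ x) x) ∧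
      (∀ x, HS.quot μ (fun x => w k x + θ x) (w (o1 k)) x = 0) ∧
      (∀ x, HS.quot μ (fun x => w k x + θ x) (w (o2 k)) x = 0) := by
  have nn : ∀ i, HS.pair μ (w i) (w i) = 1 := fun i => by simpa using hn i i
  have no : ∀ i j, i ≠ j → HS.pair μ (w i) (w j) = 0 := fun i j hij => by
    have := hn i j
    rwa [if_neg hij] at this
  obtain ⟨θ, sθ, cθ, e, p, q, d, x1, x2⟩ := stepE softK hcl hμ hvol hb (hw.smooth k) (hw.closed k)
    (hw.smooth (o1 k)) (hw.closed (o1 k)) (hw.smooth (o2 k)) (hw.closed (o2 k))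
    ((tri_o k).1 (tri_of_posDef hw.posDef)) (nn _) (nn _) (nn _) (no _ _ (o1_ne k).symm)
    (no _ _ (o2_ne k).symm) (no _ _ (o12_ne k)) hε
  exact ⟨θ, ⟨sθ, cθ, e⟩, q, d, x1, x2⟩

/-- **Stage E.** -/
theorem stageE (softK : SoftKStatement) (hcl : ClosedExStatement) {μ : HS.Form X 4}
    (hμ : HS.Volume μ) (hvol : HS.vol μ univ = 1 / 2) (hb : HS.BPlusLe3 μ)
    {w : Fin 3 → HS.Form X 2} (hw : HS.Hypersymplectic μ w)
    (hn : HS.Normalized μ w) {δ ε' : ℝ} (hδ : 0 < δ) (hδε : δ ≤ ε') :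
    ∃ w' : Fin 3 → HS.Form X 2, Reach μ (PN μ ε' w) w w' ∧ Near μ δ w' := by
  have hvol' : (HS.vol μ univ).toReal = 1 / 2 := by rw [hvol]; simp
  have hfin : HS.vol μ univ ≠ ⊤ := by rw [hvol]; simp
  -- one step
  have one : ∀ (k : Fin 3) (u : Fin 3 → HS.Form X 2), Reach μ (PN μ ε' w) w u →
      (∀ ε, ε' ≤ ε → ε ≤ 1 / 4 → Near μ ε w → Near μ ε u) →
      ∃ θ : HS.Form X 2, Reach μ (PN μ ε' w) w (addT u (sgl k θ)) ∧
        (∀ ε, ε' ≤ ε → ε ≤ 1 / 4 → Near μ ε w → Near μ ε (addT u (sgl k θ))) ∧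
        (∀ x, 2 * (1 - δ) < HS.quot μ (fun x => u k x + θ x) (fun x => u k x + θ x) x) ∧
        (∀ x, HS.quot μ (fun x => u k x + θ x) (u (o1 k)) x = 0) ∧
        (∀ x, HS.quot μ (fun x => u k x + θ x) (u (o2 k)) x = 0) := by
    intro k u hu hnear
    have hH := hu.hyper
    have hN := hu.normalized hμ hfin hw hn
    obtain ⟨θ, hθ, q, d, x1, x2⟩ := stepEk softK hcl hμ hvol' hb hH hN k hδ
    have hnear' : ∀ ε, ε' ≤ ε → ε ≤ 1 / 4 → Near μ ε w → Near μ ε (addT u (sgl k θ)) := by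
      intro ε h1 h2 h3
      have hε : 0 < ε := by linarith
      refine near_step (hnear ε h1 h2 h3) (fun x => ?_) (fun x => ?_) (fun x => ?_)
      · have := d x
        linarith
      · rw [x1 x, abs_zero]; exact hε
      · rw [x2 x, abs_zero]; exact hε
    refine ⟨θ, hu.single hθ q (fun s hs ε h1 h2 h3 => ?_), hnear', d, x1, x2⟩
    exact near_single (by linarith) h2 (hnear ε h1 h2 h3) (hnear' ε h1 h2 h3) q s hs
  obtain ⟨θ0, r0, n0, d0, x01, x02⟩ := one 0 w (reach_refl hw fun ε h1 h2 h3 => h3.mono (by linarith))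
    (fun ε _ _ h => h)
  obtain ⟨θ1, r1, n1, d1, x10, x12⟩ := one 1 _ r0 n0
  obtain ⟨θ2, r2, n2, d2, x20, x21⟩ := one 2 _ r1 n1
  refine ⟨_, r2, fun x => ?_⟩
  set u1 := addT w (sgl 0 θ0) with hu1
  set u2 := addT u1 (sgl 1 θ1) with hu2
  set u3 := addT u2 (sgl 2 θ2) with hu3
  have e32 : u3 2 = fun x => u2 2 x + θ2 x := addT_self _ _ _
  have e31 : u3 1 = fun x => u1 1 x + θ1 x := by
    rw [hu3, addT_ne u2 (by decide)]
    exact addT_self _ _ _
  have e30 : u3 0 = fun x => w 0 x + θ0 x := by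
    rw [hu3, addT_ne u2 (by decide), hu2, addT_ne u1 (by decide)]
    exact addT_self _ _ _
  have e20 : u2 0 = fun x => w 0 x + θ0 x := by
    rw [hu2, addT_ne u1 (by decide)]
    exact addT_self _ _ _
  have e10 : u1 0 = fun x => w 0 x + θ0 x := addT_self _ _ _
  have e21 : u2 1 = fun x => u1 1 x + θ1 x := addT_self _ _ _
  have q01 : HS.quot μ (u3 0) (u3 1) x = 0 := by
    rw [e30, e31, quot_comm, ← e10]
    exact x10 x
  have q02 : HS.quot μ (u3 0) (u3 2) x = 0 := by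
    rw [e30, e32, quot_comm, ← e20]
    exact x20 x
  have q12 : HS.quot μ (u3 1) (u3 2) x = 0 := by
    rw [e31, e32, quot_comm, ← e21]
    exact x21 x
  have p0 : 2 * (1 - δ) < HS.quot μ (u3 0) (u3 0) x := by rw [e30]; exact d0 x
  have p1 : 2 * (1 - δ) < HS.quot μ (u3 1) (u3 1) x := by rw [e31]; exact d1 x
  have p2 : 2 * (1 - δ) < HS.quot μ (u3 2) (u3 2) x := by rw [e32]; exact d2 x
  refine ⟨fun i => ?_, fun i j hij => ?_⟩
  · rw [Qm_quot]
    fin_cases i
    · show 1 - δ < HS.quot μ (u3 0) (u3 0) x / 2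
      linarith
    · show 1 - δ < HS.quot μ (u3 1) (u3 1) x / 2
      linarith
    · show 1 - δ < HS.quot μ (u3 2) (u3 2) x / 2
      linarith
  · have h0 : HS.quot μ (u3 i) (u3 j) x = 0 := by
      fin_cases i <;> fin_cases j
      · exact absurd rfl hij
      · exact q01
      · exact q02
      · rw [quot_comm]; exact q01
      · exact absurd rfl hij
      · exact q12
      · rw [quot_comm]; exact q02
      · rw [quot_comm]; exact q12
      · exact absurd rfl hij
    rw [Qm_quot, h0, zero_div, abs_zero]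
    exact hδ

end

end Vale.Agent.P247.SCY
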