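import Vale.Agent.P247.SCY.FR4

/-!
# P247: the flattening stages, through almost orthonormal triples
-/

set_option linter.all false

open scoped BigOperators ContDiff Topology Manifold ENNReal
open Set MeasureTheory Metric Filter

namespace Vale.Agent.P247.SCY
open Vale.Agent.P204 Vale.Agent.P204.T4 Vale.Agent.P204.Mfd Vale.Agent.P204.GX

section
variable {X : Type} [TopologicalSpace X] [ChartedSpace E4 X] [IsManifold (𝓡 4) ∞ X]
  [CompactSpace X] [T2Space X] [Nonempty X] [MeasurableSpace X] [BorelSpace X]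

/-- **One form**: made exactly orthogonal to `β` and `γ`, and flat and conformal with them on a
large open set. -/
theorem stepCD2 (softK : SoftKStatement) (hcl : ClosedExStatement) {μ : HS.Form X 4}
    (hμ : HS.Volume μ) (hvol : HS.vol μ univ = 1 / 2)
    (hb : HS.BPlusLe3 μ) {v α β γ : HS.Form X 2} (sv : HS.Smooth v) (pv : HS.pair μ v v = 1)
    (hv : ∀ x, 0 < HS.quot μ v v x) (sα : HS.Smooth α) (cα : HS.Closed α)
    (sβ : HS.Smooth β) (cβ : HS.Closed β) (sγ : HS.Smooth γ) (cγ : HS.Closed γ)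
    (hpos : TriPos μ α β γ) (pαα : HS.pair μ α α = 1) (pββ : HS.pair μ β β = 1)
    (pγγ : HS.pair μ γ γ = 1) (pαβ : HS.pair μ α β = 0) (pαγ : HS.pair μ α γ = 0)
    (pβγ : HS.pair μ β γ = 0) {G : Set X} (hG : IsOpen G)
    (hflat : ∀ x ∈ G, FlatPair β γ x) (hGβ : ∀ x ∈ G, HS.quot μ β β x = 2)
    (hGv : ∀ x ∈ G, HS.quot μ v v x = 2) {ε : ℝ} (hε : 0 < ε) :
    ∃ (θ1 θ2 : HS.Form X 2) (U : Set X), (HS.Smooth θ1 ∧ HS.Closed θ1 ∧ HS.Exact θ1) ∧
      (HS.Smooth θ2 ∧ HS.Closed θ2 ∧ HS.Exact θ2) ∧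
      (∀ s ∈ Icc (0 : ℝ) 1, TriPos μ (fun x => α x + s • θ1 x) β γ) ∧
      (∀ s ∈ Icc (0 : ℝ) 1, TriPos μ (fun x => (α x + θ1 x) + s • θ2 x) β γ) ∧
      (∀ x, HS.quot μ (fun x => α x + θ1 x) β x = 0) ∧
      (∀ x, HS.quot μ (fun x => α x + θ1 x) γ x = 0) ∧
      (∀ x, (1 - ε) * HS.quot μ v v x <
        HS.quot μ (fun x => α x + θ1 x) (fun x => α x + θ1 x) x) ∧
      (∀ x, HS.quot μ (fun x => (α x + θ1 x) + θ2 x) β x = 0) ∧
      (∀ x, HS.quot μ (fun x => (α x + θ1 x) + θ2 x) γ x = 0) ∧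
      (∀ x, (1 - ε) * HS.quot μ v v x <
        HS.quot μ (fun x => (α x + θ1 x) + θ2 x) (fun x => (α x + θ1 x) + θ2 x) x) ∧
      IsOpen U ∧ U ⊆ G ∧ HS.vol μ (G \ U) ≤ ENNReal.ofReal ε ∧
      ∀ x ∈ U, FlatPair β (fun x => (α x + θ1 x) + θ2 x) x ∧
        HS.quot μ (fun x => (α x + θ1 x) + θ2 x) (fun x => (α x + θ1 x) + θ2 x) x = 2 := by
  have hfin : HS.vol μ univ ≠ ⊤ := by rw [hvol]; simp
  haveI : IsFiniteMeasure (HS.vol μ) := ⟨lt_of_le_of_ne le_top hfin⟩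
  -- constants
  set ε3 := min (1 / 2) (ε / 3) with hε3
  have hε30 : 0 < ε3 := by positivity
  have hε31 : ε3 ≤ 1 / 2 := min_le_left _ _
  have hε32 : ε3 ≤ ε / 3 := min_le_right _ _
  obtain ⟨ε1, hε1, HK⟩ := stepK hμ hvol (ε := ε3) hε30
  set δ := min (min (1 / 2) (ε / 3)) (min ε1 (ε1 * ε)) with hδ
  have hδ0 : 0 < δ := by positivity
  have hδ2 : δ ≤ ε / 3 := (min_le_left _ _).trans (min_le_right _ _)
  have hδ3 : δ ≤ ε1 := (min_le_right _ _).trans (min_le_left _ _)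
  have hδ4 : δ ≤ ε1 * ε := (min_le_right _ _).trans (min_le_right _ _)
  obtain ⟨θ1, sθ1, cθ1, e1, p1, q1, d1', x1β, x1γ⟩ := stepV softK hcl hμ hb sv pv hv sα cα sβ cβ
    sγ cγ hpos pαα pββ pγγ pαβ pαγ pβγ hδ0
  set α1 : HS.Form X 2 := fun x => α x + θ1 x with hα1
  have sα1 : HS.Smooth α1 := smooth_add sα sθ1
  have cα1 : HS.Closed α1 := closed_add sα sθ1 cα cθ1
  have pα1 : HS.pair μ α1 α1 = 1 := by rw [p1 α1 sα1 cα1, pair_comm, p1 _ sα cα, pαα]
  have t1 : TriPos μ α1 β γ := by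
    have := q1 1 (by norm_num)
    simpa only [one_smul] using this
  set G' : Set X := G ∩ {x | |HS.quot μ α1 α1 x / 2 - 1| < ε1} with hG'
  have hG'o : IsOpen G' := by
    refine hG.inter (isOpen_lt ?_ continuous_const)
    exact (((continuous_quot hμ sα1 sα1).div_const 2).sub continuous_const).abs
  obtain ⟨θ2, U, sθ2, cθ2, e2, q2, x2β, x2γ, d2, hU, hUG, hvolU, hUf⟩ := HK sα1 cα1 sβ cβ sγ cγ t1
    x1β x1γ hG'o (fun x hx => ⟨hflat x hx.1, by rw [hGβ x hx.1]; exact hx.2⟩)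
  refine ⟨θ1, θ2, U, ⟨sθ1, cθ1, e1⟩, ⟨sθ2, cθ2, e2⟩, q1, q2, x1β, x1γ, fun x => ?_, x2β, x2γ, ?_, hU,
    hUG.trans inter_subset_left, ?_, fun x hx => ⟨(hUf x hx).1, ?_⟩⟩
  · have k1 := d1' x
    have k3 := hv x
    have k5 : (1 - ε) ≤ (1 - δ) := by linarith
    have k6 := mul_le_mul_of_nonneg_right k5 k3.le
    linarith
  · intro x
    have k1 := d1' x
    have k2 := d2 x
    have k3 := hv x
    have k4 : (1 - ε3) * ((1 - δ) * HS.quot μ v v x) < (1 - ε3) * HS.quot μ α1 α1 x :=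
      mul_lt_mul_of_pos_left k1 (by linarith)
    have k5 : (1 - ε) ≤ (1 - ε3) * (1 - δ) := by nlinarith
    have k6 := mul_le_mul_of_nonneg_right k5 k3.le
    linarith
  · have hsub : G \ U ⊆ {x | x ∈ G ∧ ε1 ≤ |HS.quot μ α1 α1 x / 2 - 1|} ∪ (G' \ U) := by
      rintro x ⟨hx, hx'⟩
      by_cases hxG : x ∈ G'
      · exact Or.inr ⟨hxG, hx'⟩
      · left
        refine ⟨hx, ?_⟩
        by_contra hcon
        exact hxG ⟨hx, not_le.1 hcon⟩
    have hbad := bad_small hμ hvol sv sα1 pv pα1 hε1 hδ0 hδ3 d1' hG hGv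
    have h1 : δ / (2 * ε1) ≤ ε / 2 := by
      rw [div_le_iff₀ (by positivity)]
      linarith
    calc HS.vol μ (G \ U) ≤ _ := measure_mono hsub
      _ ≤ _ := measure_union_le _ _
      _ ≤ ENNReal.ofReal (ε / 2) + ENNReal.ofReal ε3 :=
          add_le_add (hbad.trans (ENNReal.ofReal_le_ofReal h1)) hvolU
      _ = ENNReal.ofReal (ε / 2 + ε3) := (ENNReal.ofReal_add (by positivity) hε30.le).symm
      _ ≤ ENNReal.ofReal ε := ENNReal.ofReal_le_ofReal (by linarith)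
  · rw [(hUf x hx).2]
    exact hGβ x (hUG hx).1


/-- `L¹` bounds for almost orthonormal normalized triples -/
theorem near_L1 {μ : HS.Form X 4} (hμ : HS.Volume μ) (hvol : HS.vol μ univ = 1 / 2)
    {w : Fin 3 → HS.Form X 2} (hw : HS.Hypersymplectic μ w) (hn : HS.Normalized μ w) {δ : ℝ}
    (hδ : 0 < δ) (h : Near μ δ w) (i j : Fin 3) :
    ∫ x, |(HS.Qm μ w x - 1) i j| ∂(HS.vol μ) ≤ δ := by
  have hfin : HS.vol μ univ ≠ ⊤ := by rw [hvol]; simp
  haveI : IsFiniteMeasure (HS.vol μ) := ⟨lt_of_le_of_ne le_top hfin⟩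
  have hreal : (HS.vol μ).real univ = 1 / 2 := by rw [Measure.real, hvol]; simp
  rcases eq_or_ne i j with rfl | hij
  · have hnii : HS.pair μ (w i) (w i) = 1 := by simpa using hn i i
    have hint := integrable_quot hμ hfin (hw.smooth i) (hw.smooth i)
    have hle : ∀ x, |(HS.Qm μ w x - 1) i i| ≤ HS.quot μ (w i) (w i) x / 2 - 1 + 2 * δ := by
      intro x
      have h3 := (h x).1 i
      rw [sub_one_apply', if_pos rfl, Qm_quot]
      rw [Qm_quot] at h3
      rw [abs_le]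
      constructor <;> linarith
    have hint2 : Integrable (fun x => HS.quot μ (w i) (w i) x / 2 - 1 + 2 * δ)
        (HS.vol μ) := ((hint.div_const 2).sub (integrable_const _)).add (integrable_const _)
    have h4 : ∫ x, |(HS.Qm μ w x - 1) i i| ∂(HS.vol μ) ≤
        ∫ x, (HS.quot μ (w i) (w i) x / 2 - 1 + 2 * δ) ∂(HS.vol μ) :=
      integral_mono_of_nonneg (Filter.Eventually.of_forall fun x => abs_nonneg _) hint2
        (Filter.Eventually.of_forall hle)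
    have h5 : ∫ x, (HS.quot μ (w i) (w i) x / 2 - 1 + 2 * δ) ∂(HS.vol μ) = δ :=
      int_aux hint hnii hreal δ
    linarith
  · have hle : ∀ x, ‖|(HS.Qm μ w x - 1) i j|‖ ≤ δ := by
      intro x
      have e1 : (HS.Qm μ w x - 1) i j = HS.Qm μ w x i j := by
        rw [Matrix.sub_apply, Matrix.one_apply_ne hij, sub_zero]
      rw [e1, Real.norm_eq_abs, abs_abs]
      exact ((h x).2 i j hij).le
    have h4 := norm_integral_le_of_norm_le_const (μ := HS.vol μ)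
      (Filter.Eventually.of_forall hle)
    rw [hreal] at h4
    have h5 := le_trans (le_abs_self _) h4
    linarith

/-- **Stage F.** -/
theorem stageF {μ : HS.Form X 4} (hμ : HS.Volume μ) (hvol : HS.vol μ univ = 1 / 2) {ε : ℝ}
    (hε : 0 < ε) : ∃ δ : ℝ, 0 < δ ∧ δ ≤ ε ∧ ∀ {w : Fin 3 → HS.Form X 2},
      HS.Hypersymplectic μ w → HS.Normalized μ w → Near μ δ w →
      ∃ (θ : Fin 3 → HS.Form X 2) (U : Set X),
        (∀ i, HS.Smooth (θ i) ∧ HS.Closed (θ i) ∧ HS.Exact (θ i)) ∧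
        (∀ s ∈ Icc (0 : ℝ) 1, (∀ x, (HS.Qm μ (segT w θ s) x).PosDef) ∧ Near μ ε (segT w θ s)) ∧
        IsOpen U ∧ HS.vol μ Uᶜ < ENNReal.ofReal ε ∧
        ∀ x ∈ U, FlatAt μ (addT w θ) x ∧ HS.Qm μ (addT w θ) x = 1 := by
  have hfin : HS.vol μ univ ≠ ⊤ := by rw [hvol]; simp
  haveI : IsFiniteMeasure (HS.vol μ) := ⟨lt_of_le_of_ne le_top hfin⟩
  set κ := min (1 / 2) (ε / 16) with hκ
  have hκ0 : 0 < κ := lt_min (by norm_num) (by positivity)
  have hκ1 : κ < 1 := (min_le_left _ _).trans_lt (by norm_num)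
  have hκ2 : κ ≤ ε / 16 := min_le_right _ _
  set ε2 := min (1 / 12) (ε / 12) with hε2
  have hε20 : 0 < ε2 := lt_min (by norm_num) (by positivity)
  have hε21 : ε2 ≤ 1 / 12 := min_le_left _ _
  have hε22 : ε2 ≤ ε / 12 := min_le_right _ _
  obtain ⟨δ0, hδ0, H⟩ := stepF1 κ ε2 hκ0 hκ1 hε20
  set δ1 := min (ε / 2) (δ0 * (ε / 72)) with hδ1
  have hδ10 : 0 < δ1 := lt_min (by positivity) (by positivity)
  have hδ11 : δ1 ≤ ε / 2 := min_le_left _ _
  have hδ12 : δ1 ≤ δ0 * (ε / 72) := min_le_right _ _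
  refine ⟨δ1, hδ10, by linarith, ?_⟩
  intro w hH hn hnear
  set G := goodSet μ w δ0 with hG
  have hGo : IsOpen G := isOpen_goodSet hμ hH.smooth δ0
  have hGbad := vol_bad hμ hfin hH.smooth hδ0 (ε := 2 * δ1) (by linarith) fun i j =>
    (near_L1 hμ hvol hH hn hδ10 hnear i j).trans_lt (by linarith)
  obtain ⟨θ, U, hθ, hU, hUG, hvolU, hnear', hflat⟩ := H hμ hfin hH hGo (fun x hx => hx)
    (e := ENNReal.ofReal (ε / 4)) (by simpa using hε)
  have hQ0 : ∀ x, (∀ i, θ i x = 0) → ∀ s : ℝ, HS.Qm μ (segT w θ s) x = HS.Qm μ w x := by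
    intro x hx s
    ext i j
    show HS.wedge (w i x + s • θ i x) (w j x + s • θ j x) (HS.tbas x) / _ / 2 =
      HS.wedge (w i x) (w j x) (HS.tbas x) / _ / 2
    rw [hx i, hx j, smul_zero, add_zero, add_zero]
  refine ⟨θ, U, hθ, fun s hs => ⟨fun x => ?_, fun x => ?_⟩, hU, ?_, hflat⟩
  · rcases hnear' x with h | h
    · rw [hQ0 x h]; exact hH.posDef x
    · exact posDef_add_smul (c := 1 - 1 / 4) (by norm_num)
        (posDef_near (qm_hermitian μ _ x) (δ := ε2) (by linarith) (h s hs))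
  · rcases hnear' x with h | h
    · rw [hQ0 x h]
      exact ⟨fun i => by linarith [(hnear x).1 i], fun i j hij =>
        ((hnear x).2 i j hij).trans_le (by linarith)⟩
    · have h' := h s hs
      refine ⟨fun i => ?_, fun i j hij => ?_⟩
      · have := h' i i
        rw [if_pos rfl] at this
        have := (abs_lt.1 this).1
        show 1 - ε < HS.Qm μ (segT w θ s) x i i
        have e : HS.Qm μ (segT w θ s) x i i = HS.Qm μ (fun i x => w i x + s • θ i x) x i i := rfl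
        rw [e]
        linarith
      · have := h' i j
        rw [if_neg hij, sub_zero] at this
        exact this.trans_le (by linarith)
  · have hsub : Uᶜ ⊆ Gᶜ ∪ (G \ U) := by
      intro x hx
      by_cases hxG : x ∈ G
      · exact Or.inr ⟨hxG, hx⟩
      · exact Or.inl hxG
    have h1 : 9 * (2 * δ1 / δ0) ≤ ε / 4 := by
      rw [mul_div_assoc', div_le_iff₀ hδ0]
      linarith
    have h2 : ENNReal.ofReal (25 / 4 * κ) * HS.vol μ univ ≤ ENNReal.ofReal (ε / 4) := by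
      rw [hvol, show (1 / 2 : ℝ≥0∞) = ENNReal.ofReal (1 / 2) by
        rw [ENNReal.ofReal_div_of_pos (by norm_num)]; simp, ← ENNReal.ofReal_mul (by positivity)]
      apply ENNReal.ofReal_le_ofReal
      linarith
    calc HS.vol μ Uᶜ ≤ HS.vol μ (Gᶜ ∪ (G \ U)) := measure_mono hsub
      _ ≤ HS.vol μ Gᶜ + HS.vol μ (G \ U) := measure_union_le _ _
      _ ≤ ENNReal.ofReal (ε / 4) + (ENNReal.ofReal (ε / 4) + ENNReal.ofReal (ε / 4)) :=
          add_le_add (hGbad.trans (ENNReal.ofReal_le_ofReal h1))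
            (hvolU.trans (add_le_add le_rfl h2))
      _ = ENNReal.ofReal (ε / 4 + (ε / 4 + ε / 4)) := by
          rw [ENNReal.ofReal_add (by positivity) (by positivity),
            ENNReal.ofReal_add (by positivity) (by positivity)]
      _ < ENNReal.ofReal ε := (ENNReal.ofReal_lt_ofReal_iff hε).2 (by linarith)

/-- **Stage CD**, in the component `k`, with the volume form given by the component `m`. -/
theorem stageCD (softK : SoftKStatement) (hcl : ClosedExStatement) {μ : HS.Form X 4}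
    (hμ : HS.Volume μ) (hvol : HS.vol μ univ = 1 / 2) (hb : HS.BPlusLe3 μ)
    {P : (Fin 3 → HS.Form X 2) → Prop} {w u : Fin 3 → HS.Form X 2} (hu : Reach μ P w u)
    (hw : HS.Hypersymplectic μ w) (hn : HS.Normalized μ w) (k m : Fin 3) {ε' ε4 e : ℝ}
    (he : 0 < e) (hε0 : 0 < ε') (hε' : ε' ≤ 1 / 4) (hP : ∀ v, Near μ (3 * ε') v → P v)
    (hNu : Near μ ε' u) (hm : ∀ x, 1 - ε4 < HS.Qm μ u x m m)
    (hee : 1 - ε' ≤ (1 - e) * (1 - ε4)) (he1 : e ≤ 1) {G : Set X} (hG : IsOpen G)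
    (hflat : ∀ x ∈ G, FlatPair (u (o1 k)) (u (o2 k)) x)
    (hG1 : ∀ x ∈ G, HS.quot μ (u (o1 k)) (u (o1 k)) x = 2)
    (hGm : ∀ x ∈ G, HS.quot μ (u m) (u m) x = 2) :
    ∃ (u' : Fin 3 → HS.Form X 2) (U : Set X), Reach μ P w u' ∧ (∀ i, i ≠ k → u' i = u i) ∧
      Near μ ε' u' ∧
      (∀ x, HS.quot μ (u' k) (u (o1 k)) x = 0) ∧ (∀ x, HS.quot μ (u' k) (u (o2 k)) x = 0) ∧
      (∀ x, (1 - e) * HS.quot μ (u m) (u m) x < HS.quot μ (u' k) (u' k) x) ∧
      IsOpen U ∧ U ⊆ G ∧ HS.vol μ (G \ U) ≤ ENNReal.ofReal e ∧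
      ∀ x ∈ U, FlatPair (u (o1 k)) (u' k) x ∧ HS.quot μ (u' k) (u' k) x = 2 := by
  have hfin : HS.vol μ univ ≠ ⊤ := by rw [hvol]; simp
  have hH := hu.hyper
  have hN := hu.normalized hμ hfin hw hn
  have nn : ∀ i, HS.pair μ (u i) (u i) = 1 := fun i => by simpa using hN i i
  have no : ∀ i j, i ≠ j → HS.pair μ (u i) (u j) = 0 := fun i j hij => by
    have := hN i j
    rwa [if_neg hij] at this
  have hmp : ∀ x, 0 < HS.quot μ (u m) (u m) x := by
    intro x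
    have := (hH.posDef x).diag_pos (i := m)
    rw [Qm_quot] at this
    linarith
  obtain ⟨θ1, θ2, U, hθ1, hθ2, q1, q2, x1, x2, d1, y1, y2, d2, hU, hUG, hvolU, hUf⟩ :=
    stepCD2 softK hcl hμ hvol hb (hH.smooth m) (nn m) hmp (hH.smooth k) (hH.closed k)
    (hH.smooth (o1 k)) (hH.closed (o1 k)) (hH.smooth (o2 k)) (hH.closed (o2 k))
    ((tri_o k).1 (tri_of_posDef hH.posDef)) (nn _) (nn _) (nn _) (no _ _ (o1_ne k).symm)
    (no _ _ (o2_ne k).symm) (no _ _ (o12_ne k)) hG hflat hG1 hGm he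
  have hlow : ∀ x (r : ℝ), (1 - e) * HS.quot μ (u m) (u m) x < r → 2 * (1 - ε') < r := by
    intro x r hr
    have h1 := hm x
    rw [Qm_quot] at h1
    have h2 : (1 - e) * (2 * (1 - ε4)) ≤ (1 - e) * HS.quot μ (u m) (u m) x :=
      mul_le_mul_of_nonneg_left (by linarith) (by linarith)
    linarith
  set u1 := addT u (sgl k θ1) with hu1
  have e1k : u1 k = fun x => u k x + θ1 x := addT_self _ _ _
  have e11 : u1 (o1 k) = u (o1 k) := addT_ne u (o1_ne k) _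
  have e12 : u1 (o2 k) = u (o2 k) := addT_ne u (o2_ne k) _
  have N1 : Near μ ε' u1 := by
    refine near_step hNu (fun x => hlow x _ (d1 x)) (fun x => ?_) (fun x => ?_)
    · rw [x1 x, abs_zero]; exact hε0
    · rw [x2 x, abs_zero]; exact hε0
  have R1 : Reach μ P w u1 :=
    hu.single hθ1 q1 fun s hs => hP _ (near_single hε0 hε' hNu N1 q1 s hs)
  set u2 := addT u1 (sgl k θ2) with hu2
  have e2k : u2 k = fun x => (u k x + θ1 x) + θ2 x := by
    rw [hu2, addT_self, e1k]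
  have q2' : ∀ s ∈ Icc (0 : ℝ) 1, TriPos μ (fun x => u1 k x + s • θ2 x) (u1 (o1 k)) (u1 (o2 k)) := by
    intro s hs
    rw [e1k, e11, e12]
    exact q2 s hs
  have N2 : Near μ ε' u2 := by
    refine near_step N1 (fun x => hlow x _ ?_) (fun x => ?_) (fun x => ?_)
    · rw [e1k]; exact d2 x
    · rw [e1k, e11, y1 x, abs_zero]; exact hε0
    · rw [e1k, e12, y2 x, abs_zero]; exact hε0
  have R2 : Reach μ P w u2 :=
    R1.single hθ2 q2' fun s hs => hP _ (near_single hε0 hε' N1 N2 q2' s hs)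
  refine ⟨u2, U, R2, fun i hi => ?_, N2, ?_, ?_, ?_, hU, hUG, hvolU, ?_⟩
  · rw [hu2, addT_ne u1 hi, hu1, addT_ne u hi]
  · rw [e2k]; exact y1
  · rw [e2k]; exact y2
  · rw [e2k]; exact d2
  · rw [e2k]; exact hUf

end

end Vale.Agent.P247.SCY
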