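import Vale.Agent.P247.SCY.FR5

/-!
# P247: from an almost hyperkähler triple to a better one, through almost hyperkähler triples
-/

set_option linter.all false

open scoped BigOperators ContDiff Topology Manifold ENNReal
open Set MeasureTheory Metric Filter

namespace Vale.Agent.P247.SCY
open Vale.Agent.P204 Vale.Agent.P204.T4 Vale.Agent.P204.Mfd Vale.Agent.P204.GX

section
variable {X : Type} [TopologicalSpace X] [ChartedSpace E4 X] [IsManifold (𝓡 4) ∞ X]
  [CompactSpace X] [T2Space X] [Nonempty X] [MeasurableSpace X] [BorelSpace X]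

/-- the conditions of Theorem OF -/
def OFP (μ : HS.Form X 4) (ε : ℝ) (w : Fin 3 → HS.Form X 2) : Prop :=
  (∃ U : Set X, IsOpen U ∧ HS.vol μ Uᶜ < ENNReal.ofReal ε ∧ ∀ x ∈ U, HS.Qm μ w x = 1) ∧
  (∀ x i j, i ≠ j → HS.Qm μ w x i j = 0) ∧
  (∀ x i, 1 - ε < HS.Qm μ w x i i) ∧
  (∀ x i j, i ≤ j → (1 - ε) * HS.Qm μ w x i i < HS.Qm μ w x j j) ∧
  ∀ i, ∫ x, |HS.Qm μ w x i i - 1| ∂(HS.vol μ) < ε

omit [CompactSpace X] [T2Space X] [Nonempty X] [IsManifold (𝓡 4) ∞ X] [BorelSpace X] in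
theorem OFP.near {μ : HS.Form X 4} {ε : ℝ} (hε : 0 < ε) {w : Fin 3 → HS.Form X 2}
    (h : OFP μ ε w) : Near μ ε w := fun x =>
  ⟨h.2.2.1 x, fun i j hij => by rw [h.2.1 x i j hij, abs_zero]; exact hε⟩

theorem stageAll (softK : SoftKStatement) (hcl : ClosedExStatement) {μ : HS.Form X 4}
    (hμ : HS.Volume μ) (hvol : HS.vol μ univ = 1 / 2) (hb : HS.BPlusLe3 μ)
    {w : Fin 3 → HS.Form X 2} (hw : HS.Hypersymplectic μ w)
    (hn : HS.Normalized μ w) {ε : ℝ} (hε : 0 < ε) (hε4 : ε ≤ 1 / 4) :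
    ∃ w' : Fin 3 → HS.Form X 2, Reach μ (PN μ ε w) w w' ∧ OFP μ ε w' := by
  have hfin : HS.vol μ univ ≠ ⊤ := by rw [hvol]; simp
  haveI : IsFiniteMeasure (HS.vol μ) := ⟨lt_of_le_of_ne le_top hfin⟩
  set δ := ε / 9 with hδ
  have hδ0 : 0 < δ := by positivity
  have hδ1 : δ ≤ 1 / 36 := by linarith
  have hP : ∀ v, Near μ (3 * ε) v → PN μ ε w v := fun v hv ε1 h1 _ _ => hv.mono (by linarith)
  obtain ⟨δF, hδF0, hδF1, HF⟩ := stageF hμ hvol hδ0
  -- stage E
  obtain ⟨w3, R3, N3⟩ := stageE softK hcl hμ hvol hb hw hn (ε' := ε) hδF0 (by linarith)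
  have hH3 := R3.hyper
  have hN3 := R3.normalized hμ hfin hw hn
  -- stage F
  obtain ⟨θ, U0, hθ, hpath, hU0, hvolU0, hF⟩ := HF hH3 hN3 N3
  have R4 : Reach μ (PN μ ε w) w (addT w3 θ) := R3.append hθ (fun s hs => (hpath s hs).1)
    fun s hs => hP _ ((hpath s hs).2.mono (by linarith))
  set w4 := addT w3 θ with hw4
  have N4 : Near μ δ w4 := by
    have h1 := (hpath 1 (by simp)).2
    rwa [segT_one] at h1
  have q0 : ∀ x ∈ U0, HS.quot μ (w4 0) (w4 0) x = 2 := by
    intro x hx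
    have h1 := congrFun (congrFun (hF x hx).2 0) 0
    rw [Qm_quot, Matrix.one_apply_eq] at h1
    linarith
  -- the second form
  obtain ⟨w6, U1, R6, e6, N6, o10, o12, l1, hU1, hU10, hvolU1, hF1⟩ :=
    stageCD softK hcl hμ hvol hb R4 hw hn 1 0 (ε4 := δ) hδ0 hε hε4 hP (N4.mono (by linarith))
      (fun x => (N4 x).1 0) (by nlinarith) (by linarith) hU0
      (fun x hx => flatPair_of_flatAt (hF x hx).1) q0 q0
  have e60 : w6 0 = w4 0 := e6 0 (by decide)
  have e62 : w6 2 = w4 2 := e6 2 (by decide)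
  have m1 : ∀ x, 1 - 2 * δ < HS.Qm μ w6 x 1 1 := by
    intro x
    have h1 := l1 x
    have h2 := (N4 x).1 0
    rw [Qm_quot] at h2 ⊢
    have h3 : (1 - δ) * (2 * (1 - δ)) ≤ (1 - δ) * HS.quot μ (w4 0) (w4 0) x :=
      mul_le_mul_of_nonneg_left (by linarith) (by linarith)
    nlinarith
  -- the third form
  obtain ⟨w8, U2, R8, e8, N8, o20, o21, l2, hU2, hU21, hvolU2, hF2⟩ :=
    stageCD softK hcl hμ hvol hb R6 hw hn 2 1 (ε4 := 2 * δ) hδ0 hε hε4 hP N6 m1
      (by nlinarith) (by linarith) hU1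
      (fun x hx => by
        have := (hF1 x hx).1
        show FlatPair (w6 0) (w6 1) x
        rw [e60]
        exact this)
      (fun x hx => by
        show HS.quot μ (w6 0) (w6 0) x = 2
        rw [e60]
        exact q0 x (hU10 hx))
      (fun x hx => (hF1 x hx).2)
  have e80 : w8 0 = w4 0 := (e8 0 (by decide)).trans e60
  have e81 : w8 1 = w6 1 := e8 1 (by decide)
  have hH8 := R8.hyper
  have hN8 := R8.normalized hμ hfin hw hn
  -- orthogonality
  have z01 : ∀ x, HS.quot μ (w8 0) (w8 1) x = 0 := by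
    intro x
    rw [e80, e81, quot_comm]
    exact o10 x
  have z02 : ∀ x, HS.quot μ (w8 0) (w8 2) x = 0 := by
    intro x
    rw [e80, quot_comm, ← e60]
    exact o20 x
  have z12 : ∀ x, HS.quot μ (w8 1) (w8 2) x = 0 := by
    intro x
    rw [e81, quot_comm]
    exact o21 x
  have ho : ∀ x i j, i ≠ j → HS.Qm μ w8 x i j = 0 := by
    intro x i j hij
    rw [Qm_quot]
    have h0 : HS.quot μ (w8 i) (w8 j) x = 0 := by
      fin_cases i <;> fin_cases j
      · exact absurd rfl hij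
      · exact z01 x
      · exact z02 x
      · rw [quot_comm]; exact z01 x
      · exact absurd rfl hij
      · exact z12 x
      · rw [quot_comm]; exact z02 x
      · rw [quot_comm]; exact z12 x
      · exact absurd rfl hij
    rw [h0, zero_div]
  have a0 : ∀ x, 1 - δ < HS.Qm μ w8 x 0 0 := by
    intro x
    have := (N4 x).1 0
    rw [Qm_quot, e80]
    rwa [Qm_quot] at this
  have a1 : ∀ x, (1 - δ) * HS.Qm μ w8 x 0 0 < HS.Qm μ w8 x 1 1 := by
    intro x
    rw [Qm_quot, Qm_quot, e80, e81]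
    have := l1 x
    linarith
  have a2 : ∀ x, (1 - δ) * HS.Qm μ w8 x 1 1 < HS.Qm μ w8 x 2 2 := by
    intro x
    rw [Qm_quot, Qm_quot, e81]
    have := l2 x
    linarith
  have hb' := fun x => chain_bounds hδ0 (by linarith) (by linarith) (ε := ε)
    (q := fun i => HS.Qm μ w8 x i i) (a0 x) (a1 x) (a2 x)
  have N8' : Near μ (4 * δ) w8 := fun x => ⟨fun i => by
    have := (hb' x).1 i
    linarith, fun i j hij => by rw [ho x i j hij, abs_zero]; linarith⟩
  refine ⟨w8, R8, ⟨U2, hU2, ?_, fun x hx => ?_⟩, ho, fun x i => ?_,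
    fun x i j hij => (hb' x).2 i j hij, fun i => ?_⟩
  · have hsub : U2ᶜ ⊆ U0ᶜ ∪ ((U0 \ U1) ∪ (U1 \ U2)) := by
      intro x hx
      by_cases h0 : x ∈ U0
      · by_cases h1 : x ∈ U1
        · exact Or.inr (Or.inr ⟨h1, hx⟩)
        · exact Or.inr (Or.inl ⟨h0, h1⟩)
      · exact Or.inl h0
    calc HS.vol μ U2ᶜ ≤ _ := measure_mono hsub
      _ ≤ HS.vol μ U0ᶜ + HS.vol μ ((U0 \ U1) ∪ (U1 \ U2)) := measure_union_le _ _
      _ ≤ ENNReal.ofReal δ + (ENNReal.ofReal δ + ENNReal.ofReal δ) :=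
          add_le_add hvolU0.le ((measure_union_le _ _).trans (add_le_add hvolU1 hvolU2))
      _ = ENNReal.ofReal (δ + (δ + δ)) := by
          rw [ENNReal.ofReal_add hδ0.le (by positivity), ENNReal.ofReal_add hδ0.le hδ0.le]
      _ < ENNReal.ofReal ε := (ENNReal.ofReal_lt_ofReal_iff hε).2 (by linarith)
  · ext i j
    by_cases hij : i = j
    · subst hij
      rw [Matrix.one_apply_eq, Qm_quot]
      have h0 : HS.quot μ (w8 i) (w8 i) x = 2 := by
        fin_cases i
        · show HS.quot μ (w8 0) (w8 0) x = 2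
          rw [e80]; exact q0 x (hU10 (hU21 hx))
        · show HS.quot μ (w8 1) (w8 1) x = 2
          rw [e81]; exact (hF1 x (hU21 hx)).2
        · exact (hF2 x hx).2
      rw [h0]; norm_num
    · rw [Matrix.one_apply_ne hij]
      exact ho x i j hij
  · have := (hb' x).1 i
    show 1 - ε < HS.Qm μ w8 x i i
    linarith
  · have h1 := near_L1 hμ hvol hH8 hN8 (δ := 4 * δ) (by linarith) N8' i i
    have e : ∀ x, (HS.Qm μ w8 x - 1) i i = HS.Qm μ w8 x i i - 1 := fun x => by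
      rw [Matrix.sub_apply, Matrix.one_apply_eq]
    simp only [e] at h1
    linarith

end

end Vale.Agent.P247.SCY
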