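import Vale.Agent.P247.SCY.FR6

/-!
# P247: infinite concatenation of deformations
-/

set_option linter.all false

open scoped BigOperators ContDiff Topology Manifold ENNReal
open Set MeasureTheory Metric Filter

namespace Vale.Agent.P247.SCY
open Vale.Agent.P204 Vale.Agent.P204.T4 Vale.Agent.P204.Mfd Vale.Agent.P204.GX

section
variable {X : Type} [TopologicalSpace X] [ChartedSpace E4 X]

/-- deformations parametrised by `[0, ∞)` -/
structure LongDef (μ : HS.Form X 4) (w : Fin 3 → HS.Form X 2) (W : ℝ → Fin 3 → HS.Form X 2) :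
    Prop where
  smooth : ∀ i, ∀ e ∈ atlas E4 X,
    ContDiffOn ℝ ∞ (fun p : ℝ × E4 => HS.loc e (W p.1 i) p.2) (univ ×ˢ e.target)
  hyper : ∀ t, 0 ≤ t → HS.Hypersymplectic μ (W t)
  start : W 0 = w
  exact : ∀ t i, HS.Exact fun x => W t i x - w i x

/-- the step function of the concatenation -/
noncomputable def tau (u : ℝ) : ℝ := Real.smoothTransition (2 * u - 1 / 2)

theorem tau_smooth : ContDiff ℝ ∞ tau := by
  unfold tau
  exact Real.smoothTransition.contDiff.comp (by fun_prop)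

theorem tau_mem (u : ℝ) : tau u ∈ Icc (0 : ℝ) 1 :=
  ⟨Real.smoothTransition.nonneg _, Real.smoothTransition.le_one _⟩

theorem tau_zero {u : ℝ} (h : u ≤ 1 / 4) : tau u = 0 :=
  Real.smoothTransition.zero_of_nonpos (by linarith)

theorem tau_one {u : ℝ} (h : 3 / 4 ≤ u) : tau u = 1 :=
  Real.smoothTransition.one_of_one_le (by linarith)

theorem concat {μ : HS.Form X 4} {w : ℕ → Fin 3 → HS.Form X 2}
    {P : ℕ → (Fin 3 → HS.Form X 2) → Prop} (h : ∀ n, Reach μ (P n) (w n) (w (n + 1))) :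
    ∃ W : ℝ → Fin 3 → HS.Form X 2, LongDef μ (w 0) W ∧ (∀ n : ℕ, W n = w n) ∧
      ∀ n : ℕ, ∀ t ∈ Icc (n : ℝ) (n + 1), P n (W t) := by
  choose V hV hV1 hVP using h
  have hV0 : ∀ n, V n 0 = w n := fun n => (hV n).start
  set W : ℝ → Fin 3 → HS.Form X 2 := fun t => V ⌊t⌋₊ (tau (t - (⌊t⌋₊ : ℕ))) with hW
  -- the local formula
  have key : ∀ (n : ℕ) (t : ℝ), ((n : ℝ) - 1 / 4 < t ∨ n = 0) → t < n + 1 →
      W t = V n (tau (t - n)) := by
    intro n t h1 h2
    rcases le_or_gt (n : ℝ) t with h3 | h3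
    · have h0 : (0 : ℝ) ≤ t := (Nat.cast_nonneg n).trans h3
      have h4 : ⌊t⌋₊ = n := (Nat.floor_eq_iff h0).2 ⟨h3, h2⟩
      show V ⌊t⌋₊ (tau (t - (⌊t⌋₊ : ℕ))) = _
      rw [h4]
    · rcases Nat.eq_zero_or_pos n with rfl | hn
      · have h4 : ⌊t⌋₊ = 0 := Nat.floor_of_nonpos (by simpa using h3.le)
        show V ⌊t⌋₊ (tau (t - (⌊t⌋₊ : ℕ))) = _
        rw [h4]
      · obtain ⟨m, rfl⟩ : ∃ m, n = m + 1 := ⟨n - 1, by omega⟩
        have h5 : ((m + 1 : ℕ) : ℝ) - 1 / 4 < t := by
          rcases h1 with h | h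
          · exact h
          · exact absurd h (by omega)
        push_cast at h5 h3
        have h0 : (0 : ℝ) ≤ t := by
          have : (0 : ℝ) ≤ m := Nat.cast_nonneg m
          linarith
        have h4 : ⌊t⌋₊ = m := (Nat.floor_eq_iff h0).2 ⟨by linarith, h3⟩
        show V ⌊t⌋₊ (tau (t - (⌊t⌋₊ : ℕ))) = _
        rw [h4, tau_one (by linarith), hV1, tau_zero (by push_cast; linarith), hV0]
  have hnat : ∀ n : ℕ, W n = w n := by
    intro n
    rw [key n n (Or.inl (by linarith)) (by linarith), sub_self, tau_zero (by norm_num), hV0]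
  refine ⟨W, ⟨fun i e he => ?_, fun t ht => ?_, ?_, fun t i => ?_⟩, hnat, fun n t ht => ?_⟩
  · rintro ⟨t0, y0⟩ ⟨-, hy0⟩
    set n := ⌊t0⌋₊ with hn
    have hg : ContDiffOn ℝ ∞ (fun p : ℝ × E4 => HS.loc e (V n (tau (p.1 - n)) i) p.2)
        (univ ×ˢ e.target) := by
      have h5 : ContDiffOn ℝ ∞ (fun p : ℝ × E4 => (tau (p.1 - n), p.2)) (univ ×ˢ e.target) :=
        ((tau_smooth.comp (contDiff_fst.sub contDiff_const)).prodMk contDiff_snd).contDiffOn
      exact ((hV n).smooth i e he).comp h5 (fun p hp => ⟨mem_univ _, hp.2⟩)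
    refine (hg (t0, y0) ⟨mem_univ _, hy0⟩).congr_of_eventuallyEq ?_ ?_
    · have h1 : ∀ᶠ t in 𝓝 t0, W t = V n (tau (t - n)) := by
        have h2 : t0 < n + 1 := Nat.lt_floor_add_one t0
        rcases Nat.eq_zero_or_pos n with h0 | h0
        · filter_upwards [gt_mem_nhds h2] with t ht
          exact key n t (Or.inr h0) ht
        · have h3 : (n : ℝ) ≤ t0 := Nat.floor_le (by
            by_contra hneg
            push Not at hneg
            have : ⌊t0⌋₊ = 0 := Nat.floor_of_nonpos hneg.le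
            omega)
          filter_upwards [gt_mem_nhds h2, lt_mem_nhds (show (n : ℝ) - 1 / 4 < t0 by linarith)] with t
            ht ht'
          exact key n t (Or.inl ht') ht
      have h2 : ∀ᶠ p : ℝ × E4 in 𝓝 (t0, y0), W p.1 = V n (tau (p.1 - n)) :=
        (continuous_fst.tendsto (t0, y0)).eventually h1
      filter_upwards [nhdsWithin_le_nhds h2] with p hp
      rw [hp]
    · have h2 : W t0 = V n (tau (t0 - n)) := rfl
      show HS.loc e (W t0 i) y0 = _
      rw [h2]
  · exact (hV _).hyper _ (tau_mem _)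
  · have := hnat 0
    simpa using this
  · have hind : ∀ n : ℕ, HS.Exact fun x => w n i x - w 0 i x := by
      intro n
      induction n with
      | zero =>
        have : (fun x => w 0 i x - w 0 i x) = fun _ => (0 : E4 [⋀^Fin 2]→L[ℝ] ℝ) := by
          funext x; exact sub_self _
        show HS.Exact (fun x => w 0 i x - w 0 i x)
        rw [this]
        exact exact_zero'
      | succ m ih =>
        have h1 := (hV m).exact 1 i
        rw [hV1] at h1
        have : (fun x => w (m + 1) i x - w 0 i x) =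
            fun x => (w (m + 1) i x - w m i x) + (w m i x - w 0 i x) := by
          funext x; abel
        rw [this]
        exact exact_add h1 ih
    have h1 := (hV ⌊t⌋₊).exact (tau (t - (⌊t⌋₊ : ℕ))) i
    have : (fun x => W t i x - w 0 i x) =
        fun x => (V ⌊t⌋₊ (tau (t - (⌊t⌋₊ : ℕ))) i x - w ⌊t⌋₊ i x) + (w ⌊t⌋₊ i x - w 0 i x) := by
      funext x
      show V ⌊t⌋₊ (tau (t - (⌊t⌋₊ : ℕ))) i x - w 0 i x = _
      abel
    show HS.Exact (fun x => W t i x - w 0 i x)
    rw [this]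
    exact exact_add h1 (hind _)
  · rcases ht.2.lt_or_eq with h1 | h1
    · rw [key n t (Or.inl (by linarith [ht.1])) h1]
      exact hVP n _ (tau_mem _)
    · have h2 : t = ((n + 1 : ℕ) : ℝ) := by push_cast; exact h1
      rw [h2, hnat, ← hV1]
      exact hVP n 1 (by simp)

end

section
variable {X : Type} [TopologicalSpace X] [ChartedSpace E4 X] [IsManifold (𝓡 4) ∞ X]
  [CompactSpace X] [T2Space X] [Nonempty X] [MeasurableSpace X] [BorelSpace X]

theorem normalized_of_exact {μ : HS.Form X 4} (hμ : HS.Volume μ) (hfin : HS.vol μ univ ≠ ⊤)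
    {w w' : Fin 3 → HS.Form X 2} (hw : HS.Hypersymplectic μ w) (hn : HS.Normalized μ w)
    (hH : HS.Hypersymplectic μ w') (hex : ∀ i, HS.Exact fun x => w' i x - w i x) :
    HS.Normalized μ w' := by
  have key : ∀ i (c : HS.Form X 2), HS.Smooth c → HS.Closed c →
      HS.pair μ (w' i) c = HS.pair μ (w i) c := by
    intro i c sc cc
    have sθ : HS.Smooth fun x => w' i x - w i x := by
      have := smooth_add (hH.smooth i) (smooth_smul (hw.smooth i) (-1))
      have e : (fun x => w' i x - w i x) = fun x => w' i x + (-1 : ℝ) • w i x := by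
        funext x
        have h2 : (-1 : ℝ) • w i x = -(w i x) := neg_one_smul ℝ (w i x)
        rw [h2, sub_eq_add_neg]
      rw [e]; exact this
    have h1 := pair_step hμ hfin hw (hw.smooth i) sθ (hex i) sc cc
    have e : (fun x => w i x + (w' i x - w i x)) = w' i := by
      funext x; rw [add_sub_cancel]
    rw [e] at h1
    exact h1
  intro i j
  rw [key i _ (hH.smooth j) (hH.closed j), pair_comm, key j _ (hw.smooth i) (hw.closed i),
    pair_comm]
  exact hn i j

/-- **The infinite path.** -/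
theorem infinitePath (softK : SoftKStatement) (hcl : ClosedExStatement) {μ : HS.Form X 4}
    (hμ : HS.Volume μ) (hvol : HS.vol μ univ = 1 / 2) (hb : HS.BPlusLe3 μ)
    {w : Fin 3 → HS.Form X 2} (hw : HS.Hypersymplectic μ w) (hn : HS.Normalized μ w) :
    ∃ W : ℝ → Fin 3 → HS.Form X 2, LongDef μ w W ∧
      (∀ ε : ℝ, 0 < ε → ∃ T : ℝ, ∀ t, T ≤ t →
        (∀ x, (HS.Qm μ (W t) x - (1 - ε) • (1 : Matrix (Fin 3) (Fin 3) ℝ)).PosDef) ∧
        (∀ x i j, i ≠ j → |HS.Qm μ (W t) x i j| < ε) ∧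
        ∀ i j, ∫ x, |(HS.Qm μ (W t) x - 1) i j| ∂(HS.vol μ) < ε) ∧
      ∀ n : ℕ, 1 ≤ n → OFP μ (1 / n) (W n) := by
  classical
  have hfin : HS.vol μ univ ≠ ⊤ := by rw [hvol]; simp
  set εs : ℕ → ℝ := fun n => 1 / (n + 4) with hεs
  have es0 : ∀ n, 0 < εs n := fun n => by simp only [hεs]; positivity
  have es4 : ∀ n, εs n ≤ 1 / 4 := by
    intro n
    simp only [hεs]
    apply one_div_le_one_div_of_le (by norm_num)
    have : (0 : ℝ) ≤ n := Nat.cast_nonneg n
    linarith
  have esm : ∀ n, εs (n + 1) ≤ εs n := by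
    intro n
    simp only [hεs]
    apply one_div_le_one_div_of_le (by positivity)
    push_cast
    linarith
  -- the sequence
  have step : ∀ (n : ℕ) (s : {u : Fin 3 → HS.Form X 2 // HS.Hypersymplectic μ u ∧
      HS.Normalized μ u}), ∃ s' : {u : Fin 3 → HS.Form X 2 // HS.Hypersymplectic μ u ∧
      HS.Normalized μ u}, Reach μ (PN μ (εs n) s.1) s.1 s'.1 ∧ OFP μ (εs n) s'.1 := by
    intro n s
    obtain ⟨w', h1, h2⟩ := stageAll softK hcl hμ hvol hb s.2.1 s.2.2 (es0 n) (es4 n)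
    exact ⟨⟨w', h1.hyper, h1.normalized hμ hfin s.2.1 s.2.2⟩, h1, h2⟩
  choose f hf1 hf2 using step
  set S : ℕ → {u : Fin 3 → HS.Form X 2 // HS.Hypersymplectic μ u ∧ HS.Normalized μ u} :=
    fun n => Nat.rec ⟨w, hw, hn⟩ (fun n s => f n s) n with hS
  have S0 : (S 0).1 = w := rfl
  have Ss : ∀ n, S (n + 1) = f n (S n) := fun n => rfl
  obtain ⟨W, hW, hWn, hWP⟩ := concat (μ := μ) (w := fun n => (S n).1)
    (P := fun n => PN μ (εs n) (S n).1) (fun n => by
      show Reach μ _ (S n).1 (S (n + 1)).1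
      rw [Ss]
      exact hf1 n (S n))
  have hOF : ∀ n : ℕ, OFP μ (εs n) (S (n + 1)).1 := fun n => by rw [Ss]; exact hf2 n (S n)
  have hnear : ∀ (n : ℕ) (t : ℝ), t ∈ Icc ((n + 1 : ℕ) : ℝ) ((n + 1 : ℕ) + 1) →
      Near μ (3 * εs n) (W t) := by
    intro n t ht
    exact hWP (n + 1) t ht (εs n) (esm n) (es4 n) ((hOF n).near (es0 n))
  have hW0 : LongDef μ w W := hW
  refine ⟨W, hW0, fun ε hε => ?_, fun n hn1 => ?_⟩
  · obtain ⟨N, hN⟩ := exists_nat_gt (12 / ε)
    refine ⟨(N + 1 : ℕ), fun t ht => ?_⟩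
    have ht0 : (0 : ℝ) ≤ t := (Nat.cast_nonneg _).trans ht
    have h1 : N + 1 ≤ ⌊t⌋₊ := Nat.le_floor ht
    obtain ⟨m, hm⟩ : ∃ m, ⌊t⌋₊ = m + 1 := ⟨⌊t⌋₊ - 1, by omega⟩
    have hmN : N ≤ m := by omega
    have h2 := hnear m t ⟨by rw [← hm]; exact Nat.floor_le ht0, by
      rw [← hm]; exact (Nat.lt_floor_add_one t).le⟩
    have h3 : 3 * (3 * εs m) < ε := by
      have h4 : (N : ℝ) ≤ m := by exact_mod_cast hmN
      have h5 : 12 / ε < m + 4 := by linarith
      have h6 : (0 : ℝ) < m + 4 := by positivity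
      have h7 : 12 < (m + 4) * ε := by
        rwa [div_lt_iff₀ hε] at h5
      have h8 : εs m < ε / 12 := by
        simp only [hεs]
        rw [div_lt_div_iff₀ h6 (by norm_num)]
        linarith
      linarith
    have hH := hW0.hyper t ht0
    have hN := normalized_of_exact hμ hfin hw hn hH (hW0.exact t)
    have h0 := es0 m
    refine ⟨fun x => ?_, fun x i j hij => ?_, fun i j => ?_⟩
    · exact posDef_sub (qm_hermitian _ _ _) (δ := 3 * εs m) h3.le (h2 x).1 (h2 x).2
    · exact ((h2 x).2 i j hij).trans (by linarith)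
    · exact (near_L1 hμ hvol hH hN (by linarith) h2 i j).trans_lt (by linarith)
  · obtain ⟨m, rfl⟩ : ∃ m, n = m + 1 := ⟨n - 1, by omega⟩
    rw [hWn]
    have h1 := hOF m
    have hle : εs m ≤ 1 / ((m + 1 : ℕ) : ℝ) := by
      simp only [hεs]
      apply one_div_le_one_div_of_le (by positivity)
      push_cast
      linarith
    have hlt : εs m < 1 := by have := es4 m; linarith
    obtain ⟨⟨U, u1, u2, u3⟩, a1, a2, a3, a4⟩ := h1
    refine ⟨⟨U, u1, u2.trans_le (ENNReal.ofReal_le_ofReal hle), u3⟩, a1, fun x i => ?_,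
      fun x i j hij => ?_, fun i => (a4 i).trans_le hle⟩
    · have := a2 x i
      linarith
    · have h2 := a2 x i
      have h3 := a3 x i j hij
      have h4 : 0 < HS.Qm μ (S (m + 1)).1 x i i := by linarith
      have h5 : (1 - 1 / ((m + 1 : ℕ) : ℝ)) * HS.Qm μ (S (m + 1)).1 x i i ≤
          (1 - εs m) * HS.Qm μ (S (m + 1)).1 x i i :=
        mul_le_mul_of_nonneg_right (by linarith) h4.le
      exact h5.trans_lt h3

end

end Vale.Agent.P247.SCY
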