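import Vale.Agent.P247.SCY.MFD9

/-!
# P247: the volume measure in a parametrisation
-/

set_option linter.all false

open scoped BigOperators ContDiff Topology Manifold ENNReal
open Set MeasureTheory

namespace Vale.Agent.P247.SCY
open Vale.Agent.P204 Vale.Agent.P204.T4 Vale.Agent.P204.Mfd Vale.Agent.P204.GX

section
variable {X : Type} [TopologicalSpace X] [ChartedSpace E4 X] [IsManifold (𝓡 4) ∞ X]
  [CompactSpace X] [T2Space X] [MeasurableSpace X] [BorelSpace X]

/-- the measure of a chart is the restriction of the measure -/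
theorem volC_restrict (μ : HS.Form X 4) {n : ℕ} (P : Fin n → Par X)
    (hcov : ∀ x, ∃ a, x ∈ range (P a).psi) (ν : Measure X)
    (h : ∀ a (E : Set X), MeasurableSet E → E ⊆ range (P a).psi →
      ν E = ∫⁻ y in (P a).psi ⁻¹' E, ENNReal.ofReal |m4 (P a) μ y|)
    {e : OpenPartialHomeomorph X E4} (he : e ∈ atlas E4 X) : volC μ e = ν.restrict e.source := by
  rw [Measure.ext_iff_of_iUnion_eq_univ (s := fun a => range (P a).psi)
    (by ext x; simp only [mem_iUnion, mem_univ, iff_true]; exact hcov x)]
  intro a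
  have hr : MeasurableSet (range (P a).psi) := (P a).isOpen_range.measurableSet
  ext E hE
  have hE' : MeasurableSet (E ∩ range (P a).psi ∩ e.source) :=
    (hE.inter hr).inter e.open_source.measurableSet
  rw [Measure.restrict_apply hE, Measure.restrict_apply hE,
    Measure.restrict_apply (hE.inter hr), volC_apply μ e (hE.inter hr),
    h a _ hE' (inter_subset_left.trans inter_subset_right),
    lintegral_cc μ (P a) he hE' (inter_subset_left.trans inter_subset_right) inter_subset_right]
  congr 2
  ext z
  constructor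
  · rintro ⟨h2, h3⟩; exact ⟨⟨h2, e.map_target h3⟩, h3⟩
  · rintro ⟨h2, h3⟩; exact ⟨h2.1, h3⟩

/-- the measure in the parametrisations of the finite atlas -/
theorem vol_fin {J : EndField X} (A : FinAtlas X J) {om : TwoForm X} (hJ : AlmostComplex J)
    (hS : SmoothForm om) (hC : ClosedForm om) (hT : Tames om J) {μ : HS.Form X 4}
    (hμ : HS.Smooth μ) (a : Fin A.n) (E : Set X) (hE : MeasurableSet E)
    (hEr : E ⊆ range (A.P a).psi) :
    HS.vol μ E = ∫⁻ y in (A.P a).psi ⁻¹' E, ENNReal.ofReal |m4 (A.P a) μ y| := by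
  rw [vol_muA A hJ hS hC hT hμ]
  have hcont := continuous_hx A hJ hS hT hμ
  have hf : Measurable fun x => ENNReal.ofReal |hx A om μ x| :=
    (hcont.abs.measurable).ennreal_ofReal
  have hψ : Measurable (A.P a).psi := (A.P a).isOpenEmbedding.continuous.measurable
  have hFc := (A.Fc_smooth om hJ hS a).continuous
  have hdet : Measurable fun y => ENNReal.ofReal (det4 (A.mc om a y)) := by
    have : (fun y => det4 (A.mc om a y)) = fun y => (1 / 2) * Q (A.Fc om a y) (A.Fc om a y) := by
      funext y; exact det_mc A hJ hT a y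
    refine Measurable.ennreal_ofReal ?_
    rw [this]
    exact (continuous_const.mul (continuous_Q.comp (hFc.prodMk hFc))).measurable
  have hr : MeasurableSet (range (A.P a).psi) := (A.P a).isOpen_range.measurableSet
  rw [withDensity_apply _ hE]
  have h1 : (muA A hJ hS hC hT).restrict E = (Measure.map (A.P a).psi
      (volume.withDensity fun y => ENNReal.ofReal (det4 (A.mc om a y)))).restrict E := by
    rw [← muA_restrict A hJ hS hC hT a, Measure.restrict_restrict hE, inter_eq_left.2 hEr]
  have hf' : Measurable fun y => ENNReal.ofReal |hx A om μ ((A.P a).psi y)| := hf.comp hψ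
  rw [h1, Measure.restrict_map hψ hE, lintegral_map hf hψ, restrict_withDensity (hψ hE),
    lintegral_withDensity_eq_lintegral_mul _ hdet hf']
  refine lintegral_congr fun y => ?_
  rw [Pi.mul_apply, m4_hx A hJ hT, abs_mul, abs_of_pos (A.mc_det om hJ hT a y),
    ENNReal.ofReal_mul (A.mc_det om hJ hT a y).le]

/-- the measure of a volume form in any parametrisation -/
theorem vol_par {μ : HS.Form X 4} (hμ : HS.Volume μ) {w : Fin 3 → HS.Form X 2}
    (hw : HS.Hypersymplectic μ w) (p : Par X) {E : Set X} (hE : MeasurableSet E)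
    (hEr : E ⊆ range p.psi) :
    HS.vol μ E = ∫⁻ y in p.psi ⁻¹' E, ENNReal.ofReal |m4 p μ y| := by
  have hdef := defAt_of_triPos (tri_of_posDef hw.posDef)
  have hJ : AlmostComplex (Jf (w 0) (w 1) (w 2)) :=
    Jf_almostComplex hdef (hw.smooth 0) (hw.smooth 1) (hw.smooth 2)
  have hT : Tames (w 0) (Jf (w 0) (w 1) (w 2)) := Jf_tames hdef
  obtain ⟨A⟩ := exists_finAtlas hJ
  have key := fun a E hE hEr => vol_fin A hJ (hw.smooth 0) (hw.closed 0) hT hμ.smooth a E hE hEr
  have hcov : ∀ x, ∃ a, x ∈ range (A.P a).psi := fun x => by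
    obtain ⟨a, y, -, hy⟩ := A.cov x
    exact ⟨a, y, hy⟩
  have h1 := volC_restrict μ A.P hcov (HS.vol μ) key p.he
  have hEs : E ⊆ p.e.source := by
    intro x hx
    obtain ⟨y, rfl⟩ := hEr hx
    exact p.psi_mem_source y
  have h2 : HS.vol μ E = volC μ p.e E := by
    rw [h1, Measure.restrict_apply hE, inter_eq_left.2 hEs]
  rw [h2, volC_apply μ p.e hE, lintegral_cc μ p p.he hE hEr hEs]

/-- the measure of the image of a measurable set -/
theorem vol_image {μ : HS.Form X 4} (hμ : HS.Volume μ) {w : Fin 3 → HS.Form X 2}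
    (hw : HS.Hypersymplectic μ w) (p : Par X) {S : Set V4} (hS : MeasurableSet S) :
    HS.vol μ (p.psi '' S) = ∫⁻ y in S, ENNReal.ofReal |m4 p μ y| := by
  rw [vol_par hμ hw p (p.isOpenEmbedding.measurableEmbedding.measurableSet_image.2 hS)
    (image_subset_range _ _), preimage_image_eq _ p.isOpenEmbedding.injective]

end

end Vale.Agent.P247.SCY
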