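import Vale.Agent.P247.SCY.FV1

/-!
# P247: packing by small balls, in one parametrisation
-/

set_option linter.all false

open scoped BigOperators ContDiff Topology Manifold ENNReal
open Set MeasureTheory Metric Filter

namespace Vale.Agent.P247.SCY
open Vale.Agent.P204 Vale.Agent.P204.T4 Vale.Agent.P204.Mfd Vale.Agent.P204.GX

section
variable {X : Type} [TopologicalSpace X] [ChartedSpace E4 X] [IsManifold (𝓡 4) ∞ X]
  [CompactSpace X] [T2Space X] [MeasurableSpace X] [BorelSpace X]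

theorem pack1 {μ : HS.Form X 4} (hμ : HS.Volume μ) {w : Fin 3 → HS.Form X 2}
    (hw : HS.Hypersymplectic μ w) (hfin : HS.vol μ univ ≠ ⊤) (p : Par X) {O : Set V4}
    (hO : IsOpen O) {Good : V4 → ℝ → Prop}
    (hG : ∀ y ∈ O, ∃ r0 : ℝ, 0 < r0 ∧ ∀ r, 0 < r → r < r0 → Good y r) {ε : ℝ≥0∞} (hε : ε ≠ 0) :
    ∃ S : Set (V4 × ℝ), S.Finite ∧
      (∀ q ∈ S, q.1 ∈ O ∧ 0 < q.2 ∧ Good q.1 q.2 ∧ closedBall q.1 q.2 ⊆ O) ∧
      S.PairwiseDisjoint (fun q => closedBall q.1 q.2) ∧
      HS.vol μ (p.psi '' (O \ ⋃ q ∈ S, closedBall q.1 q.2)) ≤ ε := by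
  classical
  have hf : ∀ x ∈ O, ∀ δ > 0,
      (({r : ℝ | Good x r ∧ closedBall x r ⊆ O}) ∩ Ioo 0 δ).Nonempty := by
    intro x hx δ hδ
    obtain ⟨r0, hr0, h1⟩ := hG x hx
    obtain ⟨r1, hr1, h2⟩ := Metric.isOpen_iff.1 hO x hx
    refine ⟨min δ (min r0 r1) / 2, ⟨h1 _ (by positivity) ?_, ?_⟩, by positivity, ?_⟩
    · have h3 : min δ (min r0 r1) ≤ r0 := (min_le_right _ _).trans (min_le_left _ _)
      linarith
    · refine (closedBall_subset_ball ?_).trans h2
      have h3 : min δ (min r0 r1) ≤ r1 := (min_le_right _ _).trans (min_le_right _ _)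
      have h4 : 0 < min δ (min r0 r1) := by positivity
      linarith
    · have h3 : min δ (min r0 r1) ≤ δ := min_le_left _ _
      have h4 : 0 < min δ (min r0 r1) := by positivity
      linarith
  obtain ⟨t, r, htc, hts, htr, hnull, hdisj⟩ :=
    Besicovitch.exists_disjoint_closedBall_covering_ae (volume : Measure V4)
      (fun x => {r : ℝ | Good x r ∧ closedBall x r ⊆ O}) O hf (fun _ => 1) (fun _ _ => one_pos)
  rcases t.eq_empty_or_nonempty with ht | ht
  · refine ⟨∅, finite_empty, by simp, by simp, ?_⟩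
    rw [ht] at hnull
    simp only [mem_empty_iff_false, iUnion_of_empty, iUnion_empty, sdiff_empty] at hnull ⊢
    rw [vol_image hμ hw p hO.measurableSet, setLIntegral_measure_zero _ _ hnull]
    exact zero_le
  obtain ⟨f, rfl⟩ := htc.exists_eq_range ht
  set D : ℕ → Set X := fun n => p.psi '' (O \ ⋃ k ∈ Finset.range n, closedBall (f k) (r (f k))) with hD
  have hDm' : ∀ n, MeasurableSet (O \ ⋃ k ∈ Finset.range n, closedBall (f k) (r (f k))) := fun n =>
    hO.measurableSet.diff (Finset.measurableSet_biUnion _ fun k _ => isClosed_closedBall.measurableSet)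
  have hDm : ∀ n, MeasurableSet (D n) := fun n =>
    p.isOpenEmbedding.measurableEmbedding.measurableSet_image.2 (hDm' n)
  have hanti : Antitone D := by
    intro n m hnm
    refine image_mono fun y hy => ⟨hy.1, fun h => hy.2 ?_⟩
    simp only [mem_iUnion] at h ⊢
    obtain ⟨k, hk, hk'⟩ := h
    exact ⟨k, Finset.mem_range.2 ((Finset.mem_range.1 hk).trans_le hnm), hk'⟩
  have hlim := tendsto_measure_iInter_atTop (μ := HS.vol μ) (fun n => (hDm n).nullMeasurableSet)
    hanti ⟨0, ne_top_of_le_ne_top hfin (measure_mono (subset_univ _))⟩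
  have hint : ⋂ n, D n ⊆ p.psi '' (O \ ⋃ x ∈ range f, closedBall x (r x)) := by
    intro x hx
    have h0 := mem_iInter.1 hx 0
    obtain ⟨y, hy, rfl⟩ := h0
    refine ⟨y, ⟨hy.1, fun h => ?_⟩, rfl⟩
    simp only [mem_iUnion, mem_range, exists_prop, exists_exists_eq_and] at h
    obtain ⟨k, hk⟩ := h
    have h1 := mem_iInter.1 hx (k + 1)
    obtain ⟨y', hy', he⟩ := h1
    have he' := p.isOpenEmbedding.injective he
    rw [he'] at hy'
    apply hy'.2
    simp only [mem_iUnion]
    exact ⟨k, Finset.mem_range.2 (Nat.lt_succ_self k), hk⟩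
  have hzero : HS.vol μ (⋂ n, D n) = 0 := by
    refine measure_mono_null hint ?_
    have hm : MeasurableSet (O \ ⋃ x ∈ range f, closedBall x (r x)) :=
      hO.measurableSet.diff (MeasurableSet.biUnion htc fun x _ => isClosed_closedBall.measurableSet)
    rw [vol_image hμ hw p hm, setLIntegral_measure_zero _ _ hnull]
  rw [hzero] at hlim
  obtain ⟨n, hn⟩ := (hlim.eventually (gt_mem_nhds (pos_iff_ne_zero.2 hε))).exists
  refine ⟨(fun k => (f k, r (f k))) '' (Finset.range n : Set ℕ), (Finset.finite_toSet _).image _,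
    ?_, ?_, ?_⟩
  · rintro q ⟨k, -, rfl⟩
    have h1 := htr (f k) (mem_range_self k)
    exact ⟨hts (mem_range_self k), h1.2.1, h1.1.1, h1.1.2⟩
  · rintro q ⟨k, -, rfl⟩ q' ⟨l, -, rfl⟩ hne
    have hfne : f k ≠ f l := by
      intro h
      apply hne
      show (f k, r (f k)) = (f l, r (f l))
      rw [h]
    exact hdisj (mem_range_self k) (mem_range_self l) hfne
  · have e : (⋃ q ∈ (fun k => (f k, r (f k))) '' (Finset.range n : Set ℕ), closedBall q.1 q.2) =
        ⋃ k ∈ Finset.range n, closedBall (f k) (r (f k)) := by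
      rw [biUnion_image]
      rfl
    rw [e]
    exact le_of_lt hn

end

end Vale.Agent.P247.SCY
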