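import Vale.Agent.P247.SCY.FV2

/-!
# P247: packing an open subset of the manifold by small coordinate balls
-/

set_option linter.all false

open scoped BigOperators ContDiff Topology Manifold ENNReal
open Set MeasureTheory Metric Filter

namespace Vale.Agent.P247.SCY
open Vale.Agent.P204 Vale.Agent.P204.T4 Vale.Agent.P204.Mfd Vale.Agent.P204.GX

section
variable {X : Type} [TopologicalSpace X] [ChartedSpace E4 X]

/-- a coordinate ball: parametrisation, centre, radius -/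
abbrev CBall (X : Type) [TopologicalSpace X] [ChartedSpace E4 X] := Par X × V4 × ℝ

/-- the closed coordinate ball in `X` -/
def CBall.set (q : CBall X) : Set X := q.1.psi '' closedBall q.2.1 q.2.2

/-- the shrunk open coordinate ball in `X` -/
def CBall.shr (δ : ℝ) (q : CBall X) : Set X := q.1.psi '' ball q.2.1 ((1 - δ) * q.2.2)

theorem CBall.isCompact_set (q : CBall X) : IsCompact q.set :=
  (isCompact_closedBall _ _).image q.1.isOpenEmbedding.continuous

variable [IsManifold (𝓡 4) ∞ X] [CompactSpace X] [T2Space X] [MeasurableSpace X] [BorelSpace X]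

theorem pack_fin {μ : HS.Form X 4} (hμ : HS.Volume μ) {w : Fin 3 → HS.Form X 2}
    (hw : HS.Hypersymplectic μ w) (hfin : HS.vol μ univ ≠ ⊤) {G : Set X} (hG : IsOpen G)
    {Good : Par X → V4 → ℝ → Prop} (p : X → Par X) (ρ : X → ℝ) (t : Finset X)
    (h : ∀ x ∈ t, ∀ y, ‖y‖ < ρ x → ∃ r0 : ℝ, 0 < r0 ∧ ∀ r, 0 < r → r < r0 → Good (p x) y r) :
    ∀ ε : ℝ≥0∞, ε ≠ 0 → ∃ S : Set (CBall X), S.Finite ∧
      (∀ q ∈ S, 0 < q.2.2 ∧ Good q.1 q.2.1 q.2.2 ∧ q.set ⊆ G) ∧
      S.PairwiseDisjoint CBall.set ∧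
      HS.vol μ ((G ∩ ⋃ x ∈ t, (p x).psi '' ball 0 (ρ x)) \ ⋃ q ∈ S, q.set) ≤ ε := by
  classical
  induction t using Finset.induction_on with
  | empty =>
    intro ε hε
    refine ⟨∅, finite_empty, by simp, by simp, ?_⟩
    simp
  | insert a t ha ih =>
    intro ε hε
    obtain ⟨S, hS1, hS2, hS3, hS4⟩ := ih (fun x hx => h x (Finset.mem_insert_of_mem hx)) (ε / 2)
      (ENNReal.half_pos hε).ne'
    set C : Set X := ⋃ q ∈ S, q.set with hC
    have hCcl : IsClosed C := by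
      rw [hC]
      exact hS1.isClosed_biUnion fun q _ => q.isCompact_set.isClosed
    set O : Set V4 := ball 0 (ρ a) ∩ (p a).psi ⁻¹' (G \ C) with hOdef
    have hO : IsOpen O := isOpen_ball.inter ((hG.sdiff hCcl).preimage (p a).isOpenEmbedding.continuous)
    obtain ⟨R, hR1, hR2, hR3, hR4⟩ := pack1 hμ hw hfin (p a) hO (Good := Good (p a))
      (fun y hy => h a (Finset.mem_insert_self _ _) y (by
        have := hy.1; rwa [mem_ball_zero_iff] at this)) (ENNReal.half_pos hε).ne'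
    have himg : ∀ q ∈ R, (p a).psi '' closedBall q.1 q.2 ⊆ G \ C := by
      intro q hq
      rintro _ ⟨y, hy, rfl⟩
      exact ((hR2 q hq).2.2.2 hy).2
    refine ⟨S ∪ (fun q : V4 × ℝ => ((p a, q) : CBall X)) '' R, hS1.union (hR1.image _), ?_, ?_, ?_⟩
    · rintro q (hq | ⟨q', hq', rfl⟩)
      · exact hS2 q hq
      · obtain ⟨-, k2, k3, -⟩ := hR2 q' hq'
        exact ⟨k2, k3, (himg q' hq').trans sdiff_subset⟩
    · rintro q (hq | ⟨q', hq', rfl⟩) k (hk | ⟨k', hk', rfl⟩) hne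
      · exact hS3 hq hk hne
      · refine Set.disjoint_left.2 fun x hx hx' => ?_
        exact (himg k' hk' hx').2 (mem_iUnion₂.2 ⟨q, hq, hx⟩)
      · refine Set.disjoint_left.2 fun x hx hx' => ?_
        exact (himg q' hq' hx).2 (mem_iUnion₂.2 ⟨k, hk, hx'⟩)
      · have hne' : q' ≠ k' := fun h => hne (by rw [h])
        have := hR3 hq' hk' hne'
        refine Set.disjoint_left.2 fun x hx hx' => ?_
        obtain ⟨y, hy, rfl⟩ := hx
        obtain ⟨z, hz, he⟩ := hx'
        have hzy := (p a).isOpenEmbedding.injective he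
        rw [hzy] at hz
        exact Set.disjoint_left.1 this hy hz
    · have hsub : (G ∩ ⋃ x ∈ insert a t, (p x).psi '' ball 0 (ρ x)) \
          ⋃ q ∈ S ∪ (fun q : V4 × ℝ => ((p a, q) : CBall X)) '' R, q.set ⊆
          ((G ∩ ⋃ x ∈ t, (p x).psi '' ball 0 (ρ x)) \ C) ∪
            (p a).psi '' (O \ ⋃ q ∈ R, closedBall q.1 q.2) := by
        rintro x ⟨⟨hxG, hxU⟩, hxS⟩
        have hxC : x ∉ C := fun hx => by
          obtain ⟨q, hq, hqx⟩ := mem_iUnion₂.1 hx
          exact hxS (mem_iUnion₂.2 ⟨q, Or.inl hq, hqx⟩)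
        obtain ⟨b, hb, hxb⟩ := mem_iUnion₂.1 hxU
        rcases Finset.mem_insert.1 hb with rfl | hb'
        · obtain ⟨y, hy, rfl⟩ := hxb
          right
          refine ⟨y, ⟨⟨hy, hxG, hxC⟩, fun hyR => ?_⟩, rfl⟩
          obtain ⟨q, hq, hqy⟩ := mem_iUnion₂.1 hyR
          exact hxS (mem_iUnion₂.2 ⟨_, Or.inr ⟨q, hq, rfl⟩, ⟨y, hqy, rfl⟩⟩)
        · left
          exact ⟨⟨hxG, mem_iUnion₂.2 ⟨b, hb', hxb⟩⟩, hxC⟩
      calc _ ≤ _ := measure_mono hsub
        _ ≤ _ := measure_union_le _ _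
        _ ≤ ε / 2 + ε / 2 := add_le_add hS4 hR4
        _ = ε := ENNReal.add_halves ε

end

end Vale.Agent.P247.SCY
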