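import Vale.Agent.P247.SCY.FV3

/-!
# P247: packing an open subset of the manifold by small coordinate balls, with shrinking
-/

set_option linter.all false

open scoped BigOperators ContDiff Topology Manifold ENNReal
open Set MeasureTheory Metric Filter

namespace Vale.Agent.P247.SCY
open Vale.Agent.P204 Vale.Agent.P204.T4 Vale.Agent.P204.Mfd Vale.Agent.P204.GX

theorem shell_volume (y : V4) {r δ : ℝ} (hr : 0 < r) (h0 : 0 < δ) (h1 : δ < 1) :
    volume (closedBall y r \ ball y ((1 - δ) * r)) ≤ ENNReal.ofReal (4 * δ * (2 * r) ^ 4) := by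
  have hr' : 0 < (1 - δ) * r := mul_pos (by linarith) hr
  have hsub : ball y ((1 - δ) * r) ⊆ closedBall y r := by
    refine ball_subset_closedBall.trans (closedBall_subset_closedBall ?_)
    nlinarith
  rw [measure_sdiff hsub measurableSet_ball.nullMeasurableSet measure_ball_lt_top.ne,
    Real.volume_pi_closedBall y hr.le, Real.volume_pi_ball y hr',
    ← ENNReal.ofReal_sub _ (by positivity)]
  apply ENNReal.ofReal_le_ofReal
  simp only [Fintype.card_fin]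
  have h2 : 1 - 4 * δ ≤ (1 - δ) ^ 4 := by
    nlinarith [sq_nonneg (1 - δ), sq_nonneg δ, mul_pos h0 h0, sq_nonneg (δ * (2 - δ))]
  have h3 : 0 ≤ (2 * r) ^ 4 := by positivity
  have h4 : (2 * ((1 - δ) * r)) ^ 4 = (1 - δ) ^ 4 * (2 * r) ^ 4 := by ring
  rw [h4]
  nlinarith

section
variable {X : Type} [TopologicalSpace X] [ChartedSpace E4 X] [IsManifold (𝓡 4) ∞ X]
  [CompactSpace X] [T2Space X] [MeasurableSpace X] [BorelSpace X]

/-- the density varies by a factor at most `5 / 4` on the ball -/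
def Ratio (μ : HS.Form X 4) (p : Par X) (y : V4) (r : ℝ) : Prop :=
  ∀ z ∈ closedBall y r, |m4 p μ z| ≤ 5 / 4 * |m4 p μ y| ∧ |m4 p μ y| ≤ 5 / 4 * |m4 p μ z|

theorem m4_ne {μ : HS.Form X 4} (hμ : HS.Volume μ) (p : Par X) (y : V4) : m4 p μ y ≠ 0 := by
  intro h0
  apply hμ.ne_zero (p.psi y)
  have h1 : ∀ A : E4 [⋀^Fin 4]→L[ℝ] ℝ, A (fun i => p.dpsi y (eb i)) = 0 → A = 0 := by
    intro A hA
    rw [top_comp] at hA
    have hdet : det4 (matL ((toE.symm : E4 →L[ℝ] V4).comp (p.dpsi y))) ≠ 0 := by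
      have hm : P204.GX.mm (matL ((p.dinv (p.psi y)).comp (toE : V4 →L[ℝ] E4)))
          (matL ((toE.symm : E4 →L[ℝ] V4).comp (p.dpsi y))) = P204.GX.oneM := by
        apply P204.GX.m4_ext
        intro v
        rw [P204.GX.app_mm, app_matL, app_matL, P204.GX.app_one]
        show p.dinv (p.psi y) (toE (toE.symm (p.dpsi y v))) = v
        rw [Mfd.toE.apply_symm_apply, p.dinv_dpsi]
      have h2 := P204.GX.det4_mm (matL ((p.dinv (p.psi y)).comp (toE : V4 →L[ℝ] E4)))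
          (matL ((toE.symm : E4 →L[ℝ] V4).comp (p.dpsi y)))
      rw [hm, P204.GX.det4_one] at h2
      intro h3
      rw [h3, mul_zero] at h2
      exact one_ne_zero h2
    have hb : A HS.bas = 0 := (mul_eq_zero.1 hA).resolve_left hdet
    have h2 := AlternatingMap.eq_smul_basis_det bE A.toAlternatingMap
    have h4 : (fun i => bE i) = HS.bas := funext bE_apply
    have h5 : A.toAlternatingMap (⇑bE) = A HS.bas := by
      rw [show (⇑bE : Fin 4 → E4) = HS.bas from h4]; rfl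
    rw [h5, hb, zero_smul] at h2
    ext v
    exact congrArg (fun f => f v) h2
  exact h1 (ax μ (p.psi y)) h0

theorem exists_ratio {μ : HS.Form X 4} (hμ : HS.Volume μ) (p : Par X) (y : V4) :
    ∃ r0 : ℝ, 0 < r0 ∧ ∀ r, 0 < r → r < r0 → Ratio μ p y r := by
  have hcont : Continuous fun z => |m4 p μ z| := (contDiff_m4 p hμ.smooth).continuous.abs
  have h0 : 0 < |m4 p μ y| := abs_pos.2 (m4_ne hμ p y)
  have e1 : ∀ᶠ z in 𝓝 y, |m4 p μ z| < 5 / 4 * |m4 p μ y| :=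
    hcont.continuousAt.eventually (gt_mem_nhds (by linarith))
  have e2 : ∀ᶠ z in 𝓝 y, 4 / 5 * |m4 p μ y| < |m4 p μ z| :=
    hcont.continuousAt.eventually (lt_mem_nhds (by linarith))
  obtain ⟨r0, hr0, h⟩ := Metric.eventually_nhds_iff.1 (e1.and e2)
  refine ⟨r0, hr0, fun r hr hrr z hz => ?_⟩
  obtain ⟨k1, k2⟩ := h ((mem_closedBall.1 hz).trans_lt hrr)
  exact ⟨k1.le, by linarith⟩

theorem shell_le {μ : HS.Form X 4} (hμ : HS.Volume μ) {w : Fin 3 → HS.Form X 2}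
    (hw : HS.Hypersymplectic μ w) {δ : ℝ} (h0 : 0 < δ) (h1 : δ < 1) (q : CBall X)
    (hr : 0 < q.2.2) (hR : Ratio μ q.1 q.2.1 q.2.2) :
    HS.vol μ (q.set \ q.shr δ) ≤ ENNReal.ofReal (25 / 4 * δ) * HS.vol μ q.set := by
  obtain ⟨p, y, r⟩ := q
  simp only at hr hR
  have e : CBall.set (p, y, r) \ CBall.shr δ (p, y, r) =
      p.psi '' (closedBall y r \ ball y ((1 - δ) * r)) := by
    show p.psi '' closedBall y r \ p.psi '' ball y ((1 - δ) * r) = _
    rw [image_sdiff p.isOpenEmbedding.injective]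
  have e' : CBall.set (p, y, r) = p.psi '' closedBall y r := rfl
  rw [e, e', vol_image hμ hw p (measurableSet_closedBall.diff measurableSet_ball),
    vol_image hμ hw p measurableSet_closedBall]
  set m0 := |m4 p μ y| with hm0
  have hm0' : 0 ≤ m0 := abs_nonneg _
  have a1 : ∫⁻ z in closedBall y r \ ball y ((1 - δ) * r), ENNReal.ofReal |m4 p μ z| ≤
      ENNReal.ofReal (5 / 4 * m0) * ENNReal.ofReal (4 * δ * (2 * r) ^ 4) := by
    calc _ ≤ ∫⁻ z in closedBall y r \ ball y ((1 - δ) * r), ENNReal.ofReal (5 / 4 * m0) := by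
          refine setLIntegral_mono' (measurableSet_closedBall.diff measurableSet_ball) fun z hz => ?_
          exact ENNReal.ofReal_le_ofReal (hR z hz.1).1
      _ = ENNReal.ofReal (5 / 4 * m0) * volume (closedBall y r \ ball y ((1 - δ) * r)) := by
          rw [setLIntegral_const]
      _ ≤ _ := by gcongr; exact shell_volume y hr h0 h1
  have a2 : ENNReal.ofReal (4 / 5 * m0) * ENNReal.ofReal ((2 * r) ^ 4) ≤
      ∫⁻ z in closedBall y r, ENNReal.ofReal |m4 p μ z| := by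
    calc ENNReal.ofReal (4 / 5 * m0) * ENNReal.ofReal ((2 * r) ^ 4) =
          ENNReal.ofReal (4 / 5 * m0) * volume (closedBall y r) := by
          rw [Real.volume_pi_closedBall y hr.le]; simp
      _ = ∫⁻ z in closedBall y r, ENNReal.ofReal (4 / 5 * m0) := by rw [setLIntegral_const]
      _ ≤ _ := by
          refine setLIntegral_mono' measurableSet_closedBall fun z hz => ?_
          apply ENNReal.ofReal_le_ofReal
          have := (hR z hz).2
          linarith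
  refine a1.trans ?_
  calc ENNReal.ofReal (5 / 4 * m0) * ENNReal.ofReal (4 * δ * (2 * r) ^ 4)
      = ENNReal.ofReal (25 / 4 * δ) * (ENNReal.ofReal (4 / 5 * m0) * ENNReal.ofReal ((2 * r) ^ 4)) := by
        rw [← ENNReal.ofReal_mul (by positivity), ← ENNReal.ofReal_mul (by positivity),
          ← ENNReal.ofReal_mul (by positivity)]
        congr 1
        ring
    _ ≤ _ := by gcongr

/-- **Packing by small balls.** -/
theorem cover_sets {μ : HS.Form X 4} (hμ : HS.Volume μ) {w : Fin 3 → HS.Form X 2}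
    (hw : HS.Hypersymplectic μ w) (hfin : HS.vol μ univ ≠ ⊤) {G : Set X} (hG : IsOpen G)
    {δ : ℝ} (h0 : 0 < δ) (h1 : δ < 1) {Good : Par X → V4 → ℝ → Prop}
    (h : ∀ x ∈ G, ∃ p : Par X, ∃ ρ : ℝ, 0 < ρ ∧ p.psi 0 = x ∧
      ∀ y, ‖y‖ < ρ → ∃ r0 : ℝ, 0 < r0 ∧ ∀ r, 0 < r → r < r0 → Good p y r)
    {ε : ℝ≥0∞} (hε : ε ≠ 0) :
    ∃ S : Set (CBall X), S.Finite ∧
      (∀ q ∈ S, 0 < q.2.2 ∧ Good q.1 q.2.1 q.2.2 ∧ q.set ⊆ G) ∧
      S.PairwiseDisjoint CBall.set ∧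
      HS.vol μ (G \ ⋃ q ∈ S, q.shr δ) ≤ ε + ENNReal.ofReal (25 / 4 * δ) * HS.vol μ univ := by
  classical
  haveI : SecondCountableTopology X := ChartedSpace.secondCountable_of_sigmaCompact E4 X
  haveI : TopologicalSpace.MetrizableSpace X := TopologicalSpace.metrizableSpace_of_t3_secondCountable X
  haveI : IsFiniteMeasure (HS.vol μ) := ⟨lt_of_le_of_ne le_top hfin⟩
  obtain ⟨K, hKG, hKc, hKm⟩ := hG.measurableSet.exists_isCompact_diff_lt (μ := HS.vol μ)
    (measure_ne_top _ _) (ENNReal.half_pos hε).ne'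
  -- the parametrisations
  have h' : ∀ x : X, ∃ p : Par X, ∃ ρ : ℝ, x ∈ G → (0 < ρ ∧ p.psi 0 = x ∧
      ∀ y, ‖y‖ < ρ → ∃ r0 : ℝ, 0 < r0 ∧ ∀ r, 0 < r → r < r0 → Good p y r) := by
    intro x
    by_cases hx : x ∈ G
    · obtain ⟨p, ρ, h2⟩ := h x hx
      exact ⟨p, ρ, fun _ => h2⟩
    · obtain ⟨p, -⟩ := exists_par x (ContinuousLinearEquiv.refl ℝ V4)
      exact ⟨p, 1, fun h => absurd h hx⟩
  choose p ρ hp using h'
  obtain ⟨t, ht1, ht2⟩ := hKc.elim_nhds_subcover (fun x => (p x).psi '' ball 0 (ρ x)) (by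
    intro x hx
    obtain ⟨k1, k2, -⟩ := hp x (hKG hx)
    refine ((p x).isOpenEmbedding.isOpenMap _ isOpen_ball).mem_nhds ⟨0, ?_, k2⟩
    simpa using k1)
  have hgood : ∀ x ∈ t, ∀ y, ‖y‖ < ρ x → ∃ r0 : ℝ, 0 < r0 ∧ ∀ r, 0 < r → r < r0 →
      (Good (p x) y r ∧ Ratio μ (p x) y r) := by
    intro x hx y hy
    obtain ⟨r0, hr0, h2⟩ := (hp x (hKG (ht1 x hx))).2.2 y hy
    obtain ⟨r1, hr1, h3⟩ := exists_ratio hμ (p x) y
    refine ⟨min r0 r1, lt_min hr0 hr1, fun r hr hrr => ⟨h2 r hr (hrr.trans_le (min_le_left _ _)),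
      h3 r hr (hrr.trans_le (min_le_right _ _))⟩⟩
  obtain ⟨S, hS1, hS2, hS3, hS4⟩ := pack_fin hμ hw hfin hG
    (Good := fun p y r => Good p y r ∧ Ratio μ p y r) p ρ t hgood (ε / 2) (ENNReal.half_pos hε).ne'
  refine ⟨S, hS1, fun q hq => ⟨(hS2 q hq).1, (hS2 q hq).2.1.1, (hS2 q hq).2.2⟩, hS3, ?_⟩
  have hsub : G \ ⋃ q ∈ S, q.shr δ ⊆ (G \ K) ∪
      (((G ∩ ⋃ x ∈ t, (p x).psi '' ball 0 (ρ x)) \ ⋃ q ∈ S, q.set) ∪
        ⋃ q ∈ S, (q.set \ q.shr δ)) := by
    rintro x ⟨hxG, hx⟩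
    by_cases hxK : x ∈ K
    · right
      by_cases hxS : x ∈ ⋃ q ∈ S, q.set
      · right
        obtain ⟨q, hq, hqx⟩ := mem_iUnion₂.1 hxS
        exact mem_iUnion₂.2 ⟨q, hq, hqx, fun h => hx (mem_iUnion₂.2 ⟨q, hq, h⟩)⟩
      · left
        exact ⟨⟨hxG, ht2 hxK⟩, hxS⟩
    · left; exact ⟨hxG, hxK⟩
  have hshell : HS.vol μ (⋃ q ∈ S, (q.set \ q.shr δ)) ≤
      ENNReal.ofReal (25 / 4 * δ) * HS.vol μ univ := by
    calc HS.vol μ (⋃ q ∈ S, (q.set \ q.shr δ)) ≤ ∑' q : S, HS.vol μ ((q : CBall X).set \ (q : CBall X).shr δ) :=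
          measure_biUnion_le _ hS1.countable _
      _ ≤ ∑' q : S, ENNReal.ofReal (25 / 4 * δ) * HS.vol μ (q : CBall X).set :=
          ENNReal.tsum_le_tsum fun q => shell_le hμ hw h0 h1 q (hS2 q q.2).1 (hS2 q q.2).2.1.2
      _ = ENNReal.ofReal (25 / 4 * δ) * ∑' q : S, HS.vol μ (q : CBall X).set := ENNReal.tsum_mul_left
      _ = ENNReal.ofReal (25 / 4 * δ) * HS.vol μ (⋃ q ∈ S, q.set) := by
          rw [measure_biUnion hS1.countable hS3 fun q _ => q.isCompact_set.isClosed.measurableSet]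
      _ ≤ _ := by gcongr; exact subset_univ _
  calc _ ≤ _ := measure_mono hsub
    _ ≤ HS.vol μ (G \ K) + HS.vol μ (((G ∩ ⋃ x ∈ t, (p x).psi '' ball 0 (ρ x)) \ ⋃ q ∈ S, q.set) ∪
        ⋃ q ∈ S, (q.set \ q.shr δ)) := measure_union_le _ _
    _ ≤ ε / 2 + (ε / 2 + ENNReal.ofReal (25 / 4 * δ) * HS.vol μ univ) :=
        add_le_add hKm.le ((measure_union_le _ _).trans (add_le_add hS4 hshell))
    _ = _ := by rw [← add_assoc, ENNReal.add_halves]

end

end Vale.Agent.P247.SCY
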