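import Vale.Agent.P247.SCY.FR7

/-!
# P247, Theorem (V): exactly hyperkähler on an open set of full measure, in the limit.
Definitions and the statements of the blocks.
-/

set_option linter.all false

open scoped BigOperators ContDiff Topology Manifold ENNReal
open Set MeasureTheory Metric Filter

namespace Vale.Agent.P247.SCY
open Vale.Agent.P204 Vale.Agent.P204.T4 Vale.Agent.P204.Mfd Vale.Agent.P204.GX

/-- squared Euclidean norm -/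
def nsq (z : V4) : ℝ := z 0 ^ 2 + z 1 ^ 2 + z 2 ^ 2 + z 3 ^ 2

/-- the closed Euclidean core of the cube `closedBall y r` -/
def ecl (y : V4) (r : ℝ) : Set V4 := {z | nsq (z - y) ≤ (r / 2) ^ 2}

/-- the open Euclidean core -/
def eop (y : V4) (r : ℝ) : Set V4 := {z | nsq (z - y) < (r / 2) ^ 2}

section
variable {X : Type} [TopologicalSpace X] [ChartedSpace E4 X]

/-- `Q ≥ c` everywhere and `Q > c` on the open set `G` -/
structure Above (μ : HS.Form X 4) (c : ℝ) (w : Fin 3 → HS.Form X 2) (G : Set X) : Prop where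
  hyper : HS.Hypersymplectic μ w
  isOpen : IsOpen G
  le : ∀ x, (HS.Qm μ w x - c • (1 : Matrix (Fin 3) (Fin 3) ℝ)).PosSemidef
  lt : ∀ x ∈ G, (HS.Qm μ w x - c • (1 : Matrix (Fin 3) (Fin 3) ℝ)).PosDef

/-- the property of the paths -/
def PV (μ : HS.Form X 4) (c : ℝ) (w : Fin 3 → HS.Form X 2) (G : Set X)
    (v : Fin 3 → HS.Form X 2) : Prop :=
  (∀ x, (HS.Qm μ v x - c • (1 : Matrix (Fin 3) (Fin 3) ℝ)).PosSemidef) ∧
  ∀ x, x ∉ G → ∀ i, v i x = w i x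

end

section
variable (X : Type) [TopologicalSpace X] [ChartedSpace E4 X] [IsManifold (𝓡 4) ∞ X]
  [CompactSpace X] [T2Space X] [Nonempty X] [MeasurableSpace X] [BorelSpace X]

/-- Block B: gluing with Euclidean cores which fill a fixed fraction of `G`. -/
def GlueVStatement : Prop :=
  ∀ (μ : HS.Form X 4), HS.Volume μ → ∀ (w : Fin 3 → HS.Form X 2), HS.Hypersymplectic μ w →
    HS.vol μ univ ≠ ⊤ → ∀ (G : Set X), IsOpen G →
    ∀ (Φ : Par X → V4 → ℝ → (Fin 2 × Fin 3 → V4 → V4) → Prop),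
    (∀ x ∈ G, ∃ p : Par X, ∃ ρ : ℝ, 0 < ρ ∧ p.psi 0 = x ∧
      ∀ y, ‖y‖ < ρ → ∃ r0 : ℝ, 0 < r0 ∧ ∀ r, 0 < r → r < r0 → ∃ η : Fin 2 × Fin 3 → V4 → V4,
        (∀ i, ContDiff ℝ ∞ (η i)) ∧ (∀ i, tsupport (η i) ⊆ closedBall y r) ∧ Φ p y r η) →
    ∃ (θ : Fin 2 × Fin 3 → HS.Form X 2) (K U : Set X),
      (∀ i, HS.Smooth (θ i) ∧ HS.Closed (θ i) ∧ HS.Exact (θ i)) ∧
      IsOpen U ∧ IsClosed K ∧ U ⊆ K ∧ K ⊆ G ∧ HS.vol μ (K \ U) = 0 ∧
      HS.vol μ (G \ U) ≤ ENNReal.ofReal (799 / 800) * HS.vol μ G ∧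
      (∀ x, ((∀ i, θ i x = 0) ∧ x ∉ K) ∨
        ∃ (p : Par X) (y : V4) (r : ℝ) (η : Fin 2 × Fin 3 → V4 → V4) (z : V4), 0 < r ∧
          (∀ i, ContDiff ℝ ∞ (η i)) ∧ Φ p y r η ∧ p.psi z = x ∧ z ∈ closedBall y r ∧ x ∈ G ∧
          (x ∈ K ↔ z ∈ ecl y r) ∧ ∀ i, cp p (θ i) z = d1 (η i) z)

/-- The stage (block A + block B). -/
def StageV (μ : HS.Form X 4) (c : ℝ) : Prop :=
  ∀ (w : Fin 3 → HS.Form X 2) (G : Set X), Above μ c w G →
    ∃ (w' : Fin 3 → HS.Form X 2) (K U : Set X), IsOpen U ∧ IsClosed K ∧ U ⊆ K ∧ K ⊆ G ∧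
      HS.vol μ (K \ U) = 0 ∧ HS.vol μ (G \ U) ≤ ENNReal.ofReal (799 / 800) * HS.vol μ G ∧
      Reach μ (PV μ c w G) w w' ∧ Above μ c w' (G \ K) ∧
      ∀ x ∈ K, HS.Qm μ w' x = c • (1 : Matrix (Fin 3) (Fin 3) ℝ)

/-- the conclusion of the iteration: in the limit `Q = c` near every point of an open set of full
measure, where the triples are eventually constant in time -/
def LimitV (μ : HS.Form X 4) (c : ℝ) (W : ℝ → Fin 3 → HS.Form X 2) : Prop :=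
  ∃ V : Set X, IsOpen V ∧ HS.vol μ Vᶜ = 0 ∧
    ∀ x ∈ V, ∃ T : ℝ, ∃ N ∈ 𝓝 x, ∀ t, T ≤ t → ∀ y ∈ N, (∀ i, W t i y = W T i y) ∧
      HS.Qm μ (W t) y = c • (1 : Matrix (Fin 3) (Fin 3) ℝ)

/-- Block C: the iteration. -/
def IterVStatement : Prop :=
  ∀ (μ : HS.Form X 4), HS.Volume μ → HS.vol μ univ ≠ ⊤ → ∀ (c : ℝ), 0 < c → StageV X μ c →
    ∀ (P : (Fin 3 → HS.Form X 2) → Prop) (w w1 : Fin 3 → HS.Form X 2), Reach μ P w w1 →
      Above μ c w1 univ →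
      ∃ W : ℝ → Fin 3 → HS.Form X 2, LongDef μ w W ∧ (∀ t ∈ Icc (0 : ℝ) 1, P (W t)) ∧
        (∀ t : ℝ, 1 ≤ t → ∀ x, (HS.Qm μ (W t) x - c • (1 : Matrix (Fin 3) (Fin 3) ℝ)).PosSemidef) ∧
        LimitV X μ c W ∧ W 1 = w1

end

end Vale.Agent.P247.SCY
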