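import Vale.Agent.P247.SCY.FW0

/-!
# P247, Theorem (V): matrices
-/

set_option linter.all false

open scoped BigOperators ContDiff Topology Manifold ENNReal
open Set MeasureTheory Metric Filter

namespace Vale.Agent.P247.SCY
open Vale.Agent.P204 Vale.Agent.P204.T4 Vale.Agent.P204.Mfd Vale.Agent.P204.GX

abbrev Mat3 := Matrix (Fin 3) (Fin 3) ℝ

section
open scoped MatrixOrder

/-- square roots: a matrix `G > a ^ 2` is `(P + a) ^ 2` with `P > 0` -/
theorem exists_sqrt {G : Mat3} {a : ℝ} (ha : 0 < a) (h : (G - (a ^ 2) • (1 : Mat3)).PosDef) :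
    ∃ P : Mat3, P.PosDef ∧ (P + a • (1 : Mat3)) * (P + a • (1 : Mat3)) = G := by
  have hG : G.PosDef := posDef_add_smul (by positivity) h
  have h0 : (0 : Mat3) ≤ G := Matrix.nonneg_iff_posSemidef.2 hG.posSemidef
  set S : Mat3 := CFC.sqrt G with hS
  have hSS : S * S = G := CFC.sqrt_mul_sqrt_self G h0
  have hS0 : S.PosSemidef := Matrix.nonneg_iff_posSemidef.1 (CFC.sqrt_nonneg G)
  have hone : (1 : Mat3).IsHermitian := Matrix.isHermitian_one
  have ha1 : (a • (1 : Mat3)).IsHermitian := by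
    unfold Matrix.IsHermitian
    rw [Matrix.conjTranspose_smul, star_trivial, Matrix.conjTranspose_one]
  have hPh : (S - a • (1 : Mat3)).IsHermitian := hS0.isHermitian.sub ha1
  refine ⟨S - a • (1 : Mat3), ?_, by rw [sub_add_cancel]; exact hSS⟩
  rw [hPh.posDef_iff_eigenvalues_pos]
  intro i
  set β := hPh.eigenvalues i with hβ
  set v : Fin 3 → ℝ := (hPh.eigenvectorBasis i).ofLp with hv
  have hv0 : v ≠ 0 := by
    intro h0
    have h1 := hPh.eigenvectorBasis.orthonormal.ne_zero i
    apply h1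
    ext k
    exact congrFun h0 k
  have hPv : (S - a • (1 : Mat3)).mulVec v = β • v := hPh.mulVec_eigenvectorBasis i
  have hSv : S.mulVec v = (β + a) • v := by
    have h1 : S.mulVec v = (S - a • (1 : Mat3)).mulVec v + a • v := by
      rw [Matrix.sub_mulVec, Matrix.smul_mulVec, Matrix.one_mulVec, sub_add_cancel]
    rw [h1, hPv, add_smul]
  have hGv : G.mulVec v = ((β + a) ^ 2) • v := by
    rw [← hSS, ← Matrix.mulVec_mulVec, hSv, Matrix.mulVec_smul, hSv, smul_smul, sq]
  have hvv : 0 < v ⬝ᵥ v := by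
    have h1 : v ⬝ᵥ v = v 0 ^ 2 + v 1 ^ 2 + v 2 ^ 2 := by
      simp [dotProduct, Fin.sum_univ_three]; ring
    rw [h1]
    by_contra hcon
    apply hv0
    push Not at hcon
    have p0 := sq_nonneg (v 0)
    have p1 := sq_nonneg (v 1)
    have p2 := sq_nonneg (v 2)
    have z0 : v 0 = 0 := by
      have : v 0 ^ 2 = 0 := by linarith
      exact pow_eq_zero_iff (two_ne_zero) |>.1 this
    have z1 : v 1 = 0 := by
      have : v 1 ^ 2 = 0 := by linarith
      exact pow_eq_zero_iff (two_ne_zero) |>.1 this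
    have z2 : v 2 = 0 := by
      have : v 2 ^ 2 = 0 := by linarith
      exact pow_eq_zero_iff (two_ne_zero) |>.1 this
    funext k
    fin_cases k <;> assumption
  have h1 : 0 < ((β + a) ^ 2 - a ^ 2) * (v ⬝ᵥ v) := by
    have h2 := h.dotProduct_mulVec_pos hv0
    rw [star_trivial, Matrix.sub_mulVec, hGv, Matrix.smul_mulVec, Matrix.one_mulVec, ← sub_smul,
      dotProduct_smul, smul_eq_mul] at h2
    exact h2
  have h2 : 0 ≤ (β + a) * (v ⬝ᵥ v) := by
    have h3 := hS0.dotProduct_mulVec_nonneg v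
    rw [star_trivial, hSv, dotProduct_smul, smul_eq_mul] at h3
    exact h3
  have h3 : 0 < (β + a) ^ 2 - a ^ 2 := pos_of_mul_pos_left h1 hvv.le
  have h4 : 0 ≤ β + a := nonneg_of_mul_nonneg_left h2 hvv
  nlinarith

end

/-- positive definiteness is an open condition -/
theorem eventually_posDef {Y : Type*} [TopologicalSpace Y] {N : Y → Mat3} {y0 : Y}
    (hc : ∀ i j, ContinuousAt (fun y => N y i j) y0) (hh : ∀ y, (N y).IsHermitian)
    (h0 : (N y0).PosDef) : ∀ᶠ y in 𝓝 y0, (N y).PosDef := by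
  have hK : IsCompact (sphere (0 : Fin 3 → ℝ) 1) := isCompact_sphere _ _
  have hev : ∀ᶠ y in 𝓝 y0, ∀ v ∈ sphere (0 : Fin 3 → ℝ) 1, 0 < v ⬝ᵥ (N y).mulVec v := by
    refine hK.eventually_forall_of_forall_eventually fun v hv => ?_
    have hv0 : v ≠ 0 := by
      intro h
      rw [h] at hv
      simp at hv
    have hpos : 0 < v ⬝ᵥ (N y0).mulVec v := by
      have := h0.dotProduct_mulVec_pos hv0
      rwa [star_trivial] at this
    have hcont : ContinuousAt (fun z : Y × (Fin 3 → ℝ) => z.2 ⬝ᵥ (N z.1).mulVec z.2) (y0, v) := by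
      have e : (fun z : Y × (Fin 3 → ℝ) => z.2 ⬝ᵥ (N z.1).mulVec z.2) =
          fun z => ∑ i, z.2 i * ∑ j, N z.1 i j * z.2 j := by
        funext z; rfl
      rw [e]
      have hz : ∀ k, ContinuousAt (fun z : Y × (Fin 3 → ℝ) => z.2 k) (y0, v) := fun k =>
        ((continuous_apply k).comp continuous_snd).continuousAt
      have hN : ∀ i j, ContinuousAt (fun z : Y × (Fin 3 → ℝ) => N z.1 i j) (y0, v) := fun i j =>
        ContinuousAt.comp (f := fun z : Y × (Fin 3 → ℝ) => z.1) (x := (y0, v)) (hc i j)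
          continuous_fst.continuousAt
      exact tendsto_finsetSum _ fun i _ => (hz i).mul
        (tendsto_finsetSum _ fun j _ => (hN i j).mul (hz j))
    exact hcont.eventually (lt_mem_nhds hpos)
  filter_upwards [hev] with y hy
  refine Matrix.PosDef.of_dotProduct_mulVec_pos (hh y) fun v hv => ?_
  rw [star_trivial]
  have hn : 0 < ‖v‖ := norm_pos_iff.2 hv
  have h1 := hy (‖v‖⁻¹ • v) (by
    rw [mem_sphere_zero_iff_norm, norm_smul, norm_inv, norm_norm, inv_mul_cancel₀ hn.ne'])
  rw [Matrix.mulVec_smul, dotProduct_smul, smul_dotProduct, smul_eq_mul, smul_eq_mul,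
    ← mul_assoc] at h1
  exact pos_of_mul_pos_right h1 (by positivity)

/-- the matrix `s P + t P ^ 2` -/
theorem posDef_comb {P : Mat3} (hP : P.PosDef) {s t : ℝ} (hs : 0 < s) (ht : 0 ≤ t) :
    (s • P + t • (P * P)).PosDef := by
  have h1 : (P * P).PosSemidef := by
    have := Matrix.posSemidef_conjTranspose_mul_self P
    rwa [hP.isHermitian.eq] at this
  exact (hP.smul hs).add_posSemidef (h1.smul ht)

theorem posSemidef_comb {P : Mat3} (hP : P.PosDef) {s t : ℝ} (hs : 0 ≤ s) (ht : 0 ≤ t) :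
    (s • P + t • (P * P)).PosSemidef := by
  have h1 : (P * P).PosSemidef := by
    have := Matrix.posSemidef_conjTranspose_mul_self P
    rwa [hP.isHermitian.eq] at this
  exact (hP.posSemidef.smul hs).add (h1.smul ht)

end Vale.Agent.P247.SCY
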