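import Vale.Agent.P247.SCY.FW1

/-!
# P247, Theorem (V): self-dual forms and radial cut-offs
-/

set_option linter.all false

open scoped BigOperators ContDiff Topology Manifold ENNReal
open Set MeasureTheory Metric Filter

namespace Vale.Agent.P247.SCY
open Vale.Agent.P204 Vale.Agent.P204.T4 Vale.Agent.P204.Mfd Vale.Agent.P204.GX

/-- self-dual constant forms -/
def SD (A : L2) : Prop := A 5 = A 0 ∧ A 4 = -A 1 ∧ A 3 = A 2

theorem SD.add {A B : L2} (hA : SD A) (hB : SD B) : SD (A + B) := by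
  obtain ⟨a1, a2, a3⟩ := hA
  obtain ⟨b1, b2, b3⟩ := hB
  refine ⟨?_, ?_, ?_⟩
  · show A 5 + B 5 = A 0 + B 0; rw [a1, b1]
  · show A 4 + B 4 = -(A 1 + B 1); rw [a2, b2]; ring
  · show A 3 + B 3 = A 2 + B 2; rw [a3, b3]

theorem SD.smul {A : L2} (hA : SD A) (c : ℝ) : SD (c • A) := by
  obtain ⟨a1, a2, a3⟩ := hA
  refine ⟨?_, ?_, ?_⟩
  · show c * A 5 = c * A 0; rw [a1]
  · show c * A 4 = -(c * A 1); rw [a2]; ring
  · show c * A 3 = c * A 2; rw [a3]

theorem SD.zero : SD 0 := ⟨rfl, by show (0 : ℝ) = -0; simp, rfl⟩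

theorem SD.sum {ι : Type*} (s : Finset ι) {A : ι → L2} (h : ∀ k, SD (A k)) :
    SD (∑ k ∈ s, A k) := by
  classical
  induction s using Finset.induction_on with
  | empty => simpa using SD.zero
  | insert a s ha ih => rw [Finset.sum_insert ha]; exact (h a).add ih

/-- the linear primitive of a constant form -/
noncomputable def lamF (A : L2) (z : V4) : V4 := fun k => ∑ l, (1 / 2 * ent A l k) * z l

theorem contDiff_lamF (A : L2) (y : V4) : ContDiff ℝ ∞ (fun z => lamF A (z - y)) := by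
  rw [contDiff_pi]
  intro k
  show ContDiff ℝ ∞ fun z : V4 => ∑ l, (1 / 2 * ent A l k) * (z - y) l
  refine ContDiff.sum fun l _ => contDiff_const.mul ?_
  show ContDiff ℝ ∞ fun z : V4 => z l - y l
  fun_prop

theorem pd_linV (c : Fin 4 → ℝ) (y x : V4) (i : Fin 4) :
    pd i (fun z : V4 => ∑ l, c l * (z - y) l) x = c i := by
  have h1 : HasFDerivAt (fun z : V4 => ∑ l, c l * (z - y) l)
      (∑ l, c l • (ContinuousLinearMap.proj (R := ℝ) (φ := fun _ : Fin 4 => ℝ) l)) x := by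
    refine HasFDerivAt.fun_sum fun l _ => ?_
    have h2 : HasFDerivAt (fun z : V4 => (z - y) l)
        (ContinuousLinearMap.proj (R := ℝ) (φ := fun _ : Fin 4 => ℝ) l) x := by
      show HasFDerivAt (fun z : V4 => z l - y l) _ x
      exact (ContinuousLinearMap.proj (R := ℝ) (φ := fun _ : Fin 4 => ℝ) l).hasFDerivAt.sub_const _
    exact h2.const_mul (c l)
  unfold pd
  rw [h1.fderiv]
  simp only [ContinuousLinearMap.sum_apply, ContinuousLinearMap.smul_apply,
    ContinuousLinearMap.proj_apply, smul_eq_mul, Pi.single_apply, mul_ite, mul_one, mul_zero,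
    Finset.sum_ite_eq, Finset.sum_ite_eq', Finset.mem_univ, if_true]

theorem d1_lamF (A : L2) (y x : V4) : d1 (fun z => lamF A (z - y)) x = A := by
  rw [← GX.ofEnt_ent (d1 (fun z => lamF A (z - y)) x)]
  conv_rhs => rw [← GX.ofEnt_ent A]
  apply GX.ofEnt_congr
  intro i j
  rw [GX.ent_d1]
  have h1 : pd i (fun z => lamF A (z - y) j) x = 1 / 2 * ent A i j :=
    pd_linV (fun l => 1 / 2 * ent A l j) y x i
  have h2 : pd j (fun z => lamF A (z - y) i) x = 1 / 2 * ent A j i :=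
    pd_linV (fun l => 1 / 2 * ent A l i) y x j
  rw [h1, h2, ent_swap A j i]
  ring

/-- the value of `d (φ λ_A)` when `φ = h` and `grad φ = 2 g z` -/
noncomputable def TT (g h : ℝ) (A : L2) (z : V4) : L2 := wd ((2 * g) • z) (lamF A z) + h • A

theorem lamF_eq (A : L2) (z : V4) : lamF A z =
    ![1 / 2 * (-(A 0 * z 1) - A 1 * z 2 - A 2 * z 3),
      1 / 2 * (A 0 * z 0 - A 3 * z 2 - A 4 * z 3),
      1 / 2 * (A 1 * z 0 + A 3 * z 1 - A 5 * z 3),
      1 / 2 * (A 2 * z 0 + A 4 * z 1 + A 5 * z 2)] := by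
  funext k
  unfold lamF
  fin_cases k <;>
    simp [Fin.sum_univ_four, ent] <;> ring

theorem Q_TT_left {A B : L2} (hA : SD A) (hB : SD B) (g h : ℝ) (z : V4) :
    Q (TT g h A z) B = (h + g * nsq z / 2) * Q A B := by
  obtain ⟨a1, a2, a3⟩ := hA
  obtain ⟨b1, b2, b3⟩ := hB
  unfold TT Q nsq
  rw [lamF_eq]
  simp only [wd, Pi.add_apply, Pi.smul_apply, smul_eq_mul, Matrix.cons_val_zero,
    Matrix.cons_val_one, Matrix.cons_val, a1, a2, a3, b1, b2, b3]
  ring

theorem Q_TT {A B : L2} (hA : SD A) (hB : SD B) (g h : ℝ) (z : V4) :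
    Q (TT g h A z) (TT g h B z) = (h ^ 2 + h * g * nsq z) * Q A B := by
  obtain ⟨a1, a2, a3⟩ := hA
  obtain ⟨b1, b2, b3⟩ := hB
  unfold TT Q nsq
  rw [lamF_eq, lamF_eq]
  simp only [wd, Pi.add_apply, Pi.smul_apply, smul_eq_mul, Matrix.cons_val_zero,
    Matrix.cons_val_one, Matrix.cons_val, a1, a2, a3, b1, b2, b3]
  ring

theorem Q_TT_right {A B : L2} (hA : SD A) (hB : SD B) (g h : ℝ) (z : V4) :
    Q A (TT g h B z) = (h + g * nsq z / 2) * Q A B := by
  rw [Q_comm, Q_TT_left hB hA, Q_comm]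

end Vale.Agent.P247.SCY
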