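import Vale.Agent.P247.SCY.FW2

/-!
# P247, Theorem (V): the radial modification of a constant triple
-/

set_option linter.all false

open scoped BigOperators ContDiff Topology Manifold ENNReal
open Set MeasureTheory Metric Filter

namespace Vale.Agent.P247.SCY
open Vale.Agent.P204 Vale.Agent.P204.T4 Vale.Agent.P204.Mfd Vale.Agent.P204.GX

/-- the Gram matrix of three constant two-forms, relative to the density `m` -/
noncomputable def gmat (m : ℝ) (v : Fin 3 → L2) : Mat3 :=
  Matrix.of fun i j => Q (v i) (v j) / (2 * m)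

theorem pgp_mul (R G : Mat3) (i j : Fin 3) : pgp R G i j = (R * G * R.transpose) i j := by
  unfold pgp
  simp only [Matrix.mul_apply, Matrix.transpose_apply, Fin.sum_univ_three]
  ring

/-- the polar decomposition of a self-dual triple -/
theorem exists_target {A : Fin 3 → L2} (hA : ∀ i, SD (A i)) {a : ℝ} (ha : 0 < a)
    (h : ((Matrix.of fun i j => Q (A i) (A j) / 2 : Mat3) - (a ^ 2) • (1 : Mat3)).PosDef) :
    ∃ (e : Fin 3 → L2) (P : Mat3), (∀ k, SD (e k)) ∧
      (∀ k l, Q (e k) (e l) = if k = l then 2 else 0) ∧ P.PosDef ∧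
      ∀ i, A i = a • e i + ∑ k, P i k • e k := by
  obtain ⟨P, hP, hG⟩ := exists_sqrt ha h
  set S : Mat3 := P + a • (1 : Mat3) with hS
  have hSp : S.PosDef := hP.add_posSemidef ((Matrix.PosSemidef.one (n := Fin 3) (R := ℝ)).smul ha.le)
  have hdet : IsUnit S.det := (Matrix.isUnit_iff_isUnit_det _).1 hSp.isUnit
  set R : Mat3 := S⁻¹ with hR
  have hRS : R * S = 1 := Matrix.nonsing_inv_mul _ hdet
  have hSR : S * R = 1 := Matrix.mul_nonsing_inv _ hdet
  have hSt : S.transpose = S := by
    have := hSp.isHermitian.eq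
    rwa [Matrix.conjTranspose_eq_transpose_of_trivial] at this
  have hRt : R.transpose = R := by
    rw [hR, Matrix.transpose_nonsing_inv, hSt]
  set e : Fin 3 → L2 := fun k => ∑ j, R k j • A j with he
  have hAe : ∀ i, A i = ∑ k, S i k • e k := by
    intro i
    have h1 : ∑ k, S i k • e k = ∑ j, (S * R) i j • A j := by
      simp only [he, Finset.smul_sum, smul_smul, Matrix.mul_apply, Finset.sum_smul]
      rw [Finset.sum_comm]
    rw [h1, hSR]
    simp [Matrix.one_apply]
  refine ⟨e, P, fun k => SD.sum _ fun j => (hA j).smul _, fun k l => ?_, hP, fun i => ?_⟩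
  · show Q (∑ j, R k j • A j) (∑ j, R l j • A j) = _
    rw [Q_sum_comb R A k l]
    have h2 : pgp R (fun k l => Q (A k) (A l) / 2) k l =
        pgp R (Matrix.of fun i j => Q (A i) (A j) / 2 : Mat3) k l := rfl
    rw [h2, pgp_mul, ← hG, hRt, ← mul_assoc, hRS, one_mul, hSR, Matrix.one_apply]
    split_ifs <;> simp
  · rw [hAe i]
    simp only [hS, Matrix.add_apply, Matrix.smul_apply, Matrix.one_apply, smul_eq_mul, add_smul,
      Finset.sum_add_distrib, mul_ite, mul_one, mul_zero, ite_smul, zero_smul, Finset.sum_ite_eq,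
      Finset.mem_univ, if_true]
    rw [add_comm]

theorem Q_sum_left (A : Fin 3 → L2) (B : L2) (c : Fin 3 → ℝ) :
    Q (∑ k, c k • A k) B = ∑ k, c k * Q (A k) B := by
  simp only [Fin.sum_univ_three, Q_add_left, Q_smul_left]

/-- the Gram matrix of the modified triple -/
theorem gmat_mod {e : Fin 3 → L2} (he : ∀ k, SD (e k))
    (ho : ∀ k l, Q (e k) (e l) = if k = l then 2 else 0) {P : Mat3} (hP : P.PosDef) {a c m : ℝ}
    (hm : 0 < m) (hac : a ^ 2 = c * m) (g h : ℝ) (z : V4) :
    gmat m (fun i => a • e i + TT g h (∑ k, P i k • e k) z) - c • (1 : Mat3) =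
      (1 / m) • ((2 * a * (h + g * nsq z / 2)) • P + (h ^ 2 + h * g * nsq z) • (P * P)) := by
  have hPt : ∀ i j, P i j = P j i := by
    intro i j
    have := congrFun (congrFun hP.isHermitian.eq i) j
    rw [Matrix.conjTranspose_apply, star_trivial] at this
    exact this.symm
  set B : Fin 3 → L2 := fun i => ∑ k, P i k • e k with hB
  have hBs : ∀ i, SD (B i) := fun i => SD.sum _ fun k => (he k).smul _
  have q1 : ∀ i j, Q (B i) (e j) = 2 * P i j := by
    intro i j
    rw [hB]
    show Q (∑ k, P i k • e k) (e j) = _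
    rw [Q_sum_left]
    simp only [ho, mul_ite, mul_zero, Finset.sum_ite_eq', Finset.mem_univ, if_true]
    ring
  have q2 : ∀ i j, Q (e i) (B j) = 2 * P i j := by
    intro i j
    rw [Q_comm, q1, hPt]
  have q3 : ∀ i j, Q (B i) (B j) = 2 * (P * P) i j := by
    intro i j
    show Q (∑ k, P i k • e k) (B j) = _
    rw [Q_sum_left, Matrix.mul_apply, Finset.mul_sum]
    refine Finset.sum_congr rfl fun k _ => ?_
    rw [q2, hPt k j, ← hPt k j]; ring
  ext i j
  show Q (a • e i + TT g h (B i) z) (a • e j + TT g h (B j) z) / (2 * m) - (c • (1 : Mat3)) i j =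
    (1 / m) * ((2 * a * (h + g * nsq z / 2)) * P i j + (h ^ 2 + h * g * nsq z) * (P * P) i j)
  rw [Q_add_left, Q_add_right, Q_add_right, Q_smul_left, Q_smul_left, Q_smul_right, Q_smul_right,
    Q_TT (hBs i) (hBs j), Q_TT_right (he i) (hBs j), Q_TT_left (hBs i) (he j), q1, q2, q3, ho,
    Matrix.smul_apply, Matrix.one_apply, smul_eq_mul]
  have hm' : m ≠ 0 := hm.ne'
  have hcm : c = a ^ 2 / m := by rw [hac]; field_simp
  rw [hcm]
  split_ifs <;> field_simp <;> ring

theorem gmat_mod_nonneg {e : Fin 3 → L2} (he : ∀ k, SD (e k))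
    (ho : ∀ k l, Q (e k) (e l) = if k = l then 2 else 0) {P : Mat3} (hP : P.PosDef) {a c m : ℝ}
    (ha : 0 < a) (hm : 0 < m) (hac : a ^ 2 = c * m) {g h : ℝ} (hg : 0 ≤ g) (hh : 0 ≤ h) (z : V4) :
    (gmat m (fun i => a • e i + TT g h (∑ k, P i k • e k) z) - c • (1 : Mat3)).PosSemidef := by
  rw [gmat_mod he ho hP hm hac]
  have hn : 0 ≤ nsq z := by unfold nsq; positivity
  exact (posSemidef_comb hP (by positivity) (by positivity)).smul (by positivity)

theorem gmat_mod_pos {e : Fin 3 → L2} (he : ∀ k, SD (e k))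
    (ho : ∀ k l, Q (e k) (e l) = if k = l then 2 else 0) {P : Mat3} (hP : P.PosDef) {a c m : ℝ}
    (ha : 0 < a) (hm : 0 < m) (hac : a ^ 2 = c * m) {g h : ℝ} (hg : 0 ≤ g) (hh : 0 < h) (z : V4) :
    (gmat m (fun i => a • e i + TT g h (∑ k, P i k • e k) z) - c • (1 : Mat3)).PosDef := by
  rw [gmat_mod he ho hP hm hac]
  have hn : 0 ≤ nsq z := by unfold nsq; positivity
  exact (posDef_comb hP (by positivity) (by positivity)).smul (by positivity)

theorem gmat_mod_zero {e : Fin 3 → L2} (he : ∀ k, SD (e k))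
    (ho : ∀ k l, Q (e k) (e l) = if k = l then 2 else 0) {P : Mat3} (hP : P.PosDef) {a c m : ℝ}
    (hm : 0 < m) (hac : a ^ 2 = c * m) (z : V4) :
    gmat m (fun i => a • e i + TT 0 0 (∑ k, P i k • e k) z) = c • (1 : Mat3) := by
  have h := gmat_mod he ho hP hm hac 0 0 z
  have h0 : (2 * a * ((0 : ℝ) + 0 * nsq z / 2)) = 0 := by ring
  have h1 : ((0 : ℝ) ^ 2 + 0 * 0 * nsq z) = 0 := by ring
  rw [h0, h1, zero_smul, zero_smul, add_zero, smul_zero, sub_eq_zero] at h
  exact h

/-! ### the radial cut-off -/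

/-- the radial cut-off: `0` on the closed core, positive outside, `1` far from the core -/
noncomputable def radc (r : ℝ) (y z : V4) : ℝ := Real.smoothTransition (4 * nsq (z - y) / r ^ 2 - 1)

/-- the radial derivative of the cut-off -/
noncomputable def radg (r : ℝ) (y z : V4) : ℝ :=
  deriv Real.smoothTransition (4 * nsq (z - y) / r ^ 2 - 1) * (4 / r ^ 2)

theorem contDiff_nsq (y : V4) : ContDiff ℝ ∞ (fun z : V4 => nsq (z - y)) := by
  show ContDiff ℝ ∞ (fun z : V4 => (z 0 - y 0) ^ 2 + (z 1 - y 1) ^ 2 + (z 2 - y 2) ^ 2 +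
    (z 3 - y 3) ^ 2)
  fun_prop

theorem contDiff_radc (r : ℝ) (y : V4) : ContDiff ℝ ∞ (radc r y) := by
  unfold radc
  exact Real.smoothTransition.contDiff.comp
    (((contDiff_const.mul (contDiff_nsq y)).div_const _).sub contDiff_const)

theorem radc_mem (r : ℝ) (y z : V4) : radc r y z ∈ Icc (0 : ℝ) 1 :=
  ⟨Real.smoothTransition.nonneg _, Real.smoothTransition.le_one _⟩

theorem radg_nonneg (r : ℝ) (y z : V4) : 0 ≤ radg r y z :=
  mul_nonneg Real.smoothTransition.monotone.deriv_nonneg (by positivity)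

theorem grad_radc (r : ℝ) (y z : V4) : grad (radc r y) z = (2 * radg r y z) • (z - y) := by
  have h1 : HasFDerivAt (fun z : V4 => nsq (z - y))
      (∑ l, (2 * (z - y) l) • (ContinuousLinearMap.proj (R := ℝ) (φ := fun _ : Fin 4 => ℝ) l)) z := by
    have e : (fun z : V4 => nsq (z - y)) = fun z => ∑ l, ((z - y) l) ^ 2 := by
      funext z
      simp [nsq, Fin.sum_univ_four]
    rw [e]
    refine HasFDerivAt.fun_sum fun l _ => ?_
    have h2 : HasFDerivAt (fun z : V4 => (z - y) l)
        (ContinuousLinearMap.proj (R := ℝ) (φ := fun _ : Fin 4 => ℝ) l) z := by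
      show HasFDerivAt (fun z : V4 => z l - y l) _ z
      exact (ContinuousLinearMap.proj (R := ℝ) (φ := fun _ : Fin 4 => ℝ) l).hasFDerivAt.sub_const _
    have h3 := h2.pow 2
    simpa using h3
  have h4 : HasDerivAt Real.smoothTransition
      (deriv Real.smoothTransition (4 * nsq (z - y) / r ^ 2 - 1)) (4 * nsq (z - y) / r ^ 2 - 1) :=
    ((Real.smoothTransition.contDiff (n := 1)).differentiable (by simp) _).hasDerivAt
  have h5 : HasFDerivAt (fun z : V4 => 4 * nsq (z - y) / r ^ 2 - 1)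
      ((4 / r ^ 2) • ∑ l, (2 * (z - y) l) •
        (ContinuousLinearMap.proj (R := ℝ) (φ := fun _ : Fin 4 => ℝ) l)) z := by
    have h6 := (h1.const_mul (4 / r ^ 2)).sub_const 1
    refine h6.congr_of_eventuallyEq (Filter.Eventually.of_forall fun z => ?_)
    show 4 * nsq (z - y) / r ^ 2 - 1 = 4 / r ^ 2 * nsq (z - y) - 1
    ring
  have h7 := h4.comp_hasFDerivAt z h5
  funext i
  show fderiv ℝ (radc r y) z (Pi.single i 1) = _
  have h8 : HasFDerivAt (radc r y) _ z := h7
  rw [h8.fderiv]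
  simp only [ContinuousLinearMap.smul_apply, ContinuousLinearMap.sum_apply,
    ContinuousLinearMap.proj_apply, smul_eq_mul, Pi.single_apply, mul_ite, mul_one, mul_zero,
    Finset.sum_ite_eq, Finset.sum_ite_eq', Finset.mem_univ, if_true, Pi.smul_apply]
  unfold radg
  ring

theorem radc_core {r : ℝ} (hr : 0 < r) {y z : V4} (hz : nsq (z - y) ≤ (r / 2) ^ 2) :
    radc r y z = 0 ∧ radg r y z = 0 := by
  have h1 : 4 * nsq (z - y) / r ^ 2 - 1 ≤ 0 := by
    rw [sub_nonpos, div_le_one (by positivity)]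
    nlinarith
  refine ⟨Real.smoothTransition.zero_of_nonpos h1, ?_⟩
  have h2 : IsLocalMin Real.smoothTransition (4 * nsq (z - y) / r ^ 2 - 1) := by
    refine Filter.Eventually.of_forall fun t => ?_
    rw [Real.smoothTransition.zero_of_nonpos h1]
    exact Real.smoothTransition.nonneg _
  unfold radg
  rw [h2.deriv_eq_zero, zero_mul]

theorem radc_pos {r : ℝ} (hr : 0 < r) {y z : V4} (hz : (r / 2) ^ 2 < nsq (z - y)) :
    0 < radc r y z := by
  apply Real.smoothTransition.pos_of_pos
  rw [sub_pos, lt_div_iff₀ (by positivity)]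
  nlinarith

theorem radc_far {r : ℝ} (hr : 0 < r) {y z : V4} (hz : r ^ 2 / 2 < nsq (z - y)) :
    radc r y =ᶠ[𝓝 z] fun _ => 1 := by
  have hop : IsOpen {w : V4 | r ^ 2 / 2 < nsq (w - y)} :=
    isOpen_lt continuous_const (contDiff_nsq y).continuous
  filter_upwards [hop.mem_nhds hz] with w hw
  apply Real.smoothTransition.one_of_one_le
  have hw' : r ^ 2 / 2 < nsq (w - y) := hw
  rw [le_sub_iff_add_le, le_div_iff₀ (by positivity)]
  nlinarith

end Vale.Agent.P247.SCY
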