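import Vale.Agent.P247.SCY.FW3

/-!
# P247, Theorem (V): the local modification
-/

set_option linter.all false

open scoped BigOperators ContDiff Topology Manifold ENNReal
open Set MeasureTheory Metric Filter

namespace Vale.Agent.P247.SCY
open Vale.Agent.P204 Vale.Agent.P204.T4 Vale.Agent.P204.Mfd Vale.Agent.P204.GX

/-- the properties of the local modification -/
structure PhiV (c : ℝ) (u : Fin 3 → V4 → L2) (m : V4 → ℝ) (y : V4) (r : ℝ)
    (η : Fin 2 × Fin 3 → V4 → V4) : Prop where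
  pos : ∀ z ∈ closedBall y r, 0 < m z
  first : ∀ z ∈ closedBall y r, ∀ s ∈ Icc (0 : ℝ) 1,
    (gmat (m z) (fun i => u i z + s • d1 (η (0, i)) z) - c • (1 : Mat3)).PosDef
  second : ∀ z ∈ closedBall y r, ∀ s ∈ Icc (0 : ℝ) 1,
    (gmat (m z) (fun i => u i z + d1 (η (0, i)) z + s • d1 (η (1, i)) z) - c • (1 : Mat3)).PosSemidef
  strict : ∀ z ∈ closedBall y r, z ∉ ecl y r →
    (gmat (m z) (fun i => u i z + d1 (η (0, i)) z + d1 (η (1, i)) z) - c • (1 : Mat3)).PosDef
  core : ∀ z ∈ ecl y r,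
    gmat (m z) (fun i => u i z + d1 (η (0, i)) z + d1 (η (1, i)) z) = c • (1 : Mat3)

/-! ### translations -/

theorem pd_trans {f : V4 → ℝ} (y x : V4) (i : Fin 4) (hf : DifferentiableAt ℝ f (x - y)) :
    pd i (fun z => f (z - y)) x = pd i f (x - y) := by
  have h1 : HasFDerivAt (fun z : V4 => z - y) (ContinuousLinearMap.id ℝ V4) x :=
    (hasFDerivAt_id x).sub_const y
  have h2 := hf.hasFDerivAt.comp x h1
  unfold pd
  have h3 : HasFDerivAt (fun z => f (z - y)) _ x := h2
  rw [h3.fderiv]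
  rfl

theorem d1_trans {η : V4 → V4} (hη : Differentiable ℝ η) (y x : V4) :
    d1 (fun z => η (z - y)) x = d1 η (x - y) := by
  unfold d1
  congr 1
  funext i j
  have h : ∀ i j, pd i (fun z => η (z - y) j) x = pd i (fun z => η z j) (x - y) := by
    intro i j
    exact pd_trans (f := fun z => η z j) y x i (differentiableAt_pi.1 (hη _) j)
  rw [h, h]

theorem closed_trans {α : V4 → L2} (hα : ContDiff ℝ ∞ α) (hc : Closed α) (y : V4) :
    Closed (fun z => α (z - y)) := by
  intro x i j k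
  have h : ∀ a b l, pd l (fun z => ent (α (z - y)) a b) x = pd l (fun z => ent (α z) a b) (x - y) := by
    intro a b l
    exact pd_trans (f := fun z => ent (α z) a b) y x l
      (((contDiff_ent a b).comp hα).differentiable (by simp) _)
  rw [h, h, h]
  exact hc _ i j k

theorem mem_cb_trans {y z : V4} {r : ℝ} : z ∈ closedBall y r ↔ z - y ∈ closedBall (0 : V4) r := by
  rw [mem_closedBall_zero_iff, mem_closedBall, dist_eq_norm]

/-- `exists_cut` centred at `y` -/
theorem exists_cut_at {κ : ℝ} (h0 : 0 < κ) (h1 : κ < 1) : ∃ K : ℝ, 1 ≤ K ∧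
    ∀ (α : V4 → L2), ContDiff ℝ ∞ α → Closed α → ∀ (y : V4) (r τ : ℝ), 0 < r →
      (∀ z ∈ closedBall y r, ‖α z‖ ≤ τ) →
      ∃ η : V4 → V4, ContDiff ℝ ∞ η ∧ tsupport η ⊆ closedBall y r ∧
        (∀ z ∈ closedBall y ((1 - κ) * r), d1 η z = α z) ∧
        (∀ z ∈ closedBall y r, ‖d1 η z‖ ≤ K * τ) := by
  obtain ⟨K, hK, H⟩ := exists_cut h0 h1
  refine ⟨K, hK, fun α hα hc y r τ hr hτ => ?_⟩
  have e0 : (fun z => α (z - (-y))) = fun z => α (z + y) := by
    funext z; rw [sub_neg_eq_add]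
  have hα' : ContDiff ℝ ∞ (fun z => α (z + y)) := hα.comp (contDiff_id.add contDiff_const)
  have hc' : Closed (fun z => α (z + y)) := by
    rw [← e0]; exact closed_trans hα hc (-y)
  obtain ⟨η, k1, k2, k3, k4⟩ := H (fun z => α (z + y)) hα' hc' r τ hr (fun z hz => hτ _ (by
    rw [mem_cb_trans, add_sub_cancel_right]; exact hz))
  have hηd : Differentiable ℝ η := k1.differentiable (by simp)
  refine ⟨fun z => η (z - y), k1.comp (contDiff_id.sub contDiff_const), ?_, fun z hz => ?_,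
    fun z hz => ?_⟩
  · refine closure_minimal ?_ isClosed_closedBall
    intro z hz
    rw [mem_cb_trans]
    exact k2 (subset_tsupport _ hz)
  · rw [d1_trans hηd, k3 _ (mem_cb_trans.1 hz), sub_add_cancel]
  · rw [d1_trans hηd]
    exact k4 _ (mem_cb_trans.1 hz)

/-! ### algebra -/

theorem gmat_herm (m : ℝ) (v : Fin 3 → L2) : (gmat m v).IsHermitian := by
  ext i j
  show Q (v j) (v i) / (2 * m) = Q (v i) (v j) / (2 * m)
  rw [Q_comm]

theorem gmat_sub_herm (m c : ℝ) (v : Fin 3 → L2) : (gmat m v - c • (1 : Mat3)).IsHermitian := by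
  refine (gmat_herm m v).sub ?_
  unfold Matrix.IsHermitian
  rw [Matrix.conjTranspose_smul, star_trivial, Matrix.conjTranspose_one]

theorem cont_gmat (m c : ℝ) (A : Fin 3 → L2) (i j : Fin 3) :
    ContinuousAt (fun v : Fin 3 → L2 => (gmat m v - c • (1 : Mat3)) i j) A := by
  have e : (fun v : Fin 3 → L2 => (gmat m v - c • (1 : Mat3)) i j) =
      fun v => Q (v i) (v j) / (2 * m) - (c • (1 : Mat3)) i j := by
    funext v
    rw [Matrix.sub_apply]
    rfl
  rw [e]
  have h1 : Continuous fun v : Fin 3 → L2 => (v i, v j) :=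
    (continuous_apply i).prodMk (continuous_apply j)
  have h2 : Continuous fun v : Fin 3 → L2 => Q (v i) (v j) := continuous_Q.comp h1
  exact ((h2.div_const _).sub continuous_const).continuousAt

theorem gmat_open {m c : ℝ} {A : Fin 3 → L2} (h : (gmat m A - c • (1 : Mat3)).PosDef) :
    ∃ ε : ℝ, 0 < ε ∧ ∀ v : Fin 3 → L2, (∀ i, ‖v i - A i‖ < ε) →
      (gmat m v - c • (1 : Mat3)).PosDef := by
  have h1 : ∀ᶠ v in 𝓝 A, (gmat m v - c • (1 : Mat3)).PosDef :=
    eventually_posDef (N := fun v => gmat m v - c • (1 : Mat3)) (fun i j => cont_gmat m c A i j)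
      (fun v => gmat_sub_herm m c v) h
  obtain ⟨ε, hε, hb⟩ := Metric.eventually_nhds_iff.1 h1
  refine ⟨ε, hε, fun v hv => hb ?_⟩
  rw [dist_pi_lt_iff hε]
  intro i
  rw [dist_eq_norm]
  exact hv i

theorem wd_smul_left (t : ℝ) (a b : V4) : wd (t • a) b = t • wd a b := by
  funext k
  fin_cases k <;> simp [wd] <;> ring

theorem TT_path (γ h s : ℝ) (B : L2) (z : V4) :
    B + s • (TT γ h B z - B) = TT (s * γ) (1 - s + s * h) B z := by
  unfold TT
  rw [show 2 * (s * γ) = s * (2 * γ) by ring, ← smul_smul s (2 * γ) z, wd_smul_left s]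
  module

theorem TT_coe (z : V4) (B : L2) (γ h : ℝ) :
    TT γ h B z = wd ((2 * γ) • z) (lamF B z) + h • B := rfl

/-- the second modification -/
noncomputable def eta2 (r : ℝ) (y : V4) (B : L2) (z : V4) : V4 := (radc r y z - 1) • lamF B (z - y)

theorem contDiff_eta2 (r : ℝ) (y : V4) (B : L2) : ContDiff ℝ ∞ (eta2 r y B) :=
  ((contDiff_radc r y).sub contDiff_const).smul (contDiff_lamF B y)

theorem d1_eta2 (r : ℝ) (y : V4) (B : L2) (z : V4) :
    d1 (eta2 r y B) z = TT (radg r y z) (radc r y z) B (z - y) - B := by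
  have hu : DifferentiableAt ℝ (fun z => radc r y z - 1) z :=
    ((contDiff_radc r y).sub contDiff_const).differentiable (by simp) z
  have hb : DifferentiableAt ℝ (fun z => lamF B (z - y)) z :=
    (contDiff_lamF B y).differentiable (by simp) z
  have h1 := T4.EMF.d1_smul hu hb
  have h2 : grad (fun z => radc r y z - 1) z = grad (radc r y) z := by
    funext i
    show fderiv ℝ (fun z => radc r y z - 1) z (Pi.single i 1) = fderiv ℝ (radc r y) z (Pi.single i 1)
    rw [fderiv_sub_const]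
  rw [h2, grad_radc, d1_lamF] at h1
  show d1 (fun z => (radc r y z - 1) • lamF B (z - y)) z = _
  rw [h1, TT_coe]
  module

theorem nsq_coord {z : V4} {t : ℝ} (ht : 0 ≤ t) (h : nsq z ≤ t ^ 2) : ‖z‖ ≤ t := by
  rw [pi_norm_le_iff_of_nonneg ht]
  intro i
  rw [Real.norm_eq_abs]
  refine abs_le_of_sq_le_sq ?_ ht
  unfold nsq at h
  have p0 := sq_nonneg (z 0)
  have p1 := sq_nonneg (z 1)
  have p2 := sq_nonneg (z 2)
  have p3 := sq_nonneg (z 3)
  fin_cases i
  · show z 0 ^ 2 ≤ _; linarith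
  · show z 1 ^ 2 ≤ _; linarith
  · show z 2 ^ 2 ≤ _; linarith
  · show z 3 ^ 2 ≤ _; linarith

/-- **The local modification.** -/
theorem locV {c : ℝ} (hc : 0 < c) {u : Fin 3 → V4 → L2} {m : V4 → ℝ} {M ρu : ℝ}
    (hu : ∀ i, ContDiff ℝ ∞ (u i)) (hcl : ∀ i, Closed (u i)) (hM : 0 < M) (hρu : 0 < ρu)
    (hm : ∀ z, ‖z‖ < ρu → m z = M) (hSD : ∀ i, SD (u i 0))
    (hpos : (gmat M (fun i => u i 0) - c • (1 : Mat3)).PosDef) :
    ∃ ρ : ℝ, 0 < ρ ∧ ∀ y : V4, ‖y‖ < ρ → ∃ r0 : ℝ, 0 < r0 ∧ ∀ r, 0 < r → r < r0 →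
      ∃ η : Fin 2 × Fin 3 → V4 → V4, (∀ i, ContDiff ℝ ∞ (η i)) ∧
        (∀ i, tsupport (η i) ⊆ closedBall y r) ∧ PhiV c u m y r η := by
  set A : Fin 3 → L2 := fun i => u i 0 with hA
  obtain ⟨K, hK1, hcut⟩ := exists_cut_at (κ := 1 / 4) (by norm_num) (by norm_num)
  obtain ⟨ε, hε, hopen⟩ := gmat_open hpos
  -- the target
  set a := Real.sqrt (c * M) with ha
  have ha0 : 0 < a := Real.sqrt_pos.2 (by positivity)
  have ha2 : a ^ 2 = c * M := Real.sq_sqrt (by positivity)
  obtain ⟨e, P, he, ho, hP, hAe⟩ := exists_target hSD ha0 (by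
    have h1 := hpos.smul hM
    have h2 : M • (gmat M (fun i => u i 0) - c • (1 : Mat3)) =
        (Matrix.of fun i j => Q (u i 0) (u j 0) / 2 : Mat3) - (a ^ 2) • (1 : Mat3) := by
      ext i j
      show M * (Q (u i 0) (u j 0) / (2 * M) - (c • (1 : Mat3)) i j) =
        Q (u i 0) (u j 0) / 2 - ((a ^ 2) • (1 : Mat3)) i j
      rw [Matrix.smul_apply, Matrix.smul_apply, smul_eq_mul, smul_eq_mul, ha2]
      field_simp
    rw [h2] at h1
    exact h1)
  set B : Fin 3 → L2 := fun i => ∑ k, P i k • e k with hB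
  -- the radius
  set τ := ε / (2 * (1 + K)) with hτ
  have hτ0 : 0 < τ := by positivity
  have hτK : (1 + K) * τ < ε := by
    have : (1 + K) * τ = ε / 2 := by rw [hτ]; field_simp
    linarith
  have ev1 : ∀ i, ∀ᶠ z in 𝓝 (0 : V4), ‖A i - u i z‖ < τ := by
    intro i
    have hcont : Continuous fun z => ‖A i - u i z‖ := (continuous_const.sub (hu i).continuous).norm
    exact hcont.continuousAt.eventually (gt_mem_nhds (by
      show ‖A i - u i 0‖ < τ
      rw [hA, sub_self, norm_zero]; exact hτ0))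
  obtain ⟨ρ1, hρ1, hball⟩ := Metric.eventually_nhds_iff.1 (eventually_all.2 ev1)
  set ρ := min ρ1 ρu with hρ
  have hρ0 : 0 < ρ := lt_min hρ1 hρu
  refine ⟨ρ, hρ0, fun y hy => ⟨ρ - ‖y‖, by linarith, fun r hr hrr => ?_⟩⟩
  have hin : ∀ z ∈ closedBall y r, ‖z‖ < ρ := by
    intro z hz
    have h1 : ‖z‖ ≤ ‖z - y‖ + ‖y‖ := by
      conv_lhs => rw [← sub_add_cancel z y]
      exact norm_add_le _ _
    have h2 := mem_closedBall_iff_norm.1 hz
    linarith
  have hnear : ∀ z ∈ closedBall y r, ∀ i, ‖A i - u i z‖ < τ := by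
    intro z hz i
    refine hball ?_ i
    rw [dist_zero_right]
    exact (hin z hz).trans_le (min_le_left _ _)
  have hmz : ∀ z ∈ closedBall y r, m z = M := fun z hz =>
    hm z ((hin z hz).trans_le (min_le_right _ _))
  have hαs : ∀ i, ContDiff ℝ ∞ (fun z => A i - u i z) := fun i => contDiff_const.sub (hu i)
  have hαc : ∀ i, Closed (fun z => A i - u i z) := fun i =>
    closed_subL contDiff_const (hu i) (closed_constL _) (hcl i)
  choose η0 k1 k2 k3 k4 using fun i => hcut (fun z => A i - u i z) (hαs i) (hαc i) y r τ hr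
    (fun z hz => (hnear z hz i).le)
  set η : Fin 2 × Fin 3 → V4 → V4 := fun k => if k.1 = 0 then η0 k.2 else eta2 r y (B k.2) with hη
  have hη0 : ∀ i, η (0, i) = η0 i := fun i => if_pos rfl
  have hη1 : ∀ i, η (1, i) = eta2 r y (B i) := fun i => if_neg (show ¬ (1 : Fin 2) = 0 by decide)
  have hcl2 : IsClosed {z : V4 | nsq (z - y) ≤ r ^ 2 / 2} :=
    isClosed_le (contDiff_nsq y).continuous continuous_const
  have hsup2 : ∀ i, tsupport (eta2 r y (B i)) ⊆ {z : V4 | nsq (z - y) ≤ r ^ 2 / 2} := by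
    intro i
    refine closure_minimal ?_ hcl2
    intro z hz
    by_contra hcon
    apply hz
    have hcon' : r ^ 2 / 2 < nsq (z - y) := not_le.1 hcon
    show (radc r y z - 1) • lamF (B i) (z - y) = 0
    rw [(radc_far hr hcon').self_of_nhds, sub_self, zero_smul]
  have hmid : ∀ z : V4, nsq (z - y) ≤ r ^ 2 / 2 → z ∈ closedBall y ((1 - 1 / 4) * r) := by
    intro z hz
    rw [mem_closedBall_iff_norm]
    refine nsq_coord (by nlinarith) (hz.trans ?_)
    nlinarith [sq_nonneg r]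
  have hmidsub : closedBall y ((1 - 1 / 4) * r) ⊆ closedBall y r :=
    closedBall_subset_closedBall (by linarith)
  -- values
  have hval : ∀ z : V4, nsq (z - y) ≤ r ^ 2 / 2 → ∀ i, u i z + d1 (η0 i) z = A i := by
    intro z hz i
    rw [k3 i z (hmid z hz)]
    abel
  have hfirst : ∀ z ∈ closedBall y r, ∀ s ∈ Icc (0 : ℝ) 1,
      (gmat (m z) (fun i => u i z + s • d1 (η0 i) z) - c • (1 : Mat3)).PosDef := by
    intro z hz s hs
    rw [hmz z hz]
    apply hopen
    intro i
    have e1 : u i z + s • d1 (η0 i) z - u i 0 = -(A i - u i z) + s • d1 (η0 i) z := by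
      show u i z + s • d1 (η0 i) z - u i 0 = -(u i 0 - u i z) + s • d1 (η0 i) z
      abel
    have h1 : ‖-(A i - u i z)‖ < τ := by rw [norm_neg]; exact hnear z hz i
    have h2 : ‖s • d1 (η0 i) z‖ ≤ 1 * (K * τ) := by
      rw [norm_smul, Real.norm_eq_abs, abs_of_nonneg hs.1]
      exact mul_le_mul hs.2 (k4 i z hz) (norm_nonneg _) zero_le_one
    rw [e1]
    calc ‖-(A i - u i z) + s • d1 (η0 i) z‖ ≤ ‖-(A i - u i z)‖ + ‖s • d1 (η0 i) z‖ :=
          norm_add_le _ _
      _ < (1 + K) * τ := by linarith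
      _ < ε := hτK
  have hform : ∀ z : V4, nsq (z - y) ≤ r ^ 2 / 2 → ∀ (s : ℝ) i,
      u i z + d1 (η0 i) z + s • d1 (eta2 r y (B i)) z =
        a • e i + TT (s * radg r y z) (1 - s + s * radc r y z) (B i) (z - y) := by
    intro z hz s i
    rw [hval z hz i, d1_eta2, ← TT_path]
    have h1 : A i = a • e i + B i := hAe i
    rw [h1]
    abel
  have hfar : ∀ z : V4, r ^ 2 / 2 < nsq (z - y) → ∀ i, d1 (eta2 r y (B i)) z = 0 := by
    intro z hz i
    have h0 : eta2 r y (B i) =ᶠ[𝓝 z] fun _ => 0 := by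
      filter_upwards [radc_far hr hz] with w hw
      show (radc r y w - 1) • lamF (B i) (w - y) = 0
      rw [hw, sub_self, zero_smul]
    rw [GX.d1_congr h0, GX.d1_zero]
  refine ⟨η, fun k => ?_, fun k => ?_, ⟨fun z hz => ?_, fun z hz s hs => ?_, fun z hz s hs => ?_,
    fun z hz hze => ?_, fun z hz => ?_⟩⟩
  · rcases k with ⟨k, i⟩
    fin_cases k
    · show ContDiff ℝ ∞ (η (0, i)); rw [hη0]; exact k1 i
    · show ContDiff ℝ ∞ (η (1, i)); rw [hη1]; exact contDiff_eta2 r y (B i)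
  · rcases k with ⟨k, i⟩
    fin_cases k
    · show tsupport (η (0, i)) ⊆ _; rw [hη0]; exact k2 i
    · show tsupport (η (1, i)) ⊆ _; rw [hη1]
      exact fun z hz => hmidsub (hmid z (hsup2 i hz))
  · rw [hmz z hz]; exact hM
  · simp only [hη0]
    exact hfirst z hz s hs
  · simp only [hη0, hη1]
    rcases le_or_gt (nsq (z - y)) (r ^ 2 / 2) with h | h
    · simp only [hform z h s]
      rw [hmz z hz]
      exact gmat_mod_nonneg he ho hP ha0 hM ha2 (mul_nonneg hs.1 (radg_nonneg _ _ _))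
        (by
          have := (radc_mem r y z).1
          have := mul_nonneg hs.1 this
          linarith [hs.2]) _
    · simp only [hfar z h, smul_zero, add_zero]
      have h1 := hfirst z hz 1 (by simp)
      simp only [one_smul] at h1
      exact h1.posSemidef
  · simp only [hη0, hη1]
    rcases le_or_gt (nsq (z - y)) (r ^ 2 / 2) with h | h
    · have h2 := hform z h 1
      simp only [one_smul] at h2
      simp only [h2]
      rw [hmz z hz]
      have h3 : (r / 2) ^ 2 < nsq (z - y) := not_le.1 hze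
      exact gmat_mod_pos he ho hP ha0 hM ha2 (mul_nonneg zero_le_one (radg_nonneg _ _ _))
        (by
          have := radc_pos hr h3
          linarith) _
    · simp only [hfar z h, add_zero]
      have h1 := hfirst z hz 1 (by simp)
      simp only [one_smul] at h1
      exact h1
  · simp only [hη0, hη1]
    have h0 : nsq (z - y) ≤ (r / 2) ^ 2 := hz
    have h : nsq (z - y) ≤ r ^ 2 / 2 := h0.trans (by nlinarith [sq_nonneg r])
    have hz' : z ∈ closedBall y r := hmidsub (hmid z h)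
    obtain ⟨q1, q2⟩ := radc_core hr h0
    have h2 := hform z h 1
    simp only [one_smul] at h2
    simp only [h2]
    rw [hmz z hz', q1, q2]
    have e1 : (1 : ℝ) * 0 = 0 := by ring
    have e2 : (1 : ℝ) - 1 + 0 = 0 := by ring
    rw [e1, e2]
    exact gmat_mod_zero he ho hP hM ha2 _

end Vale.Agent.P247.SCY
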