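import Vale.Agent.P247.SCY.FW4

/-!
# P247, Theorem (V): the stage
-/

set_option linter.all false

open scoped BigOperators ContDiff Topology Manifold ENNReal
open Set MeasureTheory Metric Filter

namespace Vale.Agent.P247.SCY
open Vale.Agent.P204 Vale.Agent.P204.T4 Vale.Agent.P204.Mfd Vale.Agent.P204.GX

theorem SD.of_inv {A : L2} (h : pP J0 A = F0) : SD A := by
  obtain ⟨h0, h5, h4, h3⟩ := inv_form h
  exact ⟨by rw [h5, h0], h4, h3⟩

theorem SD.of_anti {A : L2} (h : pM J0 A = A) : SD A := by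
  obtain ⟨h0, h5, h4, h3⟩ := anti_form h
  exact ⟨by rw [h5, h0], h4, h3⟩

theorem posDef_of_le {M : Mat3} {c : ℝ} (hc : 0 < c) (h : (M - c • (1 : Mat3)).PosSemidef) :
    M.PosDef := by
  have h1 : (c • (1 : Mat3)).PosDef := (Matrix.PosDef.one (n := Fin 3) (R := ℝ)).smul hc
  have h2 := h1.add_posSemidef h
  rwa [add_sub_cancel] at h2

section
variable {X : Type} [TopologicalSpace X] [ChartedSpace E4 X] [IsManifold (𝓡 4) ∞ X]

theorem Qm_gmat (p : Par X) (μ : HS.Form X 4) (w : Fin 3 → HS.Form X 2) (y : V4) :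
    HS.Qm μ w (p.psi y) = gmat (m4 p μ y) (fun i => cp p (w i) y) := by
  ext i j
  exact Qm_cp p μ w y i j

variable [CompactSpace X] [T2Space X] [Nonempty X] [MeasurableSpace X] [BorelSpace X]

/-- **The stage.** -/
theorem stageV_of (hglue : GlueVStatement X) {μ : HS.Form X 4} (hμ : HS.Volume μ)
    (hfin : HS.vol μ univ ≠ ⊤) {c : ℝ} (hc : 0 < c) : StageV X μ c := by
  intro w G hA
  have hw := hA.hyper
  set Φ : Par X → V4 → ℝ → (Fin 2 × Fin 3 → V4 → V4) → Prop := fun p y r η =>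
    PhiV c (fun i => cp p (w i)) (m4 p μ) y r η with hΦ
  have hloc : ∀ x ∈ G, ∃ p : Par X, ∃ ρ : ℝ, 0 < ρ ∧ p.psi 0 = x ∧
      ∀ y, ‖y‖ < ρ → ∃ r0 : ℝ, 0 < r0 ∧ ∀ r, 0 < r → r < r0 → ∃ η : Fin 2 × Fin 3 → V4 → V4,
        (∀ i, ContDiff ℝ ∞ (η i)) ∧ (∀ i, tsupport (η i) ⊆ closedBall y r) ∧ Φ p y r η := by
    intro x hx
    obtain ⟨p, hp, hm, a0, a1, a2, ρu, hρu, huni⟩ := exists_adapted1 hμ hw x
    have hSD : ∀ i, SD (cp p (w i) 0) := by
      intro i
      fin_cases i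
      · exact SD.of_inv a0
      · exact SD.of_anti a1
      · exact SD.of_anti a2
    have hpos := hA.lt x hx
    rw [← hp, Qm_gmat] at hpos
    obtain ⟨ρ, hρ, H⟩ := locV hc (u := fun i => cp p (w i)) (m := m4 p μ)
      (fun i => cp_smooth p (hw.smooth i)) (fun i => cp_closed p (hw.smooth i) (hw.closed i))
      hm hρu huni hSD hpos
    exact ⟨p, ρ, hρ, hp, H⟩
  obtain ⟨θ, K, U, hθ, hU, hK, hUK, hKG, hn, hv, hx⟩ := hglue μ hμ w hw hfin G hA.isOpen Φ hloc
  -- the two segments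
  have q1 : ∀ (s : ℝ) (p : Par X) (z : V4) (η : Fin 2 × Fin 3 → V4 → V4),
      (∀ i, cp p (θ i) z = d1 (η i) z) →
      HS.Qm μ (fun i x => w i x + s • θ (0, i) x) (p.psi z) =
        gmat (m4 p μ z) (fun i => cp p (w i) z + s • d1 (η (0, i)) z) := by
    intro s p z η h
    rw [Qm_gmat]
    congr 1
    funext i
    rw [cp_comb, h]
  have q2 : ∀ (s : ℝ) (p : Par X) (z : V4) (η : Fin 2 × Fin 3 → V4 → V4),
      (∀ i, cp p (θ i) z = d1 (η i) z) →
      HS.Qm μ (fun i x => (w i x + θ (0, i) x) + s • θ (1, i) x) (p.psi z) =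
        gmat (m4 p μ z) (fun i => cp p (w i) z + d1 (η (0, i)) z + s • d1 (η (1, i)) z) := by
    intro s p z η h
    rw [Qm_gmat]
    congr 1
    funext i
    have h1 := cp_comb p (w i) (θ (0, i)) 1 z
    simp only [one_smul] at h1
    rw [cp_comb p (fun x => w i x + θ (0, i) x), h1, h, h]
  have z1 : ∀ (s : ℝ) (x : X), (∀ i, θ i x = 0) →
      HS.Qm μ (fun i x => w i x + s • θ (0, i) x) x = HS.Qm μ w x := by
    intro s x h
    ext i j
    show HS.wedge (w i x + s • θ (0, i) x) (w j x + s • θ (0, j) x) (HS.tbas x) / _ / 2 =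
      HS.wedge (w i x) (w j x) (HS.tbas x) / _ / 2
    rw [h, h, smul_zero, add_zero, add_zero]
  have z2 : ∀ (s : ℝ) (x : X), (∀ i, θ i x = 0) →
      HS.Qm μ (fun i x => (w i x + θ (0, i) x) + s • θ (1, i) x) x = HS.Qm μ w x := by
    intro s x h
    ext i j
    show HS.wedge ((w i x + θ (0, i) x) + s • θ (1, i) x) ((w j x + θ (0, j) x) + s • θ (1, j) x)
      (HS.tbas x) / _ / 2 = HS.wedge (w i x) (w j x) (HS.tbas x) / _ / 2
    rw [h, h, h, h, smul_zero, add_zero, add_zero, add_zero, add_zero]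
  -- the properties along the segments
  have s1 : ∀ s ∈ Icc (0 : ℝ) 1, ∀ x,
      (HS.Qm μ (fun i x => w i x + s • θ (0, i) x) x - c • (1 : Mat3)).PosSemidef := by
    intro s hs x
    rcases hx x with ⟨h0, -⟩ | ⟨p, y, r, η, z, hr, hη, hΦ', rfl, hz, hxG, hxK, hcp⟩
    · rw [z1 s x h0]; exact hA.le x
    · rw [q1 s p z η hcp]
      exact (hΦ'.first z hz s hs).posSemidef
  have s2 : ∀ s ∈ Icc (0 : ℝ) 1, ∀ x,
      (HS.Qm μ (fun i x => (w i x + θ (0, i) x) + s • θ (1, i) x) x - c • (1 : Mat3)).PosSemidef := by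
    intro s hs x
    rcases hx x with ⟨h0, -⟩ | ⟨p, y, r, η, z, hr, hη, hΦ', rfl, hz, hxG, hxK, hcp⟩
    · rw [z2 s x h0]; exact hA.le x
    · rw [q2 s p z η hcp]
      exact hΦ'.second z hz s hs
  have hoff : ∀ x, x ∉ G → ∀ i, θ i x = 0 := by
    intro x hxG
    rcases hx x with ⟨h0, -⟩ | ⟨p, y, r, η, z, hr, hη, hΦ', rfl, hz, hxG', hxK, hcp⟩
    · exact h0
    · exact absurd hxG' hxG
  have r0 : Reach μ (PV μ c w G) w w := reach_refl hw ⟨hA.le, fun x _ i => rfl⟩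
  have r1 : Reach μ (PV μ c w G) w (fun i x => w i x + θ (0, i) x) :=
    r0.append (fun i => hθ (0, i)) (fun s hs x => posDef_of_le hc (s1 s hs x))
      fun s hs => ⟨s1 s hs, fun x hxG i => by
        show w i x + s • θ (0, i) x = w i x
        rw [hoff x hxG, smul_zero, add_zero]⟩
  have r2 : Reach μ (PV μ c w G) w (fun i x => (w i x + θ (0, i) x) + θ (1, i) x) :=
    r1.append (fun i => hθ (1, i)) (fun s hs x => posDef_of_le hc (s2 s hs x))
      fun s hs => ⟨s2 s hs, fun x hxG i => by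
        show (w i x + θ (0, i) x) + s • θ (1, i) x = w i x
        rw [hoff x hxG, hoff x hxG, smul_zero, add_zero, add_zero]⟩
  have hone : (fun i x => (w i x + θ (0, i) x) + (1 : ℝ) • θ (1, i) x) =
      fun i x => (w i x + θ (0, i) x) + θ (1, i) x := by
    funext i x; rw [one_smul]
  have q21 : ∀ (p : Par X) (z : V4) (η : Fin 2 × Fin 3 → V4 → V4),
      (∀ i, cp p (θ i) z = d1 (η i) z) →
      HS.Qm μ (fun i x => (w i x + θ (0, i) x) + θ (1, i) x) (p.psi z) =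
        gmat (m4 p μ z) (fun i => cp p (w i) z + d1 (η (0, i)) z + d1 (η (1, i)) z) := by
    intro p z η h
    rw [← hone, q2 1 p z η h]
    congr 1
    funext i
    rw [one_smul]
  refine ⟨_, K, U, hU, hK, hUK, hKG, hn, hv, r2, ⟨r2.hyper, hA.isOpen.sdiff hK, fun x => ?_,
    fun x hx' => ?_⟩, fun x hxK => ?_⟩
  · rw [← hone]; exact s2 1 (by simp) x
  · rcases hx x with ⟨h0, -⟩ | ⟨p, y, r, η, z, hr, hη, hΦ', rfl, hz, hxG, hxK, hcp⟩
    · rw [← hone, z2 1 x h0]; exact hA.lt x hx'.1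
    · rw [q21 p z η hcp]
      exact hΦ'.strict z hz fun h => hx'.2 (hxK.2 h)
  · rcases hx x with ⟨-, h0⟩ | ⟨p, y, r, η, z, hr, hη, hΦ', rfl, hz, hxG, hxK', hcp⟩
    · exact absurd hxK h0
    · rw [q21 p z η hcp]
      exact hΦ'.core z (hxK'.1 hxK)

end

end Vale.Agent.P247.SCY
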