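import Vale.Agent.P247.SCY.FW0

/-!
# P247, Theorem (V): gluing with Euclidean cores which fill a fixed fraction of the volume
-/

set_option linter.all false

open scoped BigOperators ContDiff Topology Manifold ENNReal
open Set MeasureTheory Metric Filter

namespace Vale.Agent.P247.SCY
open Vale.Agent.P204 Vale.Agent.P204.T4 Vale.Agent.P204.Mfd Vale.Agent.P204.GX

/-! ### the Euclidean cores -/

theorem continuous_nsqB (y : V4) : Continuous (fun z : V4 => nsq (z - y)) := by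
  show Continuous (fun z : V4 => (z 0 - y 0) ^ 2 + (z 1 - y 1) ^ 2 + (z 2 - y 2) ^ 2 +
    (z 3 - y 3) ^ 2)
  fun_prop

theorem isClosed_ecl (y : V4) (r : ℝ) : IsClosed (ecl y r) :=
  isClosed_le (continuous_nsqB y) continuous_const

theorem isOpen_eop (y : V4) (r : ℝ) : IsOpen (eop y r) :=
  isOpen_lt (continuous_nsqB y) continuous_const

theorem eop_subset_ecl (y : V4) (r : ℝ) : eop y r ⊆ ecl y r := by
  intro z hz
  have h : nsq (z - y) < (r / 2) ^ 2 := hz
  exact h.le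

theorem nsq_coordB {z : V4} {t : ℝ} (ht : 0 ≤ t) (h : nsq z ≤ t ^ 2) : ‖z‖ ≤ t := by
  rw [pi_norm_le_iff_of_nonneg ht]
  intro i
  rw [Real.norm_eq_abs]
  refine abs_le_of_sq_le_sq ?_ ht
  unfold nsq at h
  have p0 := sq_nonneg (z 0)
  have p1 := sq_nonneg (z 1)
  have p2 := sq_nonneg (z 2)
  have p3 := sq_nonneg (z 3)
  fin_cases i
  · show z 0 ^ 2 ≤ _; linarith
  · show z 1 ^ 2 ≤ _; linarith
  · show z 2 ^ 2 ≤ _; linarith
  · show z 3 ^ 2 ≤ _; linarith

theorem ecl_subset {y : V4} {r : ℝ} (hr : 0 < r) : ecl y r ⊆ closedBall y r := by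
  intro z hz
  rw [mem_closedBall_iff_norm]
  have := nsq_coordB (z := z - y) (t := r / 2) (by positivity) hz
  linarith

theorem ball_subset_eop {y : V4} {r : ℝ} (hr : 0 < r) : ball y ((1 - 3 / 4) * r) ⊆ eop y r := by
  intro z hz
  rw [mem_ball_iff_norm] at hz
  have h1 : ∀ i, (z - y) i ^ 2 < (r / 4) ^ 2 := by
    intro i
    have h2 : |(z - y) i| < r / 4 := by
      have := (norm_le_pi_norm (z - y) i).trans_lt hz
      rw [Real.norm_eq_abs] at this
      linarith
    exact sq_lt_sq' (by linarith [(abs_lt.1 h2).1]) (abs_lt.1 h2).2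
  show nsq (z - y) < (r / 2) ^ 2
  unfold nsq
  have := h1 0
  have := h1 1
  have := h1 2
  have := h1 3
  nlinarith

theorem convex_ecl (y : V4) (r : ℝ) : Convex ℝ (ecl y r) := by
  intro u hu v hv a b ha hb hab
  show nsq (a • u + b • v - y) ≤ (r / 2) ^ 2
  have hu' : nsq (u - y) ≤ (r / 2) ^ 2 := hu
  have hv' : nsq (v - y) ≤ (r / 2) ^ 2 := hv
  have hb' : b = 1 - a := by linarith
  have key : ∀ i, (a • u + b • v - y) i ^ 2 ≤ a * (u - y) i ^ 2 + b * (v - y) i ^ 2 := by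
    intro i
    show (a * u i + b * v i - y i) ^ 2 ≤ a * (u i - y i) ^ 2 + b * (v i - y i) ^ 2
    have e : a * (u i - y i) ^ 2 + b * (v i - y i) ^ 2 - (a * u i + b * v i - y i) ^ 2 =
        a * b * (u i - v i) ^ 2 := by rw [hb']; ring
    have := mul_nonneg (mul_nonneg ha hb) (sq_nonneg (u i - v i))
    linarith
  unfold nsq at hu' hv' ⊢
  have k0 := key 0
  have k1 := key 1
  have k2 := key 2
  have k3 := key 3
  have m1 := mul_le_mul_of_nonneg_left hu' ha
  have m2 := mul_le_mul_of_nonneg_left hv' hb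
  have m3 : a * (r / 2) ^ 2 + b * (r / 2) ^ 2 = (r / 2) ^ 2 := by rw [← add_mul, hab, one_mul]
  linarith

theorem nsq_smul (t : ℝ) (z : V4) : nsq (t • z) = t ^ 2 * nsq z := by
  unfold nsq
  simp only [Pi.smul_apply, smul_eq_mul]
  ring

theorem volume_sphereE {y : V4} {r : ℝ} (hr : 0 < r) : volume (ecl y r \ eop y r) = 0 := by
  refine measure_mono_null ?_ ((convex_ecl y r).addHaar_frontier volume)
  rintro z ⟨hz, hz'⟩
  have heq : nsq (z - y) = (r / 2) ^ 2 := le_antisymm hz (not_lt.1 hz')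
  refine ⟨subset_closure hz, fun hint => ?_⟩
  have hcont : Continuous fun t : ℝ => y + (1 + t) • (z - y) := by fun_prop
  have h0 : y + (1 + (0 : ℝ)) • (z - y) = z := by rw [add_zero, one_smul]; abel
  have hev : ∀ᶠ t in 𝓝 (0 : ℝ), y + (1 + t) • (z - y) ∈ ecl y r := by
    apply hcont.continuousAt.eventually
    show ecl y r ∈ 𝓝 (y + (1 + (0 : ℝ)) • (z - y))
    rw [h0]
    exact mem_interior_iff_mem_nhds.1 hint
  obtain ⟨δ, hδ, hb⟩ := Metric.eventually_nhds_iff.1 hev
  have h1 := hb (y := δ / 2) (by rw [Real.dist_0_eq_abs, abs_of_pos (by positivity)]; linarith)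
  have h2 : nsq ((1 + δ / 2) • (z - y)) ≤ (r / 2) ^ 2 := by
    have e : y + (1 + δ / 2) • (z - y) - y = (1 + δ / 2) • (z - y) := by abel
    have h3 : nsq (y + (1 + δ / 2) • (z - y) - y) ≤ (r / 2) ^ 2 := h1
    rwa [e] at h3
  rw [nsq_smul, heq] at h2
  have h4 : 0 < (r / 2) ^ 2 := by positivity
  have h5 : 1 < (1 + δ / 2) ^ 2 := by nlinarith
  have h6 := mul_lt_mul_of_pos_right h5 h4
  rw [one_mul] at h6
  exact absurd h2 (not_le.2 h6)

section
variable {X : Type} [TopologicalSpace X] [ChartedSpace E4 X] [IsManifold (𝓡 4) ∞ X]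
  [CompactSpace X] [T2Space X] [MeasurableSpace X] [BorelSpace X]

/-- the small cube contains a fixed fraction of the volume of the cube -/
theorem core_ge {μ : HS.Form X 4} (hμ : HS.Volume μ) {w : Fin 3 → HS.Form X 2}
    (hw : HS.Hypersymplectic μ w) (q : CBall X)
    (hr : 0 < q.2.2) (hR : Ratio μ q.1 q.2.1 q.2.2) :
    HS.vol μ q.set ≤ ENNReal.ofReal 400 * HS.vol μ (q.shr (3 / 4)) := by
  obtain ⟨p, y, r⟩ := q
  simp only at hr hR
  have e : CBall.shr (3 / 4) (p, y, r) = p.psi '' ball y ((1 - 3 / 4) * r) := rfl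
  have e' : CBall.set (p, y, r) = p.psi '' closedBall y r := rfl
  rw [e, e', vol_image hμ hw p measurableSet_ball, vol_image hμ hw p measurableSet_closedBall]
  set m0 := |m4 p μ y| with hm0
  have hm0' : 0 ≤ m0 := abs_nonneg _
  have hr' : 0 < (1 - 3 / 4) * r := by linarith
  have hsub : ball y ((1 - 3 / 4) * r) ⊆ closedBall y r :=
    ball_subset_closedBall.trans (closedBall_subset_closedBall (by linarith))
  have a1 : ∫⁻ z in closedBall y r, ENNReal.ofReal |m4 p μ z| ≤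
      ENNReal.ofReal (5 / 4 * m0) * ENNReal.ofReal ((2 * r) ^ 4) := by
    calc _ ≤ ∫⁻ z in closedBall y r, ENNReal.ofReal (5 / 4 * m0) := by
          refine setLIntegral_mono' measurableSet_closedBall fun z hz => ?_
          exact ENNReal.ofReal_le_ofReal (hR z hz).1
      _ = ENNReal.ofReal (5 / 4 * m0) * volume (closedBall y r) := by rw [setLIntegral_const]
      _ = _ := by rw [Real.volume_pi_closedBall y hr.le]; simp
  have a2 : ENNReal.ofReal (4 / 5 * m0) * ENNReal.ofReal ((2 * ((1 - 3 / 4) * r)) ^ 4) ≤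
      ∫⁻ z in ball y ((1 - 3 / 4) * r), ENNReal.ofReal |m4 p μ z| := by
    calc ENNReal.ofReal (4 / 5 * m0) * ENNReal.ofReal ((2 * ((1 - 3 / 4) * r)) ^ 4) =
          ENNReal.ofReal (4 / 5 * m0) * volume (ball y ((1 - 3 / 4) * r)) := by
          rw [Real.volume_pi_ball y hr']; simp
      _ = ∫⁻ z in ball y ((1 - 3 / 4) * r), ENNReal.ofReal (4 / 5 * m0) := by
          rw [setLIntegral_const]
      _ ≤ _ := by
          refine setLIntegral_mono' measurableSet_ball fun z hz => ?_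
          apply ENNReal.ofReal_le_ofReal
          have := (hR z (hsub hz)).2
          linarith
  refine a1.trans ?_
  calc ENNReal.ofReal (5 / 4 * m0) * ENNReal.ofReal ((2 * r) ^ 4)
      = ENNReal.ofReal 400 * (ENNReal.ofReal (4 / 5 * m0) *
          ENNReal.ofReal ((2 * ((1 - 3 / 4) * r)) ^ 4)) := by
        rw [← ENNReal.ofReal_mul (by positivity), ← ENNReal.ofReal_mul (by positivity),
          ← ENNReal.ofReal_mul (by positivity)]
        congr 1
        ring
    _ ≤ _ := by gcongr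

/-- **Packing by small balls whose cores fill a fixed fraction of the volume.** -/
theorem cover_setsV {μ : HS.Form X 4} (hμ : HS.Volume μ) {w : Fin 3 → HS.Form X 2}
    (hw : HS.Hypersymplectic μ w) (hfin : HS.vol μ univ ≠ ⊤) {G : Set X} (hG : IsOpen G)
    {Good : Par X → V4 → ℝ → Prop}
    (h : ∀ x ∈ G, ∃ p : Par X, ∃ ρ : ℝ, 0 < ρ ∧ p.psi 0 = x ∧
      ∀ y, ‖y‖ < ρ → ∃ r0 : ℝ, 0 < r0 ∧ ∀ r, 0 < r → r < r0 → Good p y r) :
    ∃ S : Set (CBall X), S.Finite ∧
      (∀ q ∈ S, 0 < q.2.2 ∧ Good q.1 q.2.1 q.2.2 ∧ q.set ⊆ G) ∧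
      S.PairwiseDisjoint CBall.set ∧
      HS.vol μ (G \ ⋃ q ∈ S, q.shr (3 / 4)) ≤ ENNReal.ofReal (799 / 800) * HS.vol μ G := by
  classical
  haveI : SecondCountableTopology X := ChartedSpace.secondCountable_of_sigmaCompact E4 X
  haveI : TopologicalSpace.MetrizableSpace X := TopologicalSpace.metrizableSpace_of_t3_secondCountable X
  haveI : IsFiniteMeasure (HS.vol μ) := ⟨lt_of_le_of_ne le_top hfin⟩
  rcases eq_or_ne (HS.vol μ G) 0 with hG0 | hG0
  · refine ⟨∅, finite_empty, by simp, by simp, ?_⟩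
    rw [hG0, mul_zero]
    exact (measure_mono sdiff_subset).trans hG0.le
  set ε : ℝ≥0∞ := ENNReal.ofReal (1 / 800) * HS.vol μ G with hεd
  have hε : ε ≠ 0 := mul_ne_zero (by
    rw [Ne, ENNReal.ofReal_eq_zero]; norm_num) hG0
  obtain ⟨K, hKG, hKc, hKm⟩ := hG.measurableSet.exists_isCompact_diff_lt (μ := HS.vol μ)
    (measure_ne_top _ _) (ENNReal.half_pos hε).ne'
  -- the parametrisations
  have h' : ∀ x : X, ∃ p : Par X, ∃ ρ : ℝ, x ∈ G → (0 < ρ ∧ p.psi 0 = x ∧
      ∀ y, ‖y‖ < ρ → ∃ r0 : ℝ, 0 < r0 ∧ ∀ r, 0 < r → r < r0 → Good p y r) := by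
    intro x
    by_cases hx : x ∈ G
    · obtain ⟨p, ρ, h2⟩ := h x hx
      exact ⟨p, ρ, fun _ => h2⟩
    · obtain ⟨p, -⟩ := exists_par x (ContinuousLinearEquiv.refl ℝ V4)
      exact ⟨p, 1, fun h => absurd h hx⟩
  choose p ρ hp using h'
  obtain ⟨t, ht1, ht2⟩ := hKc.elim_nhds_subcover (fun x => (p x).psi '' ball 0 (ρ x)) (by
    intro x hx
    obtain ⟨k1, k2, -⟩ := hp x (hKG hx)
    refine ((p x).isOpenEmbedding.isOpenMap _ isOpen_ball).mem_nhds ⟨0, ?_, k2⟩
    simpa using k1)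
  have hgood : ∀ x ∈ t, ∀ y, ‖y‖ < ρ x → ∃ r0 : ℝ, 0 < r0 ∧ ∀ r, 0 < r → r < r0 →
      (Good (p x) y r ∧ Ratio μ (p x) y r) := by
    intro x hx y hy
    obtain ⟨r0, hr0, h2⟩ := (hp x (hKG (ht1 x hx))).2.2 y hy
    obtain ⟨r1, hr1, h3⟩ := exists_ratio hμ (p x) y
    refine ⟨min r0 r1, lt_min hr0 hr1, fun r hr hrr => ⟨h2 r hr (hrr.trans_le (min_le_left _ _)),
      h3 r hr (hrr.trans_le (min_le_right _ _))⟩⟩
  obtain ⟨S, hS1, hS2, hS3, hS4⟩ := pack_fin hμ hw hfin hG
    (Good := fun p y r => Good p y r ∧ Ratio μ p y r) p ρ t hgood (ε / 2) (ENNReal.half_pos hε).ne'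
  refine ⟨S, hS1, fun q hq => ⟨(hS2 q hq).1, (hS2 q hq).2.1.1, (hS2 q hq).2.2⟩, hS3, ?_⟩
  set C : Set X := ⋃ q ∈ S, q.set with hC
  set D : Set X := ⋃ q ∈ S, q.shr (3 / 4) with hD
  have hshr : ∀ q ∈ S, q.shr (3 / 4) ⊆ q.set := by
    intro q hq
    refine image_mono (ball_subset_closedBall.trans (closedBall_subset_closedBall ?_))
    have := (hS2 q hq).1
    linarith
  have hDC : D ⊆ C := iUnion₂_mono hshr
  have hCG : C ⊆ G := iUnion₂_subset fun q hq => (hS2 q hq).2.2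
  have hCm : MeasurableSet C := hS1.measurableSet_biUnion fun q _ => q.isCompact_set.isClosed.measurableSet
  have hshrm : ∀ q : CBall X, MeasurableSet (q.shr (3 / 4)) := fun q =>
    (q.1.isOpenEmbedding.isOpenMap _ isOpen_ball).measurableSet
  have hDm : MeasurableSet D := hS1.measurableSet_biUnion fun q _ => hshrm q
  -- the volumes
  have hCD : HS.vol μ C ≤ ENNReal.ofReal 400 * HS.vol μ D := by
    have hdisj : S.PairwiseDisjoint fun q : CBall X => q.shr (3 / 4) := fun q hq k hk hne =>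
      (hS3 hq hk hne).mono (hshr q hq) (hshr k hk)
    rw [hC, hD, measure_biUnion hS1.countable hS3 fun q _ => q.isCompact_set.isClosed.measurableSet,
      measure_biUnion hS1.countable hdisj fun q _ => hshrm q, ← ENNReal.tsum_mul_left]
    exact ENNReal.tsum_le_tsum fun q => core_ge hμ hw q (hS2 q q.2).1 (hS2 q q.2).2.1.2
  have hGC : HS.vol μ (G \ C) ≤ ε := by
    have hsub : G \ C ⊆ (G \ K) ∪ ((G ∩ ⋃ x ∈ t, (p x).psi '' ball 0 (ρ x)) \ ⋃ q ∈ S, q.set) := by
      rintro x ⟨hxG, hx⟩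
      by_cases hxK : x ∈ K
      · right
        exact ⟨⟨hxG, ht2 hxK⟩, hx⟩
      · left; exact ⟨hxG, hxK⟩
    calc _ ≤ _ := measure_mono hsub
      _ ≤ _ := measure_union_le _ _
      _ ≤ ε / 2 + ε / 2 := add_le_add hKm.le hS4
      _ = ε := ENNReal.add_halves ε
  have hne : ∀ s : Set X, HS.vol μ s ≠ ⊤ := fun s => measure_ne_top _ _
  -- real numbers
  have r1 : (HS.vol μ C).toReal ≤ 400 * (HS.vol μ D).toReal := by
    have h1 := ENNReal.toReal_mono (ENNReal.mul_ne_top ENNReal.ofReal_ne_top (hne D)) hCD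
    rwa [ENNReal.toReal_mul, ENNReal.toReal_ofReal (by norm_num)] at h1
  have r2 : (HS.vol μ (G \ C)).toReal ≤ 1 / 800 * (HS.vol μ G).toReal := by
    have h1 := ENNReal.toReal_mono (ENNReal.mul_ne_top ENNReal.ofReal_ne_top (hne G)) hGC
    rwa [ENNReal.toReal_mul, ENNReal.toReal_ofReal (by norm_num)] at h1
  have r3 : (HS.vol μ (C \ D)).toReal = (HS.vol μ C).toReal - (HS.vol μ D).toReal := by
    have h1 := measure_sdiff_add_inter (μ := HS.vol μ) C hDm
    rw [inter_eq_right.2 hDC] at h1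
    have h2 := congrArg ENNReal.toReal h1
    rw [ENNReal.toReal_add (hne _) (hne _)] at h2
    linarith
  have r4 : (HS.vol μ C).toReal ≤ (HS.vol μ G).toReal :=
    ENNReal.toReal_mono (hne G) (measure_mono hCG)
  have r5 : (HS.vol μ (G \ D)).toReal ≤ (HS.vol μ (G \ C)).toReal + (HS.vol μ (C \ D)).toReal := by
    have hsub : G \ D ⊆ (G \ C) ∪ (C \ D) := by
      rintro x ⟨hxG, hxD⟩
      by_cases hxC : x ∈ C
      · exact Or.inr ⟨hxC, hxD⟩
      · exact Or.inl ⟨hxG, hxC⟩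
    rw [← ENNReal.toReal_add (hne _) (hne _)]
    exact ENNReal.toReal_mono (ENNReal.add_ne_top.2 ⟨hne _, hne _⟩)
      ((measure_mono hsub).trans (measure_union_le _ _))
  rw [← ENNReal.toReal_le_toReal (hne _) (ENNReal.mul_ne_top ENNReal.ofReal_ne_top (hne G)),
    ENNReal.toReal_mul, ENNReal.toReal_ofReal (by norm_num)]
  linarith

variable [Nonempty X]

theorem glueV : GlueVStatement X := by
  classical
  intro μ hμ w hw hfin G hG Φ h
  obtain ⟨S, hS1, hS2, hS3, hS4⟩ := cover_setsV hμ hw hfin hG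
    (Good := fun p y r => ∃ η : Fin 2 × Fin 3 → V4 → V4,
        (∀ i, ContDiff ℝ ∞ (η i)) ∧ (∀ i, tsupport (η i) ⊆ closedBall y r) ∧ Φ p y r η) h
  haveI : Fintype S := hS1.fintype
  set e := Fintype.equivFin S with he
  set n := Fintype.card S with hn
  set q : Fin n → CBall X := fun k => (e.symm k : CBall X) with hq
  have hqS : ∀ k, q k ∈ S := fun k => (e.symm k).2
  choose η hη1 hη2 hη3 using fun k => (hS2 (q k) (hqS k)).2.1
  have hr : ∀ k, 0 < (q k).2.2 := fun k => (hS2 (q k) (hqS k)).1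
  have hqG : ∀ k, (q k).set ⊆ G := fun k => (hS2 (q k) (hqS k)).2.2
  have hD : Pairwise (Function.onFun Disjoint fun k => (q k).set) := by
    intro k l hkl
    apply hS3 (hqS k) (hqS l)
    intro heq
    apply hkl
    have : e.symm k = e.symm l := Subtype.ext heq
    exact e.symm.injective this
  have hcs : ∀ k i, HasCompactSupport (η k i) := fun k i =>
    (isCompact_closedBall _ _).of_isClosed_subset (isClosed_tsupport _) (hη2 k i)
  set θk : Fin 2 × Fin 3 → Fin n → HS.Form X 2 := fun i k => E2 (q k).1 (d1 (η k i)) with hθk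
  have hoff : ∀ i k x, x ∉ (q k).set → θk i k x = 0 := by
    intro i k x hx
    have h2 : x ∉ (q k).1.psi '' tsupport (d1 (η k i)) := fun h' =>
      hx (image_mono (tsupport_d1_subset (hη2 k i)) h')
    exact E2_of_notMem (q k).1 (d1 (η k i)) h2
  have hsum := fun i => sum_exact (θ := θk i) (fun k => E2_smooth _ (d1_contDiff (hη1 k i))
    (d1_compact (hcs k i))) (fun k => E2_exact _ (hη1 k i) (hcs k i)) Finset.univ
  have hon : ∀ i k z, z ∈ closedBall (q k).2.1 (q k).2.2 →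
      cp (q k).1 (fun x => ∑ k, θk i k x) z = d1 (η k i) z := by
    intro i k z hz
    rw [← cp_E2 (q k).1 (d1 (η k i)) z]
    apply cp_congr
    exact sum_apply (θ := θk i) hD (hoff i) (k := k) (x := (q k).1.psi z) ⟨z, hz, rfl⟩
  set K : Set X := ⋃ k, (q k).1.psi '' ecl (q k).2.1 (q k).2.2 with hK
  set U : Set X := ⋃ k, (q k).1.psi '' eop (q k).2.1 (q k).2.2 with hU
  have hesub : ∀ k, (q k).1.psi '' ecl (q k).2.1 (q k).2.2 ⊆ (q k).set := fun k =>
    image_mono (ecl_subset (hr k))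
  have hKcl : IsClosed K := by
    refine isClosed_iUnion_of_finite fun k => ?_
    have hc : IsCompact (ecl (q k).2.1 (q k).2.2) :=
      (isCompact_closedBall _ _).of_isClosed_subset (isClosed_ecl _ _) (ecl_subset (hr k))
    exact (hc.image (q k).1.isOpenEmbedding.continuous).isClosed
  have hUo : IsOpen U := isOpen_iUnion fun k => (q k).1.isOpenEmbedding.isOpenMap _ (isOpen_eop _ _)
  refine ⟨fun i x => ∑ k, θk i k x, K, U, fun i => ⟨(hsum i).1, exact_closed (hsum i).2,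
    (hsum i).2⟩, hUo, hKcl, iUnion_mono fun k => image_mono (eop_subset_ecl _ _),
    iUnion_subset fun k => (hesub k).trans (hqG k), ?_, ?_, fun x => ?_⟩
  · have hsub : K \ U ⊆ ⋃ k, (q k).1.psi '' (ecl (q k).2.1 (q k).2.2 \ eop (q k).2.1 (q k).2.2) := by
      rintro x ⟨hx, hx'⟩
      obtain ⟨k, z, hz, rfl⟩ := mem_iUnion.1 hx
      exact mem_iUnion.2 ⟨k, z, ⟨hz, fun hz' => hx' (mem_iUnion.2 ⟨k, z, hz', rfl⟩)⟩, rfl⟩
    refine measure_mono_null hsub (measure_iUnion_null fun k => ?_)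
    rw [vol_image hμ hw _ ((isClosed_ecl _ _).measurableSet.diff (isOpen_eop _ _).measurableSet),
      setLIntegral_measure_zero _ _ (volume_sphereE (hr k))]
  · have hsub : (⋃ q ∈ S, CBall.shr (3 / 4) q) ⊆ U := by
      intro x hx
      obtain ⟨q', hq', hx'⟩ := mem_iUnion₂.1 hx
      have e1 : q (e ⟨q', hq'⟩) = q' := by
        show ((e.symm (e ⟨q', hq'⟩) : S) : CBall X) = q'
        rw [Equiv.symm_apply_apply]
      refine mem_iUnion.2 ⟨e ⟨q', hq'⟩, ?_⟩
      rw [e1]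
      exact image_mono (ball_subset_eop (hS2 q' hq').1) hx'
    exact (measure_mono (sdiff_subset_sdiff_right hsub)).trans hS4
  · by_cases hx : ∃ k, x ∈ (q k).set
    · obtain ⟨k, z, hz, rfl⟩ := hx
      right
      refine ⟨(q k).1, (q k).2.1, (q k).2.2, η k, z, hr k, hη1 k, hη3 k, rfl, hz,
        hqG k ⟨z, hz, rfl⟩, ⟨fun hxK => ?_, fun hz' => mem_iUnion.2 ⟨k, z, hz', rfl⟩⟩,
        fun i => hon i k z hz⟩
      obtain ⟨l, z', hz', heq⟩ := mem_iUnion.1 hxK
      have hkl : l = k := by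
        by_contra hne
        exact Set.disjoint_left.1 (hD hne) (hesub l ⟨z', hz', rfl⟩) (by
          rw [heq]; exact ⟨z, hz, rfl⟩)
      subst hkl
      have := (q l).1.isOpenEmbedding.injective heq
      rwa [← this]
    · left
      push Not at hx
      refine ⟨fun i => sum_apply_off (θ := θk i) (hoff i) hx, fun hxK => ?_⟩
      obtain ⟨l, hl⟩ := mem_iUnion.1 hxK
      exact hx l (hesub l hl)

end

end Vale.Agent.P247.SCY
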