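import Vale.Agent.P247.SCY.FW0

/-!
# P247, Theorem (V): the iteration
-/

set_option linter.all false

open scoped BigOperators ContDiff Topology Manifold ENNReal
open Set MeasureTheory Metric Filter

namespace Vale.Agent.P247.SCY
open Vale.Agent.P204 Vale.Agent.P204.T4 Vale.Agent.P204.Mfd Vale.Agent.P204.GX

section
variable {X : Type} [TopologicalSpace X] [ChartedSpace E4 X]

theorem Qm_congr_at {μ : HS.Form X 4} {v w : Fin 3 → HS.Form X 2} {y : X}
    (h : ∀ i, v i y = w i y) : HS.Qm μ v y = HS.Qm μ w y := by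
  ext i j
  show HS.wedge (v i y) (v j y) (HS.tbas y) / _ / 2 = HS.wedge (w i y) (w j y) (HS.tbas y) / _ / 2
  rw [h, h]

end

section
variable {X : Type} [TopologicalSpace X] [ChartedSpace E4 X] [IsManifold (𝓡 4) ∞ X]
  [CompactSpace X] [T2Space X] [Nonempty X] [MeasurableSpace X] [BorelSpace X]

theorem iterV : IterVStatement X := by
  intro μ hμ hfin c hc hstage P w w1 hR hA
  classical
  choose F KK UU hU hK hUK hKG hnull hvol hreach habove hcore using fun
    s : {s : (Fin 3 → HS.Form X 2) × Set X // Above μ c s.1 s.2} => hstage s.1.1 s.1.2 s.2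
  set S : ℕ → {s : (Fin 3 → HS.Form X 2) × Set X // Above μ c s.1 s.2} := fun n =>
    Nat.rec ⟨(w1, univ), hA⟩ (fun _ s => ⟨(F s, s.1.2 \ KK s), habove s⟩) n with hS
  have S0 : S 0 = ⟨(w1, univ), hA⟩ := rfl
  have Ss : ∀ n, S (n + 1) = ⟨(F (S n), (S n).1.2 \ KK (S n)), habove (S n)⟩ := fun n => rfl
  have Sw : ∀ n, (S (n + 1)).1.1 = F (S n) := fun n => by rw [Ss]
  have SG : ∀ n, (S (n + 1)).1.2 = (S n).1.2 \ KK (S n) := fun n => by rw [Ss]
  set a : ℕ → Fin 3 → HS.Form X 2 := fun n => Nat.casesOn n w fun k => (S k).1.1 with ha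
  set PP : ℕ → (Fin 3 → HS.Form X 2) → Prop := fun n =>
    Nat.casesOn n P fun k => PV μ c (S k).1.1 (S k).1.2 with hPP
  have hreach' : ∀ n, Reach μ (PP n) (a n) (a (n + 1)) := by
    intro n
    cases n with
    | zero => exact hR
    | succ k =>
      show Reach μ (PV μ c (S k).1.1 (S k).1.2) (S k).1.1 (S (k + 1)).1.1
      rw [Sw]
      exact hreach (S k)
  obtain ⟨W, hW, hWn, hWP⟩ := concat hreach'
  have hPV : ∀ (k : ℕ) (t : ℝ), t ∈ Icc ((k + 1 : ℕ) : ℝ) ((k + 1 : ℕ) + 1) →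
      PV μ c (S k).1.1 (S k).1.2 (W t) := fun k t ht => hWP (k + 1) t ht
  -- the open sets decrease
  have hGanti : ∀ n k, n ≤ k → (S k).1.2 ⊆ (S n).1.2 := by
    intro n k hnk
    induction k, hnk using Nat.le_induction with
    | base => exact subset_rfl
    | succ k _ ih => rw [SG]; exact sdiff_subset.trans ih
  -- values on the cores
  have hoffG : ∀ n k, n + 1 ≤ k → ∀ y ∈ KK (S n), y ∉ (S k).1.2 := by
    intro n k hnk y hy hyk
    have h1 := hGanti (n + 1) k hnk hyk
    rw [SG] at h1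
    exact h1.2 hy
  have hconst : ∀ n k, n + 1 ≤ k → ∀ y ∈ KK (S n), ∀ i, (S k).1.1 i y = (S (n + 1)).1.1 i y := by
    intro n k hnk y hy i
    induction k, hnk using Nat.le_induction with
    | base => rfl
    | succ k hk ih =>
      have h1 := (hreach (S k)).prop
      rw [Sw, h1.2 y (hoffG n k hk y hy) i]
      exact ih
  refine ⟨W, hW, fun t ht => ?_, fun t ht x => ?_, ?_, ?_⟩
  · exact hWP 0 t (by simpa using ht)
  · have h1 : 1 ≤ ⌊t⌋₊ := Nat.le_floor (by simpa using ht)
    obtain ⟨k, hk⟩ : ∃ k, ⌊t⌋₊ = k + 1 := ⟨⌊t⌋₊ - 1, by omega⟩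
    have ht0 : 0 ≤ t := by linarith
    exact (hPV k t ⟨by rw [← hk]; exact Nat.floor_le ht0, by
      rw [← hk]; exact (Nat.lt_floor_add_one t).le⟩).1 x
  · refine ⟨⋃ n, UU (S n), isOpen_iUnion fun n => hU (S n), ?_, fun x hx => ?_⟩
    · set N : Set X := ⋃ n, (KK (S n) \ UU (S n)) with hN
      have hN0 : HS.vol μ N = 0 := measure_iUnion_null fun n => hnull (S n)
      have hsub : ∀ n, (⋃ n, UU (S n))ᶜ ⊆ (S n).1.2 ∪ N := by
        intro n x hx
        by_cases hxN : x ∈ N
        · exact Or.inr hxN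
        · left
          have h1 : ∀ k, x ∉ UU (S k) := fun k h => hx (mem_iUnion.2 ⟨k, h⟩)
          have h2 : ∀ k, x ∉ KK (S k) := fun k h => hxN (mem_iUnion.2 ⟨k, h, h1 k⟩)
          induction n with
          | zero => rw [S0]; exact mem_univ x
          | succ n ih => rw [SG]; exact ⟨ih, h2 n⟩
      have hdec : ∀ n, HS.vol μ (S n).1.2 ≤ ENNReal.ofReal (799 / 800) ^ n * HS.vol μ univ := by
        intro n
        induction n with
        | zero => rw [pow_zero, one_mul]; exact measure_mono (subset_univ _)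
        | succ n ih =>
          rw [SG]
          calc HS.vol μ ((S n).1.2 \ KK (S n)) ≤ HS.vol μ ((S n).1.2 \ UU (S n)) :=
                measure_mono (sdiff_subset_sdiff_right (hUK (S n)))
            _ ≤ ENNReal.ofReal (799 / 800) * HS.vol μ (S n).1.2 := hvol (S n)
            _ ≤ ENNReal.ofReal (799 / 800) * (ENNReal.ofReal (799 / 800) ^ n * HS.vol μ univ) := by
                gcongr
            _ = _ := by rw [pow_succ']; ring
      have hle : ∀ n, HS.vol μ (⋃ n, UU (S n))ᶜ ≤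
          ENNReal.ofReal (799 / 800) ^ n * HS.vol μ univ := by
        intro n
        calc _ ≤ HS.vol μ ((S n).1.2 ∪ N) := measure_mono (hsub n)
          _ ≤ HS.vol μ (S n).1.2 + HS.vol μ N := measure_union_le _ _
          _ = HS.vol μ (S n).1.2 := by rw [hN0, add_zero]
          _ ≤ _ := hdec n
      have hlt : ENNReal.ofReal (799 / 800) < 1 := by
        rw [← ENNReal.ofReal_one]
        exact (ENNReal.ofReal_lt_ofReal_iff one_pos).2 (by norm_num)
      have hlim : Tendsto (fun n : ℕ => ENNReal.ofReal (799 / 800) ^ n * HS.vol μ univ) atTop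
          (𝓝 0) := by
        have h1 := ENNReal.Tendsto.mul_const (ENNReal.tendsto_pow_atTop_nhds_zero_of_lt_one hlt)
          (Or.inr hfin)
        rwa [zero_mul] at h1
      exact le_antisymm (ge_of_tendsto' hlim hle) zero_le
    · obtain ⟨n, hn⟩ := mem_iUnion.1 hx
      have hkey : ∀ t : ℝ, ((n + 2 : ℕ) : ℝ) ≤ t → ∀ y ∈ UU (S n), ∀ i,
          W t i y = (S (n + 1)).1.1 i y := by
        intro t ht y hy i
        have h1 : n + 2 ≤ ⌊t⌋₊ := Nat.le_floor ht
        obtain ⟨k, hk⟩ : ∃ k, ⌊t⌋₊ = k + 1 := ⟨⌊t⌋₊ - 1, by omega⟩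
        have hkn : n + 1 ≤ k := by omega
        have ht0 : 0 ≤ t := (Nat.cast_nonneg _).trans ht
        have h2 := (hPV k t ⟨by rw [← hk]; exact Nat.floor_le ht0, by
          rw [← hk]; exact (Nat.lt_floor_add_one t).le⟩).2 y
          (hoffG n k hkn y (hUK (S n) hy)) i
        rw [h2]
        exact hconst n k hkn y (hUK (S n) hy) i
      refine ⟨((n + 2 : ℕ) : ℝ), UU (S n), (hU (S n)).mem_nhds hn, fun t ht y hy =>
        ⟨fun i => ?_, ?_⟩⟩
      · rw [hkey t ht y hy i, hkey _ le_rfl y hy i]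
      · rw [Qm_congr_at (hkey t ht y hy), Sw]
        exact hcore (S n) y (hUK (S n) hy)
  · have h1 := hWn 1
    rw [Nat.cast_one] at h1
    exact h1

end

end Vale.Agent.P247.SCY
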