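import Vale.Agent.P247.SCY.FW5
import Vale.Agent.P247.SCY.FWB1
import Vale.Agent.P247.SCY.FWC1

/-!
# P247, Theorem (V): deformations which become exactly hyperkähler almost everywhere
-/

set_option linter.all false

open scoped BigOperators ContDiff Topology Manifold ENNReal
open Set MeasureTheory Metric Filter

namespace Vale.Agent.P247.SCY
open Vale.Agent.P204 Vale.Agent.P204.T4 Vale.Agent.P204.Mfd Vale.Agent.P204.GX

/-- the entries of a positive semidefinite matrix -/
theorem posSemidef_entries {M : Mat3} (h : M.PosSemidef) (i j : Fin 3) :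
    0 ≤ M i i ∧ |M i j| ≤ (M i i + M j j) / 2 := by
  have hd : ∀ i, 0 ≤ M i i := fun i => h.diag_nonneg
  refine ⟨hd i, ?_⟩
  rcases eq_or_ne i j with rfl | hij
  · rw [abs_of_nonneg (hd i)]; linarith
  have hs : M j i = M i j := by
    have := congrFun (congrFun h.isHermitian.eq i) j
    rwa [Matrix.conjTranspose_apply, star_trivial] at this
  have key : ∀ s : ℝ, 0 ≤ M i i + 2 * s * M i j + s ^ 2 * M j j := by
    intro s
    have h1 := h.dotProduct_mulVec_nonneg (Pi.single i 1 + s • Pi.single j 1 : Fin 3 → ℝ)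
    rw [star_trivial, Matrix.mulVec_add, Matrix.mulVec_smul, Matrix.mulVec_single_one,
      Matrix.mulVec_single_one, dotProduct_add, dotProduct_smul, add_dotProduct, add_dotProduct,
      smul_dotProduct, smul_dotProduct, single_one_dotProduct, single_one_dotProduct,
      single_one_dotProduct, single_one_dotProduct] at h1
    simp only [Matrix.col_apply, smul_eq_mul] at h1
    rw [hs] at h1
    linarith
  have k1 := key 1
  have k2 := key (-1)
  rw [abs_le]
  constructor <;> linarith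

section
variable {X : Type} [TopologicalSpace X] [ChartedSpace E4 X] [IsManifold (𝓡 4) ∞ X]
  [CompactSpace X] [T2Space X] [Nonempty X] [MeasurableSpace X] [BorelSpace X]

/-- `L¹` bounds for normalized triples with `Q ≥ c` -/
theorem above_L1 {μ : HS.Form X 4} (hμ : HS.Volume μ) (hvol : HS.vol μ univ = 1 / 2)
    {w : Fin 3 → HS.Form X 2} (hw : HS.Hypersymplectic μ w) (hn : HS.Normalized μ w) {c : ℝ}
    (hc : c ≤ 1) (h : ∀ x, (HS.Qm μ w x - c • (1 : Mat3)).PosSemidef) (i j : Fin 3) :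
    ∫ x, |(HS.Qm μ w x - 1) i j| ∂(HS.vol μ) ≤ 1 - c := by
  have hfin : HS.vol μ univ ≠ ⊤ := by rw [hvol]; simp
  haveI : IsFiniteMeasure (HS.vol μ) := ⟨lt_of_le_of_ne le_top hfin⟩
  have hreal : (HS.vol μ).real univ = 1 / 2 := by rw [Measure.real, hvol]; simp
  have hnii : ∀ i, HS.pair μ (w i) (w i) = 1 := fun i => by simpa using hn i i
  have hint := fun i => integrable_quot hμ hfin (hw.smooth i) (hw.smooth i)
  have hle : ∀ x, |(HS.Qm μ w x - 1) i j| ≤ (HS.quot μ (w i) (w i) x / 2 +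
      HS.quot μ (w j) (w j) x / 2) / 2 + (1 - 2 * c) := by
    intro x
    obtain ⟨d1, d2⟩ := posSemidef_entries (h x) i j
    obtain ⟨d3, -⟩ := posSemidef_entries (h x) j i
    have e : ∀ i j, (HS.Qm μ w x - c • (1 : Mat3)) i j =
        HS.quot μ (w i) (w j) x / 2 - c * (if i = j then 1 else 0) := by
      intro i j
      rw [Matrix.sub_apply, Matrix.smul_apply, Matrix.one_apply, smul_eq_mul]
      rfl
    rw [e] at d1 d3
    rw [e, e, e] at d2
    rw [if_pos rfl, mul_one] at d1 d3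
    rw [if_pos rfl, if_pos rfl, mul_one] at d2
    rw [sub_one_apply', Qm_quot]
    rcases eq_or_ne i j with rfl | hij
    · rw [if_pos rfl]
      rw [abs_le]
      constructor <;> linarith
    · rw [if_neg hij, mul_zero, sub_zero] at d2
      rw [if_neg hij, sub_zero]
      linarith
  have hint2 : Integrable (fun x => (HS.quot μ (w i) (w i) x / 2 +
      HS.quot μ (w j) (w j) x / 2) / 2 + (1 - 2 * c)) (HS.vol μ) :=
    ((((hint i).div_const 2).add ((hint j).div_const 2)).div_const 2).add (integrable_const _)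
  have h4 : ∫ x, |(HS.Qm μ w x - 1) i j| ∂(HS.vol μ) ≤
      ∫ x, ((HS.quot μ (w i) (w i) x / 2 + HS.quot μ (w j) (w j) x / 2) / 2 + (1 - 2 * c))
        ∂(HS.vol μ) :=
    integral_mono_of_nonneg (Filter.Eventually.of_forall fun x => abs_nonneg _) hint2
      (Filter.Eventually.of_forall hle)
  have hi : ∀ i, ∫ x, HS.quot μ (w i) (w i) x / 2 ∂(HS.vol μ) = 1 / 2 := by
    intro i
    rw [integral_div]
    have := hnii i
    unfold HS.pair at this
    rw [this]
  have aux : ∀ f g : X → ℝ, Integrable f (HS.vol μ) → Integrable g (HS.vol μ) →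
      ∫ x, f x ∂(HS.vol μ) = 1 / 2 → ∫ x, g x ∂(HS.vol μ) = 1 / 2 →
      ∫ x, ((f x + g x) / 2 + (1 - 2 * c)) ∂(HS.vol μ) = 1 - c := by
    intro f g hf hg h1 h2
    have k1 : Integrable (fun x => (f x + g x) / 2) (HS.vol μ) := (hf.add hg).div_const 2
    rw [integral_add k1 (integrable_const _), integral_div, integral_add hf hg, h1, h2,
      integral_const, hreal, smul_eq_mul]
    ring
  have h5 := aux _ _ ((hint i).div_const 2) ((hint j).div_const 2) (hi i) (hi j)
  linarith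

/-- **Theorem (V0)**, for all closed manifolds. -/
theorem finalV0 {μ : HS.Form X 4} (hμ : HS.Volume μ) (hfin : HS.vol μ univ ≠ ⊤)
    {w : Fin 3 → HS.Form X 2} (hw : HS.Hypersymplectic μ w) {c : ℝ} (hc : 0 < c)
    (h : ∀ x, (HS.Qm μ w x - c • (1 : Mat3)).PosDef) :
    ∃ W : ℝ → Fin 3 → HS.Form X 2, LongDef μ w W ∧
      (∀ t : ℝ, 0 ≤ t → ∀ x, (HS.Qm μ (W t) x - c • (1 : Mat3)).PosSemidef) ∧
      LimitV X μ c W := by
  obtain ⟨W, h1, h2, h3, h4, -⟩ := iterV μ hμ hfin c hc (stageV_of glueV hμ hfin hc)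
    (fun v => ∀ x, (HS.Qm μ v x - c • (1 : Mat3)).PosSemidef) w w
    (reach_refl hw fun x => (h x).posSemidef)
    ⟨hw, isOpen_univ, fun x => (h x).posSemidef, fun x _ => h x⟩
  refine ⟨W, h1, fun t ht => ?_, h4⟩
  rcases le_total t 1 with h5 | h5
  · exact h2 t ⟨ht, h5⟩
  · exact h3 t h5

/-- **Theorem (V)**, from the soft Calabi-Yau theorem. -/
theorem finalV (soft : SoftStatement') {μ : HS.Form X 4} (hμ : HS.Volume μ)
    (hvol : HS.vol μ univ = 1 / 2) (hb : HS.BPlusLe3 μ) {w : Fin 3 → HS.Form X 2}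
    (hw : HS.Hypersymplectic μ w) (hn : HS.Normalized μ w) {c : ℝ} (hc : 0 < c) (hc1 : c < 1) :
    ∃ W : ℝ → Fin 3 → HS.Form X 2, LongDef μ w W ∧
      (∀ t : ℝ, 1 ≤ t → (∀ x, (HS.Qm μ (W t) x - c • (1 : Mat3)).PosSemidef) ∧
        ∀ i j, ∫ x, |(HS.Qm μ (W t) x - 1) i j| ∂(HS.vol μ) ≤ 1 - c) ∧
      LimitV X μ c W := by
  have hfin : HS.vol μ univ ≠ ⊤ := by rw [hvol]; simp
  obtain ⟨W0, hW0, hW1, -, -⟩ := final_of_soft soft hμ hvol hb hw hn (ε := 1 - c) (by linarith)
  rw [sub_sub_cancel] at hW1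
  obtain ⟨W, h1, h2, h3, h4, -⟩ := iterV μ hμ hfin c hc (stageV_of glueV hμ hfin hc)
    (fun v => True) w (W0 1) ⟨W0, hW0, rfl, fun _ _ => trivial⟩
    ⟨hW0.hyper 1 (by simp), isOpen_univ, fun x => (hW1 x).posSemidef, fun x _ => hW1 x⟩
  refine ⟨W, h1, fun t ht => ⟨h3 t ht, fun i j => ?_⟩, h4⟩
  have ht0 : 0 ≤ t := by linarith
  exact above_L1 hμ hvol (h1.hyper t ht0)
    (normalized_of_exact hμ hfin hw hn (h1.hyper t ht0) (h1.exact t)) hc1.le (h3 t ht) i j

end

end Vale.Agent.P247.SCY
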