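import Vale.Agent.P247.SCY.FWC2

/-!
# P247, Theorem (V): small one-forms
-/

set_option linter.all false

open scoped BigOperators ContDiff Topology Manifold ENNReal
open Set MeasureTheory Metric Filter

namespace Vale.Agent.P247.SCY
open Vale.Agent.P204 Vale.Agent.P204.T4 Vale.Agent.P204.Mfd Vale.Agent.P204.GX

section
variable (X : Type) [TopologicalSpace X] [ChartedSpace E4 X]

/-- a finite family of compact coordinate domains which cover `X` -/
structure CCov where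
  n : ℕ
  e : Fin n → OpenPartialHomeomorph X E4
  K : Fin n → Set E4
  he : ∀ j, e j ∈ atlas E4 X
  hK : ∀ j, IsCompact (K j)
  hKt : ∀ j, K j ⊆ (e j).target
  cov : ∀ x, ∃ j, x ∈ (e j).symm '' K j

theorem exists_ccov [CompactSpace X] : Nonempty (CCov X) := by
  classical
  have h : ∀ x : X, ∃ ρ : ℝ, 0 < ρ ∧ closedBall (chartAt E4 x x) ρ ⊆ (chartAt E4 x).target := by
    intro x
    obtain ⟨ρ, hρ, hb⟩ := Metric.isOpen_iff.1 (chartAt E4 x).open_target _ (mem_chart_target E4 x)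
    exact ⟨ρ / 2, by positivity, (closedBall_subset_ball (by linarith)).trans hb⟩
  choose ρ hρ hb using h
  obtain ⟨t, -, ht⟩ := isCompact_univ.elim_nhds_subcover
    (fun x : X => (chartAt E4 x).source ∩ chartAt E4 x ⁻¹' ball (chartAt E4 x x) (ρ x)) (by
      intro x _
      refine ((chartAt E4 x).isOpen_inter_preimage isOpen_ball).mem_nhds
        ⟨mem_chart_source E4 x, ?_⟩
      exact mem_ball_self (hρ x))
  set q := t.equivFin with hq
  refine ⟨⟨t.card, fun j => chartAt E4 (q.symm j : X),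
    fun j => closedBall (chartAt E4 (q.symm j : X) (q.symm j : X)) (ρ (q.symm j)),
    fun j => chart_mem_atlas E4 _, fun j => isCompact_closedBall _ _, fun j => hb _, fun x => ?_⟩⟩
  obtain ⟨y, hy, hx⟩ := mem_iUnion₂.1 (ht (mem_univ x))
  refine ⟨q ⟨y, hy⟩, chartAt E4 y x, ?_, ?_⟩
  · show chartAt E4 y x ∈ closedBall (chartAt E4 ((q.symm (q ⟨y, hy⟩) : t) : X) _) (ρ _)
    rw [Equiv.symm_apply_apply]
    exact ball_subset_closedBall hx.2
  · show (chartAt E4 ((q.symm (q ⟨y, hy⟩) : t) : X)).symm (chartAt E4 y x) = x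
    rw [Equiv.symm_apply_apply]
    exact (chartAt E4 y).left_inv hx.1

end

section
variable {X : Type} [TopologicalSpace X] [ChartedSpace E4 X]

/-- the one-form is bounded by `δ` in the coordinate domains -/
def Sml (C : CCov X) (δ : ℝ) (Λ : HS.Form X 1) : Prop :=
  ∀ j, ∀ y ∈ C.K j, ‖HS.loc (C.e j) Λ y‖ ≤ δ

theorem Sml.mono {C : CCov X} {δ δ' : ℝ} {Λ : HS.Form X 1} (h : Sml C δ Λ) (hd : δ ≤ δ') :
    Sml C δ' Λ := fun j y hy => (h j y hy).trans hd

theorem loc_zero1 (e : OpenPartialHomeomorph X E4) (y : E4) :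
    HS.loc e (fun _ => 0 : HS.Form X 1) y = 0 := by
  ext v; rfl

theorem Sml.zero (C : CCov X) : Sml C 0 (fun _ => 0 : HS.Form X 1) := by
  intro j y _
  rw [loc_zero1, norm_zero]

theorem Sml.add {C : CCov X} {δ δ' : ℝ} {Λ Λ' : HS.Form X 1} (h : Sml C δ Λ) (h' : Sml C δ' Λ') :
    Sml C (δ + δ') (fun x => Λ x + Λ' x) := by
  intro j y hy
  rw [congrFun (loc_add' (C.e j) Λ Λ') y]
  exact (norm_add_le _ _).trans (add_le_add (h j y hy) (h' j y hy))

theorem Sml.smul {C : CCov X} {δ : ℝ} {Λ : HS.Form X 1} (h : Sml C δ Λ) (c : ℝ) :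
    Sml C (|c| * δ) (fun x => c • Λ x) := by
  intro j y hy
  rw [congrFun (loc_smul' (C.e j) c Λ) y, norm_smul, Real.norm_eq_abs]
  exact mul_le_mul_of_nonneg_left (h j y hy) (abs_nonneg c)

/-- `Λ` is a primitive of `α` -/
def Prm (Λ : HS.Form X 1) (α : HS.Form X 2) : Prop :=
  HS.Smooth Λ ∧ ∀ e ∈ atlas E4 X, ∀ y ∈ e.target, extDeriv (HS.loc e Λ) y = HS.loc e α y

theorem Prm.exact {Λ : HS.Form X 1} {α : HS.Form X 2} (h : Prm Λ α) : HS.Exact α := ⟨Λ, h.1, h.2⟩

theorem Prm.add {Λ Λ' : HS.Form X 1} {α β : HS.Form X 2} (h : Prm Λ α) (h' : Prm Λ' β) :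
    Prm (fun x => Λ x + Λ' x) (fun x => α x + β x) := by
  refine ⟨smooth_add h.1 h'.1, fun e he y hy => ?_⟩
  rw [loc_add', loc_add']
  show extDeriv (fun y => HS.loc e Λ y + HS.loc e Λ' y) y = HS.loc e α y + HS.loc e β y
  have h1 : DifferentiableAt ℝ (HS.loc e Λ) y :=
    ((h.1 e he y hy).contDiffAt (e.open_target.mem_nhds hy)).differentiableAt (by simp)
  have h2 : DifferentiableAt ℝ (HS.loc e Λ') y :=
    ((h'.1 e he y hy).contDiffAt (e.open_target.mem_nhds hy)).differentiableAt (by simp)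
  rw [extDeriv_fun_add h1 h2, h.2 e he y hy, h'.2 e he y hy]

theorem Prm.smul {Λ : HS.Form X 1} {α : HS.Form X 2} (h : Prm Λ α) (c : ℝ) :
    Prm (fun x => c • Λ x) (fun x => c • α x) := by
  refine ⟨smooth_smul h.1 c, fun e he y hy => ?_⟩
  rw [loc_smul', loc_smul']
  show extDeriv (fun y => c • HS.loc e Λ y) y = c • HS.loc e α y
  have h3 : extDeriv (fun y => c • HS.loc e Λ y) y = c • extDeriv (HS.loc e Λ) y :=
    extDeriv_fun_smul c (HS.loc e Λ)
  rw [h3, h.2 e he y hy]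

theorem Prm.zero : Prm (fun _ => 0 : HS.Form X 1) (fun _ => 0 : HS.Form X 2) := by
  refine ⟨smooth_zero', fun e he y hy => ?_⟩
  have h := closed_zero' (X := X) (k := 1) e he y hy
  rw [h]
  ext v; rfl

variable [IsManifold (𝓡 4) ∞ X]

/-- one-forms which are small in a parametrisation are small -/
theorem E1_small (C : CCov X) [T2Space X] (p : Par X) {K0 : Set V4} (hK0 : IsCompact K0) :
    ∃ c0 : ℝ, 0 < c0 ∧ ∀ (η : V4 → V4) (δ : ℝ), tsupport η ⊆ K0 → (∀ z, ‖η z‖ ≤ δ) →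
      Sml C (c0 * δ) (E1 p η) := by
  -- the bound of the change of coordinates
  have hb : ∀ j, ∃ c : ℝ, 0 ≤ c ∧ ∀ y ∈ C.K j, (C.e j).symm y ∈ p.psi '' K0 →
      ‖fderiv ℝ (p.cc (C.e j)) y‖ ≤ c := by
    intro j
    have hcl : IsClosed (p.psi '' K0) := (hK0.image p.isOpenEmbedding.continuous).isClosed
    have hcomp : IsCompact (C.K j ∩ (C.e j).symm ⁻¹' (p.psi '' K0)) := by
      have h1 : C.K j ∩ (C.e j).symm ⁻¹' (p.psi '' K0) = C.K j \
          ((C.e j).target ∩ (C.e j).symm ⁻¹' (p.psi '' K0)ᶜ) := by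
        ext y
        constructor
        · rintro ⟨h2, h3⟩; exact ⟨h2, fun h4 => h4.2 h3⟩
        · rintro ⟨h2, h3⟩
          refine ⟨h2, ?_⟩
          by_contra h4
          exact h3 ⟨C.hKt j h2, h4⟩
      rw [h1]
      exact (C.hK j).diff ((C.e j).isOpen_inter_preimage_symm hcl.isOpen_compl)
    have hsub : ∀ y ∈ C.K j ∩ (C.e j).symm ⁻¹' (p.psi '' K0), y ∈ p.cdom (C.e j) := by
      rintro y ⟨h2, z, hz, hz'⟩
      exact ⟨C.hKt j h2, z, hz'⟩
    have hcont : ContinuousOn (fun y => fderiv ℝ (p.cc (C.e j)) y)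
        (C.K j ∩ (C.e j).symm ⁻¹' (p.psi '' K0)) := by
      intro y hy
      have h3 := p.cc_smoothAt (C.he j) (hsub y hy)
      exact (h3.fderiv_right (m := ∞) (by simp)).continuousAt.continuousWithinAt
    obtain ⟨c, hc⟩ := hcomp.exists_bound_of_continuousOn hcont
    exact ⟨|c|, abs_nonneg c, fun y hy hy' => (hc y ⟨hy, hy'⟩).trans (le_abs_self c)⟩
  choose c hc0 hc using hb
  set A := ‖(dpL : V4 →L[ℝ] (V4 →L[ℝ] ℝ))‖ * ‖(oneE : (E4 →L[ℝ] ℝ) →L[ℝ] _)‖ with hA
  refine ⟨A * (∑ j, c j) + 1, by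
    have := Finset.sum_nonneg fun j (_ : j ∈ Finset.univ) => hc0 j
    positivity, fun η δ hη hδ => ?_⟩
  have hδ0 : 0 ≤ δ := (norm_nonneg _).trans (hδ 0)
  have hcs : HasCompactSupport η := hK0.of_isClosed_subset (isClosed_tsupport _) hη
  have hsum : ∀ j, c j ≤ ∑ j, c j := fun j =>
    Finset.single_le_sum (fun j _ => hc0 j) (Finset.mem_univ j)
  have hsum0 : 0 ≤ ∑ j, c j := Finset.sum_nonneg fun j _ => hc0 j
  have hA0 : 0 ≤ A := by positivity
  intro j y hy
  have hRHS : 0 ≤ (A * (∑ j, c j) + 1) * δ := by positivity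
  by_cases h1 : y ∈ p.cdom (C.e j)
  · by_cases h2 : η (p.cc (C.e j) y) = 0
    · rw [loc_E1_of_mem p η (C.he j) h1, h2, map_zero]
      have : (0 : V4 [⋀^Fin 1]→L[ℝ] ℝ).compContinuousLinearMap (fderiv ℝ (p.cc (C.e j)) y) = 0 := by
        ext v; rfl
      rw [this, norm_zero]
      exact hRHS
    · have h3 : (C.e j).symm y ∈ p.psi '' K0 := by
        refine ⟨p.cc (C.e j) y, hη (subset_tsupport _ h2), ?_⟩
        exact p.psi_cc (C.e j) h1
      rw [loc_E1_of_mem p η (C.he j) h1, one1_comp]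
      calc ‖oneE ((dpL (η (p.cc (C.e j) y))).comp (fderiv ℝ (p.cc (C.e j)) y))‖
          ≤ ‖(oneE : (E4 →L[ℝ] ℝ) →L[ℝ] _)‖ *
            ‖(dpL (η (p.cc (C.e j) y))).comp (fderiv ℝ (p.cc (C.e j)) y)‖ :=
            ContinuousLinearMap.le_opNorm _ _
        _ ≤ ‖(oneE : (E4 →L[ℝ] ℝ) →L[ℝ] _)‖ *
            ((‖(dpL : V4 →L[ℝ] (V4 →L[ℝ] ℝ))‖ * δ) * ∑ j, c j) := by
            refine mul_le_mul_of_nonneg_left ?_ (ContinuousLinearMap.opNorm_nonneg _)
            refine (ContinuousLinearMap.opNorm_comp_le _ _).trans ?_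
            refine mul_le_mul ?_ ((hc j y hy h3).trans (hsum j)) (norm_nonneg _) (by positivity)
            refine (ContinuousLinearMap.le_opNorm _ _).trans ?_
            exact mul_le_mul_of_nonneg_left (hδ _) (ContinuousLinearMap.opNorm_nonneg _)
        _ = A * (∑ j, c j) * δ := by rw [hA]; ring
        _ ≤ _ := by nlinarith
  · have h2 := (loc_E1_off p hcs (C.hKt j hy) h1).self_of_nhds
    rw [h2, norm_zero]
    exact hRHS

end

end Vale.Agent.P247.SCY
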