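import Vale.Agent.P247.SCY.FWD1

/-!
# P247, Theorem (V): the local modification, with small primitives
-/

set_option linter.all false

open scoped BigOperators ContDiff Topology Manifold ENNReal
open Set MeasureTheory Metric Filter

namespace Vale.Agent.P247.SCY
open Vale.Agent.P204 Vale.Agent.P204.T4 Vale.Agent.P204.Mfd Vale.Agent.P204.GX

theorem exists_cutB {κ : ℝ} (h0 : 0 < κ) (h1 : κ < 1) : ∃ K : ℝ, 1 ≤ K ∧
    ∀ (α : V4 → L2), ContDiff ℝ ∞ α → Closed α → ∀ (r τ : ℝ), 0 < r →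
      (∀ z ∈ closedBall (0 : V4) r, ‖α z‖ ≤ τ) →
      ∃ η : V4 → V4, ContDiff ℝ ∞ η ∧ tsupport η ⊆ closedBall 0 r ∧
        (∀ z ∈ closedBall (0 : V4) ((1 - κ) * r), d1 η z = α z) ∧
        (∀ z ∈ closedBall (0 : V4) r, ‖d1 η z‖ ≤ K * τ) ∧ ∀ z, ‖η z‖ ≤ 4 * τ * r := by
  obtain ⟨K, hK0, hK⟩ := exists_grad_bound (chiK κ h0 h1)
  refine ⟨1 + 8 * K, by linarith, fun α hα hcl r τ hr hτ => ?_⟩
  obtain ⟨β, hβ, hd, hb⟩ := exists_prim_bd hα hcl
  have hτ0 : 0 ≤ τ := (norm_nonneg _).trans (hτ 0 (by simp [hr.le]))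
  have hβb : ∀ z ∈ closedBall (0 : V4) r, ‖β z‖ ≤ 4 * r * τ := by
    intro z hz
    have hz' := mem_closedBall_zero_iff.1 hz
    refine (hb z τ fun t ht => hτ _ ?_).trans ?_
    · rw [mem_closedBall_zero_iff, norm_smul, Real.norm_eq_abs, abs_of_nonneg ht.1]
      calc t * ‖z‖ ≤ 1 * ‖z‖ := mul_le_mul_of_nonneg_right ht.2 (norm_nonneg _)
        _ ≤ r := by rw [one_mul]; exact hz'
    · gcongr
  have hη : ContDiff ℝ ∞ (fun y => cutr (chiK κ h0 h1) r y • β y) := (contDiff_cutr _ r).smul hβ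
  have hd1 : ∀ z, d1 (fun y => cutr (chiK κ h0 h1) r y • β y) z =
      wd (grad (cutr (chiK κ h0 h1) r) z) (β z) + cutr (chiK κ h0 h1) r z • α z := by
    intro z
    rw [T4.EMF.d1_smul ((contDiff_cutr _ r).differentiable (by simp) z) (hβ.differentiable (by simp) z),
      hd]
  refine ⟨fun y => cutr (chiK κ h0 h1) r y • β y, hη, ?_, ?_, ?_, ?_⟩
  · refine closure_minimal ?_ isClosed_closedBall
    intro z hz
    by_contra hcon
    apply hz
    show cutr (chiK κ h0 h1) r z • β z = 0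
    rw [cutr_zero h0 h1 hr hcon, zero_smul]
  · intro z hz
    have he : (fun y => cutr (chiK κ h0 h1) r y • β y) =ᶠ[𝓝 z] β := by
      filter_upwards [cutr_one h0 h1 hr hz] with w hw
      rw [hw, one_smul]
    rw [GX.d1_congr he, hd]
  · intro z hz
    rw [hd1]
    have hc := cutr_mem (chiK κ h0 h1) r z
    calc ‖wd (grad (cutr (chiK κ h0 h1) r) z) (β z) + cutr (chiK κ h0 h1) r z • α z‖
        ≤ ‖wd (grad (cutr (chiK κ h0 h1) r) z) (β z)‖ + ‖cutr (chiK κ h0 h1) r z • α z‖ :=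
          norm_add_le _ _
      _ ≤ 2 * ‖grad (cutr (chiK κ h0 h1) r) z‖ * ‖β z‖ + 1 * τ := by
          refine add_le_add (T4.EMF.norm_wd_le _ _) ?_
          rw [norm_smul, Real.norm_eq_abs, abs_of_nonneg hc.1]
          exact mul_le_mul hc.2 (hτ z hz) (norm_nonneg _) zero_le_one
      _ ≤ 2 * (K * r⁻¹) * (4 * r * τ) + 1 * τ := by
          have := hK r hr z
          have := hβb z hz
          gcongr
      _ = (1 + 8 * K) * τ := by field_simp; ring
  · intro z
    show ‖cutr (chiK κ h0 h1) r z • β z‖ ≤ 4 * τ * r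
    by_cases hz : z ∈ closedBall (0 : V4) r
    · have hc := cutr_mem (chiK κ h0 h1) r z
      rw [norm_smul, Real.norm_eq_abs, abs_of_nonneg hc.1]
      calc cutr (chiK κ h0 h1) r z * ‖β z‖ ≤ 1 * (4 * r * τ) :=
            mul_le_mul hc.2 (hβb z hz) (norm_nonneg _) zero_le_one
        _ = 4 * τ * r := by ring
    · rw [cutr_zero h0 h1 hr hz, zero_smul, norm_zero]
      positivity

/-- `exists_cutB` centred at `y` -/
theorem exists_cutB_at {κ : ℝ} (h0 : 0 < κ) (h1 : κ < 1) : ∃ K : ℝ, 1 ≤ K ∧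
    ∀ (α : V4 → L2), ContDiff ℝ ∞ α → Closed α → ∀ (y : V4) (r τ : ℝ), 0 < r →
      (∀ z ∈ closedBall y r, ‖α z‖ ≤ τ) →
      ∃ η : V4 → V4, ContDiff ℝ ∞ η ∧ tsupport η ⊆ closedBall y r ∧
        (∀ z ∈ closedBall y ((1 - κ) * r), d1 η z = α z) ∧
        (∀ z ∈ closedBall y r, ‖d1 η z‖ ≤ K * τ) ∧ ∀ z, ‖η z‖ ≤ 4 * τ * r := by
  obtain ⟨K, hK, H⟩ := exists_cutB h0 h1
  refine ⟨K, hK, fun α hα hc y r τ hr hτ => ?_⟩
  have e0 : (fun z => α (z - (-y))) = fun z => α (z + y) := by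
    funext z; rw [sub_neg_eq_add]
  have hα' : ContDiff ℝ ∞ (fun z => α (z + y)) := hα.comp (contDiff_id.add contDiff_const)
  have hc' : Closed (fun z => α (z + y)) := by
    rw [← e0]; exact closed_trans hα hc (-y)
  obtain ⟨η, k1, k2, k3, k4, k5⟩ := H (fun z => α (z + y)) hα' hc' r τ hr (fun z hz => hτ _ (by
    rw [mem_cb_trans, add_sub_cancel_right]; exact hz))
  have hηd : Differentiable ℝ η := k1.differentiable (by simp)
  refine ⟨fun z => η (z - y), k1.comp (contDiff_id.sub contDiff_const), ?_, fun z hz => ?_,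
    fun z hz => ?_, fun z => k5 _⟩
  · refine closure_minimal ?_ isClosed_closedBall
    intro z hz
    rw [mem_cb_trans]
    exact k2 (subset_tsupport _ hz)
  · rw [d1_trans hηd, k3 _ (mem_cb_trans.1 hz), sub_add_cancel]
  · rw [d1_trans hηd]
    exact k4 _ (mem_cb_trans.1 hz)

theorem norm_lamF_le (B : L2) (z : V4) : ‖lamF B z‖ ≤ 2 * ‖B‖ * ‖z‖ := by
  rw [pi_norm_le_iff_of_nonneg (by positivity)]
  intro k
  show ‖∑ l, (1 / 2 * ent B l k) * z l‖ ≤ _
  calc ‖∑ l, (1 / 2 * ent B l k) * z l‖ ≤ ∑ l, ‖(1 / 2 * ent B l k) * z l‖ := norm_sum_le _ _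
    _ ≤ ∑ l : Fin 4, 1 / 2 * ‖B‖ * ‖z‖ := Finset.sum_le_sum fun l _ => by
        rw [norm_mul, norm_mul]
        have h1 : ‖(1 / 2 : ℝ)‖ = 1 / 2 := by norm_num
        rw [h1]
        have h2 : ‖ent B l k‖ ≤ ‖B‖ := abs_ent_le B l k
        have h3 := norm_le_pi_norm z l
        gcongr
    _ = 2 * ‖B‖ * ‖z‖ := by simp; ring

theorem norm_eta2_le {r : ℝ} (hr : 0 < r) (y : V4) (B : L2) (z : V4) :
    ‖eta2 r y B z‖ ≤ 2 * ‖B‖ * r := by
  unfold eta2
  rcases le_or_gt (nsq (z - y)) (r ^ 2 / 2) with h | h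
  · have h1 : ‖z - y‖ ≤ r := nsq_coord hr.le (h.trans (by nlinarith [sq_nonneg r]))
    have h2 := radc_mem r y z
    have h3 : |radc r y z - 1| ≤ 1 := by
      rw [abs_le]; constructor <;> linarith [h2.1, h2.2]
    rw [norm_smul, Real.norm_eq_abs]
    calc |radc r y z - 1| * ‖lamF B (z - y)‖ ≤ 1 * (2 * ‖B‖ * ‖z - y‖) :=
          mul_le_mul h3 (norm_lamF_le B _) (norm_nonneg _) zero_le_one
      _ ≤ 2 * ‖B‖ * r := by rw [one_mul]; gcongr
  · rw [(radc_far hr h).self_of_nhds, sub_self, zero_smul, norm_zero]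
    positivity

/-- **The local modification**, with small primitives. -/
theorem locVB {c : ℝ} (hc : 0 < c) {u : Fin 3 → V4 → L2} {m : V4 → ℝ} {M ρu : ℝ}
    (hu : ∀ i, ContDiff ℝ ∞ (u i)) (hcl : ∀ i, Closed (u i)) (hM : 0 < M) (hρu : 0 < ρu)
    (hm : ∀ z, ‖z‖ < ρu → m z = M) (hSD : ∀ i, SD (u i 0))
    (hpos : (gmat M (fun i => u i 0) - c • (1 : Mat3)).PosDef) :
    ∃ ρ C0 : ℝ, 0 < ρ ∧ 0 < C0 ∧ ∀ y : V4, ‖y‖ < ρ → ∃ r0 : ℝ, 0 < r0 ∧ ∀ r, 0 < r → r < r0 →
      ∃ η : Fin 2 × Fin 3 → V4 → V4, (∀ i, ContDiff ℝ ∞ (η i)) ∧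
        (∀ i, tsupport (η i) ⊆ closedBall y r) ∧ PhiV c u m y r η ∧
        ∀ k z, ‖η k z‖ ≤ C0 * r := by
  set A : Fin 3 → L2 := fun i => u i 0 with hA
  obtain ⟨K, hK1, hcut⟩ := exists_cutB_at (κ := 1 / 4) (by norm_num) (by norm_num)
  obtain ⟨ε, hε, hopen⟩ := gmat_open hpos
  -- the target
  set a := Real.sqrt (c * M) with ha
  have ha0 : 0 < a := Real.sqrt_pos.2 (by positivity)
  have ha2 : a ^ 2 = c * M := Real.sq_sqrt (by positivity)
  obtain ⟨e, P, he, ho, hP, hAe⟩ := exists_target hSD ha0 (by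
    have h1 := hpos.smul hM
    have h2 : M • (gmat M (fun i => u i 0) - c • (1 : Mat3)) =
        (Matrix.of fun i j => Q (u i 0) (u j 0) / 2 : Mat3) - (a ^ 2) • (1 : Mat3) := by
      ext i j
      show M * (Q (u i 0) (u j 0) / (2 * M) - (c • (1 : Mat3)) i j) =
        Q (u i 0) (u j 0) / 2 - ((a ^ 2) • (1 : Mat3)) i j
      rw [Matrix.smul_apply, Matrix.smul_apply, smul_eq_mul, smul_eq_mul, ha2]
      field_simp
    rw [h2] at h1
    exact h1)
  set B : Fin 3 → L2 := fun i => ∑ k, P i k • e k with hB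
  -- the radius
  set τ := ε / (2 * (1 + K)) with hτ
  have hτ0 : 0 < τ := by positivity
  have hτK : (1 + K) * τ < ε := by
    have : (1 + K) * τ = ε / 2 := by rw [hτ]; field_simp
    linarith
  have ev1 : ∀ i, ∀ᶠ z in 𝓝 (0 : V4), ‖A i - u i z‖ < τ := by
    intro i
    have hcont : Continuous fun z => ‖A i - u i z‖ := (continuous_const.sub (hu i).continuous).norm
    exact hcont.continuousAt.eventually (gt_mem_nhds (by
      show ‖A i - u i 0‖ < τ
      rw [hA, sub_self, norm_zero]; exact hτ0))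
  obtain ⟨ρ1, hρ1, hball⟩ := Metric.eventually_nhds_iff.1 (eventually_all.2 ev1)
  set ρ := min ρ1 ρu with hρ
  have hρ0 : 0 < ρ := lt_min hρ1 hρu
  set C0 : ℝ := 4 * τ + 2 * ∑ k, ‖B k‖ with hC0
  have hBn : 0 ≤ ∑ k, ‖B k‖ := Finset.sum_nonneg fun k _ => norm_nonneg _
  have hC00 : 0 < C0 := by linarith
  refine ⟨ρ, C0, hρ0, hC00, fun y hy => ⟨ρ - ‖y‖, by linarith, fun r hr hrr => ?_⟩⟩
  have hin : ∀ z ∈ closedBall y r, ‖z‖ < ρ := by
    intro z hz
    have h1 : ‖z‖ ≤ ‖z - y‖ + ‖y‖ := by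
      conv_lhs => rw [← sub_add_cancel z y]
      exact norm_add_le _ _
    have h2 := mem_closedBall_iff_norm.1 hz
    linarith
  have hnear : ∀ z ∈ closedBall y r, ∀ i, ‖A i - u i z‖ < τ := by
    intro z hz i
    refine hball ?_ i
    rw [dist_zero_right]
    exact (hin z hz).trans_le (min_le_left _ _)
  have hmz : ∀ z ∈ closedBall y r, m z = M := fun z hz =>
    hm z ((hin z hz).trans_le (min_le_right _ _))
  have hαs : ∀ i, ContDiff ℝ ∞ (fun z => A i - u i z) := fun i => contDiff_const.sub (hu i)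
  have hαc : ∀ i, Closed (fun z => A i - u i z) := fun i =>
    closed_subL contDiff_const (hu i) (closed_constL _) (hcl i)
  choose η0 k1 k2 k3 k4 k5 using fun i => hcut (fun z => A i - u i z) (hαs i) (hαc i) y r τ hr
    (fun z hz => (hnear z hz i).le)
  set η : Fin 2 × Fin 3 → V4 → V4 := fun k => if k.1 = 0 then η0 k.2 else eta2 r y (B k.2) with hη
  have hη0 : ∀ i, η (0, i) = η0 i := fun i => if_pos rfl
  have hη1 : ∀ i, η (1, i) = eta2 r y (B i) := fun i => if_neg (show ¬ (1 : Fin 2) = 0 by decide)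
  have hcl2 : IsClosed {z : V4 | nsq (z - y) ≤ r ^ 2 / 2} :=
    isClosed_le (contDiff_nsq y).continuous continuous_const
  have hsup2 : ∀ i, tsupport (eta2 r y (B i)) ⊆ {z : V4 | nsq (z - y) ≤ r ^ 2 / 2} := by
    intro i
    refine closure_minimal ?_ hcl2
    intro z hz
    by_contra hcon
    apply hz
    have hcon' : r ^ 2 / 2 < nsq (z - y) := not_le.1 hcon
    show (radc r y z - 1) • lamF (B i) (z - y) = 0
    rw [(radc_far hr hcon').self_of_nhds, sub_self, zero_smul]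
  have hmid : ∀ z : V4, nsq (z - y) ≤ r ^ 2 / 2 → z ∈ closedBall y ((1 - 1 / 4) * r) := by
    intro z hz
    rw [mem_closedBall_iff_norm]
    refine nsq_coord (by nlinarith) (hz.trans ?_)
    nlinarith [sq_nonneg r]
  have hmidsub : closedBall y ((1 - 1 / 4) * r) ⊆ closedBall y r :=
    closedBall_subset_closedBall (by linarith)
  -- values
  have hval : ∀ z : V4, nsq (z - y) ≤ r ^ 2 / 2 → ∀ i, u i z + d1 (η0 i) z = A i := by
    intro z hz i
    rw [k3 i z (hmid z hz)]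
    abel
  have hfirst : ∀ z ∈ closedBall y r, ∀ s ∈ Icc (0 : ℝ) 1,
      (gmat (m z) (fun i => u i z + s • d1 (η0 i) z) - c • (1 : Mat3)).PosDef := by
    intro z hz s hs
    rw [hmz z hz]
    apply hopen
    intro i
    have e1 : u i z + s • d1 (η0 i) z - u i 0 = -(A i - u i z) + s • d1 (η0 i) z := by
      show u i z + s • d1 (η0 i) z - u i 0 = -(u i 0 - u i z) + s • d1 (η0 i) z
      abel
    have h1 : ‖-(A i - u i z)‖ < τ := by rw [norm_neg]; exact hnear z hz i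
    have h2 : ‖s • d1 (η0 i) z‖ ≤ 1 * (K * τ) := by
      rw [norm_smul, Real.norm_eq_abs, abs_of_nonneg hs.1]
      exact mul_le_mul hs.2 (k4 i z hz) (norm_nonneg _) zero_le_one
    rw [e1]
    calc ‖-(A i - u i z) + s • d1 (η0 i) z‖ ≤ ‖-(A i - u i z)‖ + ‖s • d1 (η0 i) z‖ :=
          norm_add_le _ _
      _ < (1 + K) * τ := by linarith
      _ < ε := hτK
  have hform : ∀ z : V4, nsq (z - y) ≤ r ^ 2 / 2 → ∀ (s : ℝ) i,
      u i z + d1 (η0 i) z + s • d1 (eta2 r y (B i)) z =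
        a • e i + TT (s * radg r y z) (1 - s + s * radc r y z) (B i) (z - y) := by
    intro z hz s i
    rw [hval z hz i, d1_eta2, ← TT_path]
    have h1 : A i = a • e i + B i := hAe i
    rw [h1]
    abel
  have hfar : ∀ z : V4, r ^ 2 / 2 < nsq (z - y) → ∀ i, d1 (eta2 r y (B i)) z = 0 := by
    intro z hz i
    have h0 : eta2 r y (B i) =ᶠ[𝓝 z] fun _ => 0 := by
      filter_upwards [radc_far hr hz] with w hw
      show (radc r y w - 1) • lamF (B i) (w - y) = 0
      rw [hw, sub_self, zero_smul]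
    rw [GX.d1_congr h0, GX.d1_zero]
  refine ⟨η, fun k => ?_, fun k => ?_, ⟨fun z hz => ?_, fun z hz s hs => ?_, fun z hz s hs => ?_,
    fun z hz hze => ?_, fun z hz => ?_⟩, fun k z => ?_⟩
  · rcases k with ⟨k, i⟩
    fin_cases k
    · show ContDiff ℝ ∞ (η (0, i)); rw [hη0]; exact k1 i
    · show ContDiff ℝ ∞ (η (1, i)); rw [hη1]; exact contDiff_eta2 r y (B i)
  · rcases k with ⟨k, i⟩
    fin_cases k
    · show tsupport (η (0, i)) ⊆ _; rw [hη0]; exact k2 i
    · show tsupport (η (1, i)) ⊆ _; rw [hη1]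
      exact fun z hz => hmidsub (hmid z (hsup2 i hz))
  · rw [hmz z hz]; exact hM
  · simp only [hη0]
    exact hfirst z hz s hs
  · simp only [hη0, hη1]
    rcases le_or_gt (nsq (z - y)) (r ^ 2 / 2) with h | h
    · simp only [hform z h s]
      rw [hmz z hz]
      exact gmat_mod_nonneg he ho hP ha0 hM ha2 (mul_nonneg hs.1 (radg_nonneg _ _ _))
        (by
          have := (radc_mem r y z).1
          have := mul_nonneg hs.1 this
          linarith [hs.2]) _
    · simp only [hfar z h, smul_zero, add_zero]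
      have h1 := hfirst z hz 1 (by simp)
      simp only [one_smul] at h1
      exact h1.posSemidef
  · simp only [hη0, hη1]
    rcases le_or_gt (nsq (z - y)) (r ^ 2 / 2) with h | h
    · have h2 := hform z h 1
      simp only [one_smul] at h2
      simp only [h2]
      rw [hmz z hz]
      have h3 : (r / 2) ^ 2 < nsq (z - y) := not_le.1 hze
      exact gmat_mod_pos he ho hP ha0 hM ha2 (mul_nonneg zero_le_one (radg_nonneg _ _ _))
        (by
          have := radc_pos hr h3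
          linarith) _
    · simp only [hfar z h, add_zero]
      have h1 := hfirst z hz 1 (by simp)
      simp only [one_smul] at h1
      exact h1
  · simp only [hη0, hη1]
    have h0 : nsq (z - y) ≤ (r / 2) ^ 2 := hz
    have h : nsq (z - y) ≤ r ^ 2 / 2 := h0.trans (by nlinarith [sq_nonneg r])
    have hz' : z ∈ closedBall y r := hmidsub (hmid z h)
    obtain ⟨q1, q2⟩ := radc_core hr h0
    have h2 := hform z h 1
    simp only [one_smul] at h2
    simp only [h2]
    rw [hmz z hz', q1, q2]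
    have e1 : (1 : ℝ) * 0 = 0 := by ring
    have e2 : (1 : ℝ) - 1 + 0 = 0 := by ring
    rw [e1, e2]
    exact gmat_mod_zero he ho hP hM ha2 _
  · rcases k with ⟨k, i⟩
    fin_cases k
    · show ‖η (0, i) z‖ ≤ _
      rw [hη0]
      have h1 := k5 i z
      have h2 : 0 ≤ (∑ k, ‖B k‖) * r := by positivity
      rw [hC0]
      linarith
    · show ‖η (1, i) z‖ ≤ _
      rw [hη1]
      have h1 : ‖B i‖ ≤ ∑ k, ‖B k‖ :=
        Finset.single_le_sum (f := fun k => ‖B k‖) (fun k _ => norm_nonneg _) (Finset.mem_univ i)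
      have h2 := norm_eta2_le hr y (B i) z
      have h3 : 2 * ‖B i‖ * r ≤ 2 * (∑ k, ‖B k‖) * r := by gcongr
      have h4 : 0 < τ * r := by positivity
      rw [hC0]
      linarith


end Vale.Agent.P247.SCY
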