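import Vale.Agent.P247.SCY.FWD2

/-!
# P247, Theorem (V): gluing and the stage, with small primitives
-/

set_option linter.all false

open scoped BigOperators ContDiff Topology Manifold ENNReal
open Set MeasureTheory Metric Filter

namespace Vale.Agent.P247.SCY
open Vale.Agent.P204 Vale.Agent.P204.T4 Vale.Agent.P204.Mfd Vale.Agent.P204.GX

section
variable {X : Type} [TopologicalSpace X] [ChartedSpace E4 X]

theorem prm_sum {n : ℕ} {Θ : Fin n → HS.Form X 1} {θ : Fin n → HS.Form X 2}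
    (h : ∀ k, Prm (Θ k) (θ k)) (s : Finset (Fin n)) :
    Prm (fun x => ∑ k ∈ s, Θ k x) (fun x => ∑ k ∈ s, θ k x) := by
  classical
  induction s using Finset.induction_on with
  | empty => exact Prm.zero
  | insert a s ha ih =>
    have e1 : (fun x => ∑ k ∈ insert a s, Θ k x) = fun x => Θ a x + ∑ k ∈ s, Θ k x := by
      funext x; exact Finset.sum_insert ha
    have e2 : (fun x => ∑ k ∈ insert a s, θ k x) = fun x => θ a x + ∑ k ∈ s, θ k x := by
      funext x; exact Finset.sum_insert ha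
    rw [e1, e2]
    exact (h a).add ih

end

section
variable {X : Type} [TopologicalSpace X] [ChartedSpace E4 X] [IsManifold (𝓡 4) ∞ X]
  [CompactSpace X] [T2Space X] [MeasurableSpace X] [BorelSpace X] [Nonempty X]

/-- **Gluing**, with small primitives. -/
theorem glueVB (C : CCov X) {δ : ℝ} (hδ : 0 < δ) {μ : HS.Form X 4} (hμ : HS.Volume μ)
    {w : Fin 3 → HS.Form X 2} (hw : HS.Hypersymplectic μ w) (hfin : HS.vol μ univ ≠ ⊤) {G : Set X}
    (hG : IsOpen G) {Φ : Par X → V4 → ℝ → (Fin 2 × Fin 3 → V4 → V4) → Prop}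
    (h : ∀ x ∈ G, ∃ p : Par X, ∃ ρ : ℝ, 0 < ρ ∧ p.psi 0 = x ∧
      ∀ y, ‖y‖ < ρ → ∃ r0 : ℝ, 0 < r0 ∧ ∀ r, 0 < r → r < r0 → ∃ η : Fin 2 × Fin 3 → V4 → V4,
        (∀ i, ContDiff ℝ ∞ (η i)) ∧ (∀ i, tsupport (η i) ⊆ closedBall y r) ∧ Φ p y r η ∧
        ∀ i, Sml C δ (E1 p (η i))) :
    ∃ (θ : Fin 2 × Fin 3 → HS.Form X 2) (Θ : Fin 2 × Fin 3 → HS.Form X 1) (K U : Set X),
      (∀ i, HS.Smooth (θ i) ∧ HS.Closed (θ i) ∧ HS.Exact (θ i)) ∧
      (∀ i, Prm (Θ i) (θ i) ∧ Sml C δ (Θ i)) ∧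
      IsOpen U ∧ IsClosed K ∧ U ⊆ K ∧ K ⊆ G ∧ HS.vol μ (K \ U) = 0 ∧
      HS.vol μ (G \ U) ≤ ENNReal.ofReal (799 / 800) * HS.vol μ G ∧
      (∀ x, ((∀ i, θ i x = 0) ∧ x ∉ K) ∨
        ∃ (p : Par X) (y : V4) (r : ℝ) (η : Fin 2 × Fin 3 → V4 → V4) (z : V4), 0 < r ∧
          (∀ i, ContDiff ℝ ∞ (η i)) ∧ Φ p y r η ∧ p.psi z = x ∧ z ∈ closedBall y r ∧ x ∈ G ∧
          (x ∈ K ↔ z ∈ ecl y r) ∧ ∀ i, cp p (θ i) z = d1 (η i) z) := by
  classical
  obtain ⟨S, hS1, hS2, hS3, hS4⟩ := cover_setsV hμ hw hfin hG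
    (Good := fun p y r => ∃ η : Fin 2 × Fin 3 → V4 → V4,
        (∀ i, ContDiff ℝ ∞ (η i)) ∧ (∀ i, tsupport (η i) ⊆ closedBall y r) ∧ Φ p y r η ∧
        ∀ i, Sml C δ (E1 p (η i))) h
  haveI : Fintype S := hS1.fintype
  set e := Fintype.equivFin S with he
  set n := Fintype.card S with hn
  set q : Fin n → CBall X := fun k => (e.symm k : CBall X) with hq
  have hqS : ∀ k, q k ∈ S := fun k => (e.symm k).2
  choose η hη1 hη2 hη3 hη4 using fun k => (hS2 (q k) (hqS k)).2.1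
  have hr : ∀ k, 0 < (q k).2.2 := fun k => (hS2 (q k) (hqS k)).1
  have hqG : ∀ k, (q k).set ⊆ G := fun k => (hS2 (q k) (hqS k)).2.2
  have hD : Pairwise (Function.onFun Disjoint fun k => (q k).set) := by
    intro k l hkl
    apply hS3 (hqS k) (hqS l)
    intro heq
    apply hkl
    have : e.symm k = e.symm l := Subtype.ext heq
    exact e.symm.injective this
  have hcs : ∀ k i, HasCompactSupport (η k i) := fun k i =>
    (isCompact_closedBall _ _).of_isClosed_subset (isClosed_tsupport _) (hη2 k i)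
  set θk : Fin 2 × Fin 3 → Fin n → HS.Form X 2 := fun i k => E2 (q k).1 (d1 (η k i)) with hθk
  have hoff : ∀ i k x, x ∉ (q k).set → θk i k x = 0 := by
    intro i k x hx
    have h2 : x ∉ (q k).1.psi '' tsupport (d1 (η k i)) := fun h' =>
      hx (image_mono (tsupport_d1_subset (hη2 k i)) h')
    exact E2_of_notMem (q k).1 (d1 (η k i)) h2
  have hsum := fun i => sum_exact (θ := θk i) (fun k => E2_smooth _ (d1_contDiff (hη1 k i))
    (d1_compact (hcs k i))) (fun k => E2_exact _ (hη1 k i) (hcs k i)) Finset.univ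
  have hon : ∀ i k z, z ∈ closedBall (q k).2.1 (q k).2.2 →
      cp (q k).1 (fun x => ∑ k, θk i k x) z = d1 (η k i) z := by
    intro i k z hz
    rw [← cp_E2 (q k).1 (d1 (η k i)) z]
    apply cp_congr
    exact sum_apply (θ := θk i) hD (hoff i) (k := k) (x := (q k).1.psi z) ⟨z, hz, rfl⟩
  set K : Set X := ⋃ k, (q k).1.psi '' ecl (q k).2.1 (q k).2.2 with hK
  set U : Set X := ⋃ k, (q k).1.psi '' eop (q k).2.1 (q k).2.2 with hU
  have hesub : ∀ k, (q k).1.psi '' ecl (q k).2.1 (q k).2.2 ⊆ (q k).set := fun k =>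
    image_mono (ecl_subset (hr k))
  have hKcl : IsClosed K := by
    refine isClosed_iUnion_of_finite fun k => ?_
    have hc : IsCompact (ecl (q k).2.1 (q k).2.2) :=
      (isCompact_closedBall _ _).of_isClosed_subset (isClosed_ecl _ _) (ecl_subset (hr k))
    exact (hc.image (q k).1.isOpenEmbedding.continuous).isClosed
  have hUo : IsOpen U := isOpen_iUnion fun k => (q k).1.isOpenEmbedding.isOpenMap _ (isOpen_eop _ _)
  -- the primitives
  set Θk : Fin 2 × Fin 3 → Fin n → HS.Form X 1 := fun i k => E1 (q k).1 (η k i) with hΘk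
  have hPk : ∀ i k, Prm (Θk i k) (θk i k) := fun i k =>
    ⟨E1_smooth _ (hη1 k i) (hcs k i), fun e he z hz => loc_E2_d1 _ (hη1 k i) (hcs k i) he hz⟩
  have hoff1 : ∀ i k x, x ∉ (q k).set → ax1 (Θk i k) x = 0 := by
    intro i k x hx
    exact E1_of_notMem (q k).1 (η k i) fun h' => hx (image_mono (hη2 k i) h')
  have hSm : ∀ i, Sml C δ (fun x => ∑ k, Θk i k x) := by
    intro i j y hy
    by_cases hx : ∃ k, (C.e j).symm y ∈ (q k).set
    · obtain ⟨k, hk⟩ := hx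
      have h1 : ax1 (fun x => ∑ k, Θk i k x) ((C.e j).symm y) = ax1 (Θk i k) ((C.e j).symm y) := by
        show ∑ l, ax1 (Θk i l) ((C.e j).symm y) = _
        refine Finset.sum_eq_single k (fun l _ hl => hoff1 i l _ fun hlx => ?_) fun hk =>
          absurd (Finset.mem_univ k) hk
        exact (Set.disjoint_left.1 (hD hl)) hlx hk
      have h2 : HS.loc (C.e j) (fun x => ∑ k, Θk i k x) y = HS.loc (C.e j) (Θk i k) y := by
        show (ax1 (fun x => ∑ k, Θk i k x) ((C.e j).symm y)).compContinuousLinearMap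
          (dsym (C.e j) y) = (ax1 (Θk i k) ((C.e j).symm y)).compContinuousLinearMap
          (dsym (C.e j) y)
        rw [h1]
      rw [h2]
      exact hη4 k i j y hy
    · push Not at hx
      have h1 : ax1 (fun x => ∑ k, Θk i k x) ((C.e j).symm y) = 0 := by
        show ∑ l, ax1 (Θk i l) ((C.e j).symm y) = _
        exact Finset.sum_eq_zero fun l _ => hoff1 i l _ (hx l)
      have h2 : HS.loc (C.e j) (fun x => ∑ k, Θk i k x) y = 0 := by
        show (ax1 (fun x => ∑ k, Θk i k x) ((C.e j).symm y)).compContinuousLinearMap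
          (dsym (C.e j) y) = 0
        rw [h1]
        ext v; rfl
      rw [h2, norm_zero]
      exact hδ.le
  refine ⟨fun i x => ∑ k, θk i k x, fun i x => ∑ k, Θk i k x, K, U, fun i => ⟨(hsum i).1,
    exact_closed (hsum i).2, (hsum i).2⟩, fun i => ⟨prm_sum (hPk i) _, hSm i⟩, hUo, hKcl, iUnion_mono fun k => image_mono (eop_subset_ecl _ _),
    iUnion_subset fun k => (hesub k).trans (hqG k), ?_, ?_, fun x => ?_⟩
  · have hsub : K \ U ⊆ ⋃ k, (q k).1.psi '' (ecl (q k).2.1 (q k).2.2 \ eop (q k).2.1 (q k).2.2) := by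
      rintro x ⟨hx, hx'⟩
      obtain ⟨k, z, hz, rfl⟩ := mem_iUnion.1 hx
      exact mem_iUnion.2 ⟨k, z, ⟨hz, fun hz' => hx' (mem_iUnion.2 ⟨k, z, hz', rfl⟩)⟩, rfl⟩
    refine measure_mono_null hsub (measure_iUnion_null fun k => ?_)
    rw [vol_image hμ hw _ ((isClosed_ecl _ _).measurableSet.diff (isOpen_eop _ _).measurableSet),
      setLIntegral_measure_zero _ _ (volume_sphereE (hr k))]
  · have hsub : (⋃ q ∈ S, CBall.shr (3 / 4) q) ⊆ U := by
      intro x hx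
      obtain ⟨q', hq', hx'⟩ := mem_iUnion₂.1 hx
      have e1 : q (e ⟨q', hq'⟩) = q' := by
        show ((e.symm (e ⟨q', hq'⟩) : S) : CBall X) = q'
        rw [Equiv.symm_apply_apply]
      refine mem_iUnion.2 ⟨e ⟨q', hq'⟩, ?_⟩
      rw [e1]
      exact image_mono (ball_subset_eop (hS2 q' hq').1) hx'
    exact (measure_mono (sdiff_subset_sdiff_right hsub)).trans hS4
  · by_cases hx : ∃ k, x ∈ (q k).set
    · obtain ⟨k, z, hz, rfl⟩ := hx
      right
      refine ⟨(q k).1, (q k).2.1, (q k).2.2, η k, z, hr k, hη1 k, hη3 k, rfl, hz,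
        hqG k ⟨z, hz, rfl⟩, ⟨fun hxK => ?_, fun hz' => mem_iUnion.2 ⟨k, z, hz', rfl⟩⟩,
        fun i => hon i k z hz⟩
      obtain ⟨l, z', hz', heq⟩ := mem_iUnion.1 hxK
      have hkl : l = k := by
        by_contra hne
        exact Set.disjoint_left.1 (hD hne) (hesub l ⟨z', hz', rfl⟩) (by
          rw [heq]; exact ⟨z, hz, rfl⟩)
      subst hkl
      have := (q l).1.isOpenEmbedding.injective heq
      rwa [← this]
    · left
      push Not at hx
      refine ⟨fun i => sum_apply_off (θ := θk i) (hoff i) hx, fun hxK => ?_⟩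
      obtain ⟨l, hl⟩ := mem_iUnion.1 hxK
      exact hx l (hesub l hl)

/-- the property of the paths, with small primitives of the difference to the starting point -/
def PVB (C : CCov X) (δ : ℝ) (μ : HS.Form X 4) (c : ℝ) (w : Fin 3 → HS.Form X 2) (G : Set X)
    (v : Fin 3 → HS.Form X 2) : Prop :=
  PV μ c w G v ∧ ∀ i, ∃ Θ : HS.Form X 1, Prm Θ (fun x => v i x - w i x) ∧ Sml C δ Θ

/-- **The stage**, with small primitives. -/
theorem stageVB (C : CCov X) {δ : ℝ} (hδ : 0 < δ) {μ : HS.Form X 4} (hμ : HS.Volume μ)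
    (hfin : HS.vol μ univ ≠ ⊤) {c : ℝ} (hc : 0 < c) {w : Fin 3 → HS.Form X 2} {G : Set X}
    (hA : Above μ c w G) :
    ∃ (w' : Fin 3 → HS.Form X 2) (K U : Set X), IsOpen U ∧ IsClosed K ∧ U ⊆ K ∧ K ⊆ G ∧
      HS.vol μ (K \ U) = 0 ∧ HS.vol μ (G \ U) ≤ ENNReal.ofReal (799 / 800) * HS.vol μ G ∧
      Reach μ (PVB C (2 * δ) μ c w G) w w' ∧ Above μ c w' (G \ K) ∧
      ∀ x ∈ K, HS.Qm μ w' x = c • (1 : Matrix (Fin 3) (Fin 3) ℝ) := by
  have hw := hA.hyper
  set Φ : Par X → V4 → ℝ → (Fin 2 × Fin 3 → V4 → V4) → Prop := fun p y r η =>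
    PhiV c (fun i => cp p (w i)) (m4 p μ) y r η with hΦ
  have hloc : ∀ x ∈ G, ∃ p : Par X, ∃ ρ : ℝ, 0 < ρ ∧ p.psi 0 = x ∧
      ∀ y, ‖y‖ < ρ → ∃ r0 : ℝ, 0 < r0 ∧ ∀ r, 0 < r → r < r0 → ∃ η : Fin 2 × Fin 3 → V4 → V4,
        (∀ i, ContDiff ℝ ∞ (η i)) ∧ (∀ i, tsupport (η i) ⊆ closedBall y r) ∧ Φ p y r η ∧
        ∀ i, Sml C δ (E1 p (η i)) := by
    intro x hx
    obtain ⟨p, hp, hm, a0, a1, a2, ρu, hρu, huni⟩ := exists_adapted1 hμ hw x
    have hSD : ∀ i, SD (cp p (w i) 0) := by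
      intro i
      fin_cases i
      · exact SD.of_inv a0
      · exact SD.of_anti a1
      · exact SD.of_anti a2
    have hpos := hA.lt x hx
    rw [← hp, Qm_gmat] at hpos
    obtain ⟨ρ, C0, hρ, hC0, H⟩ := locVB hc (u := fun i => cp p (w i)) (m := m4 p μ)
      (fun i => cp_smooth p (hw.smooth i)) (fun i => cp_closed p (hw.smooth i) (hw.closed i))
      hm hρu huni hSD hpos
    obtain ⟨c0, hc0, hsm⟩ := E1_small C p (isCompact_closedBall (0 : V4) (ρ + 1))
    refine ⟨p, ρ, hρ, hp, fun y hy => ?_⟩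
    obtain ⟨r0, hr0, H2⟩ := H y hy
    refine ⟨min r0 (min 1 (δ / (c0 * C0))), by positivity, fun r hr hrr => ?_⟩
    obtain ⟨η, k1, k2, k3, k4⟩ := H2 r hr (hrr.trans_le (min_le_left _ _))
    have hr1 : r < 1 := hrr.trans_le ((min_le_right _ _).trans (min_le_left _ _))
    have hr2 : r < δ / (c0 * C0) := hrr.trans_le ((min_le_right _ _).trans (min_le_right _ _))
    refine ⟨η, k1, k2, k3, fun i => (hsm (η i) (C0 * r) ((k2 i).trans ?_) (k4 i)).mono ?_⟩
    · intro z hz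
      rw [mem_closedBall_zero_iff]
      have h1 : ‖z‖ ≤ ‖z - y‖ + ‖y‖ := by
        conv_lhs => rw [← sub_add_cancel z y]
        exact norm_add_le _ _
      have h2 := mem_closedBall_iff_norm.1 hz
      linarith
    · rw [lt_div_iff₀ (by positivity)] at hr2
      linarith
  obtain ⟨θ, Θ, K, U, hθ, hΘ, hU, hK, hUK, hKG, hn, hv, hx⟩ :=
    glueVB C hδ hμ hw hfin hA.isOpen (Φ := Φ) hloc
  -- the two segments
  have q1 : ∀ (s : ℝ) (p : Par X) (z : V4) (η : Fin 2 × Fin 3 → V4 → V4),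
      (∀ i, cp p (θ i) z = d1 (η i) z) →
      HS.Qm μ (fun i x => w i x + s • θ (0, i) x) (p.psi z) =
        gmat (m4 p μ z) (fun i => cp p (w i) z + s • d1 (η (0, i)) z) := by
    intro s p z η h
    rw [Qm_gmat]
    congr 1
    funext i
    rw [cp_comb, h]
  have q2 : ∀ (s : ℝ) (p : Par X) (z : V4) (η : Fin 2 × Fin 3 → V4 → V4),
      (∀ i, cp p (θ i) z = d1 (η i) z) →
      HS.Qm μ (fun i x => (w i x + θ (0, i) x) + s • θ (1, i) x) (p.psi z) =
        gmat (m4 p μ z) (fun i => cp p (w i) z + d1 (η (0, i)) z + s • d1 (η (1, i)) z) := by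
    intro s p z η h
    rw [Qm_gmat]
    congr 1
    funext i
    have h1 := cp_comb p (w i) (θ (0, i)) 1 z
    simp only [one_smul] at h1
    rw [cp_comb p (fun x => w i x + θ (0, i) x), h1, h, h]
  have z1 : ∀ (s : ℝ) (x : X), (∀ i, θ i x = 0) →
      HS.Qm μ (fun i x => w i x + s • θ (0, i) x) x = HS.Qm μ w x := by
    intro s x h
    ext i j
    show HS.wedge (w i x + s • θ (0, i) x) (w j x + s • θ (0, j) x) (HS.tbas x) / _ / 2 =
      HS.wedge (w i x) (w j x) (HS.tbas x) / _ / 2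
    rw [h, h, smul_zero, add_zero, add_zero]
  have z2 : ∀ (s : ℝ) (x : X), (∀ i, θ i x = 0) →
      HS.Qm μ (fun i x => (w i x + θ (0, i) x) + s • θ (1, i) x) x = HS.Qm μ w x := by
    intro s x h
    ext i j
    show HS.wedge ((w i x + θ (0, i) x) + s • θ (1, i) x) ((w j x + θ (0, j) x) + s • θ (1, j) x)
      (HS.tbas x) / _ / 2 = HS.wedge (w i x) (w j x) (HS.tbas x) / _ / 2
    rw [h, h, h, h, smul_zero, add_zero, add_zero, add_zero, add_zero]
  -- the properties along the segments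
  have s1 : ∀ s ∈ Icc (0 : ℝ) 1, ∀ x,
      (HS.Qm μ (fun i x => w i x + s • θ (0, i) x) x - c • (1 : Mat3)).PosSemidef := by
    intro s hs x
    rcases hx x with ⟨h0, -⟩ | ⟨p, y, r, η, z, hr, hη, hΦ', rfl, hz, hxG, hxK, hcp⟩
    · rw [z1 s x h0]; exact hA.le x
    · rw [q1 s p z η hcp]
      exact (hΦ'.first z hz s hs).posSemidef
  have s2 : ∀ s ∈ Icc (0 : ℝ) 1, ∀ x,
      (HS.Qm μ (fun i x => (w i x + θ (0, i) x) + s • θ (1, i) x) x - c • (1 : Mat3)).PosSemidef := by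
    intro s hs x
    rcases hx x with ⟨h0, -⟩ | ⟨p, y, r, η, z, hr, hη, hΦ', rfl, hz, hxG, hxK, hcp⟩
    · rw [z2 s x h0]; exact hA.le x
    · rw [q2 s p z η hcp]
      exact hΦ'.second z hz s hs
  have hoff : ∀ x, x ∉ G → ∀ i, θ i x = 0 := by
    intro x hxG
    rcases hx x with ⟨h0, -⟩ | ⟨p, y, r, η, z, hr, hη, hΦ', rfl, hz, hxG', hxK, hcp⟩
    · exact h0
    · exact absurd hxG' hxG
  have p0 : ∀ i, ∃ Θ : HS.Form X 1, Prm Θ (fun x => w i x - w i x) ∧ Sml C (2 * δ) Θ := by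
    intro i
    refine ⟨fun _ => 0, ?_, (Sml.zero C).mono (by positivity)⟩
    have : (fun x => w i x - w i x) = fun _ => (0 : E4 [⋀^Fin 2]→L[ℝ] ℝ) := by
      funext x; exact sub_self _
    show Prm _ (fun x => w i x - w i x)
    rw [this]
    exact Prm.zero
  have p1 : ∀ s ∈ Icc (0 : ℝ) 1, ∀ i, ∃ Θ : HS.Form X 1,
      Prm Θ (fun x => (w i x + s • θ (0, i) x) - w i x) ∧ Sml C (2 * δ) Θ := by
    intro s hs i
    refine ⟨fun x => s • Θ (0, i) x, ?_, ((hΘ (0, i)).2.smul s).mono ?_⟩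
    · have : (fun x => (w i x + s • θ (0, i) x) - w i x) = fun x => s • θ (0, i) x := by
        funext x; abel
      show Prm _ (fun x => (w i x + s • θ (0, i) x) - w i x)
      rw [this]
      exact (hΘ (0, i)).1.smul s
    · rw [abs_of_nonneg hs.1]
      nlinarith [hs.2]
  have p2 : ∀ s ∈ Icc (0 : ℝ) 1, ∀ i, ∃ Θ : HS.Form X 1,
      Prm Θ (fun x => ((w i x + θ (0, i) x) + s • θ (1, i) x) - w i x) ∧ Sml C (2 * δ) Θ := by
    intro s hs i
    refine ⟨fun x => Θ (0, i) x + s • Θ (1, i) x, ?_,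
      ((hΘ (0, i)).2.add ((hΘ (1, i)).2.smul s)).mono ?_⟩
    · have : (fun x => ((w i x + θ (0, i) x) + s • θ (1, i) x) - w i x) =
          fun x => θ (0, i) x + s • θ (1, i) x := by
        funext x; abel
      show Prm _ (fun x => ((w i x + θ (0, i) x) + s • θ (1, i) x) - w i x)
      rw [this]
      exact (hΘ (0, i)).1.add ((hΘ (1, i)).1.smul s)
    · rw [abs_of_nonneg hs.1]
      nlinarith [hs.2]
  have r0 : Reach μ (PVB C (2 * δ) μ c w G) w w := reach_refl hw ⟨⟨hA.le, fun x _ i => rfl⟩, p0⟩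
  have r1 : Reach μ (PVB C (2 * δ) μ c w G) w (fun i x => w i x + θ (0, i) x) :=
    r0.append (fun i => hθ (0, i)) (fun s hs x => posDef_of_le hc (s1 s hs x))
      fun s hs => ⟨⟨s1 s hs, fun x hxG i => by
        show w i x + s • θ (0, i) x = w i x
        rw [hoff x hxG, smul_zero, add_zero]⟩, p1 s hs⟩
  have r2 : Reach μ (PVB C (2 * δ) μ c w G) w (fun i x => (w i x + θ (0, i) x) + θ (1, i) x) :=
    r1.append (fun i => hθ (1, i)) (fun s hs x => posDef_of_le hc (s2 s hs x))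
      fun s hs => ⟨⟨s2 s hs, fun x hxG i => by
        show (w i x + θ (0, i) x) + s • θ (1, i) x = w i x
        rw [hoff x hxG, hoff x hxG, smul_zero, add_zero, add_zero]⟩, p2 s hs⟩
  have hone : (fun i x => (w i x + θ (0, i) x) + (1 : ℝ) • θ (1, i) x) =
      fun i x => (w i x + θ (0, i) x) + θ (1, i) x := by
    funext i x; rw [one_smul]
  have q21 : ∀ (p : Par X) (z : V4) (η : Fin 2 × Fin 3 → V4 → V4),
      (∀ i, cp p (θ i) z = d1 (η i) z) →
      HS.Qm μ (fun i x => (w i x + θ (0, i) x) + θ (1, i) x) (p.psi z) =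
        gmat (m4 p μ z) (fun i => cp p (w i) z + d1 (η (0, i)) z + d1 (η (1, i)) z) := by
    intro p z η h
    rw [← hone, q2 1 p z η h]
    congr 1
    funext i
    rw [one_smul]
  refine ⟨_, K, U, hU, hK, hUK, hKG, hn, hv, r2, ⟨r2.hyper, hA.isOpen.sdiff hK, fun x => ?_,
    fun x hx' => ?_⟩, fun x hxK => ?_⟩
  · rw [← hone]; exact s2 1 (by simp) x
  · rcases hx x with ⟨h0, -⟩ | ⟨p, y, r, η, z, hr, hη, hΦ', rfl, hz, hxG, hxK, hcp⟩
    · rw [← hone, z2 1 x h0]; exact hA.lt x hx'.1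
    · rw [q21 p z η hcp]
      exact hΦ'.strict z hz fun h => hx'.2 (hxK.2 h)
  · rcases hx x with ⟨-, h0⟩ | ⟨p, y, r, η, z, hr, hη, hΦ', rfl, hz, hxG, hxK', hcp⟩
    · exact absurd hxK h0
    · rw [q21 p z η hcp]
      exact hΦ'.core z (hxK'.1 hxK)

end

end Vale.Agent.P247.SCY
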