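import Vale.Agent.P247.SCY.FWD3

/-!
# P247, Theorem (V): the iteration inside an open set, with convergence of the primitives
-/

set_option linter.all false

open scoped BigOperators ContDiff Topology Manifold ENNReal
open Set MeasureTheory Metric Filter

namespace Vale.Agent.P247.SCY
open Vale.Agent.P204 Vale.Agent.P204.T4 Vale.Agent.P204.Mfd Vale.Agent.P204.GX

section
variable {X : Type} [TopologicalSpace X] [ChartedSpace E4 X]

/-- `v - w` has primitives which are bounded by `δ` -/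
def Dif (C : CCov X) (δ : ℝ) (w v : Fin 3 → HS.Form X 2) : Prop :=
  ∀ i, ∃ Θ : HS.Form X 1, Prm Θ (fun x => v i x - w i x) ∧ Sml C δ Θ

theorem Dif.mono {C : CCov X} {δ δ' : ℝ} {w v : Fin 3 → HS.Form X 2} (h : Dif C δ w v)
    (hd : δ ≤ δ') : Dif C δ' w v := by
  intro i
  obtain ⟨Θ, h1, h2⟩ := h i
  exact ⟨Θ, h1, h2.mono hd⟩

theorem Dif.refl (C : CCov X) (w : Fin 3 → HS.Form X 2) : Dif C 0 w w := by
  intro i
  refine ⟨fun _ => 0, ?_, Sml.zero C⟩
  have : (fun x => w i x - w i x) = fun _ => (0 : E4 [⋀^Fin 2]→L[ℝ] ℝ) := by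
    funext x; exact sub_self _
  show Prm _ (fun x => w i x - w i x)
  rw [this]
  exact Prm.zero

theorem Dif.trans {C : CCov X} {δ δ' : ℝ} {u v w : Fin 3 → HS.Form X 2} (h : Dif C δ u v)
    (h' : Dif C δ' v w) : Dif C (δ + δ') u w := by
  intro i
  obtain ⟨Θ, h1, h2⟩ := h i
  obtain ⟨Θ', h1', h2'⟩ := h' i
  refine ⟨fun x => Θ x + Θ' x, ?_, h2.add h2'⟩
  have : (fun x => w i x - u i x) = fun x => (v i x - u i x) + (w i x - v i x) := by
    funext x; abel
  rw [this]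
  exact h1.add h1'

theorem neg_sub_aux (a b : E4 [⋀^Fin 2]→L[ℝ] ℝ) : a - b = (-1 : ℝ) • (b - a) := by
  have h : (-1 : ℝ) • (b - a) = -(b - a) := neg_one_smul ℝ (b - a)
  rw [h]; abel

theorem Dif.symm {C : CCov X} {δ : ℝ} {w v : Fin 3 → HS.Form X 2} (h : Dif C δ w v) :
    Dif C δ v w := by
  intro i
  obtain ⟨Θ, h1, h2⟩ := h i
  refine ⟨fun x => (-1 : ℝ) • Θ x, ?_, (h2.smul (-1)).mono (by rw [abs_neg, abs_one, one_mul])⟩
  have : (fun x => w i x - v i x) = fun x => (-1 : ℝ) • (v i x - w i x) := by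
    funext x
    exact neg_sub_aux (w i x) (v i x)
  rw [this]
  exact h1.smul (-1)

end

section
variable {X : Type} [TopologicalSpace X] [ChartedSpace E4 X] [IsManifold (𝓡 4) ∞ X]
  [CompactSpace X] [T2Space X] [Nonempty X] [MeasurableSpace X] [BorelSpace X]

/-- the iteration inside the open set `G0`, outside of which nothing is changed -/
theorem iterG (C : CCov X) {μ : HS.Form X 4} (hμ : HS.Volume μ) (hfin : HS.vol μ univ ≠ ⊤) {c : ℝ}
    (hc : 0 < c) {P : (Fin 3 → HS.Form X 2) → Prop} {w w1 : Fin 3 → HS.Form X 2}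
    (hR : Reach μ P w w1) {G0 : Set X} (hA : Above μ c w1 G0) :
    ∃ (W : ℝ → Fin 3 → HS.Form X 2) (V : Set X), LongDef μ w W ∧
      (∀ t ∈ Icc (0 : ℝ) 1, P (W t)) ∧
      (∀ t : ℝ, 1 ≤ t → (∀ x, (HS.Qm μ (W t) x - c • (1 : Mat3)).PosSemidef) ∧
        ∀ x, x ∉ G0 → ∀ i, W t i x = w1 i x) ∧
      IsOpen V ∧ V ⊆ G0 ∧ HS.vol μ (G0 \ V) = 0 ∧
      (∀ x ∈ V, ∃ T : ℝ, ∃ N ∈ 𝓝 x, ∀ t, T ≤ t → ∀ y ∈ N, (∀ i, W t i y = W T i y) ∧
        HS.Qm μ (W t) y = c • (1 : Mat3)) ∧ W 1 = w1 ∧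
      ∀ ε : ℝ, 0 < ε → ∃ T : ℝ, ∀ s t, T ≤ s → T ≤ t → Dif C ε (W s) (W t) := by
  classical
  choose F KK UU hU hK hUK hKG hnull hvol hreach habove hcore using fun (n : ℕ)
    (s : {s : (Fin 3 → HS.Form X 2) × Set X // Above μ c s.1 s.2}) =>
      stageVB C (δ := (1 / 2) ^ n) (by positivity) hμ hfin hc s.2
  set S : ℕ → {s : (Fin 3 → HS.Form X 2) × Set X // Above μ c s.1 s.2} := fun n =>
    Nat.rec ⟨(w1, G0), hA⟩ (fun n s => ⟨(F n s, s.1.2 \ KK n s), habove n s⟩) n with hS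
  have S0 : S 0 = ⟨(w1, G0), hA⟩ := rfl
  have Ss : ∀ n, S (n + 1) = ⟨(F n (S n), (S n).1.2 \ KK n (S n)), habove n (S n)⟩ := fun n => rfl
  have Sw : ∀ n, (S (n + 1)).1.1 = F n (S n) := fun n => by rw [Ss]
  have SG : ∀ n, (S (n + 1)).1.2 = (S n).1.2 \ KK n (S n) := fun n => by rw [Ss]
  set a : ℕ → Fin 3 → HS.Form X 2 := fun n => Nat.casesOn n w fun k => (S k).1.1 with ha
  set PP : ℕ → (Fin 3 → HS.Form X 2) → Prop := fun n =>
    Nat.casesOn n P fun k => PVB C (2 * (1 / 2) ^ k) μ c (S k).1.1 (S k).1.2 with hPP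
  have hreach' : ∀ n, Reach μ (PP n) (a n) (a (n + 1)) := by
    intro n
    cases n with
    | zero => exact hR
    | succ k =>
      show Reach μ (PVB C (2 * (1 / 2) ^ k) μ c (S k).1.1 (S k).1.2) (S k).1.1 (S (k + 1)).1.1
      rw [Sw]
      exact hreach k (S k)
  obtain ⟨W, hW, hWn, hWP⟩ := concat hreach'
  have hPV : ∀ (k : ℕ) (t : ℝ), t ∈ Icc ((k + 1 : ℕ) : ℝ) ((k + 1 : ℕ) + 1) →
      PVB C (2 * (1 / 2) ^ k) μ c (S k).1.1 (S k).1.2 (W t) := fun k t ht => hWP (k + 1) t ht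
  have hfl : ∀ (n : ℕ) (t : ℝ), ((n + 1 : ℕ) : ℝ) ≤ t → ∃ k, n ≤ k ∧
      t ∈ Icc ((k + 1 : ℕ) : ℝ) ((k + 1 : ℕ) + 1) := by
    intro n t ht
    have h1 : n + 1 ≤ ⌊t⌋₊ := Nat.le_floor ht
    obtain ⟨k, hk⟩ : ∃ k, ⌊t⌋₊ = k + 1 := ⟨⌊t⌋₊ - 1, by omega⟩
    have ht0 : 0 ≤ t := (Nat.cast_nonneg _).trans ht
    exact ⟨k, by omega, by rw [← hk]; exact Nat.floor_le ht0, by
      rw [← hk]; exact (Nat.lt_floor_add_one t).le⟩
  -- the open sets decrease
  have hGanti : ∀ n k, n ≤ k → (S k).1.2 ⊆ (S n).1.2 := by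
    intro n k hnk
    induction k, hnk using Nat.le_induction with
    | base => exact subset_rfl
    | succ k _ ih => rw [SG]; exact sdiff_subset.trans ih
  -- values outside the open sets
  have hconst0 : ∀ n k, n ≤ k → ∀ y, y ∉ (S n).1.2 → ∀ i, (S k).1.1 i y = (S n).1.1 i y := by
    intro n k hnk y hy i
    induction k, hnk using Nat.le_induction with
    | base => rfl
    | succ k hk ih =>
      have h1 := (hreach k (S k)).prop
      rw [Sw, h1.1.2 y (fun h => hy (hGanti n k hk h)) i]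
      exact ih
  have hconstW : ∀ n (t : ℝ), ((n + 1 : ℕ) : ℝ) ≤ t → ∀ y, y ∉ (S n).1.2 → ∀ i,
      W t i y = (S n).1.1 i y := by
    intro n t ht y hy i
    obtain ⟨k, hnk, hk⟩ := hfl n t ht
    rw [(hPV k t hk).1.2 y (fun h => hy (hGanti n k hnk h)) i]
    exact hconst0 n k hnk y hy i
  have hoffG : ∀ n, ∀ y ∈ KK n (S n), y ∉ (S (n + 1)).1.2 := by
    intro n y hy hyk
    rw [SG] at hyk
    exact hyk.2 hy
  -- the primitives
  have hdif : ∀ n k, n ≤ k →
      Dif C (4 * (1 / 2) ^ n - 4 * (1 / 2) ^ k) (S n).1.1 (S k).1.1 := by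
    intro n k hnk
    induction k, hnk using Nat.le_induction with
    | base => rw [sub_self]; exact Dif.refl C _
    | succ k hk ih =>
      have h1 : Dif C (2 * (1 / 2) ^ k) (S k).1.1 (S (k + 1)).1.1 := by
        rw [Sw]; exact (hreach k (S k)).prop.2
      refine (ih.trans h1).mono (le_of_eq ?_)
      rw [pow_succ]; ring
  have hdifW : ∀ n (t : ℝ), ((n + 1 : ℕ) : ℝ) ≤ t → Dif C (4 * (1 / 2) ^ n) (S n).1.1 (W t) := by
    intro n t ht
    obtain ⟨k, hnk, hk⟩ := hfl n t ht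
    have h1 : Dif C (2 * (1 / 2) ^ k) (S k).1.1 (W t) := (hPV k t hk).2
    refine ((hdif n k hnk).trans h1).mono ?_
    have : (0 : ℝ) < (1 / 2) ^ k := by positivity
    linarith
  set V : Set X := ⋃ n, UU n (S n) with hV
  refine ⟨W, V, hW, fun t ht => ?_, fun t ht => ⟨fun x => ?_, fun x hx i => ?_⟩,
    isOpen_iUnion fun n => hU n (S n), iUnion_subset fun n => ?_, ?_, fun x hx => ?_, ?_,
    fun ε hε => ?_⟩
  · exact hWP 0 t (by simpa using ht)
  · obtain ⟨k, -, hk⟩ := hfl 0 t (by simpa using ht)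
    exact (hPV k t hk).1.1 x
  · exact hconstW 0 t (by simpa using ht) x hx i
  · exact (hUK n (S n)).trans ((hKG n (S n)).trans (hGanti 0 n (Nat.zero_le n)))
  · set N : Set X := ⋃ n, (KK n (S n) \ UU n (S n)) with hN
    have hN0 : HS.vol μ N = 0 := measure_iUnion_null fun n => hnull n (S n)
    have hsub : ∀ n, G0 \ V ⊆ (S n).1.2 ∪ N := by
      intro n x hx
      by_cases hxN : x ∈ N
      · exact Or.inr hxN
      · left
        have h1 : ∀ k, x ∉ UU k (S k) := fun k h => hx.2 (mem_iUnion.2 ⟨k, h⟩)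
        have h2 : ∀ k, x ∉ KK k (S k) := fun k h => hxN (mem_iUnion.2 ⟨k, h, h1 k⟩)
        induction n with
        | zero => rw [S0]; exact hx.1
        | succ n ih => rw [SG]; exact ⟨ih, h2 n⟩
    have hdec : ∀ n, HS.vol μ (S n).1.2 ≤ ENNReal.ofReal (799 / 800) ^ n * HS.vol μ univ := by
      intro n
      induction n with
      | zero => rw [pow_zero, one_mul]; exact measure_mono (subset_univ _)
      | succ n ih =>
        rw [SG]
        calc HS.vol μ ((S n).1.2 \ KK n (S n)) ≤ HS.vol μ ((S n).1.2 \ UU n (S n)) :=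
              measure_mono (sdiff_subset_sdiff_right (hUK n (S n)))
          _ ≤ ENNReal.ofReal (799 / 800) * HS.vol μ (S n).1.2 := hvol n (S n)
          _ ≤ ENNReal.ofReal (799 / 800) * (ENNReal.ofReal (799 / 800) ^ n * HS.vol μ univ) := by
              gcongr
          _ = _ := by rw [pow_succ']; ring
    have hle : ∀ n, HS.vol μ (G0 \ V) ≤ ENNReal.ofReal (799 / 800) ^ n * HS.vol μ univ := by
      intro n
      calc _ ≤ HS.vol μ ((S n).1.2 ∪ N) := measure_mono (hsub n)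
        _ ≤ HS.vol μ (S n).1.2 + HS.vol μ N := measure_union_le _ _
        _ = HS.vol μ (S n).1.2 := by rw [hN0, add_zero]
        _ ≤ _ := hdec n
    have hlt : ENNReal.ofReal (799 / 800) < 1 := by
      rw [← ENNReal.ofReal_one]
      exact (ENNReal.ofReal_lt_ofReal_iff one_pos).2 (by norm_num)
    have hlim : Tendsto (fun n : ℕ => ENNReal.ofReal (799 / 800) ^ n * HS.vol μ univ) atTop
        (𝓝 0) := by
      have h1 := ENNReal.Tendsto.mul_const (ENNReal.tendsto_pow_atTop_nhds_zero_of_lt_one hlt)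
        (Or.inr hfin)
      rwa [zero_mul] at h1
    exact le_antisymm (ge_of_tendsto' hlim hle) zero_le
  · obtain ⟨n, hn⟩ := mem_iUnion.1 hx
    have hkey : ∀ t : ℝ, ((n + 2 : ℕ) : ℝ) ≤ t → ∀ y ∈ UU n (S n), ∀ i,
        W t i y = (S (n + 1)).1.1 i y := fun t ht y hy i =>
      hconstW (n + 1) t ht y (hoffG n y (hUK n (S n) hy)) i
    refine ⟨((n + 2 : ℕ) : ℝ), UU n (S n), (hU n (S n)).mem_nhds hn, fun t ht y hy =>
      ⟨fun i => ?_, ?_⟩⟩
    · rw [hkey t ht y hy i, hkey _ le_rfl y hy i]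
    · rw [Qm_congr_at (hkey t ht y hy), Sw]
      exact hcore n (S n) y (hUK n (S n) hy)
  · have h1 := hWn 1
    rw [Nat.cast_one] at h1
    exact h1
  · obtain ⟨n, hn⟩ := exists_pow_lt_of_lt_one (show 0 < ε / 8 by positivity)
      (show (1 / 2 : ℝ) < 1 by norm_num)
    refine ⟨((n + 1 : ℕ) : ℝ), fun s t hs ht => ?_⟩
    refine ((hdifW n s hs).symm.trans (hdifW n t ht)).mono ?_
    linarith

end

end Vale.Agent.P247.SCY
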