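import Vale.Agent.P247.SCY.FWD4
import Vale.Agent.P247.SCY.FE3

/-!
# P247, Theorem (V), the full version
-/

set_option linter.all false

open scoped BigOperators ContDiff Topology Manifold ENNReal
open Set MeasureTheory Metric Filter

namespace Vale.Agent.P247.SCY
open Vale.Agent.P204 Vale.Agent.P204.T4 Vale.Agent.P204.Mfd Vale.Agent.P204.GX

section
variable {X : Type} [TopologicalSpace X] [ChartedSpace E4 X] [IsManifold (𝓡 4) ∞ X]
  [CompactSpace X] [T2Space X] [Nonempty X] [MeasurableSpace X] [BorelSpace X]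

/-- the measure of a volume form is finite -/
theorem vol_finite {μ : HS.Form X 4} (hμ : HS.Volume μ) {w : Fin 3 → HS.Form X 2}
    (hw : HS.Hypersymplectic μ w) : HS.vol μ univ ≠ ⊤ := by
  refine (IsCompact.measure_lt_top_of_nhdsWithin isCompact_univ fun x _ => ?_).ne
  obtain ⟨p, hp, -⟩ := exists_adapted hw x
  have hemb := p.isOpenEmbedding
  have hnb : p.psi '' closedBall (0 : V4) 1 ∈ 𝓝 x := by
    rw [← hp]
    exact hemb.isOpenMap.image_mem_nhds (closedBall_mem_nhds _ one_pos)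
  refine ⟨p.psi '' closedBall (0 : V4) 1, mem_nhdsWithin_of_mem_nhds hnb, ?_⟩
  rw [vol_image hμ hw p isClosed_closedBall.measurableSet]
  have hc : Continuous fun y => |m4 p μ y| := (contDiff_m4 p hμ.smooth).continuous.abs
  obtain ⟨M, hM⟩ := (isCompact_closedBall (0 : V4) 1).exists_bound_of_continuousOn hc.continuousOn
  calc ∫⁻ y in closedBall (0 : V4) 1, ENNReal.ofReal |m4 p μ y|
      ≤ ∫⁻ y in closedBall (0 : V4) 1, ENNReal.ofReal M := by
        refine setLIntegral_mono' isClosed_closedBall.measurableSet fun y hy => ?_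
        have := hM y hy
        rw [Real.norm_eq_abs, abs_abs] at this
        exact ENNReal.ofReal_le_ofReal this
    _ = ENNReal.ofReal M * volume (closedBall (0 : V4) 1) := by
        rw [setLIntegral_const]
    _ < ⊤ := ENNReal.mul_lt_top ENNReal.ofReal_lt_top
        (isCompact_closedBall (0 : V4) 1).measure_lt_top

omit [IsManifold (𝓡 4) ∞ X] [Nonempty X] in
/-- a closed core of an open set -/
theorem exists_closed_core {ν : Measure X} [IsFiniteMeasure ν] {U1 : Set X} (hU : IsOpen U1)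
    {ε : ℝ≥0∞} (h : ν U1ᶜ < ε) :
    ∃ K : Set X, IsClosed K ∧ K ⊆ U1 ∧ ν (interior K)ᶜ < ε ∧ ν (K \ interior K) = 0 := by
  haveI : SecondCountableTopology X := ChartedSpace.secondCountable_of_sigmaCompact E4 X
  letI : MetricSpace X := TopologicalSpace.metrizableSpaceMetric X
  set F : Set X := U1ᶜ with hF
  have hFc : IsClosed F := hU.isClosed_compl
  have h1 : ∀ᶠ δ in 𝓝 (0 : ℝ), ν (cthickening δ F) < ε :=
    (tendsto_measure_cthickening_of_isClosed ⟨1, one_pos, measure_ne_top _ _⟩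
      hFc).eventually_lt_const h
  obtain ⟨r, hr, hr'⟩ := Metric.eventually_nhds_iff.1 h1
  have hcount : Set.Countable {t : ℝ | 0 < ν {x : X | infDist x F = t}} :=
    Measure.countable_meas_level_set_pos (measurable_infDist)
  obtain ⟨δ, hδ, hδ0⟩ := (hcount.dense_compl ℝ).exists_mem_open isOpen_Ioo
    (nonempty_Ioo.2 (show (0 : ℝ) < r from hr))
  have hlev : ν {x : X | infDist x F = δ} = 0 := by
    by_contra hne
    exact hδ (pos_iff_ne_zero.2 hne)
  have hct : ν (cthickening δ F) < ε := hr' (by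
    rw [Real.dist_eq, sub_zero, abs_of_pos hδ0.1]; exact hδ0.2)
  set K : Set X := {x | ENNReal.ofReal δ ≤ infEDist x F} with hK
  have hKc : IsClosed K := isClosed_le continuous_const continuous_infEDist
  have hopen : IsOpen {x | ENNReal.ofReal δ < infEDist x F} :=
    isOpen_lt continuous_const continuous_infEDist
  have hint : {x | ENNReal.ofReal δ < infEDist x F} ⊆ interior K :=
    interior_maximal (fun x hx => by
      have h3 : ENNReal.ofReal δ < infEDist x F := hx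
      exact h3.le) hopen
  refine ⟨K, hKc, fun x hx => ?_, ?_, ?_⟩
  · by_contra hxU
    have h2 : infEDist x F = 0 := infEDist_zero_of_mem hxU
    have h3 : ENNReal.ofReal δ ≤ infEDist x F := hx
    rw [h2] at h3
    exact absurd h3 (not_le.2 (ENNReal.ofReal_pos.2 hδ0.1))
  · refine (measure_mono fun x hx => ?_).trans_lt hct
    rw [mem_cthickening_iff]
    by_contra hcon
    exact hx (hint (not_le.1 hcon))
  · refine measure_mono_null (fun x hx => ?_) hlev
    have h2 : ¬ ENNReal.ofReal δ < infEDist x F := fun h => hx.2 (hint h)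
    have h3 : infEDist x F = ENNReal.ofReal δ := le_antisymm (not_lt.1 h2) hx.1
    show infDist x F = δ
    rw [infDist, h3, ENNReal.toReal_ofReal hδ0.1.le]

omit [IsManifold (𝓡 4) ∞ X] [CompactSpace X] [T2Space X] [Nonempty X] [MeasurableSpace X]
  [BorelSpace X] in
theorem posDef_of_diag {μ : HS.Form X 4} {w : Fin 3 → HS.Form X 2} {c : ℝ} {x : X}
    (h0 : ∀ i j, i ≠ j → HS.Qm μ w x i j = 0) (h1 : ∀ i, c < HS.Qm μ w x i i) :
    (HS.Qm μ w x - c • (1 : Mat3)).PosDef := by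
  have h2 : HS.Qm μ w x - c • (1 : Mat3) = Matrix.diagonal fun i => HS.Qm μ w x i i - c := by
    ext i j
    rw [Matrix.sub_apply, Matrix.smul_apply, Matrix.one_apply, Matrix.diagonal_apply, smul_eq_mul]
    rcases eq_or_ne i j with rfl | hij
    · rw [if_pos rfl, if_pos rfl, mul_one]
    · rw [if_neg hij, if_neg hij, h0 i j hij, mul_zero, sub_zero]
  rw [h2]
  exact Matrix.PosDef.diagonal fun i => sub_pos.2 (h1 i)

/-- **Theorem (V0)**, for all closed manifolds, with convergence of the primitives. -/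
theorem finalV0' (C : CCov X) {μ : HS.Form X 4} (hμ : HS.Volume μ) {w : Fin 3 → HS.Form X 2}
    (hw : HS.Hypersymplectic μ w) {c : ℝ} (hc : 0 < c)
    (h : ∀ x, (HS.Qm μ w x - c • (1 : Mat3)).PosDef) :
    ∃ (W : ℝ → Fin 3 → HS.Form X 2) (V : Set X), LongDef μ w W ∧
      (∀ t : ℝ, 0 ≤ t → ∀ x, (HS.Qm μ (W t) x - c • (1 : Mat3)).PosSemidef) ∧
      IsOpen V ∧ HS.vol μ Vᶜ = 0 ∧
      (∀ x ∈ V, ∃ T : ℝ, ∃ N ∈ 𝓝 x, ∀ t, T ≤ t → ∀ y ∈ N, (∀ i, W t i y = W T i y) ∧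
        HS.Qm μ (W t) y = c • (1 : Mat3)) ∧
      ∀ ε : ℝ, 0 < ε → ∃ T : ℝ, ∀ s t, T ≤ s → T ≤ t → Dif C ε (W s) (W t) := by
  obtain ⟨W, V, h1, h2, h3, h4, -, h5, h6, -, h7⟩ := iterG C hμ (vol_finite hμ hw) hc
    (P := fun v => ∀ x, (HS.Qm μ v x - c • (1 : Mat3)).PosSemidef)
    (reach_refl hw fun x => (h x).posSemidef) (G0 := univ)
    ⟨hw, isOpen_univ, fun x => (h x).posSemidef, fun x _ => h x⟩
  refine ⟨W, V, h1, fun t ht => ?_, h4, ?_, h6, h7⟩
  · rcases le_total t 1 with h8 | h8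
    · exact h2 t ⟨ht, h8⟩
    · exact (h3 t h8).1
  · rwa [compl_eq_univ_diff]

/-- **Theorem (V)**, full version. -/
theorem finalVfull (soft : SoftStatement') (softK : SoftKStatement) (hcl : ClosedExStatement)
    (C : CCov X) {μ : HS.Form X 4} (hμ : HS.Volume μ) (hvol : HS.vol μ univ = 1 / 2)
    (hb : HS.BPlusLe3 μ) {w : Fin 3 → HS.Form X 2} (hw : HS.Hypersymplectic μ w)
    (hn : HS.Normalized μ w) {ε : ℝ} (hε : 0 < ε) (hε1 : ε < 1) :
    ∃ (W : ℝ → Fin 3 → HS.Form X 2) (U V : Set X), LongDef μ w W ∧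
      ((∀ x i j, i ≠ j → HS.Qm μ (W 1) x i j = 0) ∧
        (∀ x i, 1 - ε < HS.Qm μ (W 1) x i i) ∧
        (∀ x i j, i ≤ j → (1 - ε) * HS.Qm μ (W 1) x i i < HS.Qm μ (W 1) x j j) ∧
        ∀ i, ∫ x, |HS.Qm μ (W 1) x i i - 1| ∂(HS.vol μ) < ε) ∧
      (∀ t : ℝ, 1 ≤ t → (∀ x, (HS.Qm μ (W t) x - (1 - ε) • (1 : Mat3)).PosSemidef) ∧
        ∀ i j, ∫ x, |(HS.Qm μ (W t) x - 1) i j| ∂(HS.vol μ) ≤ ε) ∧
      IsOpen U ∧ IsOpen V ∧ U ⊆ V ∧ IsOpen (V \ U) ∧ HS.vol μ Uᶜ < ENNReal.ofReal ε ∧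
      HS.vol μ Vᶜ = 0 ∧
      (∀ x ∈ U, ∀ t : ℝ, 1 ≤ t → (∀ i, W t i x = W 1 i x) ∧ HS.Qm μ (W t) x = 1) ∧
      (∀ x ∈ V, x ∉ U → ∃ T : ℝ, ∃ N ∈ 𝓝 x, ∀ t, T ≤ t → ∀ y ∈ N, (∀ i, W t i y = W T i y) ∧
        HS.Qm μ (W t) y = (1 - ε) • (1 : Mat3)) ∧
      ∀ δ : ℝ, 0 < δ → ∃ T : ℝ, ∀ s t, T ≤ s → T ≤ t → Dif C δ (W s) (W t) := by
  have hfin : HS.vol μ univ ≠ ⊤ := by rw [hvol]; simp
  haveI : IsFiniteMeasure (HS.vol μ) := ⟨lt_of_le_of_ne le_top hfin⟩
  obtain ⟨W0, hW0, a1, a2, a3, a4, U1, hU1, hvU1, a5⟩ :=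
    finalOF soft softK hcl hμ hvol hb hw hn hε
  obtain ⟨K, hK, hKU, hK1, hK2⟩ := exists_closed_core (ν := HS.vol μ) hU1 hvU1
  have hc : 0 < 1 - ε := by linarith
  obtain ⟨W, V, h1, -, h3, h4, h5, h6, h7, h8, h9⟩ := iterG C hμ hfin hc
    (P := fun v => True) (w := w) (w1 := W0 1) ⟨W0, hW0, rfl, fun _ _ => trivial⟩ (G0 := Kᶜ)
    ⟨hW0.hyper 1 (by simp), hK.isOpen_compl,
      fun x => (posDef_of_diag (a1 x) (a3 x)).posSemidef,
      fun x _ => posDef_of_diag (a1 x) (a3 x)⟩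
  refine ⟨W, interior K, V ∪ interior K, h1, ?_, fun t ht => ⟨(h3 t ht).1, fun i j => ?_⟩,
    isOpen_interior, h4.union isOpen_interior, subset_union_right, ?_, hK1, ?_,
    fun x hx t ht => ⟨fun i => ?_, ?_⟩, fun x hx hxU => ?_, h9⟩
  · rw [h8]
    exact ⟨a1, a3, a2, a4⟩
  · have ht0 : 0 ≤ t := by linarith
    have h10 := above_L1 hμ hvol (h1.hyper t ht0)
      (normalized_of_exact hμ hfin hw hn (h1.hyper t ht0) (h1.exact t))
      (show 1 - ε ≤ 1 by linarith) (h3 t ht).1 i j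
    rwa [sub_sub_cancel] at h10
  · have h10 : (V ∪ interior K) \ interior K = V := by
      rw [union_diff_right]
      exact sdiff_eq_left.2 (disjoint_left.2 fun x hx hxK => h5 hx (interior_subset hxK))
    rw [h10]
    exact h4
  · refine measure_mono_null (t := (Kᶜ \ V) ∪ (K \ interior K)) (fun x hx => ?_)
      (measure_union_null h6 hK2)
    by_cases hxK : x ∈ K
    · exact Or.inr ⟨hxK, fun h => hx (Or.inr h)⟩
    · exact Or.inl ⟨hxK, fun h => hx (Or.inl h)⟩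
  · rw [h8]
    exact (h3 t ht).2 x (fun h => h (interior_subset hx)) i
  · have h10 : ∀ i, W t i x = W0 1 i x :=
      (h3 t ht).2 x (fun h => h (interior_subset hx))
    rw [Qm_congr_at h10]
    exact a5 x (hKU (interior_subset hx))
  · rcases hx with hx | hx
    · exact h7 x hx
    · exact absurd hx hxU

end

end Vale.Agent.P247.SCY
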