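import Vale.Agent.P247.SCY.FWD5

/-!
# P247, Theorem (V): the limit triple
-/

set_option linter.all false

open scoped BigOperators ContDiff Topology Manifold ENNReal
open Set MeasureTheory Metric Filter

namespace Vale.Agent.P247.SCY
open Vale.Agent.P204 Vale.Agent.P204.T4 Vale.Agent.P204.Mfd Vale.Agent.P204.GX

section
variable {X : Type} [TopologicalSpace X] [ChartedSpace E4 X]

/-- the limit of locally eventually constant triples -/
theorem exists_limit {W : ℝ → Fin 3 → HS.Form X 2} {V : Set X} (hV : IsOpen V)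
    (h : ∀ x ∈ V, ∃ T : ℝ, ∃ N ∈ 𝓝 x, ∀ t, T ≤ t → ∀ y ∈ N, ∀ i, W t i y = W T i y) :
    ∃ Ω : Fin 3 → HS.Form X 2, ∀ x ∈ V, ∃ T : ℝ, ∃ N ∈ 𝓝 x, ∀ t, T ≤ t → ∀ y ∈ N, ∀ i,
      W t i y = Ω i y := by
  classical
  choose! T N hN hT using h
  refine ⟨fun i x => W (T x) i x, fun x hx => ⟨T x, N x ∩ V, inter_mem (hN x hx)
    (hV.mem_nhds hx), fun t ht y hy i => ?_⟩⟩
  show W t i y = W (T y) i y
  have h1 := hT x hx t ht y hy.1 i
  have h2 := hT x hx (max (T x) (T y)) (le_max_left _ _) y hy.1 i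
  have h3 := hT y hy.2 (max (T x) (T y)) (le_max_right _ _) y (mem_of_mem_nhds (hN y hy.2)) i
  rw [h1, ← h2, h3]

end

end Vale.Agent.P247.SCY
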