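import Vale.Agent.P247.SCY.FG4
import Mathlib.Geometry.Manifold.PartitionOfUnity

/-!
# P247: exact forms pair to zero with closed forms
-/

set_option linter.all false

open scoped BigOperators ContDiff Topology Manifold ENNReal
open Set MeasureTheory Metric Filter

namespace Vale.Agent.P247.SCY
open Vale.Agent.P204 Vale.Agent.P204.T4 Vale.Agent.P204.Mfd Vale.Agent.P204.GX

section
variable {X : Type} [TopologicalSpace X] [ChartedSpace E4 X] [IsManifold (𝓡 4) ∞ X]

/-- the coefficients of a one-form in a parametrisation -/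
noncomputable def cp1 (p : Par X) (η : HS.Form X 1) (y : V4) : V4 := fun i =>
  ax1 η (p.psi y) (fun _ => p.dpsi y (eb i))

theorem one_lin (a : E4 [⋀^Fin 1]→L[ℝ] ℝ) : ∃ f : E4 →ₗ[ℝ] ℝ, ∀ w, a (fun _ => w) = f w := by
  refine ⟨a.toAlternatingMap.toMultilinearMap.toLinearMap (fun _ => 0) 0, fun w => ?_⟩
  show a (fun _ => w) = a (Function.update (fun _ => 0) 0 w)
  congr 1
  funext k
  rw [Subsingleton.elim k 0, Function.update_self]

theorem one_expand (a : E4 [⋀^Fin 1]→L[ℝ] ℝ) (w : E4) :
    a (fun _ => w) = ∑ j, w j * a (fun _ => HS.bas j) := by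
  obtain ⟨f, hf⟩ := one_lin a
  rw [hf]
  have e : w = ∑ j, w j • HS.bas j := by
    ext k
    simp [HS.bas, Pi.single_apply]
  conv_lhs => rw [e]
  rw [map_sum]
  refine Finset.sum_congr rfl fun j _ => ?_
  rw [map_smul, hf, smul_eq_mul]

theorem cp1_smooth (p : Par X) {η : HS.Form X 1} (h : HS.Smooth η) : ContDiff ℝ ∞ (cp1 p η) := by
  rw [contDiff_pi]
  intro i
  have e : (fun y => cp1 p η y i) = fun y => ∑ j, (fderiv ℝ p.g y (eb i)) j *
      (HS.loc p.e η (p.g y)) (fun _ => HS.bas j) := by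
    funext y
    rw [← one_expand]
    show ax1 η (p.psi y) (fun _ => p.dpsi y (eb i)) = _
    rw [Par.dpsi_eq]
    rfl
  rw [e]
  have h1 : ContDiff ℝ ∞ fun y => HS.loc p.e η (p.g y) := by
    rw [contDiff_iff_contDiffAt]
    intro y
    exact ((h p.e p.he _ (p.g_mem y)).contDiffAt (p.e.open_target.mem_nhds (p.g_mem y))).comp y
      p.g_smooth.contDiffAt
  have h2 : ContDiff ℝ ∞ fun y => fderiv ℝ p.g y (eb i) :=
    (p.g_smooth.fderiv_right (m := ∞) (by simp)).clm_apply contDiff_const
  refine ContDiff.sum fun j _ => ContDiff.mul ?_ ?_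
  · exact (EuclideanSpace.proj (𝕜 := ℝ) j).contDiff.comp h2
  · exact (ContinuousAlternatingMap.apply ℝ E4 ℝ (fun _ => HS.bas j)).contDiff.comp h1

/-- a one-form multiplied by a function supported in the range of a parametrisation -/
theorem E1_cp1 (p : Par X) (η : HS.Form X 1) (f : X → ℝ) (hf : ∀ x, x ∉ range p.psi → f x = 0)
    (x : X) : ax1 (E1 p fun y => f (p.psi y) • cp1 p η y) x = f x • ax1 η x := by
  by_cases hx : x ∈ range p.psi
  · rw [E1_of_mem p _ hx]
    obtain ⟨y, rfl⟩ := hx
    rw [p.inv_psi]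
    ext v
    rw [ContinuousAlternatingMap.compContinuousLinearMap_apply, one1_apply,
      ContinuousAlternatingMap.smul_apply]
    show dp (f (p.psi y) • cp1 p η y) (p.dinv (p.psi y) (v 0)) = _
    set u := p.dinv (p.psi y) (v 0) with hu
    have e1 : v = fun _ => p.dpsi y u := by
      funext k
      rw [Subsingleton.elim k 0, hu, p.dpsi_dinv]
    have e2 : ax1 η (p.psi y) v = dp (cp1 p η y) u := by
      obtain ⟨g, hg⟩ := one_lin (ax1 η (p.psi y))
      rw [e1, hg]
      have e3 : u = ∑ j, u j • eb j := by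
        funext k
        simp [eb, Pi.single_apply]
      conv_lhs => rw [e3]
      rw [map_sum, map_sum]
      unfold dp
      refine Finset.sum_congr rfl fun j _ => ?_
      rw [map_smul, map_smul, smul_eq_mul, mul_comm]
      congr 1
      exact (hg _).symm
    rw [e2]
    unfold dp
    rw [smul_eq_mul, Finset.mul_sum]
    refine Finset.sum_congr rfl fun j _ => ?_
    rw [Pi.smul_apply, smul_eq_mul, mul_assoc]
  · have h1 : x ∉ p.psi '' tsupport (fun y => f (p.psi y) • cp1 p η y) := fun h =>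
      hx (image_subset_range _ _ h)
    rw [E1_of_notMem p _ h1, hf x hx, zero_smul]

end

theorem loc_sum {X : Type} [TopologicalSpace X] [ChartedSpace E4 X] {k n : ℕ}
    (e : OpenPartialHomeomorph X E4) (α : Fin n → HS.Form X k) (s : Finset (Fin n)) :
    HS.loc e (fun x => ∑ a ∈ s, α a x) = fun y => ∑ a ∈ s, HS.loc e (α a) y := by
  classical
  induction s using Finset.induction_on with
  | empty =>
    funext y
    simp only [Finset.sum_empty]
    ext v; rfl
  | insert a s ha ih =>
    simp only [Finset.sum_insert ha]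
    rw [loc_add' e (α a) (fun x => ∑ a ∈ s, α a x), ih]

section
variable {X : Type} [TopologicalSpace X] [ChartedSpace E4 X] [IsManifold (𝓡 4) ∞ X]
  [CompactSpace X] [T2Space X]

/-- an exact form is a finite sum of extensions by zero of exact forms of parametrisations -/
theorem exact_decomp {n : ℕ} (P : Fin n → Par X) (hcov : ∀ x, ∃ a, x ∈ range (P a).psi)
    {θ : HS.Form X 2} (h : HS.Exact θ) : ∃ ζ : Fin n → V4 → V4, (∀ a, ContDiff ℝ ∞ (ζ a)) ∧
      (∀ a, HasCompactSupport (ζ a)) ∧ ∀ e ∈ atlas E4 X, ∀ z ∈ e.target,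
        HS.loc e θ z = ∑ a, HS.loc e (E2 (P a) (d1 (ζ a))) z := by
  classical
  obtain ⟨η, sη, hη⟩ := h
  obtain ⟨f, hf⟩ := SmoothPartitionOfUnity.exists_isSubordinate (𝓡 4) (isClosed_univ (X := X))
    (fun a => range (P a).psi) (fun a => (P a).isOpen_range) (fun x _ => by
      obtain ⟨a, ha⟩ := hcov x
      exact mem_iUnion.2 ⟨a, ha⟩)
  have hf0 : ∀ a x, x ∉ range (P a).psi → f a x = 0 := by
    intro a x hx
    by_contra hne
    exact hx (hf a (subset_tsupport _ hne))
  set ζ : Fin n → V4 → V4 := fun a y => f a ((P a).psi y) • cp1 (P a) η y with hζ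
  have hfs : ∀ a, ContDiff ℝ ∞ fun y => f a ((P a).psi y) := by
    intro a
    rw [← contMDiff_iff_contDiff]
    exact (f a).contMDiff.comp (P a).contMDiff_psi
  have hζs : ∀ a, ContDiff ℝ ∞ (ζ a) := fun a => (hfs a).smul (cp1_smooth (P a) sη)
  have hζc : ∀ a, HasCompactSupport (ζ a) := by
    intro a
    have h1 : IsCompact ((P a).psi ⁻¹' tsupport (f a)) :=
      ((P a).isOpenEmbedding.isInducing.isCompact_preimage_iff (hf a)).2
        (isClosed_tsupport _).isCompact
    refine HasCompactSupport.intro h1 fun y hy => ?_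
    have h2 : f a ((P a).psi y) = 0 := by
      by_contra hne
      exact hy (subset_tsupport _ hne)
    show f a ((P a).psi y) • cp1 (P a) η y = 0
    rw [h2, zero_smul]
  have hsum : ∀ x, ∑ a, ax1 (E1 (P a) (ζ a)) x = ax1 η x := by
    intro x
    have h1 : ∑ a, f a x = 1 := by
      have := f.sum_eq_one (mem_univ x)
      rwa [finsum_eq_sum_of_fintype] at this
    calc ∑ a, ax1 (E1 (P a) (ζ a)) x = ∑ a, f a x • ax1 η x :=
          Finset.sum_congr rfl fun a _ => E1_cp1 (P a) η (f a) (hf0 a) x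
      _ = ax1 η x := by rw [← Finset.sum_smul, h1, one_smul]
  refine ⟨ζ, hζs, hζc, fun e he z hz => ?_⟩
  have h1 : HS.loc e η = fun y => ∑ a, HS.loc e (E1 (P a) (ζ a)) y := by
    have h2 := loc_sum e (fun a => E1 (P a) (ζ a)) Finset.univ
    rw [← h2]
    congr 1
    funext x
    exact (hsum x).symm
  rw [← hη e he z hz, h1]
  have hd : ∀ a, DifferentiableAt ℝ (HS.loc e (E1 (P a) (ζ a))) z := fun a =>
    ((E1_smooth (P a) (hζs a) (hζc a) e he z hz).contDiffAt
      (e.open_target.mem_nhds hz)).differentiableAt (by simp)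
  have h3 : extDeriv (fun y => ∑ a, HS.loc e (E1 (P a) (ζ a)) y) z =
      ∑ a, extDeriv (HS.loc e (E1 (P a) (ζ a))) z := by
    have key : ∀ s : Finset (Fin n), DifferentiableAt ℝ
          (fun y => ∑ a ∈ s, HS.loc e (E1 (P a) (ζ a)) y) z ∧
        extDeriv (fun y => ∑ a ∈ s, HS.loc e (E1 (P a) (ζ a)) y) z =
        ∑ a ∈ s, extDeriv (HS.loc e (E1 (P a) (ζ a))) z := by
      intro s
      induction s using Finset.induction_on with
      | empty =>
        simp only [Finset.sum_empty]
        exact ⟨differentiableAt_const _, extDeriv_zero1 z⟩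
      | insert a s ha ih =>
        simp only [Finset.sum_insert ha]
        refine ⟨(hd a).add ih.1, ?_⟩
        rw [extDeriv_fun_add (hd a) ih.1, ih.2]
    exact (key Finset.univ).2
  rw [h3]
  exact Finset.sum_congr rfl fun a _ => loc_E2_d1 (P a) (hζs a) (hζc a) he hz

end

end Vale.Agent.P247.SCY
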