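import Vale.Agent.P247.SCY.Ineq

/-!
# P247, soft Calabi-Yau: the two Hahn-Banach arguments
-/

set_option linter.all false

open MeasureTheory Set Metric Filter Topology
open scoped ContDiff ENNReal NNReal BigOperators InnerProductSpace Topology

namespace Vale.Agent.P247.SCY
open Vale.Agent.P204 Vale.Agent.P204.T4 Vale.Agent.P204.GX _root_.P204.GX

/-- Riesz extension for a functional given on the range of a linear map. -/
theorem riesz_range {V E : Type*} [AddCommGroup V] [Module ℝ V] [AddCommGroup E] [Module ℝ E]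
    (Φ : V →ₗ[ℝ] E) (F : V →ₗ[ℝ] ℝ) (s : ConvexCone ℝ E) (h0 : (0 : E) ∈ s)
    (hpos : ∀ v, Φ v ∈ s → 0 ≤ F v) (hd : ∀ y, ∃ v, Φ v + y ∈ s) :
    ∃ g : E →ₗ[ℝ] ℝ, (∀ v, g (Φ v) = F v) ∧ ∀ x ∈ s, 0 ≤ g x := by
  have hker : ∀ v, Φ v = 0 → F v = 0 := by
    intro v hv
    have h1 := hpos v (by rw [hv]; exact h0)
    have h2 := hpos (-v) (by rw [map_neg, hv, neg_zero]; exact h0)
    rw [map_neg] at h2
    linarith
  obtain ⟨r, hr⟩ := Φ.rangeRestrict.exists_rightInverse_of_surjective Φ.range_rangeRestrict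
  have hr' : ∀ x : LinearMap.range Φ, Φ (r x) = x := by
    intro x
    have := LinearMap.congr_fun hr x
    exact congrArg Subtype.val this
  have hF : ∀ v, F (r (Φ.rangeRestrict v)) = F v := by
    intro v
    have h1 : Φ (r (Φ.rangeRestrict v) - v) = 0 := by
      rw [map_sub, hr']
      show Φ v - Φ v = 0
      rw [sub_self]
    have h2 := hker _ h1
    rw [map_sub] at h2
    linarith
  let f : E →ₗ.[ℝ] ℝ := ⟨LinearMap.range Φ, F ∘ₗ r⟩
  obtain ⟨g, hg1, hg2⟩ := riesz_extension (s.toPointedCone h0) f (by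
    rintro ⟨x, hx⟩ hxs
    obtain ⟨v, rfl⟩ := hx
    have : f ⟨Φ v, ⟨v, rfl⟩⟩ = F v := hF v
    rw [this]
    exact hpos v (ConvexCone.mem_toPointedCone h0 _ |>.1 hxs)) (by
    intro y
    obtain ⟨v, hv⟩ := hd y
    exact ⟨⟨Φ v, ⟨v, rfl⟩⟩, hv⟩)
  refine ⟨g, fun v => ?_, hg2⟩
  have h1 := hg1 ⟨Φ v, ⟨v, rfl⟩⟩
  have h2 : f ⟨Φ v, ⟨v, rfl⟩⟩ = F v := hF v
  rw [← h2, ← h1]

section
variable {X : Type} [MetricSpace X] [CompactSpace X] [MeasurableSpace X] [BorelSpace X]
variable {M : CM X}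

theorem Vol_congr {σ : X → ℝ} {u v : X → L2} (h : ∀ x, pP J0 (u x) = pP J0 (v x)) :
    Vol M σ u = Vol M σ v := by
  unfold Vol; simp only [h]

theorem exists_unit_PC (u : M.C0) : ∃ t : ℝ, 0 ≤ t ∧ ∀ s, t ≤ s → ∀ x, PC (s • F0 + (u : X → L2) x) := by
  obtain ⟨t, ht⟩ := M.unitC u
  refine ⟨max t 0, le_max_right _ _, fun s hs x => ?_⟩
  have h1 : PC (t • F0 + (u : X → L2) x) := (PC_iff _).2 (ht x)
  have h2 := PC_add h1 (PC_smul (sub_nonneg.2 ((le_max_left t 0).trans hs)) PC_F0)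
  have e : t • F0 + (u : X → L2) x + (s - t) • F0 = s • F0 + (u : X → L2) x := by module
  rwa [e] at h2

/-- The functional `R`: closed, of the class of `om`, bounded below by the volume functional. -/
theorem exists_R [Nonempty X] {wb wc : M.Om} {σ : X → ℝ} (H : Hyp M wb wc σ) :
    ∃ R : M.C0 →ₗ[ℝ] ℝ, (∀ u : M.C0, (∀ x, pP J0 ((u : X → L2) x) = 0) → R u = 0) ∧
      (∀ c ∈ M.Cl, R (M.toC0 c) = M.pr M.om (c : X → L2)) ∧
      (∀ u : M.C0, (∀ x, PC ((u : X → L2) x)) → Vol M σ (u : X → L2) ≤ R u) := by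
  have hσ0 : ∀ x, 0 ≤ σ x := fun x => (H.σp x).le
  let K : ConvexCone ℝ (M.C0 × ℝ) :=
    { carrier := {p | (∀ x, PC ((p.1 : X → L2) x)) ∧ p.2 ≤ Vol M σ (p.1 : X → L2)}
      smul_mem' := by
        rintro c hc ⟨u, s⟩ ⟨h1, h2⟩
        refine ⟨fun x => PC_smul (le_of_lt hc) (h1 x), ?_⟩
        show c * s ≤ Vol M σ (c • (u : X → L2))
        rw [Vol_smul hσ0 (le_of_lt hc)]
        exact mul_le_mul_of_nonneg_left h2 (le_of_lt hc)
      add_mem' := by
        rintro ⟨u, s⟩ ⟨h1, h2⟩ ⟨v, r⟩ ⟨h3, h4⟩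
        refine ⟨fun x => PC_add (h1 x) (h3 x), ?_⟩
        show s + r ≤ Vol M σ ((u : X → L2) + (v : X → L2))
        have := Vol_add H.σc hσ0 u.2 v.2 h1 h3
        exact (add_le_add h2 h4).trans this }
  let W : Submodule ℝ M.C0 := LinearMap.ker M.ppC
  let Φ : (M.Cl × W × ℝ) →ₗ[ℝ] (M.C0 × ℝ) :=
    { toFun := fun v => (M.toC0 (v.1 : M.Om) + (v.2.1 : M.C0), v.2.2)
      map_add' := by
        rintro ⟨a, b, c⟩ ⟨a', b', c'⟩
        simp only [Prod.mk_add_mk, Submodule.coe_add, map_add]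
        congr 1
        abel
      map_smul' := by
        rintro r ⟨a, b, c⟩
        simp only [Prod.smul_mk, Submodule.coe_smul, map_smul, RingHom.id_apply, smul_add] }
  let F : (M.Cl × W × ℝ) →ₗ[ℝ] ℝ :=
    { toFun := fun v => M.IC (M.toC0 M.omOm) (M.toC0 (v.1 : M.Om)) - v.2.2
      map_add' := by
        rintro ⟨a, b, c⟩ ⟨a', b', c'⟩
        simp only [Prod.mk_add_mk, Submodule.coe_add, map_add]
        ring
      map_smul' := by
        rintro r ⟨a, b, c⟩
        simp only [Prod.smul_mk, Submodule.coe_smul, map_smul, RingHom.id_apply, smul_eq_mul]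
        ring }
  have hW : ∀ w : W, ∀ x, pP J0 (((w : M.C0) : X → L2) x) = 0 := by
    intro w x
    have h1 : M.ppC (w : M.C0) = 0 := w.2
    have h2 := congrArg (fun z : M.C0 => (z : X → L2) x) h1
    exact h2
  have hsum : ∀ (c : M.Cl) (w : W) x, pP J0 (((M.toC0 (c : M.Om) + (w : M.C0) : M.C0) : X → L2) x) =
      pP J0 (((c : M.Om) : X → L2) x) := by
    intro c w x
    show pP J0 (((c : M.Om) : X → L2) x + ((w : M.C0) : X → L2) x) = _
    rw [FnSys.pP_add, hW, add_zero]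
  obtain ⟨g, hg1, hg2⟩ := riesz_range (V := M.Cl × W × ℝ) (E := M.C0 × ℝ) Φ F K (by
      refine ⟨fun x => PC_zero, ?_⟩
      exact Vol_nonneg _ _) (by
      rintro ⟨c, w, s⟩ ⟨h1, h2⟩
      have h3 : ∀ x, PC (((c : M.Om) : X → L2) x) := by
        intro x
        have h9 : Cone J0 (pP J0 (((M.toC0 (c : M.Om) + (w : M.C0) : M.C0) : X → L2) x)) := h1 x
        rw [hsum c w x] at h9
        exact h9
      have h4 := ineqI H c.2 h3
      have h5 : Vol M σ (((M.toC0 (c : M.Om) + (w : M.C0) : M.C0) : X → L2)) =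
          Vol M σ ((c : M.Om) : X → L2) := Vol_congr (hsum c w)
      have h6 : s ≤ Vol M σ (((M.toC0 (c : M.Om) + (w : M.C0) : M.C0) : X → L2)) := h2
      show 0 ≤ M.pr M.om ((c : M.Om) : X → L2) - s
      rw [h5] at h6
      linarith) (by
      rintro ⟨u, s⟩
      obtain ⟨t, ht, h⟩ := exists_unit_PC u
      refine ⟨(⟨t • M.omOm, M.Cl.smul_mem _ M.omOm_mem_Cl⟩, 0, -s), fun x => ?_, ?_⟩
      · have h1 := h t le_rfl x
        have e1 : (((Φ (⟨t • M.omOm, M.Cl.smul_mem _ M.omOm_mem_Cl⟩, 0, -s) + (u, s)).1 : M.C0) :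
            X → L2) x = t • M.om x + (u : X → L2) x := by
          show (t • M.om x + (0 : L2)) + (u : X → L2) x = _
          rw [add_zero]
        rw [e1]
        unfold PC at *
        rw [FnSys.pP_add, FnSys.pP_smul, M.om_pP]
        rw [FnSys.pP_add, FnSys.pP_smul, FnSys.pP_F0] at h1
        exact h1
      · show -s + s ≤ _
        rw [neg_add_cancel]
        exact Vol_nonneg _ _)
  refine ⟨g ∘ₗ LinearMap.inl ℝ M.C0 ℝ, fun u hu => ?_, fun c hc => ?_, fun u hu => ?_⟩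
  · have hu' : u ∈ W := by
      show M.ppC u = 0
      apply Subtype.ext
      funext x
      exact hu x
    have h1 := hg1 (0, ⟨u, hu'⟩, 0)
    have e1 : Φ (0, ⟨u, hu'⟩, 0) = (u, 0) := by
      show (M.toC0 (0 : M.Om) + u, (0 : ℝ)) = (u, 0)
      rw [map_zero, zero_add]
    have e2 : F (0, ⟨u, hu'⟩, 0) = 0 := by
      show M.IC (M.toC0 M.omOm) (M.toC0 (0 : M.Om)) - 0 = 0
      rw [map_zero, map_zero, sub_zero]
    rw [e1, e2] at h1
    exact h1
  · have h1 := hg1 (⟨c, hc⟩, 0, 0)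
    have e1 : Φ (⟨c, hc⟩, 0, 0) = (M.toC0 c, 0) := by
      show (M.toC0 c + (0 : M.C0), (0 : ℝ)) = (M.toC0 c, 0)
      rw [add_zero]
    have e2 : F (⟨c, hc⟩, 0, 0) = M.pr M.om (c : X → L2) := by
      show M.IC (M.toC0 M.omOm) (M.toC0 c) - 0 = _
      rw [sub_zero]; rfl
    rw [e1, e2] at h1
    exact h1
  · have h1 := hg2 (u, Vol M σ (u : X → L2)) ⟨hu, le_rfl⟩
    have h2 := hg1 (0, 0, Vol M σ (u : X → L2))
    have e1 : Φ (0, 0, Vol M σ (u : X → L2)) = (0, Vol M σ (u : X → L2)) := by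
      show (M.toC0 (0 : M.Om) + (0 : M.C0), Vol M σ (u : X → L2)) = _
      rw [map_zero, add_zero]
    have e2 : F (0, 0, Vol M σ (u : X → L2)) = - Vol M σ (u : X → L2) := by
      show M.IC (M.toC0 M.omOm) (M.toC0 (0 : M.Om)) - Vol M σ (u : X → L2) = _
      rw [map_zero, map_zero, zero_sub]
    rw [e1, e2] at h2
    have e3 : ((u, Vol M σ (u : X → L2)) : M.C0 × ℝ) = (u, 0) + (0, Vol M σ (u : X → L2)) := by
      simp
    rw [e3, map_add, h2] at h1
    show Vol M σ (u : X → L2) ≤ g (u, 0)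
    linarith

theorem posDef_of_cone_add {A : L2} (hA : Cone J0 A) {c : ℝ} (hc : 0 < c) :
    PosDef J0 (A + c • F0) := by
  refine ⟨(G7.cone_add hA (G7.cone_smul hc.le G9.cone_F0)).1, fun v hv => ?_⟩
  have h1 := hA.2 v
  have h2 : 0 < ev F0 v (app J0 v) := by
    have := (posDef_Fm isCx_J0).2 v hv
    rwa [G9.Fm_J0] at this
  rw [ev_add, ev_smul]
  have := mul_pos hc h2
  linarith

/-- The functional separating `om + Ex` from the good forms. -/
theorem exists_T [Nonempty X] {wb wc : M.Om} {σ : X → ℝ} (H : Hyp M wb wc σ) {ε η : ℝ}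
    (hε : 0 < ε) (hε1 : ε < 1) (hη : 0 < η)
    (hno : ¬ ∃ e ∈ M.Ex, (∀ x, PosDef J0 (pP J0 (M.om x + (e : X → L2) x))) ∧
        (∀ x, ‖pM J0 (M.om x + (e : X → L2) x)‖ < η) ∧
        (1 - ε) * M.pr M.om M.om < Vol M σ (fun x => M.om x + (e : X → L2) x)) :
    ∃ (T : M.C0 →ₗ[ℝ] ℝ) (l m : ℝ), 0 < l ∧ (∀ e ∈ M.Ex, T (M.toC0 e) = 0) ∧
      T (M.toC0 M.omOm) = m ∧ l * T (M.toC0 M.FOm) - m = 1 ∧
      ∀ (u : M.C0) (s : ℝ), (∀ x, PC ((u : X → L2) x)) →
        (1 - ε) * M.pr M.om M.om * s ≤ Vol M σ (u : X → L2) →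
        (∀ x, ‖pM J0 ((u : X → L2) x)‖ ≤ η * s) → m * s ≤ T u := by
  have hσ0 : ∀ x, 0 ≤ σ x := fun x => (H.σp x).le
  have hα := alpha_pos M
  set α := M.pr M.om M.om with hαd
  have hVF : 0 < Vol M σ (fun _ : X => F0) := Vol_F_pos H.σc H.σp
  set VF := Vol M σ (fun _ : X => F0) with hVFd
  have hεα : 0 < (1 - ε) * α := mul_pos (by linarith) hα
  set q := (1 - ε) * α with hq
  obtain ⟨l, hl0, hl⟩ : ∃ l : ℝ, 0 < l ∧ q < l * VF := by
    refine ⟨(q + 1) / VF, by positivity, ?_⟩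
    rw [div_mul_cancel₀ _ hVF.ne']; linarith
  have hVolF : ∀ c : ℝ, 0 ≤ c → Vol M σ (c • (fun _ : X => F0)) = c * VF := fun c hc =>
    Vol_smul hσ0 hc _
  let K : ConvexCone ℝ (M.C0 × ℝ) :=
    { carrier := {p | (∀ x, PC ((p.1 : X → L2) x)) ∧ q * p.2 ≤ Vol M σ (p.1 : X → L2) ∧
        ∀ x, ‖pM J0 ((p.1 : X → L2) x)‖ ≤ η * p.2}
      smul_mem' := by
        rintro c hc ⟨u, s⟩ ⟨h1, h2, h3⟩
        have hc' : 0 ≤ c := le_of_lt hc
        refine ⟨fun x => PC_smul hc' (h1 x), ?_, fun x => ?_⟩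
        · show q * (c * s) ≤ Vol M σ (c • (u : X → L2))
          rw [Vol_smul hσ0 hc']
          have := mul_le_mul_of_nonneg_left h2 hc'
          calc q * (c * s) = c * (q * s) := by ring
            _ ≤ _ := this
        · show ‖pM J0 (c • (u : X → L2) x)‖ ≤ η * (c * s)
          rw [Hil.pM_smul', norm_smul, Real.norm_eq_abs, abs_of_nonneg hc']
          have := mul_le_mul_of_nonneg_left (h3 x) hc'
          calc c * ‖pM J0 ((u : X → L2) x)‖ ≤ c * (η * s) := this
            _ = _ := by ring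
      add_mem' := by
        rintro ⟨u, s⟩ ⟨h1, h2, h5⟩ ⟨v, r⟩ ⟨h3, h4, h6⟩
        refine ⟨fun x => PC_add (h1 x) (h3 x), ?_, fun x => ?_⟩
        · show q * (s + r) ≤ Vol M σ ((u : X → L2) + (v : X → L2))
          have := Vol_add H.σc hσ0 u.2 v.2 h1 h3
          rw [mul_add]
          exact (add_le_add h2 h4).trans this
        · show ‖pM J0 ((u : X → L2) x + (v : X → L2) x)‖ ≤ η * (s + r)
          rw [Hil.pM_add', mul_add]
          exact (norm_add_le _ _).trans (add_le_add (h5 x) (h6 x)) }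
  let FC : M.C0 := M.toC0 M.FOm
  let Φ : (M.Ex × ℝ × ℝ) →ₗ[ℝ] (M.C0 × ℝ) :=
    { toFun := fun v => (M.toC0 (v.1 : M.Om) + v.2.1 • M.toC0 M.omOm + (v.2.2 * l) • FC, v.2.1 + v.2.2)
      map_add' := by
        rintro ⟨a, b, c⟩ ⟨a', b', c'⟩
        simp only [Prod.mk_add_mk, Submodule.coe_add, map_add]
        refine Prod.ext ?_ ?_
        · show _ = _ + _
          module
        · show _ = _ + _
          ring
      map_smul' := by
        rintro r ⟨a, b, c⟩
        simp only [Prod.smul_mk, Submodule.coe_smul, map_smul, RingHom.id_apply, smul_eq_mul]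
        refine Prod.ext ?_ ?_
        · show _ = r • _
          module
        · show _ = r * _
          ring }
  let F : (M.Ex × ℝ × ℝ) →ₗ[ℝ] ℝ :=
    { toFun := fun v => v.2.2
      map_add' := by rintro ⟨a, b, c⟩ ⟨a', b', c'⟩; rfl
      map_smul' := by rintro r ⟨a, b, c⟩; rfl }
  obtain ⟨x0⟩ := (inferInstance : Nonempty X)
  obtain ⟨g, hg1, hg2⟩ := riesz_range (V := M.Ex × ℝ × ℝ) (E := M.C0 × ℝ) Φ F K (by
      refine ⟨fun x => PC_zero, ?_, fun x => ?_⟩
      · show q * 0 ≤ _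
        rw [mul_zero]; exact Vol_nonneg _ _
      · show ‖pM J0 (0 : L2)‖ ≤ η * 0
        have : pM J0 (0 : L2) = 0 := by
          have := Hil.pM_smul' 0 (0 : L2)
          simpa using this
        rw [this]; simp) (by
      rintro ⟨e, τ, t⟩ ⟨h1, h2, h3⟩
      show 0 ≤ t
      by_contra hneg
      push Not at hneg
      apply hno
      set u : X → L2 := fun x => ((e : M.Om) : X → L2) x + τ • M.om x + (t * l) • F0 with hu
      have hu1 : ∀ x, PC (u x) := h1
      have hu2 : q * (τ + t) ≤ Vol M σ u := h2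
      have hu3 : ∀ x, ‖pM J0 (u x)‖ ≤ η * (τ + t) := h3
      have huC : u ∈ M.C0 := (M.toC0 (e : M.Om) + τ • M.toC0 M.omOm + (t * l) • FC).2
      have hτt : 0 ≤ τ + t := by
        have := (norm_nonneg _).trans (hu3 x0)
        by_contra hc
        push Not at hc
        have := mul_neg_of_pos_of_neg hη hc
        linarith
      have hτ : 0 < τ := by linarith
      have hτi : 0 < τ⁻¹ := inv_pos.2 hτ
      refine ⟨τ⁻¹ • (e : M.Om), M.Ex.smul_mem _ e.2, fun x => ?_, fun x => ?_, ?_⟩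
      · have e1 : M.om x + ((τ⁻¹ • (e : M.Om) : M.Om) : X → L2) x =
            τ⁻¹ • u x + (τ⁻¹ * (-t * l)) • F0 := by
          show M.om x + τ⁻¹ • ((e : M.Om) : X → L2) x = _
          rw [hu]
          simp only [smul_add, smul_smul]
          rw [inv_mul_cancel₀ hτ.ne', one_smul]
          module
        rw [e1, FnSys.pP_add, FnSys.pP_smul, FnSys.pP_smul, FnSys.pP_F0]
        exact posDef_of_cone_add (G7.cone_smul hτi.le (hu1 x))
          (mul_pos hτi (mul_pos (by linarith) hl0))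
      · have e1 : M.om x + ((τ⁻¹ • (e : M.Om) : M.Om) : X → L2) x =
            τ⁻¹ • u x + (τ⁻¹ * (-t * l)) • F0 := by
          show M.om x + τ⁻¹ • ((e : M.Om) : X → L2) x = _
          rw [hu]
          simp only [smul_add, smul_smul]
          rw [inv_mul_cancel₀ hτ.ne', one_smul]
          module
        rw [e1, Hil.pM_add', Hil.pM_smul', Hil.pM_smul', pM_of_inv G9.cone_F0.1, smul_zero, add_zero,
          norm_smul, Real.norm_eq_abs, abs_of_pos hτi]
        have h4 := mul_le_mul_of_nonneg_left (hu3 x) hτi.le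
        have h5 : τ⁻¹ * (η * (τ + t)) < η := by
          have : τ⁻¹ * (η * (τ + t)) = η + η * (τ⁻¹ * t) := by
            field_simp
          rw [this]
          have h6 : τ⁻¹ * t < 0 := mul_neg_of_pos_of_neg hτi hneg
          have := mul_neg_of_pos_of_neg hη h6
          linarith
        linarith
      · have e1 : (fun x => M.om x + ((τ⁻¹ • (e : M.Om) : M.Om) : X → L2) x) =
            τ⁻¹ • u + (τ⁻¹ * (-t * l)) • (fun _ : X => F0) := by
          funext x
          show M.om x + τ⁻¹ • ((e : M.Om) : X → L2) x = τ⁻¹ • u x + (τ⁻¹ * (-t * l)) • F0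
          rw [hu]
          simp only [smul_add, smul_smul]
          rw [inv_mul_cancel₀ hτ.ne', one_smul]
          module
        have hc : 0 < τ⁻¹ * (-t * l) := mul_pos hτi (mul_pos (by linarith) hl0)
        rw [e1]
        have h4 := Vol_add H.σc hσ0 (M.C0.smul_mem τ⁻¹ huC)
          (M.C0.smul_mem (τ⁻¹ * (-t * l)) (F_mem_C0 (M := M)))
          (fun x => PC_smul hτi.le (hu1 x)) (fun x => PC_smul hc.le PC_F0)
        rw [Vol_smul hσ0 hτi.le, hVolF _ hc.le] at h4
        refine lt_of_lt_of_le ?_ h4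
        have h5 := mul_le_mul_of_nonneg_left hu2 hτi.le
        have h6 : τ⁻¹ * (q * (τ + t)) = q + τ⁻¹ * (q * t) := by field_simp
        have h7 : 0 < τ⁻¹ * (-t) * (l * VF - q) :=
          mul_pos (mul_pos hτi (by linarith)) (by linarith)
        have h8 : τ⁻¹ * (-t) * (l * VF - q) = τ⁻¹ * (-t * l) * VF + τ⁻¹ * (q * t) := by ring
        rw [h6] at h5
        linarith) (by
      rintro ⟨u, s⟩
      obtain ⟨t0, ht0, h⟩ := exists_unit_PC u
      obtain ⟨B, hB⟩ := M.exists_norm_bound7 (u - M.ppC u : M.C0).2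
      have hB' : ∀ x, ‖pM J0 ((u : X → L2) x)‖ ≤ |B| := fun x => by
        have := hB x
        rw [M.sub_ppC_apply] at this
        exact this.trans (le_abs_self _)
      -- choose `t` large
      set t : ℝ := t0 / l + (|q * s| + t0 * VF) / (l * VF - q) + |B| / η + |s| with ht
      have hlq : 0 < l * VF - q := by linarith
      have a1 : 0 ≤ t0 / l := by positivity
      have a2 : 0 ≤ (|q * s| + t0 * VF) / (l * VF - q) := by positivity
      have a3 : 0 ≤ |B| / η := by positivity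
      have a4 := abs_nonneg s
      have b1 : t0 ≤ t * l := by
        have : t0 / l ≤ t := by rw [ht]; linarith
        rwa [div_le_iff₀ hl0] at this
      have b2 : |q * s| + t0 * VF ≤ t * (l * VF - q) := by
        have : (|q * s| + t0 * VF) / (l * VF - q) ≤ t := by rw [ht]; linarith
        rwa [div_le_iff₀ hlq] at this
      have b3 : |B| ≤ η * (s + t) := by
        have h1 : |B| / η ≤ s + t := by
          have := neg_abs_le s
          rw [ht]; linarith
        rw [div_le_iff₀ hη] at h1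
        linarith
      refine ⟨(0, 0, t), ?_, ?_, ?_⟩
      · intro x
        have e1 : (((Φ (0, 0, t) + (u, s)).1 : M.C0) : X → L2) x = (t * l) • F0 + (u : X → L2) x := by
          show ((0 : L2) + (0 : ℝ) • M.om x + (t * l) • F0) + (u : X → L2) x = _
          rw [zero_smul, zero_add, zero_add]
        rw [e1]
        exact h _ b1 x
      · have e1 : (((Φ (0, 0, t) + (u, s)).1 : M.C0) : X → L2) =
            (fun x => t0 • F0 + (u : X → L2) x) + (t * l - t0) • (fun _ : X => F0) := by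
          funext x
          show ((0 : L2) + (0 : ℝ) • M.om x + (t * l) • F0) + (u : X → L2) x =
            (t0 • F0 + (u : X → L2) x) + (t * l - t0) • F0
          module
        have e2 : (Φ (0, 0, t) + (u, s)).2 = t + s := by
          show (0 + t) + s = _
          rw [zero_add]
        show q * (Φ (0, 0, t) + (u, s)).2 ≤ Vol M σ ((Φ (0, 0, t) + (u, s)).1 : X → L2)
        rw [e1, e2]
        have hm : (fun x => t0 • F0 + (u : X → L2) x) ∈ M.C0 :=
          (t0 • FC + u : M.C0).2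
        have h4 := Vol_add H.σc hσ0 hm (M.C0.smul_mem (t * l - t0) (F_mem_C0 (M := M)))
          (fun x => h t0 le_rfl x) (fun x => PC_smul (by linarith) PC_F0)
        rw [hVolF _ (by linarith)] at h4
        refine le_trans ?_ h4
        have h5 : 0 ≤ Vol M σ (fun x => t0 • F0 + (u : X → L2) x) := Vol_nonneg _ _
        have h6 := le_abs_self (q * s)
        linarith
      · intro x
        have e1 : (((Φ (0, 0, t) + (u, s)).1 : M.C0) : X → L2) x = (t * l) • F0 + (u : X → L2) x := by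
          show ((0 : L2) + (0 : ℝ) • M.om x + (t * l) • F0) + (u : X → L2) x = _
          rw [zero_smul, zero_add, zero_add]
        have e2 : (Φ (0, 0, t) + (u, s)).2 = t + s := by
          show (0 + t) + s = _
          rw [zero_add]
        show ‖pM J0 (((Φ (0, 0, t) + (u, s)).1 : X → L2) x)‖ ≤ η * (Φ (0, 0, t) + (u, s)).2
        rw [e1, e2, Hil.pM_add', Hil.pM_smul', pM_of_inv G9.cone_F0.1, smul_zero, zero_add,
          add_comm t s]
        exact (hB' x).trans b3)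
  set T := g ∘ₗ LinearMap.inl ℝ M.C0 ℝ with hT
  have hTa : ∀ u, T u = g (u, 0) := fun u => rfl
  have hgs : ∀ (u : M.C0) (s : ℝ), g (u, s) = T u + s * g (0, 1) := by
    intro u s
    have e : ((u, s) : M.C0 × ℝ) = (u, 0) + s • (0, 1) := by simp
    rw [e, map_add, map_smul, smul_eq_mul]; rfl
  have k1 : T (M.toC0 M.omOm) = - g (0, 1) := by
    have h1 := hg1 (0, 1, 0)
    have e1 : Φ (0, 1, 0) = (M.toC0 M.omOm, 1) := by
      show (M.toC0 (0 : M.Om) + (1 : ℝ) • M.toC0 M.omOm + ((0 : ℝ) * l) • FC, (1 : ℝ) + 0) = _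
      rw [map_zero, zero_add, one_smul, zero_mul, zero_smul, add_zero, add_zero]
    have e2 : F (0, 1, 0) = 0 := rfl
    rw [e1, e2, hgs] at h1
    linarith
  refine ⟨T, l, - g (0, 1), hl0, fun e he => ?_, k1, ?_, fun u s h1 h2 h3 => ?_⟩
  · have h1 := hg1 (⟨e, he⟩, 0, 0)
    have e1 : Φ (⟨e, he⟩, 0, 0) = (M.toC0 e, 0) := by
      show (M.toC0 e + (0 : ℝ) • M.toC0 M.omOm + ((0 : ℝ) * l) • FC, (0 : ℝ) + 0) = _
      rw [zero_mul, zero_smul, zero_smul, add_zero, add_zero, add_zero]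
    have e2 : F (⟨e, he⟩, 0, 0) = 0 := rfl
    rw [e1, e2] at h1
    exact h1
  · have h1 := hg1 (0, 0, 1)
    have e1 : Φ (0, 0, 1) = (l • FC, 1) := by
      show (M.toC0 (0 : M.Om) + (0 : ℝ) • M.toC0 M.omOm + ((1 : ℝ) * l) • FC, (0 : ℝ) + 1) = _
      rw [map_zero, zero_add, zero_smul, zero_add, one_mul, zero_add]
    have e2 : F (0, 0, 1) = 1 := rfl
    rw [e1, e2, hgs, map_smul, smul_eq_mul] at h1
    show l * T (M.toC0 M.FOm) - -g (0, 1) = 1
    linarith
  · have h4 := hg2 (u, s) ⟨h1, h2, h3⟩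
    rw [hgs] at h4
    linarith

end

end Vale.Agent.P247.SCY
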