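import Vale.Agent.P247.SCY.Alg

/-!
# P247, soft Calabi-Yau: the inequality `pr(om,c) ≥ V(c)` for closed forms with positive
invariant part
-/

set_option linter.all false

open MeasureTheory Set Metric Filter Topology
open scoped ContDiff ENNReal NNReal BigOperators InnerProductSpace Topology

namespace Vale.Agent.P247.SCY
open Vale.Agent.P204 Vale.Agent.P204.T4 Vale.Agent.P204.GX _root_.P204.GX

section
variable {X : Type} [MetricSpace X] [CompactSpace X] [MeasurableSpace X] [BorelSpace X]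

/-- the hypotheses of the soft theorem -/
structure Hyp (M : CM X) (wb wc : M.Om) (σ : X → ℝ) : Prop where
  bCl : wb ∈ M.Cl
  cCl : wc ∈ M.Cl
  bpm : ∀ x, pM J0 ((wb : X → L2) x) = (wb : X → L2) x
  cpm : ∀ x, pM J0 ((wc : X → L2) x) = (wc : X → L2) x
  ob : M.pr M.om (wb : X → L2) = 0
  oc : M.pr M.om (wc : X → L2) = 0
  bc : M.pr (wb : X → L2) (wc : X → L2) = 0
  bb : 0 < M.pr (wb : X → L2) (wb : X → L2)
  cc : 0 < M.pr (wc : X → L2) (wc : X → L2)
  L : ∀ c ∈ M.Cl, M.pr M.om (c : X → L2) = 0 → M.pr (wb : X → L2) (c : X → L2) = 0 →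
      M.pr (wc : X → L2) (c : X → L2) = 0 → M.pr (c : X → L2) (c : X → L2) ≤ 0
  σc : Continuous σ
  σp : ∀ x, 0 < σ x
  σi : ∫ x, σ x ∂M.mu = M.pr M.om M.om

variable {M : CM X}

theorem memC (b : M.Om) : (b : X → L2) ∈ M.C0 := M.Om_le_C07 b.2

theorem pP_of_anti {A : L2} (h : pM J0 A = A) : pP J0 A = 0 := by
  have := pP_add_pM J0 A
  rw [h] at this
  simpa using this

theorem alpha_pos [Nonempty X] (M : CM X) : 0 < M.pr M.om M.om := by
  have h1 := pr_self_ge (M := M) (u := M.om) (M.Om_le_C07 M.om_mem_Om)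
  have h2 : ∫ x, Q (pP J0 (M.om x)) (pP J0 (M.om x)) ∂M.mu = 2 * M.mu.real univ := by
    have : ∀ x, Q (pP J0 (M.om x)) (pP J0 (M.om x)) = 2 := fun x => by
      rw [M.om_pP, G9.Q_F0_F0]
    simp only [this, integral_const, smul_eq_mul]
    ring
  have h3 := M.mu_pos
  linarith

/-- orthogonal decomposition: upper bound for the self pairing of closed forms -/
theorem self_pair_le [Nonempty X] {wb wc : M.Om} {σ : X → ℝ} (H : Hyp M wb wc σ) {c : M.Om}
    (hc : c ∈ M.Cl) :
    M.pr (c : X → L2) (c : X → L2) ≤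
      (M.pr M.om (c : X → L2)) ^ 2 / M.pr M.om M.om +
      (M.pr (wb : X → L2) (c : X → L2)) ^ 2 / M.pr (wb : X → L2) (wb : X → L2) +
      (M.pr (wc : X → L2) (c : X → L2)) ^ 2 / M.pr (wc : X → L2) (wc : X → L2) := by
  have hα := alpha_pos M
  set α := M.pr M.om M.om with hαd
  set β := M.pr (wb : X → L2) (wb : X → L2) with hβd
  set γ := M.pr (wc : X → L2) (wc : X → L2) with hγd
  have hβ : 0 < β := H.bb
  have hγ : 0 < γ := H.cc
  set A := M.pr M.om (c : X → L2) with hA
  set B := M.pr (wb : X → L2) (c : X → L2) with hB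
  set C := M.pr (wc : X → L2) (c : X → L2) with hC
  -- work with the bilinear form `IC`
  set o : M.C0 := M.toC0 M.omOm with ho
  set b : M.C0 := M.toC0 wb with hb
  set g : M.C0 := M.toC0 wc with hg
  set d : M.C0 := M.toC0 c with hd
  have hs : ∀ u v : M.C0, M.IC u v = M.IC v u := fun u v => by
    rw [← pr_eq_IC, ← pr_eq_IC, pr_comm]
  have e1 : M.IC o o = α := rfl
  have e2 : M.IC b b = β := rfl
  have e3 : M.IC g g = γ := rfl
  have e4 : M.IC o b = 0 := H.ob
  have e5 : M.IC o g = 0 := H.oc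
  have e6 : M.IC b g = 0 := H.bc
  have e7 : M.IC o d = A := rfl
  have e8 : M.IC b d = B := rfl
  have e9 : M.IC g d = C := rfl
  have f4 : M.IC b o = 0 := by rw [hs, e4]
  have f5 : M.IC g o = 0 := by rw [hs, e5]
  have f6 : M.IC g b = 0 := by rw [hs, e6]
  have f7 : M.IC d o = A := by rw [hs, e7]
  have f8 : M.IC d b = B := by rw [hs, e8]
  have f9 : M.IC d g = C := by rw [hs, e9]
  set z : M.Om := c - (A / α) • M.omOm - (B / β) • wb - (C / γ) • wc with hz
  have hzC : z ∈ M.Cl := by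
    rw [hz]
    exact M.Cl.sub_mem (M.Cl.sub_mem (M.Cl.sub_mem hc (M.Cl.smul_mem _ M.omOm_mem_Cl))
      (M.Cl.smul_mem _ H.bCl)) (M.Cl.smul_mem _ H.cCl)
  have hzd : M.toC0 z = d - (A / α) • o - (B / β) • b - (C / γ) • g := by
    rw [hz, map_sub, map_sub, map_sub, map_smul, map_smul, map_smul]
  have k1 : M.IC o (M.toC0 z) = 0 := by
    rw [hzd]
    simp only [map_sub, map_smul, e1, e4, e5, e7, smul_eq_mul]
    field_simp
    ring
  have k2 : M.IC b (M.toC0 z) = 0 := by
    rw [hzd]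
    simp only [map_sub, map_smul, e2, f4, e6, e8, smul_eq_mul]
    field_simp
    ring
  have k3 : M.IC g (M.toC0 z) = 0 := by
    rw [hzd]
    simp only [map_sub, map_smul, e3, f5, f6, e9, smul_eq_mul]
    field_simp
    ring
  have hL := H.L z hzC k1 k2 k3
  have hL' : M.IC (M.toC0 z) (M.toC0 z) ≤ 0 := hL
  have k4 : M.IC (M.toC0 z) (M.toC0 z) = M.IC d (M.toC0 z) := by
    conv_lhs => rw [hs]
    have : M.IC (M.toC0 z) (M.toC0 z) = M.IC (d - (A / α) • o - (B / β) • b - (C / γ) • g) (M.toC0 z) := by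
      rw [hzd]
    rw [this]
    simp only [map_sub, map_smul, LinearMap.sub_apply, LinearMap.smul_apply, k1, k2, k3, smul_zero,
      sub_zero]
  rw [k4, hzd] at hL'
  simp only [map_sub, map_smul, f7, f8, f9, smul_eq_mul] at hL'
  have e0 : M.IC d d = M.pr (c : X → L2) (c : X → L2) := rfl
  rw [e0] at hL'
  have g1 : A / α * A = A ^ 2 / α := by ring
  have g2 : B / β * B = B ^ 2 / β := by ring
  have g3 : C / γ * C = C ^ 2 / γ := by ring
  rw [g1, g2, g3] at hL'
  linarith

/-- The basic inequality. -/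
theorem ineqI [Nonempty X] {wb wc : M.Om} {σ : X → ℝ} (H : Hyp M wb wc σ) {c : M.Om}
    (hc : c ∈ M.Cl) (hp : ∀ x, PC ((c : X → L2) x)) :
    Vol M σ (c : X → L2) ≤ M.pr M.om (c : X → L2) := by
  have hα := alpha_pos M
  have hβ : 0 < M.pr (wb : X → L2) (wb : X → L2) := H.bb
  have hγ : 0 < M.pr (wc : X → L2) (wc : X → L2) := H.cc
  set α := M.pr M.om M.om with hαd
  set B := M.pr (wb : X → L2) (c : X → L2) / M.pr (wb : X → L2) (wb : X → L2) with hB
  set C := M.pr (wc : X → L2) (c : X → L2) / M.pr (wc : X → L2) (wc : X → L2) with hC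
  set A := M.pr M.om (c : X → L2) with hA
  set c' : M.Om := c - B • wb - C • wc with hc'
  have hc'C : c' ∈ M.Cl := by
    rw [hc']
    exact M.Cl.sub_mem (M.Cl.sub_mem hc (M.Cl.smul_mem _ H.bCl)) (M.Cl.smul_mem _ H.cCl)
  have hcoe : (c' : X → L2) = (c : X → L2) - B • (wb : X → L2) - C • (wc : X → L2) := rfl
  have mb := memC wb
  have mc := memC wc
  have md := memC c
  have mo : M.om ∈ M.C0 := memC M.omOm
  have p1 : M.pr M.om (c' : X → L2) = A := by
    rw [hcoe, pr_sub_right (M.C0.sub_mem md (M.C0.smul_mem _ mb)) (M.C0.smul_mem _ mc) mo,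
      pr_sub_right md (M.C0.smul_mem _ mb) mo, pr_smul_right, pr_smul_right, H.ob, H.oc]
    ring
  have p2 : M.pr (wb : X → L2) (c' : X → L2) = 0 := by
    rw [hcoe, pr_sub_right (M.C0.sub_mem md (M.C0.smul_mem _ mb)) (M.C0.smul_mem _ mc) mb,
      pr_sub_right md (M.C0.smul_mem _ mb) mb, pr_smul_right, pr_smul_right, H.bc, hB]
    field_simp
    ring
  have p3 : M.pr (wc : X → L2) (c' : X → L2) = 0 := by
    rw [hcoe, pr_sub_right (M.C0.sub_mem md (M.C0.smul_mem _ mb)) (M.C0.smul_mem _ mc) mc,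
      pr_sub_right md (M.C0.smul_mem _ mb) mc, pr_smul_right, pr_smul_right,
      pr_comm M (wc : X → L2) (wb : X → L2), H.bc, hC]
    field_simp
    ring
  have hpP : ∀ x, pP J0 ((c' : X → L2) x) = pP J0 ((c : X → L2) x) := by
    intro x
    have e : (c' : X → L2) x = (c : X → L2) x + ((-B) • (wb : X → L2) x + (-C) • (wc : X → L2) x) := by
      rw [hcoe]
      show (c : X → L2) x - B • (wb : X → L2) x - C • (wc : X → L2) x = _
      module
    rw [e, FnSys.pP_add, FnSys.pP_add, FnSys.pP_smul, FnSys.pP_smul, pP_of_anti (H.bpm x),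
      pP_of_anti (H.cpm x)]
    simp
  have hge := pr_self_ge (memC c')
  have hq : ∫ x, Q (pP J0 ((c' : X → L2) x)) (pP J0 ((c' : X → L2) x)) ∂M.mu =
      ∫ x, Q (pP J0 ((c : X → L2) x)) (pP J0 ((c : X → L2) x)) ∂M.mu := by
    simp only [hpP]
  have hle := self_pair_le H hc'C
  rw [p1, p2, p3] at hle
  simp only [ne_eq, OfNat.ofNat_ne_zero, not_false_eq_true, zero_pow, zero_div, add_zero] at hle
  have hcs := Vol_sq_le H.σc (fun x => (H.σp x).le) (memC c) hp
  rw [H.σi] at hcs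
  set q := ∫ x, Q (pP J0 ((c : X → L2) x)) (pP J0 ((c : X → L2) x)) ∂M.mu with hqd
  have h1 : q ≤ A ^ 2 / α := by linarith
  have h2 : α * q ≤ A ^ 2 := by
    rw [le_div_iff₀ hα] at h1
    linarith
  have h3 : Vol M σ (c : X → L2) ^ 2 ≤ A ^ 2 := hcs.trans h2
  -- sign
  have hA0 : 0 ≤ A := by
    by_contra hneg
    push Not at hneg
    set s := -A / α with hs
    have hs0 : 0 < s := div_pos (by linarith) hα
    set d : M.Om := c' + s • M.omOm with hd
    have hdC : d ∈ M.Cl := M.Cl.add_mem hc'C (M.Cl.smul_mem _ M.omOm_mem_Cl)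
    have hdcoe : (d : X → L2) = (c' : X → L2) + s • M.om := rfl
    have mc' := memC c'
    have q1 : M.pr M.om (d : X → L2) = 0 := by
      rw [hdcoe, pr_add_right mc' (M.C0.smul_mem _ mo) mo, pr_smul_right, p1, hs]
      field_simp
      ring
    have q2 : M.pr (wb : X → L2) (d : X → L2) = 0 := by
      rw [hdcoe, pr_add_right mc' (M.C0.smul_mem _ mo) mb, pr_smul_right, p2,
        pr_comm M (wb : X → L2), H.ob]
      ring
    have q3 : M.pr (wc : X → L2) (d : X → L2) = 0 := by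
      rw [hdcoe, pr_add_right mc' (M.C0.smul_mem _ mo) mc, pr_smul_right, p3,
        pr_comm M (wc : X → L2), H.oc]
      ring
    have q4 := H.L d hdC q1 q2 q3
    have q5 := pr_self_ge (memC d)
    have q6 : 2 * s ^ 2 * M.mu.real univ ≤
        ∫ x, Q (pP J0 ((d : X → L2) x)) (pP J0 ((d : X → L2) x)) ∂M.mu := by
      have h5 := integral_mono (integrable_const (2 * s ^ 2))
        (M.integrable_Q7 (M.pP_mem_C0 (memC d)) (M.pP_mem_C0 (memC d))) (fun x => by
        show 2 * s ^ 2 ≤ Q (pP J0 ((d : X → L2) x)) (pP J0 ((d : X → L2) x))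
        have e : (d : X → L2) x = (c' : X → L2) x + s • M.om x := rfl
        rw [e, FnSys.pP_add, FnSys.pP_smul, M.om_pP, hpP, Q_add_left, Q_add_right, Q_add_right,
          Q_smul_left, Q_smul_right, Q_smul_left, Q_smul_right, G9.Q_F0_F0]
        have h6 := Q_self_nonneg (hp x)
        have h7 := Q_cone_nonneg isCx_J0 G9.pos_J0 (hp x) G9.cone_F0
        have h8 := Q_cone_nonneg isCx_J0 G9.pos_J0 G9.cone_F0 (hp x)
        have h9 := mul_nonneg hs0.le h7
        have h10 := mul_nonneg hs0.le h8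
        nlinarith only [h6, h9, h10])
      rw [integral_const, smul_eq_mul] at h5
      linarith
    have q7 := M.mu_pos
    have : 0 < 2 * s ^ 2 * M.mu.real univ := by positivity
    linarith
  exact (abs_le_of_sq_le_sq' h3 hA0).2

end

end Vale.Agent.P247.SCY
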