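import Vale.Agent.P247.SCY.Base2

/-!
# P247, soft Calabi-Yau, block KL3: scalar averages
-/

set_option linter.all false

open MeasureTheory Set Metric Filter Topology
open scoped ContDiff ENNReal NNReal BigOperators InnerProductSpace Topology

namespace Vale.Agent.P204.GX.CM
open T4
variable {X : Type} [MetricSpace X] (M : CM X)

theorem cf_smulF0 (h : X → ℝ) (a : M.A) (y : V4) :
    M.cf a (fun x => h x • F0) y = h (M.ψ a y) • M.cf a (fun _ => F0) y := by
  unfold cf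
  rw [pull_smul]

theorem smulF0_mem_C0 {h : X → ℝ} (hh : Continuous h) : (fun x => h x • F0) ∈ M.C0 := by
  intro a
  have e : M.cf a (fun x => h x • F0) = fun y => h (M.ψ a y) • M.cf a (fun _ => F0) y :=
    funext fun y => M.cf_smulF0 h a y
  rw [e]
  exact (hh.comp (M.continuous_ψ a)).smul (M.F_smooth a).continuous

theorem U_smulF0 (h : X → ℝ) (a : M.A) {w : M.A → V4} (hw : ‖w‖ ≤ M.z1) {y : V4} (hy : ‖y‖ ≤ 6) :
    M.U w (fun x => h x • F0) (M.ψ a y) =
      h (M.ψ a (M.HH a w y)) • M.U w (fun _ => F0) (M.ψ a y) := by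
  rw [M.eq_pull_m' (M.U w (fun x => h x • F0)) a y, M.eq_pull_m' (M.U w (fun _ => F0)) a y,
    M.cf_U a hw _ hy, M.cf_U a hw _ hy, cf_smulF0, pull_smul, pull_smul]

/-- the transport moves points by `O(w)` -/
theorem exists_dist_HH : ∃ C : ℝ, 1 ≤ C ∧ ∀ (a : M.A) (w : M.A → V4), ‖w‖ ≤ 1 → ‖w‖ ≤ M.z1 →
    ∀ y : V4, ‖y‖ ≤ 1 → dist (M.ψ a (M.HH a w y)) (M.ψ a y) ≤ C * ‖w‖ := by
  have h1 : ∀ a : M.A, ∃ C : ℝ, ∀ w : M.A → V4, ‖w‖ ≤ 1 → ‖w‖ ≤ M.z1 →
      ∀ y : V4, ‖y‖ ≤ 1 → dist (M.ψ a (M.HH a w y)) (M.ψ a y) ≤ C * ‖w‖ := by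
    intro a
    have hc : ContDiff ℝ ∞ (Function.uncurry fun (w : M.A → V4) (y : V4) => M.HH a w y - y) :=
      (M.contDiff_HH a).sub contDiff_snd
    obtain ⟨C, hC, hlip⟩ := exists_lip0 hc (fun y => by rw [M.HH_zero, sub_self]) 1 1
    obtain ⟨L, hL, hLip⟩ := M.lip a 2
    refine ⟨L * C, fun w hw hw' y hy => ?_⟩
    have h2 : ‖M.HH a w y‖ ≤ 2 := by
      have h3 := M.norm_HH_sub_le a hw' (y := y) (by linarith)
      calc ‖M.HH a w y‖ = ‖(M.HH a w y - y) + y‖ := by rw [sub_add_cancel]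
        _ ≤ ‖M.HH a w y - y‖ + ‖y‖ := norm_add_le _ _
        _ ≤ 2 := by linarith
    calc dist (M.ψ a (M.HH a w y)) (M.ψ a y) ≤ L * ‖M.HH a w y - y‖ :=
          (hLip _ _ h2 (by linarith)).1
      _ ≤ L * (C * ‖w‖) := by gcongr; exact hlip w y hw hy
      _ = L * C * ‖w‖ := by ring
  choose C h using h1
  obtain ⟨K, hK, hK'⟩ := exists_upper C
  refine ⟨K, hK, fun a w hw hw' y hy => (h a w hw hw' y hy).trans ?_⟩
  gcongr
  exact hK' a

variable [MeasurableSpace X] [BorelSpace X]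

omit [MeasurableSpace X] [BorelSpace X] in
theorem Q_S0 {δ : ℝ} (h0 : 0 ≤ δ) (h1 : δ ≤ M.z1) {b : X → L2}
    (hb : ∀ a, Continuous (M.cf a b)) (A : L2) (x : X) :
    Q A (M.S0 δ b x) = ∫ z, M.rr z * Q A (M.U (δ • z) b x) := by
  have h3 := (EM.QL A).integral_comp_comm (M.integrable_S0 h0 h1 hb x)
  have h4 : EM.QL A (∫ z, M.rr z • M.U (δ • z) b x) = Q A (M.S0 δ b x) := rfl
  rw [← h4, ← h3]
  refine integral_congr_ae (Filter.Eventually.of_forall fun z => ?_)
  show Q A (M.rr z • M.U (δ • z) b x) = _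
  rw [Q_smul_right]

omit [MeasurableSpace X] [BorelSpace X] in
theorem integrable_Q_S0 {δ : ℝ} (h0 : 0 ≤ δ) (h1 : δ ≤ M.z1) {b : X → L2}
    (hb : ∀ a, Continuous (M.cf a b)) (A : L2) (x : X) :
    Integrable fun z => M.rr z * Q A (M.U (δ • z) b x) := by
  have h3 := (EM.QL A).integrable_comp (M.integrable_S0 h0 h1 hb x)
  refine h3.congr (Filter.Eventually.of_forall fun z => ?_)
  show Q A (M.rr z • M.U (δ • z) b x) = _
  rw [Q_smul_right]

omit [MeasurableSpace X] [BorelSpace X] in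
theorem S0_sub' {δ : ℝ} (h0 : 0 ≤ δ) (h1 : δ ≤ M.z1) {b b' : X → L2}
    (hb : ∀ a, Continuous (M.cf a b)) (hb' : ∀ a, Continuous (M.cf a b')) (x : X) :
    M.S0 δ (b - b') x = M.S0 δ b x - M.S0 δ b' x := by
  unfold S0
  rw [← integral_sub (M.integrable_S0 h0 h1 hb x) (M.integrable_S0 h0 h1 hb' x)]
  refine integral_congr_ae (Filter.Eventually.of_forall fun z => ?_)
  show M.rr z • M.U (δ • z) (b - b') x = M.rr z • M.U (δ • z) b x - M.rr z • M.U (δ • z) b' x
  have e : b - b' = b + (-1 : ℝ) • b' := by rw [neg_one_smul, sub_eq_add_neg]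
  rw [e, U_add, U_smul, ← smul_sub]
  congr 1
  show M.U (δ • z) b x + (-1 : ℝ) • M.U (δ • z) b' x = _
  rw [neg_one_smul, sub_eq_add_neg]

end Vale.Agent.P204.GX.CM

namespace Vale.Agent.P247.SCY
open Vale.Agent.P204 Vale.Agent.P204.T4 Vale.Agent.P204.GX _root_.P204.GX

section

theorem norm_F0_le : ‖(F0 : L2)‖ ≤ 1 := by
  rw [pi_norm_le_iff_of_nonneg zero_le_one]
  intro i
  fin_cases i <;> simp [F0]

theorem norm_smul_F0_le (t : ℝ) : ‖t • (F0 : L2)‖ ≤ |t| := by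
  rw [norm_smul, Real.norm_eq_abs]
  calc |t| * ‖(F0 : L2)‖ ≤ |t| * 1 := by gcongr; exact norm_F0_le
    _ = |t| := mul_one _

theorem abs_QF0_le (A : L2) : |Q F0 A| ≤ 6 * ‖A‖ := by
  refine (abs_Q_le _ _).trans ?_
  calc 6 * ‖(F0 : L2)‖ * ‖A‖ ≤ 6 * 1 * ‖A‖ := by gcongr; exact norm_F0_le
    _ = _ := by ring

end

section
variable {X : Type} [MetricSpace X] [CompactSpace X] [MeasurableSpace X] [BorelSpace X]

/-- the mass estimate for continuous forms, from the smooth ones by density -/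
theorem PF_C0 [Nonempty X] (M : CM X) : ∃ δ0 c : ℝ, 0 < δ0 ∧ 1 ≤ c ∧ ∀ (δ : ℝ) (b : X → L2),
    b ∈ M.C0 → 0 < δ → δ ≤ δ0 →
    |∫ x, Q F0 (M.S0 δ b x) ∂M.mu - ∫ x, Q F0 (b x) ∂M.mu| ≤
      c * δ * ∫ x, ‖b x‖ ∂M.mu := by
  obtain ⟨P⟩ := exists_MSys M
  obtain ⟨e0, c0, he0, hc0, hz0, P0⟩ := M.exists_P0
  obtain ⟨eF, cF, heF, hcF, PF⟩ := M.exists_PF
  refine ⟨min e0 eF, cF, lt_min he0 heF, hcF, fun δ b hb h0 h1 => ?_⟩
  have hd0 : δ ≤ e0 := h1.trans (min_le_left _ _)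
  have hdF : δ ≤ eF := h1.trans (min_le_right _ _)
  have hz : δ ≤ M.z1 := hd0.trans hz0
  have hbc : ∀ a, Continuous (M.cf a b) := hb
  -- approximating sequence
  have hseq : ∀ n : ℕ, ∃ u : M.Om, ‖Hil.io0 M ⟨b, hb⟩ - Hil.io M u‖ < 1 / ((n : ℝ) + 1) := by
    intro n
    obtain ⟨u, hu⟩ := (Hil.denseRange_io M).exists_dist_lt (Hil.io0 M ⟨b, hb⟩)
      (show (0 : ℝ) < 1 / ((n : ℝ) + 1) by positivity)
    exact ⟨u, by rwa [dist_eq_norm] at hu⟩
  choose u hu using hseq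
  set K : ℝ := Real.sqrt (∫ x, (1 : ℝ) ^ 2 ∂M.mu) with hK
  have hK0 : 0 ≤ K := Real.sqrt_nonneg _
  have hdiff : ∀ n, (b - (u n : X → L2)) ∈ M.C0 := fun n =>
    M.C0.sub_mem hb (Hil.Om_le_C0 M (u n).2)
  have hint : ∀ v ∈ M.C0, Integrable (fun x => ‖v x‖) M.mu := by
    intro v hv
    obtain ⟨B, hB0, hB⟩ := M.bounded_of_C0 hv
    refine Integrable.of_bound (M.measurable_of_C0 hv).norm.aestronglyMeasurable B
      (Eventually.of_forall fun x => ?_)
    rw [norm_norm]; exact hB x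
  -- `L¹` convergence
  have hL1 : ∀ n, ∫ x, ‖b x - (u n : X → L2) x‖ ∂M.mu ≤ K * (1 / ((n : ℝ) + 1)) := by
    intro n
    have h2 := P.Z.cs_int (Hil.io0 M ⟨b, hb⟩ - Hil.io M (u n)) (g := fun _ => 1) measurable_const
      (fun _ => zero_le_one) (C := 1) (fun _ => le_rfl)
    have h3 : ∫ x, ‖b x - (u n : X → L2) x‖ ∂M.mu ≤
        ∫ x, ‖((Hil.io0 M ⟨b, hb⟩ - Hil.io M (u n) : Lp E6 2 M.mu) : X → E6) x‖ * 1 ∂M.mu := by
      apply integral_mono_ae (hint _ (hdiff n))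
      · exact P.Z.int_norm_mul (Hil.io0 M ⟨b, hb⟩ - Hil.io M (u n)) (g := fun _ => 1)
          measurable_const (fun _ => zero_le_one) (C := 1) (fun _ => le_rfl)
      · filter_upwards [Hil.io0_ae M ⟨b, hb⟩, Hil.io_ae M (u n),
          Lp.coeFn_sub (Hil.io0 M ⟨b, hb⟩) (Hil.io M (u n))] with x h4 h5 h6
        have h7 : ((Hil.io0 M ⟨b, hb⟩ - Hil.io M (u n) : Lp E6 2 M.mu) : X → E6) x =
            toE (b x - (u n : X → L2) x) := by
          rw [h6, map_sub, ← h5]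
          show ((Hil.io0 M ⟨b, hb⟩ : Lp E6 2 M.mu) : X → E6) x - _ = _
          rw [h4]
        rw [h7, mul_one]
        exact G9.norm_le_toE _
    refine h3.trans (h2.trans ?_)
    rw [mul_comm]
    exact mul_le_mul_of_nonneg_left (hu n).le hK0
  have hlim0 : Tendsto (fun n : ℕ => K * (1 / ((n : ℝ) + 1))) atTop (𝓝 0) := by
    have := (tendsto_one_div_add_atTop_nhds_zero_nat (𝕜 := ℝ)).const_mul K
    rwa [mul_zero] at this
  have hL1' : Tendsto (fun n => ∫ x, ‖b x - (u n : X → L2) x‖ ∂M.mu) atTop (𝓝 0) :=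
    squeeze_zero (fun n => integral_nonneg fun x => norm_nonneg _) hL1 hlim0
  -- pointwise convergence of the averages
  set R : ℝ := c0 * (δ ^ 4)⁻¹ with hR
  have hR0 : 0 ≤ R := by positivity
  have hS : ∀ n x, ‖M.S0 δ b x - M.S0 δ (u n) x‖ ≤
      R * ∫ x, ‖b x - (u n : X → L2) x‖ ∂M.mu := by
    intro n x
    rw [← M.S0_sub' h0.le hz hbc (fun a => ((u n).2 a).continuous)]
    refine (P0 δ _ (hdiff n) x h0 hd0).trans ?_
    apply mul_le_mul_of_nonneg_left _ hR0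
    exact setIntegral_le_integral (hint _ (hdiff n)) (Eventually.of_forall fun x => norm_nonneg _)
  have hS' : ∀ x, Tendsto (fun n => M.S0 δ (u n) x) atTop (𝓝 (M.S0 δ b x)) := by
    intro x
    rw [tendsto_iff_norm_sub_tendsto_zero]
    have h2 : Tendsto (fun n => R * ∫ x, ‖b x - (u n : X → L2) x‖ ∂M.mu) atTop (𝓝 0) := by
      have := hL1'.const_mul R
      rwa [mul_zero] at this
    refine squeeze_zero (fun n => norm_nonneg _) (fun n => ?_) h2
    rw [norm_sub_rev]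
    exact hS n x
  -- uniform bound
  have hN : ∀ n, ∫ x, ‖(u n : X → L2) x‖ ∂M.mu ≤ (∫ x, ‖b x‖ ∂M.mu) + K := by
    intro n
    have h2 : ∫ x, ‖(u n : X → L2) x‖ ∂M.mu ≤
        ∫ x, (‖b x‖ + ‖b x - (u n : X → L2) x‖) ∂M.mu := by
      apply integral_mono (hint _ (Hil.Om_le_C0 M (u n).2)) ((hint _ hb).add (hint _ (hdiff n)))
      intro x
      show ‖(u n : X → L2) x‖ ≤ ‖b x‖ + ‖b x - (u n : X → L2) x‖
      calc ‖(u n : X → L2) x‖ = ‖b x - (b x - (u n : X → L2) x)‖ := by rw [sub_sub_cancel]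
        _ ≤ _ := norm_sub_le _ _
    have h2' : ∫ x, (‖b x‖ + ‖b x - (u n : X → L2) x‖) ∂M.mu =
        (∫ x, ‖b x‖ ∂M.mu) + ∫ x, ‖b x - (u n : X → L2) x‖ ∂M.mu :=
      integral_add (hint _ hb) (hint _ (hdiff n))
    rw [h2'] at h2
    have h3 := hL1 n
    have h4 : K * (1 / ((n : ℝ) + 1)) ≤ K * 1 := by
      apply mul_le_mul_of_nonneg_left _ hK0
      rw [div_le_one (by positivity)]
      have : (0 : ℝ) ≤ n := Nat.cast_nonneg n
      linarith
    linarith
  have hB : ∀ n x, ‖Q F0 (M.S0 δ (u n) x)‖ ≤ 6 * (R * ((∫ x, ‖b x‖ ∂M.mu) + K)) := by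
    intro n x
    refine (abs_QF0_le _).trans ?_
    gcongr
    refine (P0 δ _ (fun a => ((u n).2 a).continuous) x h0 hd0).trans ?_
    apply mul_le_mul_of_nonneg_left _ hR0
    refine (setIntegral_le_integral (hint _ (Hil.Om_le_C0 M (u n).2))
      (Eventually.of_forall fun x => norm_nonneg _)).trans (hN n)
  have T1 : Tendsto (fun n => ∫ x, Q F0 (M.S0 δ (u n) x) ∂M.mu) atTop
      (𝓝 (∫ x, Q F0 (M.S0 δ b x) ∂M.mu)) := by
    refine tendsto_integral_of_dominated_convergence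
      (fun _ => 6 * (R * ((∫ x, ‖b x‖ ∂M.mu) + K))) (fun n => ?_) (integrable_const _)
      (fun n => Eventually.of_forall (hB n)) (Eventually.of_forall fun x => ?_)
    · exact (M.integrable_Q (fun a => (M.F_mem_Om a).continuous)
        (fun a => (M.S0_mem_Om h0.le hz (u n).2 a).continuous)).aestronglyMeasurable
    · exact ((EM.QL F0).continuous.tendsto _).comp (hS' x)
  have T2 : Tendsto (fun n => ∫ x, Q F0 ((u n : X → L2) x) ∂M.mu) atTop
      (𝓝 (∫ x, Q F0 (b x) ∂M.mu)) := by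
    rw [tendsto_iff_norm_sub_tendsto_zero]
    have h2 : Tendsto (fun n => 6 * ∫ x, ‖b x - (u n : X → L2) x‖ ∂M.mu) atTop (𝓝 0) := by
      have := hL1'.const_mul 6
      rwa [mul_zero] at this
    refine squeeze_zero (fun n => norm_nonneg _) (fun n => ?_) h2
    have hi1 := M.integrable_Q (fun a => (M.F_mem_Om a).continuous)
      (fun a => ((u n).2 a).continuous)
    have hi2 := M.integrable_Q (fun a => (M.F_mem_Om a).continuous) hbc
    rw [← integral_sub hi1 hi2, ← integral_const_mul]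
    refine norm_integral_le_of_norm_le ((hint _ (hdiff n)).const_mul 6)
      (Eventually.of_forall fun x => ?_)
    rw [← Q_sub_right]
    refine (abs_QF0_le _).trans (le_of_eq ?_)
    rw [norm_sub_rev]
  have T3 : Tendsto (fun n => ∫ x, ‖(u n : X → L2) x‖ ∂M.mu) atTop
      (𝓝 (∫ x, ‖b x‖ ∂M.mu)) := by
    rw [tendsto_iff_norm_sub_tendsto_zero]
    refine squeeze_zero (fun n => norm_nonneg _) (fun n => ?_) hL1'
    rw [← integral_sub (hint _ (Hil.Om_le_C0 M (u n).2)) (hint _ hb)]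
    refine norm_integral_le_of_norm_le (hint _ (hdiff n))
      (Eventually.of_forall fun x => ?_)
    rw [Real.norm_eq_abs]
    refine (abs_norm_sub_norm_le _ _).trans (le_of_eq ?_)
    rw [norm_sub_rev]
  refine le_of_tendsto_of_tendsto' (T1.sub T2).abs (T3.const_mul (cF * δ)) fun n => ?_
  exact PF δ (u n) h0 hdF

end

section

/-- **Block KL3** -/
theorem av : AvStatement := by
  intro X _ _ _ _ _ M
  obtain ⟨CF, hCF, hF⟩ := M.exists_F_U
  obtain ⟨CD, hCD, hD⟩ := M.exists_dist_HH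
  obtain ⟨e0, c0, he0, hc0, hz0, P0⟩ := M.exists_P0
  obtain ⟨eF, cF, heF, hcF, PF⟩ := PF_C0 M
  set c : ℝ := 2 * CD + 6 * c0 + 6 * CF + cF with hc
  have hc1 : 1 ≤ c := by rw [hc]; linarith
  have hr : 0 < (6 * CF + 1)⁻¹ := by positivity
  refine ⟨min (min e0 eF) (min 1 (6 * CF + 1)⁻¹), c,
    lt_min (lt_min he0 heF) (lt_min one_pos hr), hc1, fun δ h h0 h1 hh => ?_⟩
  have hd0 : δ ≤ e0 := h1.trans ((min_le_left _ _).trans (min_le_left _ _))
  have hdF : δ ≤ eF := h1.trans ((min_le_left _ _).trans (min_le_right _ _))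
  have hd1 : δ ≤ 1 := h1.trans ((min_le_right _ _).trans (min_le_left _ _))
  have hdr : δ ≤ (6 * CF + 1)⁻¹ := h1.trans ((min_le_right _ _).trans (min_le_right _ _))
  have hz : δ ≤ M.z1 := hd0.trans hz0
  have hC0 := M.smulF0_mem_C0 hh
  have hrr : Integrable M.rr :=
    M.bump_rr.smooth.continuous.integrable_of_hasCompactSupport M.hasCompactSupport_rr
  have hcF : CF * δ * 6 ≤ 1 := by
    have h2 : δ * (6 * CF + 1) ≤ 1 := by
      calc δ * (6 * CF + 1) ≤ (6 * CF + 1)⁻¹ * (6 * CF + 1) := by gcongr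
        _ = 1 := inv_mul_cancel₀ (by positivity)
    nlinarith
  have hw1 : ∀ z : M.A → V4, ‖z‖ ≤ 1 → ‖δ • z‖ ≤ δ := by
    intro z hz
    rw [norm_smul, Real.norm_eq_abs, abs_of_nonneg h0.le]
    calc δ * ‖z‖ ≤ δ * 1 := by gcongr
      _ = δ := mul_one _
  -- transported `F0`
  have hUF : ∀ z : M.A → V4, ‖z‖ ≤ 1 → ∀ x,
      |Q F0 (M.U (δ • z) (fun _ => F0) x) - 2| ≤ 6 * CF * δ := by
    intro z hz' x
    have h2 := hF (δ • z) ((hw1 z hz').trans hd1) ((hw1 z hz').trans hz) x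
    have h3 : Q F0 (M.U (δ • z) (fun _ => F0) x) - 2 =
        Q F0 (M.U (δ • z) (fun _ => F0) x - F0) := by
      rw [Q_sub_right, Q_F0]
    rw [h3]
    refine (abs_QF0_le _).trans ?_
    rw [norm_sub_rev]
    calc 6 * ‖F0 - M.U (δ • z) (fun _ => F0) x‖ ≤ 6 * (CF * ‖δ • z‖) := by gcongr
      _ ≤ 6 * (CF * δ) := by gcongr; exact hw1 z hz'
      _ = _ := by ring
  refine ⟨fun x hx => ?_, fun x => ?_, fun x => ?_, ?_⟩
  · rw [M.Q_S0 h0.le hz hC0]
    apply integral_nonneg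
    intro z
    show 0 ≤ M.rr z * Q F0 (M.U (δ • z) (fun y => h y • F0) x)
    have hr0 := M.bump_rr.nonneg z
    by_cases hz' : ‖z‖ ≤ 1
    · apply mul_nonneg hr0
      obtain ⟨a, y, hy, rfl⟩ := M.cov x
      rw [M.U_smulF0 h a ((hw1 z hz').trans hz) (by linarith), Q_smul_right]
      apply mul_nonneg
      · apply hx
        rw [mem_ball]
        calc dist (M.ψ a (M.HH a (δ • z) y)) (M.ψ a y) ≤ CD * ‖δ • z‖ :=
              hD a _ ((hw1 z hz').trans hd1) ((hw1 z hz').trans hz) y hy.le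
          _ ≤ CD * δ := by gcongr; exact hw1 z hz'
          _ < c * δ := by
              apply mul_lt_mul_of_pos_right _ h0
              rw [hc]; linarith
      · have h2 := hUF z hz' (M.ψ a y)
        rw [abs_le] at h2
        linarith [h2.1]
    · rw [M.bump_rr.supp z (not_le.1 hz'), zero_mul]
  · refine (abs_QF0_le _).trans ?_
    have h2 := P0 δ _ hC0 x h0 hd0
    have hint : Integrable (fun y => |h y|) M.mu := by
      obtain ⟨B, hB⟩ := isCompact_univ.exists_bound_of_continuousOn hh.continuousOn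
      refine Integrable.of_bound hh.measurable.norm.aestronglyMeasurable B
        (Eventually.of_forall fun x => ?_)
      rw [Real.norm_eq_abs, abs_abs]; exact hB x (mem_univ x)
    have h3 : ∫ y in ball x (c0 * δ), ‖h y • F0‖ ∂M.mu ≤ ∫ y in ball x (c * δ), |h y| ∂M.mu := by
      calc ∫ y in ball x (c0 * δ), ‖h y • F0‖ ∂M.mu ≤ ∫ y in ball x (c0 * δ), |h y| ∂M.mu := by
            apply integral_mono_of_nonneg (Eventually.of_forall fun y => norm_nonneg _)
              hint.integrableOn (Eventually.of_forall fun y => norm_smul_F0_le (h y))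
        _ ≤ _ := by
            apply setIntegral_mono_set hint.integrableOn
              (Eventually.of_forall fun x => abs_nonneg _)
            apply HasSubset.Subset.eventuallyLE
            apply ball_subset_ball
            apply mul_le_mul_of_nonneg_right _ h0.le
            rw [hc]; linarith
    have h4 : 0 ≤ ∫ y in ball x (c * δ), |h y| ∂M.mu := integral_nonneg fun x => abs_nonneg _
    calc 6 * ‖M.S0 δ (fun y => h y • F0) x‖
        ≤ 6 * (c0 * (δ ^ 4)⁻¹ * ∫ y in ball x (c * δ), |h y| ∂M.mu) := by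
          gcongr
          exact h2.trans (by gcongr)
      _ = (6 * c0) * (δ ^ 4)⁻¹ * ∫ y in ball x (c * δ), |h y| ∂M.mu := by ring
      _ ≤ c * (δ ^ 4)⁻¹ * ∫ y in ball x (c * δ), |h y| ∂M.mu := by
          gcongr
          rw [hc]; linarith
  · have hF0 : ∀ a, Continuous (M.cf a (fun _ : X => F0)) := fun a => (M.F_mem_Om a).continuous
    have e : Q F0 (M.S0 δ (fun _ => F0) x) - 2 =
        ∫ z, M.rr z * (Q F0 (M.U (δ • z) (fun _ => F0) x) - 2) := by
      have e2 : (2 : ℝ) = ∫ z, M.rr z * 2 := by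
        rw [integral_mul_const, M.bump_rr.int, one_mul]
      conv_lhs => rw [e2, M.Q_S0 h0.le hz hF0]
      rw [← integral_sub (M.integrable_Q_S0 h0.le hz hF0 F0 x) (hrr.mul_const _)]
      refine integral_congr_ae (Eventually.of_forall fun z => ?_)
      show M.rr z * Q F0 (M.U (δ • z) (fun _ => F0) x) - M.rr z * 2 = _
      ring
    rw [e]
    have h5 : ∀ z, ‖M.rr z * (Q F0 (M.U (δ • z) (fun _ => F0) x) - 2)‖ ≤
        M.rr z * (6 * CF * δ) := by
      intro z
      have hr := M.bump_rr.nonneg z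
      rw [norm_mul, Real.norm_eq_abs, abs_of_nonneg hr]
      by_cases hz' : ‖z‖ ≤ 1
      · exact mul_le_mul_of_nonneg_left (hUF z hz' x) hr
      · rw [M.bump_rr.supp z (not_le.1 hz')]
        simp
    have h6 := norm_integral_le_of_norm_le (hrr.mul_const (6 * CF * δ))
      (Filter.Eventually.of_forall h5)
    rw [integral_mul_const, M.bump_rr.int, one_mul] at h6
    refine h6.trans ?_
    apply mul_le_mul_of_nonneg_right _ h0.le
    rw [hc]; linarith
  · have h2 := PF δ _ hC0 h0 hdF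
    have e1 : ∫ x, Q F0 (h x • F0) ∂M.mu = 2 * ∫ x, h x ∂M.mu := by
      rw [← integral_const_mul]
      refine integral_congr_ae (Eventually.of_forall fun x => ?_)
      show Q F0 (h x • F0) = 2 * h x
      rw [Q_smul_right, Q_F0]; ring
    rw [e1] at h2
    refine h2.trans ?_
    have hint : Integrable (fun y => |h y|) M.mu := by
      obtain ⟨B, hB⟩ := isCompact_univ.exists_bound_of_continuousOn hh.continuousOn
      refine Integrable.of_bound hh.measurable.norm.aestronglyMeasurable B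
        (Eventually.of_forall fun x => ?_)
      rw [Real.norm_eq_abs, abs_abs]; exact hB x (mem_univ x)
    have h3 : ∫ x, ‖h x • F0‖ ∂M.mu ≤ ∫ x, |h x| ∂M.mu :=
      integral_mono_of_nonneg (Eventually.of_forall fun y => norm_nonneg _)
        hint (Eventually.of_forall fun y => norm_smul_F0_le (h y))
    have h4 : 0 ≤ ∫ x, |h x| ∂M.mu := integral_nonneg fun x => abs_nonneg _
    gcongr
    rw [hc]; linarith

end

end Vale.Agent.P247.SCY
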