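import Vale.Agent.P247.SCY.EM

/-!
# P247, soft Calabi-Yau, block KL1: density of smooth cone valued forms
-/

set_option linter.all false

open MeasureTheory Set Metric Filter Topology
open scoped ContDiff ENNReal NNReal BigOperators InnerProductSpace Topology

namespace Vale.Agent.P247.SCY
open Vale.Agent.P204 Vale.Agent.P204.T4 Vale.Agent.P204.GX _root_.P204.GX

/-- the bipolar theorem for convex cones in a Hilbert space -/
theorem mem_closure_cone {H : Type*} [NormedAddCommGroup H] [InnerProductSpace ℝ H]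
    [CompleteSpace H] (K : Set H) (h0 : (0 : H) ∈ K) (hadd : ∀ a ∈ K, ∀ b ∈ K, a + b ∈ K)
    (hsmul : ∀ c : ℝ, 0 ≤ c → ∀ a ∈ K, c • a ∈ K) (u : H)
    (hu : ∀ v : H, (∀ a ∈ K, 0 ≤ ⟪v, a⟫_ℝ) → 0 ≤ ⟪v, u⟫_ℝ) : u ∈ closure K := by
  have hKc : Convex ℝ K := by
    intro a ha b hb s r hs hr _
    exact hadd _ (hsmul s hs a ha) _ (hsmul r hr b hb)
  by_contra hnot
  obtain ⟨f, c, hf1, hf2⟩ := geometric_hahn_banach_closed_point hKc.closure isClosed_closure hnot
  have hc : 0 < c := by
    have := hf1 0 (subset_closure h0)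
    rwa [map_zero] at this
  have hfK : ∀ a ∈ K, f a ≤ 0 := by
    intro a ha
    by_contra hneg
    push Not at hneg
    have h1 := hf1 ((c / f a) • a) (subset_closure (hsmul _ (div_pos hc hneg).le a ha))
    rw [map_smul, smul_eq_mul, div_mul_cancel₀ _ hneg.ne'] at h1
    exact lt_irrefl _ h1
  set v : H := (InnerProductSpace.toDual ℝ H).symm f with hv
  have hvf : ∀ w, ⟪v, w⟫_ℝ = f w := fun w => by
    rw [hv, InnerProductSpace.toDual_symm_apply]
  have h2 := hu (-v) (fun a ha => by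
    rw [inner_neg_left, hvf]
    have := hfK a ha
    linarith)
  rw [inner_neg_left, hvf] at h2
  linarith

theorem coneDense : ConeDenseStatement := by
  intro X _ _ _ _ _ M P u hu ε hε
  have h := mem_closure_cone (P.Y.ι '' {b : M.Om | ∀ x, Cone J0 ((b : X → L2) x)})
    ⟨0, fun x => by
      have := G7.cone_smul le_rfl (G9.cone_F0)
      rw [zero_smul] at this
      exact this, map_zero _⟩
    (by
      rintro _ ⟨b, hb, rfl⟩ _ ⟨b', hb', rfl⟩
      exact ⟨b + b', fun x => G7.cone_add (hb x) (hb' x), map_add _ _ _⟩)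
    (by
      rintro c hc _ ⟨b, hb, rfl⟩
      exact ⟨c • b, fun x => G7.cone_smul hc (hb x), map_smul _ _ _⟩) u
    (by
      intro v hv
      have h1 := P.pos_dense v (fun b hb => hv _ ⟨b, hb, rfl⟩)
      have e : ⟪v, u⟫_ℝ = ∫ x, ⟪v x, u x⟫_ℝ ∂M.mu := L2.inner_def _ _
      rw [e]
      apply integral_nonneg_of_ae
      filter_upwards [h1, hu] with x hx hux
      exact hx _ hux)
  rw [Metric.mem_closure_iff] at h
  obtain ⟨_, ⟨b, hb, rfl⟩, h2⟩ := h ε hε
  exact ⟨b, hb, by rwa [dist_eq_norm] at h2⟩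

end Vale.Agent.P247.SCY
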