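import Vale.Agent.P247.SCY.KLDens

/-!
# P247, soft Calabi-Yau, block KL: pointwise algebra
-/

set_option linter.all false

open MeasureTheory Set Metric Filter Topology
open scoped ContDiff ENNReal NNReal BigOperators InnerProductSpace Topology

namespace Vale.Agent.P247.SCY
open Vale.Agent.P204 Vale.Agent.P204.T4 Vale.Agent.P204.GX _root_.P204.GX

/-- the root of `Q A A` -/
noncomputable def rq (A : L2) : ℝ := Real.sqrt (Q A A)

theorem rq_nonneg (A : L2) : 0 ≤ rq A := Real.sqrt_nonneg _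

theorem rq_sq {A : L2} (hA : Cone J0 A) : rq A ^ 2 = Q A A := Real.sq_sqrt (Q_self_nonneg hA)

theorem rq_smul {c : ℝ} (hc : 0 ≤ c) (A : L2) : rq (c • A) = c * rq A := by
  unfold rq
  rw [Q_smul_left, Q_smul_right, ← mul_assoc, Real.sqrt_mul (mul_nonneg hc hc),
    Real.sqrt_mul_self hc]

theorem rq_mono {A B : L2} (hA : Cone J0 A) (hB : Cone J0 B) : rq A ≤ rq (A + B) := by
  have h := sqrt_Q_add hA hB
  have h2 := rq_nonneg B
  unfold rq at *
  linarith

theorem isClosed_cone' : IsClosed {A : L2 | Cone J0 A} := by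
  have : {A : L2 | Cone J0 A} = (fun A : L2 => (J0, A)) ⁻¹' {p : M4 × L2 | Cone p.1 p.2} := rfl
  rw [this]
  exact isClosed_cone.preimage (continuous_const.prodMk continuous_id)

theorem continuous_QAA : Continuous fun A : L2 => Q A A :=
  continuous_Q.comp (continuous_id.prodMk continuous_id)

theorem continuous_rq : Continuous rq := Real.continuous_sqrt.comp continuous_QAA

/-- duality -/
theorem dual_cone {A : L2} (hA : Cone J0 A) {s : ℝ} (hs : ∀ B, Cone J0 B → s * rq B ≤ Q B A) :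
    s ≤ rq A := by
  -- use `B = A + r F0`
  have key : ∀ r : ℝ, 0 < r → s ≤ rq (A + r • F0) := by
    intro r hr
    set B := A + r • F0 with hB
    have hrF : Cone J0 (r • F0) := G7.cone_smul hr.le G9.cone_F0
    have hBc : Cone J0 B := G7.cone_add hA hrF
    have h1 := hs B hBc
    have h2 : Q B A ≤ Q B B := by
      have h3 : Q B B = Q B A + Q B (r • F0) := by rw [← Q_add_right]
      have h4 := Q_cone_nonneg isCx_J0 G9.pos_J0 hBc hrF
      linarith
    have h5 : 0 < rq B := by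
      have h6 : 0 < rq (r • F0) := by
        rw [rq_smul hr.le]
        apply mul_pos hr
        unfold rq; rw [G9.Q_F0_F0]; exact Real.sqrt_pos.2 two_pos
      have h7 := rq_mono hrF hA
      rw [add_comm] at h7
      exact lt_of_lt_of_le h6 h7
    have h8 := rq_sq hBc
    have h9 : s * rq B ≤ rq B * rq B := by nlinarith
    exact le_of_mul_le_mul_right h9 h5
  have hc : Tendsto (fun r : ℝ => rq (A + r • F0)) (𝓝[>] 0) (𝓝 (rq (A + (0 : ℝ) • F0))) := by
    have : Continuous fun r : ℝ => rq (A + r • F0) :=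
      continuous_rq.comp (continuous_const.add (continuous_id.smul continuous_const))
    exact (this.tendsto 0).mono_left nhdsWithin_le_nhds
  rw [zero_smul, add_zero] at hc
  refine ge_of_tendsto hc ?_
  filter_upwards [self_mem_nhdsWithin] with r hr
  exact key r hr

theorem inv_pP (A : L2) : pull J0 (pP J0 A) = pP J0 A := pull_pP isCx_J0 _

/-- adding a multiple of `F0` -/
theorem cone_add_norm {A : L2} (hA : pull J0 A = A) {r : ℝ} (hr : 3 * ‖A‖ ≤ r) :
    Cone J0 (A + r • F0) := by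
  obtain ⟨h4, h3⟩ := (inv_J0_iff A).1 hA
  have hn := norm_nonneg A
  have a0 := norm_le_pi_norm A 0
  have a5 := norm_le_pi_norm A 5
  have a1 := norm_le_pi_norm A 1
  have a2 := norm_le_pi_norm A 2
  rw [Real.norm_eq_abs, abs_le] at a0 a5 a1 a2
  rw [cone_J0]
  have e0 : (A + r • F0) 0 = A 0 + r := by simp [F0]
  have e1 : (A + r • F0) 1 = A 1 := by simp [F0]
  have e2 : (A + r • F0) 2 = A 2 := by simp [F0]
  have e3 : (A + r • F0) 3 = A 3 := by simp [F0]
  have e4 : (A + r • F0) 4 = A 4 := by simp [F0]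
  have e5 : (A + r • F0) 5 = A 5 + r := by simp [F0]
  rw [e0, e1, e2, e3, e4, e5]
  refine ⟨⟨h4, h3⟩, by linarith, by linarith, ?_⟩
  have b0 : 2 * ‖A‖ ≤ A 0 + r := by linarith [a0.1]
  have b5 : 2 * ‖A‖ ≤ A 5 + r := by linarith [a5.1]
  have b1 : A 1 ^ 2 ≤ ‖A‖ ^ 2 := sq_le_sq' a1.1 a1.2
  have b2 : A 2 ^ 2 ≤ ‖A‖ ^ 2 := sq_le_sq' a2.1 a2.2
  have b3 : (2 * ‖A‖) * (2 * ‖A‖) ≤ (A 0 + r) * (A 5 + r) :=
    mul_le_mul b0 b5 (by positivity) (by linarith)
  nlinarith

theorem sqrt_add_le' {a b : ℝ} (ha : 0 ≤ a) (hb : 0 ≤ b) :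
    Real.sqrt (a + b) ≤ Real.sqrt a + Real.sqrt b := by
  rw [Real.sqrt_le_left (add_nonneg (Real.sqrt_nonneg _) (Real.sqrt_nonneg _))]
  have h1 := Real.sq_sqrt ha
  have h2 := Real.sq_sqrt hb
  have h3 := mul_nonneg (Real.sqrt_nonneg a) (Real.sqrt_nonneg b)
  nlinarith

/-- Hölder continuity of the root -/
theorem rq_sub_le {A B : L2} (hA : Cone J0 A) (hB : Cone J0 B) :
    rq A ≤ rq B + Real.sqrt (‖toE (A - B)‖ * ‖toE (A + B)‖) := by
  have h1 : Q A A = Q B B + Q (A - B) (A + B) := by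
    have e : A - B = A + (-1 : ℝ) • B := by module
    rw [e, Q_add_left, Q_add_right, Q_add_right, Q_smul_left, Q_smul_left, Q_comm B A]
    ring
  have h2 := G9.abs_Q_le' (A - B) (A + B)
  have h3 : Q A A ≤ Q B B + ‖toE (A - B)‖ * ‖toE (A + B)‖ := by
    have := le_abs_self (Q (A - B) (A + B))
    linarith
  unfold rq
  have hb := Q_self_nonneg hB
  have hc : 0 ≤ ‖toE (A - B)‖ * ‖toE (A + B)‖ := by positivity
  calc Real.sqrt (Q A A) ≤ Real.sqrt (Q B B + ‖toE (A - B)‖ * ‖toE (A + B)‖) :=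
        Real.sqrt_le_sqrt h3
    _ ≤ Real.sqrt (Q B B) + Real.sqrt (‖toE (A - B)‖ * ‖toE (A + B)‖) :=
        sqrt_add_le' hb hc

theorem abs_rq_sub_le {A B : L2} (hA : Cone J0 A) (hB : Cone J0 B) :
    |rq A - rq B| ≤ Real.sqrt (‖toE (A - B)‖ * ‖toE (A + B)‖) := by
  have h1 := rq_sub_le hA hB
  have h2 := rq_sub_le hB hA
  have e1 : ‖toE (B - A)‖ = ‖toE (A - B)‖ := by
    rw [← norm_neg, ← map_neg]; congr 2; abel
  rw [e1, add_comm B A] at h2
  rw [abs_le]
  constructor <;> linarith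

end Vale.Agent.P247.SCY
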