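import Vale.Agent.P247.SCY.KLa

/-!
# P247, soft Calabi-Yau, block KL: continuous averages and pointwise bounds on `L²`
-/

set_option linter.all false

open MeasureTheory Set Metric Filter Topology
open scoped ContDiff ENNReal NNReal BigOperators InnerProductSpace Topology

namespace Vale.Agent.P247.SCY
open Vale.Agent.P204 Vale.Agent.P204.T4 Vale.Agent.P204.GX _root_.P204.GX

/-- cut-off function -/
noncomputable def chi (s : ℝ) : ℝ := max 0 (min 1 (2 - s))

theorem continuous_chi : Continuous chi :=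
  continuous_const.max (continuous_const.min (continuous_const.sub continuous_id))

theorem chi_nonneg (s : ℝ) : 0 ≤ chi s := le_max_left _ _

theorem chi_le_one (s : ℝ) : chi s ≤ 1 := max_le zero_le_one (min_le_left _ _)

theorem chi_eq_one {s : ℝ} (h : s ≤ 1) : chi s = 1 := by
  unfold chi
  rw [min_eq_left (by linarith), max_eq_right zero_le_one]

theorem chi_eq_zero {s : ℝ} (h : 2 ≤ s) : chi s = 0 := by
  unfold chi
  rw [min_eq_right (by linarith), max_eq_left (by linarith)]

section
variable {X : Type} [MetricSpace X] [CompactSpace X] [MeasurableSpace X] [BorelSpace X]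

/-- continuous average at scale `r` -/
noncomputable def avg (μ : Measure X) (r : ℝ) (g : X → ℝ) (x : X) : ℝ :=
  ∫ y, chi (dist x y / r) * g y ∂μ

variable {μ : Measure X} [IsFiniteMeasure μ]

theorem measurable_chi (r : ℝ) (x : X) : Measurable fun y : X => chi (dist x y / r) :=
  continuous_chi.measurable.comp ((measurable_const.dist measurable_id).div_const r)

theorem avg_integrable {g : X → ℝ} (hg : Integrable g μ) (r : ℝ) (x : X) :
    Integrable (fun y => chi (dist x y / r) * g y) μ := by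
  refine (hg.bdd_mul (c := 1) (measurable_chi r x).aestronglyMeasurable ?_)
  exact Eventually.of_forall fun y => by
    rw [Real.norm_eq_abs, abs_of_nonneg (chi_nonneg _)]; exact chi_le_one _

theorem continuous_avg {g : X → ℝ} (hg : Integrable g μ) (r : ℝ) : Continuous (avg μ r g) := by
  unfold avg
  apply continuous_of_dominated (bound := fun y => |g y|)
  · intro x
    exact (avg_integrable hg r x).aestronglyMeasurable
  · intro x
    refine Eventually.of_forall fun y => ?_
    rw [norm_mul, Real.norm_eq_abs, Real.norm_eq_abs, abs_of_nonneg (chi_nonneg _)]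
    calc chi (dist x y / r) * |g y| ≤ 1 * |g y| :=
          mul_le_mul_of_nonneg_right (chi_le_one _) (abs_nonneg _)
      _ = _ := one_mul _
  · exact hg.abs
  · refine Eventually.of_forall fun y => ?_
    exact (continuous_chi.comp ((continuous_id.dist continuous_const).div_const r)).mul
      continuous_const

theorem avg_nonneg {g : X → ℝ} (hg0 : ∀ᵐ y ∂μ, 0 ≤ g y) (r : ℝ) (x : X) : 0 ≤ avg μ r g x :=
  integral_nonneg_of_ae (by
    filter_upwards [hg0] with y hy
    exact mul_nonneg (chi_nonneg _) hy)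

theorem ball_le_avg {g : X → ℝ} (hg : Integrable g μ) (hg0 : ∀ᵐ y ∂μ, 0 ≤ g y) {r : ℝ} (hr : 0 < r)
    (x : X) {s : ℝ} (hs : s ≤ r) : ∫ y in ball x s, g y ∂μ ≤ avg μ r g x := by
  rw [← integral_indicator isOpen_ball.measurableSet]
  unfold avg
  refine integral_mono_ae (hg.indicator isOpen_ball.measurableSet) (avg_integrable hg r x) ?_
  filter_upwards [hg0] with y hy
  by_cases h : y ∈ ball x s
  · rw [indicator_of_mem h]
    have h1 : dist x y / r ≤ 1 := by
      rw [div_le_one hr]
      have : dist y x < s := h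
      rw [dist_comm]
      linarith
    show g y ≤ chi (dist x y / r) * g y
    rw [chi_eq_one h1, one_mul]
  · rw [indicator_of_notMem h]
    exact mul_nonneg (chi_nonneg _) hy

theorem int_avg_le {g : X → ℝ} (hg : Integrable g μ) (hg0 : ∀ᵐ y ∂μ, 0 ≤ g y) {r : ℝ} (hr : 0 < r)
    (t : Measure X) [IsFiniteMeasure t] :
    ∫ x, avg μ r g x ∂t ≤ ∫ y, g y * (t (ball y (2 * r))).toReal ∂μ := by
  have hcm : Measurable fun p : X × X => chi (dist p.1 p.2 / r) :=
    continuous_chi.measurable.comp ((measurable_fst.dist measurable_snd).div_const r)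
  have hint : Integrable (Function.uncurry fun (x y : X) => chi (dist x y / r) * g y)
      (t.prod μ) := by
    have h1 : Integrable (fun p : X × X => g p.2) (t.prod μ) := hg.comp_snd t
    refine h1.bdd_mul (c := 1) hcm.aestronglyMeasurable ?_
    exact Eventually.of_forall fun y => by
      rw [Real.norm_eq_abs, abs_of_nonneg (chi_nonneg _)]; exact chi_le_one _
  have e1 := integral_integral_swap hint
  show ∫ x, ∫ y, chi (dist x y / r) * g y ∂μ ∂t ≤ _
  rw [e1]
  have hint2 := hint.integral_prod_right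
  refine integral_mono_ae hint2 ?_ ?_
  · have hm := G9.measurable_ball_real t (2 * r)
    refine hg.mul_bdd (c := (t univ).toReal) hm.aestronglyMeasurable ?_
    exact Eventually.of_forall fun y => by
      rw [Real.norm_eq_abs, abs_of_nonneg ENNReal.toReal_nonneg]
      exact ENNReal.toReal_mono (measure_ne_top _ _) (measure_mono (subset_univ _))
  · filter_upwards [hg0] with y hy
    show ∫ x, chi (dist x y / r) * g y ∂t ≤ g y * (t (ball y (2 * r))).toReal
    rw [integral_mul_const, mul_comm]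
    apply mul_le_mul_of_nonneg_left _ hy
    have e2 : (t (ball y (2 * r))).toReal = ∫ x, (ball y (2 * r)).indicator (fun _ => (1 : ℝ)) x ∂t := by
      rw [integral_indicator isOpen_ball.measurableSet, setIntegral_const, smul_eq_mul, mul_one]
      rfl
    rw [e2]
    have hcx : Measurable fun x : X => chi (dist x y / r) :=
      continuous_chi.measurable.comp ((measurable_id.dist measurable_const).div_const r)
    refine integral_mono ?_ ?_ fun x => ?_
    · exact Integrable.of_bound hcx.aestronglyMeasurable 1 (Eventually.of_forall fun x => by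
        rw [Real.norm_eq_abs, abs_of_nonneg (chi_nonneg _)]; exact chi_le_one _)
    · exact (integrable_const (1 : ℝ)).indicator isOpen_ball.measurableSet
    · by_cases h : x ∈ ball y (2 * r)
      · show chi (dist x y / r) ≤ (ball y (2 * r)).indicator (fun _ => (1 : ℝ)) x
        rw [indicator_of_mem h]; exact chi_le_one _
      · show chi (dist x y / r) ≤ (ball y (2 * r)).indicator (fun _ => (1 : ℝ)) x
        rw [indicator_of_notMem h, chi_eq_zero]
        rw [mem_ball, not_lt] at h
        rw [le_div_iff₀ hr]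
        exact h

variable {M : CM X} (P : MSys M)

/-- the integral of the average of the norm of an `L²` form -/
theorem int_avg_norm (u : Lp E6 2 M.mu) {K k δ : ℝ} (hk : P.c * k = 2 * K) (hk0 : 0 < k)
    (h0 : 0 < δ) (t : Measure X) [IsFiniteMeasure t] :
    ∫ x, avg M.mu (K * δ) (fun y => ‖u y‖) x ∂t ≤
      ((k * δ) ^ 3 / P.c) * (Real.sqrt (P.Z.en t (k * δ)) * ‖u‖) := by
  have hc : 0 < P.c := P.Z.c_pos
  have hK : 0 < K := by nlinarith [mul_pos hc hk0]
  have hkd : 0 < k * δ := mul_pos hk0 h0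
  have hu : Integrable (fun y => ‖u y‖) M.mu := (P.Z.memLp_norm u).integrable (by norm_num)
  refine (int_avg_le hu (Eventually.of_forall fun y => norm_nonneg _) (mul_pos hK h0) t).trans ?_
  have e1 : ∀ y, (t (ball y (2 * (K * δ)))).toReal = ((k * δ) ^ 4 / P.c) * P.Z.maj t (k * δ) y := by
    intro y
    unfold FnSys.maj
    have : (P.Z).c * (k * δ) = 2 * (K * δ) := by
      show P.c * (k * δ) = _
      rw [← mul_assoc, hk]; ring
    rw [this]
    show _ = ((k * δ) ^ 4 / P.c) * (P.c * ((k * δ) ^ 4)⁻¹ * _)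
    field_simp
  have e2 : ∫ y, ‖u y‖ * (t (ball y (2 * (K * δ)))).toReal ∂M.mu =
      ((k * δ) ^ 4 / P.c) * ∫ y, ‖u y‖ * P.Z.maj t (k * δ) y ∂M.mu := by
    rw [← integral_const_mul]
    congr 1; funext y
    rw [e1]; ring
  rw [e2]
  have h3 := P.Z.int_maj_le (t := t) hkd u
  calc ((k * δ) ^ 4 / P.c) * ∫ y, ‖u y‖ * P.Z.maj t (k * δ) y ∂M.mu
      = ((k * δ) ^ 3 / P.c) * ((k * δ) * ∫ y, ‖u y‖ * P.Z.maj t (k * δ) y ∂M.mu) := by ring
    _ ≤ _ := mul_le_mul_of_nonneg_left h3 (by positivity)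

/-- evaluation of the smoothing at a point -/
noncomputable def evx {δ : ℝ} (h0 : 0 < δ) (h1 : δ ≤ P.Y.δ0) (x : X) : Lp E6 2 M.mu →L[ℝ] L2 :=
  LinearMap.mkContinuous
    { toFun := fun u => (P.Y.S δ u : X → L2) x
      map_add' := fun u v => by rw [map_add]; rfl
      map_smul' := fun c u => by rw [map_smul]; rfl }
    (P.Y.K 0 * (δ ^ (2 + 0))⁻¹) (fun u => (P.M0 (P.Y.S δ u) x).trans (P.Y.SSM 0 δ u h0 h1))

theorem evx_apply {δ : ℝ} (h0 : 0 < δ) (h1 : δ ≤ P.Y.δ0) (x : X) (u : Lp E6 2 M.mu) :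
    evx P h0 h1 x u = (P.Y.S δ u : X → L2) x := rfl

/-- pointwise bound of a continuous functional by an integral over a ball -/
theorem ball_bound (L : Lp E6 2 M.mu →L[ℝ] L2) {c : ℝ} (hc : 0 ≤ c) (x : X) (r : ℝ)
    (h : ∀ b : M.Om, ‖L (P.Y.ι b)‖ ≤ c * ∫ y in ball x r, ‖(b : X → L2) y‖ ∂M.mu)
    (u : Lp E6 2 M.mu) : ‖L u‖ ≤ c * ∫ y in ball x r, ‖u y‖ ∂M.mu := by
  have e1 : ∀ f : X → ℝ, ∫ y, f y * (ball x r).indicator (fun _ => (1 : ℝ)) y ∂M.mu =
      ∫ y in ball x r, f y ∂M.mu := by
    intro f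
    rw [← integral_indicator isOpen_ball.measurableSet]
    congr 1; funext y
    by_cases hy : y ∈ ball x r
    · rw [indicator_of_mem hy, indicator_of_mem hy, mul_one]
    · rw [indicator_of_notMem hy, indicator_of_notMem hy, mul_zero]
  have hI : 0 ≤ ∫ y in ball x r, ‖u y‖ ∂M.mu := integral_nonneg fun y => norm_nonneg _
  rw [pi_norm_le_iff_of_nonneg (mul_nonneg hc hI)]
  intro i
  have h1 := P.Z.closed_bound ((ContinuousLinearMap.proj i : L2 →L[ℝ] ℝ) ∘L L) c hc
    (g := (ball x r).indicator (fun _ => (1 : ℝ)))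
    (measurable_const.indicator isOpen_ball.measurableSet)
    (fun y => indicator_nonneg (fun _ _ => zero_le_one) y) (C := 1)
    (fun y => indicator_le_self' (fun _ _ => zero_le_one) y)
    (fun b => by
      rw [e1]
      refine le_trans ?_ (h b)
      have := norm_le_pi_norm (L (P.Y.ι b)) i
      rw [Real.norm_eq_abs] at this
      exact this) u
  rw [e1] at h1
  rw [Real.norm_eq_abs]
  exact h1

theorem P0_H {δ : ℝ} (h0 : 0 < δ) (h1 : δ ≤ P.Y.δ0) (x : X) (u : Lp E6 2 M.mu) :
    ‖(P.Y.S δ u : X → L2) x‖ ≤ P.c * (δ ^ 4)⁻¹ * ∫ y in ball x (P.c * δ), ‖u y‖ ∂M.mu := by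
  have hc : 0 < P.c := P.Z.c_pos
  exact ball_bound P (evx P h0 h1 x) (by positivity) x _ (fun b => P.P0 δ b x h0 h1) u

/-- `pP J0` as a continuous linear map -/
noncomputable def pPL : L2 →L[ℝ] L2 :=
  LinearMap.toContinuousLinearMap
    { toFun := fun A => pP J0 A
      map_add' := fun A B => FnSys.pP_add A B
      map_smul' := fun c A => FnSys.pP_smul c A }

theorem pPL_apply (A : L2) : pPL A = pP J0 A := rfl

theorem P1_H {δ : ℝ} (h0 : 0 < δ) (h1 : δ ≤ P.Y.δ0) (x : X) (u : Lp E6 2 M.mu) :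
    ‖pP J0 ((P.Y.S δ (P.Y.pmH u) : X → L2) x)‖ ≤
      P.c * δ * (δ ^ 4)⁻¹ * ∫ y in ball x (P.c * δ), ‖u y‖ ∂M.mu := by
  have hc : 0 < P.c := P.Z.c_pos
  refine ball_bound P (pPL ∘L (evx P h0 h1 x) ∘L P.Y.pmH) (by positivity) x _ (fun b => ?_) u
  show ‖pP J0 ((P.Y.S δ (P.Y.pmH (P.Y.ι b)) : X → L2) x)‖ ≤ _
  rw [P.Y.pmH_ι]
  exact P.P1 δ b x h0 h1

end

end Vale.Agent.P247.SCY
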