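import Vale.Agent.P247.SCY.KLc

/-!
# P247, soft Calabi-Yau, block KL: lower bound for the smoothed current on smooth cone valued forms
-/

set_option linter.all false

open MeasureTheory Set Metric Filter Topology
open scoped ContDiff ENNReal NNReal BigOperators InnerProductSpace Topology

namespace Vale.Agent.P247.SCY
open Vale.Agent.P204 Vale.Agent.P204.T4 Vale.Agent.P204.GX _root_.P204.GX

section
variable {X : Type} [MetricSpace X] [CompactSpace X] [MeasurableSpace X] [BorelSpace X]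
variable {M : CM X}

/-- scalar average -/
noncomputable def sav (M : CM X) (δ : ℝ) (h : X → ℝ) (x : X) : ℝ :=
  Q F0 (M.S0 δ (fun y => h y • F0) x)

theorem hF_mem_C0 {h : X → ℝ} (hh : Continuous h) : (fun y => h y • F0) ∈ M.C0 :=
  smul_mem_C0 hh F_mem_C0

theorem sav_add {δ : ℝ} (h0 : 0 ≤ δ) (h1 : δ ≤ M.z1) {h h' : X → ℝ} (hh : Continuous h)
    (hh' : Continuous h') (x : X) :
    sav M δ (fun y => h y + h' y) x = sav M δ h x + sav M δ h' x := by
  unfold sav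
  have e : (fun y => (h y + h' y) • F0) = (fun y => h y • F0) + fun y => h' y • F0 := by
    funext y
    show (h y + h' y) • F0 = h y • F0 + h' y • F0
    module
  rw [e, S0_add_C0 h0 h1 (hF_mem_C0 hh) (hF_mem_C0 hh')]
  exact Q_add_right _ _ _

theorem sav_smul (δ : ℝ) (c : ℝ) (h : X → ℝ) (x : X) :
    sav M δ (fun y => c * h y) x = c * sav M δ h x := by
  unfold sav
  have e : (fun y => (c * h y) • F0) = c • (fun y => h y • F0) := by
    funext y
    show (c * h y) • F0 = c • (h y • F0)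
    rw [smul_smul]
  rw [e, M.S0_smul]
  exact Q_smul_right _ _ _

theorem sav_sub {δ : ℝ} (h0 : 0 ≤ δ) (h1 : δ ≤ M.z1) {h h' : X → ℝ} (hh : Continuous h)
    (hh' : Continuous h') (x : X) :
    sav M δ (fun y => h y - h' y) x = sav M δ h x - sav M δ h' x := by
  have e : (fun y => h y - h' y) = fun y => h y + (-1) * h' y := by funext y; ring
  rw [e, sav_add (h' := fun y => (-1) * h' y) h0 h1 hh (continuous_const.mul hh'), sav_smul]
  ring

theorem sav_integrable {δ : ℝ} (h0 : 0 ≤ δ) (h1 : δ ≤ M.z1) {h : X → ℝ} (hh : Continuous h) :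
    Integrable (sav M δ h) M.mu :=
  M.integrable_Q7 F_mem_C0 (S0_mem_C0 h0 h1 (hF_mem_C0 hh))

/-- the data of `P3VStatement` -/
def P3VData (M : CM X) (δ0 c : ℝ) : Prop := ∀ (δ : ℝ) (b : M.Om) (x : X), 0 < δ → δ ≤ δ0 →
    (∀ y, Cone J0 ((b : X → L2) y)) →
    Cone J0 (pP J0 (M.S0 δ b x) +
      (c * δ ^ 2 * (δ ^ 4)⁻¹ * ∫ y in Metric.ball x (c * δ), ‖(b : X → L2) y‖ ∂M.mu) • F0) ∧
    sav M δ (fun y => rq ((b : X → L2) y)) x ≤ 2 * (1 + c * δ) * rq (pP J0 (M.S0 δ b x) +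
      (c * δ ^ 2 * (δ ^ 4)⁻¹ * ∫ y in Metric.ball x (c * δ), ‖(b : X → L2) y‖ ∂M.mu) • F0)

/-- the data of `AvStatement` -/
def AvData (M : CM X) (δ0 c : ℝ) : Prop := ∀ (δ : ℝ) (h : X → ℝ), 0 < δ → δ ≤ δ0 →
    Continuous h →
    (∀ x, (∀ y ∈ Metric.ball x (c * δ), 0 ≤ h y) → 0 ≤ sav M δ h x) ∧
    (∀ x, |sav M δ h x| ≤ c * (δ ^ 4)⁻¹ * ∫ y in Metric.ball x (c * δ), |h y| ∂M.mu) ∧
    (∀ x, |Q F0 (M.S0 δ (fun _ => F0) x) - 2| ≤ c * δ) ∧
    |∫ x, sav M δ h x ∂M.mu - 2 * ∫ x, h x ∂M.mu| ≤ c * δ * ∫ x, |h x| ∂M.mu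

theorem lowB [Nonempty X] (P : MSys M) {δa ca δb cb K k : ℝ} (hδa : 0 < δa) (hca : 1 ≤ ca)
    (hδb : 0 < δb) (hcb : 1 ≤ cb) (h3 : P3VData M δa ca) (hav : AvData M δb cb)
    (hcaK : ca ≤ K) (hcbK : cb ≤ K) (hk : P.c * k = 2 * K) (hk1 : 1 ≤ k)
    {σ : X → ℝ} (σc : Continuous σ) (σp : ∀ x, 0 < σ x) {p : Measure X} {E : X → L2}
    (hp : FnSys.Cur p E)
    (hV : ∀ u ∈ M.C0, (∀ x, Cone J0 (u x)) → Vol M σ u ≤ FnSys.fn p E u)
    {τ : ℝ} (hτ : 0 < τ) (hτ1 : τ < 1) :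
    ∃ δ1 : ℝ, 0 < δ1 ∧ δ1 ≤ P.Y.δ0 ∧ ∀ (δ : ℝ) (b : M.Om), 0 < δ → δ ≤ δ1 →
      (∀ x, Cone J0 ((b : X → L2) x)) →
      (1 - τ) * ∫ x, Real.sqrt (σ x) * rq ((b : X → L2) x) ∂M.mu ≤
        FnSys.fn p E (P.Y.S δ (P.Y.ι b) : X → L2) +
        (K * k ^ 4 / P.c) * δ ^ 2 * ∫ y, P.Z.maj p (k * δ) y * Q ((b : X → L2) y) F0 ∂M.mu := by
  haveI := hp.fin
  have hc : 0 < P.c := P.Z.c_pos
  have hK : 0 < K := by linarith
  have hk0 : 0 < k := by linarith
  have hsc : Continuous fun x => Real.sqrt (σ x) := Real.continuous_sqrt.comp σc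
  have hsp : ∀ x, 0 < Real.sqrt (σ x) := fun x => Real.sqrt_pos.2 (σp x)
  obtain ⟨r0, hr0, hmod⟩ := mult_modulus hsc hsp (show (0 : ℝ) < τ / 3 by positivity)
  set δ1 : ℝ := min (min (min δa δb) P.Y.δ0) (min (r0 / cb) (2 * τ / (3 * (cb + 2 * ca)))) with hδ1
  have hcb0 : 0 < cb := by linarith
  have hca0 : 0 < ca := by linarith
  have hδ1p : 0 < δ1 := by
    refine lt_min (lt_min (lt_min hδa hδb) P.Y.δ0_pos) (lt_min (by positivity) (by positivity))
  refine ⟨δ1, hδ1p, (min_le_left _ _).trans (min_le_right _ _), fun δ b h0 h1 hb => ?_⟩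
  have k1 : δ ≤ δa := h1.trans ((min_le_left _ _).trans ((min_le_left _ _).trans (min_le_left _ _)))
  have k2 : δ ≤ δb := h1.trans ((min_le_left _ _).trans ((min_le_left _ _).trans (min_le_right _ _)))
  have k3 : δ ≤ P.Y.δ0 := h1.trans ((min_le_left _ _).trans (min_le_right _ _))
  have k4 : cb * δ ≤ r0 := by
    have := h1.trans ((min_le_right _ _).trans (min_le_left _ _))
    rw [le_div_iff₀ hcb0] at this
    linarith
  have k5 : δ * (3 * (cb + 2 * ca)) ≤ 2 * τ := by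
    have := h1.trans ((min_le_right _ _).trans (min_le_right _ _))
    rwa [le_div_iff₀ (by positivity)] at this
  have kz : δ ≤ M.z1 := k3.trans P.δ0_le_z1
  have hbC : (b : X → L2) ∈ M.C0 := memC b
  have hS : (P.Y.S δ (P.Y.ι b) : X → L2) = M.S0 δ b := P.S_eq δ b h0 k3
  have hSC : M.S0 δ (b : X → L2) ∈ M.C0 := S0_mem_C0 h0.le kz hbC
  have hnb : Integrable (fun y => ‖(b : X → L2) y‖) M.mu := M.integrable_norm b.2
  have hnb0 : ∀ᵐ y ∂M.mu, 0 ≤ ‖(b : X → L2) y‖ := Eventually.of_forall fun y => norm_nonneg _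
  -- the error
  set av0 : X → ℝ := avg M.mu (K * δ) (fun y => ‖(b : X → L2) y‖) with hav0
  set e : X → ℝ := fun x => K * δ ^ 2 * (δ ^ 4)⁻¹ * av0 x with he
  have hec : Continuous e := continuous_const.mul (continuous_avg hnb _)
  set e3 : X → ℝ := fun x => ca * δ ^ 2 * (δ ^ 4)⁻¹ *
    ∫ y in Metric.ball x (ca * δ), ‖(b : X → L2) y‖ ∂M.mu with he3
  have hee : ∀ x, e3 x ≤ e x := by
    intro x
    have i1 := ball_le_avg hnb hnb0 (mul_pos hK h0) x (s := ca * δ)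
      (mul_le_mul_of_nonneg_right hcaK h0.le)
    have i2 : 0 ≤ ∫ y in Metric.ball x (ca * δ), ‖(b : X → L2) y‖ ∂M.mu :=
      integral_nonneg fun y => norm_nonneg _
    show ca * δ ^ 2 * (δ ^ 4)⁻¹ * _ ≤ K * δ ^ 2 * (δ ^ 4)⁻¹ * _
    gcongr
  set B : X → L2 := fun x => pP J0 (M.S0 δ b x) + e x • F0 with hB
  have hBC : B ∈ M.C0 := add_smul_F_mem_C0 hec (M.pP_mem_C0 hSC)
  have hBeq : ∀ x, B x = (pP J0 (M.S0 δ b x) + e3 x • F0) + (e x - e3 x) • F0 := fun x => by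
    show pP J0 (M.S0 δ b x) + e x • F0 = _
    module
  have h3' := fun x => h3 δ b x h0 k1 hb
  have hBcone : ∀ x, Cone J0 (B x) := fun x => by
    rw [hBeq]
    exact G7.cone_add (h3' x).1 (G7.cone_smul (sub_nonneg.2 (hee x)) G9.cone_F0)
  have hBrq : ∀ x, sav M δ (fun y => rq ((b : X → L2) y)) x ≤ 2 * (1 + ca * δ) * rq (B x) := by
    intro x
    refine (h3' x).2.trans ?_
    apply mul_le_mul_of_nonneg_left _ (by positivity)
    rw [hBeq]
    exact rq_mono (h3' x).1 (G7.cone_smul (sub_nonneg.2 (hee x)) G9.cone_F0)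
  -- the volume of `B`
  have hrb : Continuous fun y => rq ((b : X → L2) y) := continuous_rqX hbC
  set h : X → ℝ := fun y => Real.sqrt (σ y) * rq ((b : X → L2) y) with hh
  have hhc : Continuous h := hsc.mul hrb
  have hh0 : ∀ y, 0 ≤ h y := fun y => mul_nonneg (Real.sqrt_nonneg _) (rq_nonneg _)
  have hpt : ∀ x, (1 - τ / 3) * sav M δ h x ≤ 2 * (1 + ca * δ) * vd (σ x) (B x) := by
    intro x
    have p1 : 0 ≤ sav M δ (fun y => Real.sqrt (σ x) * rq ((b : X → L2) y) - (1 - τ / 3) * h y) x := by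
      refine (hav δ _ h0 k2 ((continuous_const.mul hrb).sub (continuous_const.mul hhc))).1 x
        fun y hy => ?_
      have hy' : dist y x < r0 := lt_of_lt_of_le hy k4
      have p2 := mul_le_mul_of_nonneg_right (hmod x y hy') (rq_nonneg ((b : X → L2) y))
      show 0 ≤ Real.sqrt (σ x) * rq ((b : X → L2) y) -
        (1 - τ / 3) * (Real.sqrt (σ y) * rq ((b : X → L2) y))
      linarith
    rw [sav_sub (h := fun y => Real.sqrt (σ x) * rq ((b : X → L2) y))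
      (h' := fun y => (1 - τ / 3) * h y) h0.le kz (continuous_const.mul hrb)
      (continuous_const.mul hhc), sav_smul, sav_smul] at p1
    have p3 := mul_le_mul_of_nonneg_left (hBrq x) (Real.sqrt_nonneg (σ x))
    have p4 : vd (σ x) (B x) = Real.sqrt (σ x) * rq (B x) := by
      rw [vd_eq (σp x).le, pP_of_inv (hBcone x).1]; rfl
    rw [p4]
    linarith
  have hVol : (1 - τ) * ∫ x, h x ∂M.mu ≤ Vol M σ B := by
    have i1 : (1 - τ / 3) * ∫ x, sav M δ h x ∂M.mu ≤ 2 * (1 + ca * δ) * Vol M σ B := by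
      rw [Vol_eq, ← integral_const_mul, ← integral_const_mul]
      exact integral_mono ((sav_integrable h0.le kz hhc).const_mul _)
        ((integrable_vd σc hBC).const_mul _) hpt
    have i2 := (hav δ h h0 k2 hhc).2.2.2
    have i3 : ∫ x, |h x| ∂M.mu = ∫ x, h x ∂M.mu := by
      congr 1; funext x; exact abs_of_nonneg (hh0 x)
    rw [i3] at i2
    have i4 := (abs_le.1 i2).1
    set I := ∫ x, h x ∂M.mu with hI
    have hI0 : 0 ≤ I := integral_nonneg hh0
    have i5 : (2 - cb * δ) * I ≤ ∫ x, sav M δ h x ∂M.mu := by linarith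
    have i6 : (1 - τ / 3) * ((2 - cb * δ) * I) ≤ 2 * (1 + ca * δ) * Vol M σ B :=
      (mul_le_mul_of_nonneg_left i5 (by linarith)).trans i1
    -- `2 - cb δ ≥ (1 - τ/3) 2 (1 + ca δ)`
    have i7 : (1 - τ / 3) * (2 * (1 + ca * δ)) ≤ 2 - cb * δ := by
      have : 0 ≤ τ * (ca * δ) := by positivity
      nlinarith
    have i8 : (1 - τ / 3) * ((1 - τ / 3) * (2 * (1 + ca * δ)) * I) ≤
        2 * (1 + ca * δ) * Vol M σ B := by
      refine le_trans ?_ i6
      apply mul_le_mul_of_nonneg_left _ (by linarith)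
      exact mul_le_mul_of_nonneg_right i7 hI0
    have hpos : 0 < 2 * (1 + ca * δ) := by positivity
    have i9 : (1 - τ / 3) ^ 2 * I ≤ Vol M σ B := by
      have : 2 * (1 + ca * δ) * ((1 - τ / 3) ^ 2 * I) ≤ 2 * (1 + ca * δ) * Vol M σ B := by
        calc _ = (1 - τ / 3) * ((1 - τ / 3) * (2 * (1 + ca * δ)) * I) := by ring
          _ ≤ _ := i8
      exact le_of_mul_le_mul_left this hpos
    refine le_trans ?_ i9
    apply mul_le_mul_of_nonneg_right _ hI0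
    nlinarith
  -- the functional
  have hfn : FnSys.fn p E B = FnSys.fn p E (P.Y.S δ (P.Y.ι b) : X → L2) + ∫ x, e x ∂p := by
    have e4 : FnSys.fn p E (P.Y.S δ (P.Y.ι b) : X → L2) =
        FnSys.fn p E (fun x => pP J0 ((P.Y.S δ (P.Y.ι b) : X → L2) x)) :=
      P.Z.fn_pP hp (P.Y.S δ (P.Y.ι b))
    rw [e4, hS, ← fn_F hp e]
    unfold FnSys.fn
    rw [← integral_add (integrable_fn (M := M) hp (M.pP_mem_C0 hSC))
      (integrable_fn (M := M) hp (smul_mem_C0 hec F_mem_C0))]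
    congr 1; funext x; exact Q_add_right _ _ _
  have hkd : 0 < k * δ := mul_pos hk0 h0
  have herr : ∫ x, e x ∂p ≤ (K * k ^ 4 / P.c) * δ ^ 2 *
      ∫ y, P.Z.maj p (k * δ) y * Q ((b : X → L2) y) F0 ∂M.mu := by
    have j1 : ∫ x, e x ∂p = K * δ ^ 2 * (δ ^ 4)⁻¹ * ∫ x, av0 x ∂p := integral_const_mul _ _
    have j2 := int_avg_le hnb hnb0 (mul_pos hK h0) p
    have e1 : ∀ y, (p (ball y (2 * (K * δ)))).toReal =
        ((k * δ) ^ 4 / P.c) * P.Z.maj p (k * δ) y := by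
      intro y
      unfold FnSys.maj
      have : (P.Z).c * (k * δ) = 2 * (K * δ) := by
        show P.c * (k * δ) = _
        rw [← mul_assoc, hk]; ring
      rw [this]
      show _ = ((k * δ) ^ 4 / P.c) * (P.c * ((k * δ) ^ 4)⁻¹ * _)
      field_simp
    have e2 : ∫ y, ‖(b : X → L2) y‖ * (p (ball y (2 * (K * δ)))).toReal ∂M.mu =
        ((k * δ) ^ 4 / P.c) * ∫ y, ‖(b : X → L2) y‖ * P.Z.maj p (k * δ) y ∂M.mu := by
      rw [← integral_const_mul]
      congr 1; funext y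
      rw [e1]; ring
    rw [e2] at j2
    have j3 := P.Z.int_b_maj_le p hkd b hb
    have j3' : ∫ y, ‖(b : X → L2) y‖ * P.Z.maj p (k * δ) y ∂M.mu ≤
      ∫ y, P.Z.maj p (k * δ) y * Q ((b : X → L2) y) F0 ∂M.mu := j3
    rw [j1]
    calc K * δ ^ 2 * (δ ^ 4)⁻¹ * ∫ x, av0 x ∂p
        ≤ K * δ ^ 2 * (δ ^ 4)⁻¹ * (((k * δ) ^ 4 / P.c) *
          ∫ y, P.Z.maj p (k * δ) y * Q ((b : X → L2) y) F0 ∂M.mu) := by
          apply mul_le_mul_of_nonneg_left _ (by positivity)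
          exact j2.trans (mul_le_mul_of_nonneg_left j3' (by positivity))
      _ = _ := by field_simp
  have hfin := hV B hBC hBcone
  rw [hfn] at hfin
  linarith

end

end Vale.Agent.P247.SCY
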