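import Vale.Agent.P247.SCY.KLd

/-!
# P247, soft Calabi-Yau, block KL: the almost everywhere lower bound for the regularised current
-/

set_option linter.all false

open MeasureTheory Set Metric Filter Topology
open scoped ContDiff ENNReal NNReal BigOperators InnerProductSpace Topology

namespace Vale.Agent.P247.SCY
open Vale.Agent.P204 Vale.Agent.P204.T4 Vale.Agent.P204.GX _root_.P204.GX

theorem rq_le_norm {A : L2} : rq A ≤ ‖toE A‖ := by
  unfold rq
  rw [Real.sqrt_le_left (norm_nonneg _)]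
  have := G9.abs_Q_le' A A
  have h2 := le_abs_self (Q A A)
  nlinarith

theorem rq_zero : rq 0 = 0 := by
  unfold rq; simp

theorem sqrt_mul_le' {a l : ℝ} (ha : 0 ≤ a) (hl : 0 < l) : Real.sqrt a ≤ l / 2 + a / (2 * l) := by
  rw [Real.sqrt_le_left (by positivity)]
  have h : (l / 2 + a / (2 * l)) ^ 2 - a = (l / 2 - a / (2 * l)) ^ 2 := by field_simp; ring
  have h2 := sq_nonneg (l / 2 - a / (2 * l))
  linarith

section
variable {X : Type} [MetricSpace X] [CompactSpace X] [MeasurableSpace X] [BorelSpace X]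
variable {M : CM X} (P : MSys M)

theorem rq_aesm (u : Lp E6 2 M.mu) :
    AEStronglyMeasurable (fun x => rq (ofE (u x))) M.mu :=
  (continuous_rq.comp ofE.continuous).comp_aestronglyMeasurable (Lp.aestronglyMeasurable u)

theorem rq_le_norm' (v : E6) : rq (ofE v) ≤ ‖v‖ := rq_le_norm (A := ofE v)

include P in
theorem norm_integrable (u : Lp E6 2 M.mu) : Integrable (fun x => ‖u x‖) M.mu :=
  (P.Z.memLp_norm u).integrable (by norm_num)

include P in
theorem srq_integrable {s : X → ℝ} (hs : Continuous s) (u : Lp E6 2 M.mu) :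
    Integrable (fun x => s x * rq (ofE (u x))) M.mu := by
  obtain ⟨S0, hS0⟩ := (isCompact_univ (X := X)).exists_bound_of_continuousOn hs.continuousOn
  have h1 : Integrable (fun x => rq (ofE (u x))) M.mu :=
    (norm_integrable P u).mono (rq_aesm u) (Eventually.of_forall fun x => by
      rw [Real.norm_eq_abs, abs_of_nonneg (rq_nonneg _), norm_norm]
      exact rq_le_norm' _)
  exact h1.bdd_mul hs.measurable.aestronglyMeasurable
    (Eventually.of_forall fun x => hS0 x (mem_univ x))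

include P in
/-- continuity estimate for the weighted volume of cone valued `L²` forms -/
theorem srq_sub_le {s : X → ℝ} (hs : Continuous s) (hs0 : ∀ x, 0 ≤ s x) {S0 : ℝ}
    (hS0 : ∀ x, s x ≤ S0) {u v : Lp E6 2 M.mu}
    (hu : ∀ᵐ x ∂M.mu, Cone J0 (ofE (u x))) (hv : ∀ᵐ x ∂M.mu, Cone J0 (ofE (v x)))
    {l : ℝ} (hl : 0 < l) (hS00 : 0 ≤ S0) :
    ∫ x, |s x * rq (ofE (u x)) - s x * rq (ofE (v x))| ∂M.mu ≤
      S0 * (l / 2 * M.mu.real univ + (‖u - v‖ * ‖u + v‖) / (2 * l)) := by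
  have i1 : Integrable (fun x => S0 * (l / 2 + ‖(u - v : Lp E6 2 M.mu) x‖ *
      ‖(u + v : Lp E6 2 M.mu) x‖ / (2 * l))) M.mu :=
    ((integrable_const _).add ((P.Z.int_mul_norm (u - v) (u + v)).div_const _)).const_mul _
  have h1 : ∫ x, |s x * rq (ofE (u x)) - s x * rq (ofE (v x))| ∂M.mu ≤
      ∫ x, S0 * (l / 2 + ‖(u - v : Lp E6 2 M.mu) x‖ * ‖(u + v : Lp E6 2 M.mu) x‖ / (2 * l))
        ∂M.mu := by
    refine integral_mono_ae ((srq_integrable P hs u).sub (srq_integrable P hs v)).abs i1 ?_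
    filter_upwards [hu, hv, Lp.coeFn_sub u v, Lp.coeFn_add u v] with x e1 e2 e3 e4
    have e5 := abs_rq_sub_le e1 e2
    have e6 : ofE (u x) - ofE (v x) = ofE ((u - v : Lp E6 2 M.mu) x) := by
      rw [e3, Pi.sub_apply, map_sub]
    have e7 : ofE (u x) + ofE (v x) = ofE ((u + v : Lp E6 2 M.mu) x) := by
      rw [e4, Pi.add_apply, map_add]
    rw [e6, e7, G9.toE_ofE, G9.toE_ofE] at e5
    have e8 := e5.trans (sqrt_mul_le' (by positivity) hl)
    show |s x * rq (ofE (u x)) - s x * rq (ofE (v x))| ≤ _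
    rw [← mul_sub, abs_mul, abs_of_nonneg (hs0 x)]
    exact mul_le_mul (hS0 x) e8 (abs_nonneg _) hS00
  refine h1.trans ?_
  rw [integral_const_mul]
  apply mul_le_mul_of_nonneg_left _ hS00
  rw [integral_add (integrable_const _) ((P.Z.int_mul_norm (u - v) (u + v)).div_const _),
    integral_const, smul_eq_mul, integral_div, mul_comm]
  have h2 := P.Z.cs_two (u - v) (u + v)
  gcongr

/-- extension of a lower bound from smooth to `L²` cone valued forms -/
theorem ext_low {s : X → ℝ} (hs : Continuous s) (hs0 : ∀ x, 0 ≤ s x) {c : ℝ} (hc : 0 ≤ c)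
    [Nonempty X] (V : Lp E6 2 M.mu)
    (h : ∀ b : M.Om, (∀ x, Cone J0 ((b : X → L2) x)) →
      c * ∫ x, s x * rq ((b : X → L2) x) ∂M.mu ≤ ⟪V, P.Y.ι b⟫_ℝ)
    (u : Lp E6 2 M.mu) (hu : ∀ᵐ x ∂M.mu, Cone J0 (ofE (u x))) :
    c * ∫ x, s x * rq (ofE (u x)) ∂M.mu ≤ ⟪V, u⟫_ℝ := by
  obtain ⟨S0, hS0⟩ := (isCompact_univ (X := X)).exists_bound_of_continuousOn hs.continuousOn
  obtain ⟨x0⟩ := (inferInstance : Nonempty X)
  have hS0' : ∀ x, s x ≤ S0 := fun x => by
    have := hS0 x (mem_univ x)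
    rw [Real.norm_eq_abs] at this
    exact (le_abs_self _).trans this
  have hS00 : 0 ≤ S0 := (hs0 x0).trans (hS0' x0)
  choose b hb1 hb2 using fun n : ℕ => coneDense X M P u hu (1 / ((n : ℝ) + 1)) (by positivity)
  -- limit of the pairing
  have hlim : Tendsto (fun n => P.Y.ι (b n)) atTop (𝓝 u) := by
    rw [tendsto_iff_norm_sub_tendsto_zero]
    refine squeeze_zero (fun n => norm_nonneg _) (fun n => ?_)
      (tendsto_one_div_add_atTop_nhds_zero_nat (𝕜 := ℝ))
    rw [← norm_neg, neg_sub]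
    exact (hb2 n).le
  have key : ∀ l : ℝ, 0 < l → c * ∫ x, s x * rq (ofE (u x)) ∂M.mu ≤
      ⟪V, u⟫_ℝ + c * (S0 * (l / 2 * M.mu.real univ)) := by
    intro l hl
    have hn : ∀ n, c * ∫ x, s x * rq (ofE (u x)) ∂M.mu ≤ ⟪V, P.Y.ι (b n)⟫_ℝ +
        c * (S0 * (l / 2 * M.mu.real univ +
          (‖u - P.Y.ι (b n)‖ * ‖u + P.Y.ι (b n)‖) / (2 * l))) := by
      intro n
      have hbn : ∀ᵐ x ∂M.mu, Cone J0 (ofE ((P.Y.ι (b n) : X → E6) x)) := by
        filter_upwards [P.ι_eq (b n)] with x hx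
        rw [hx, G9.ofE_toE]; exact hb1 n x
      have h1 := srq_sub_le P hs hs0 hS0' hu hbn hl hS00
      have h2 := h (b n) (hb1 n)
      have e1 : ∫ x, s x * rq ((b n : X → L2) x) ∂M.mu =
          ∫ x, s x * rq (ofE ((P.Y.ι (b n) : X → E6) x)) ∂M.mu := by
        apply integral_congr_ae
        filter_upwards [P.ι_eq (b n)] with x hx
        rw [hx, G9.ofE_toE]
      rw [e1] at h2
      have h3 : ∫ x, s x * rq (ofE (u x)) ∂M.mu ≤
          ∫ x, s x * rq (ofE ((P.Y.ι (b n) : X → E6) x)) ∂M.mu +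
          ∫ x, |s x * rq (ofE (u x)) - s x * rq (ofE ((P.Y.ι (b n) : X → E6) x))| ∂M.mu := by
        have a1 : Integrable (fun x => |s x * rq (ofE (u x)) -
            s x * rq (ofE ((P.Y.ι (b n) : X → E6) x))|) M.mu :=
          ((srq_integrable P hs u).sub (srq_integrable P hs _)).abs
        rw [← integral_add (srq_integrable P hs _) a1]
        refine integral_mono (srq_integrable P hs u) ((srq_integrable P hs _).add a1)
          fun x => ?_
        show s x * rq (ofE (u x)) ≤ s x * rq (ofE ((P.Y.ι (b n) : X → E6) x)) +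
          |s x * rq (ofE (u x)) - s x * rq (ofE ((P.Y.ι (b n) : X → E6) x))|
        have := le_abs_self (s x * rq (ofE (u x)) - s x * rq (ofE ((P.Y.ι (b n) : X → E6) x)))
        linarith
      have h4 := mul_le_mul_of_nonneg_left h3 hc
      have h5 := mul_le_mul_of_nonneg_left h1 hc
      rw [mul_add] at h4
      linarith
    have l1 : Tendsto (fun n => ⟪V, P.Y.ι (b n)⟫_ℝ) atTop (𝓝 ⟪V, u⟫_ℝ) :=
      (tendsto_const_nhds).inner hlim
    have l2 : Tendsto (fun n => (‖u - P.Y.ι (b n)‖ * ‖u + P.Y.ι (b n)‖) / (2 * l)) atTop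
        (𝓝 ((‖u - u‖ * ‖u + u‖) / (2 * l))) :=
      (((tendsto_const_nhds.sub hlim).norm).mul ((tendsto_const_nhds.add hlim).norm)).div_const _
    rw [sub_self, norm_zero, zero_mul, zero_div] at l2
    have l3 := l1.add (((l2.const_add (l / 2 * M.mu.real univ)).const_mul S0).const_mul c)
    rw [add_zero] at l3
    exact ge_of_tendsto' l3 hn
  have l4 : Tendsto (fun l : ℝ => ⟪V, u⟫_ℝ + c * (S0 * (l / 2 * M.mu.real univ))) (𝓝[>] 0)
      (𝓝 (⟪V, u⟫_ℝ + c * (S0 * (0 / 2 * M.mu.real univ)))) := by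
    have : Continuous fun l : ℝ => ⟪V, u⟫_ℝ + c * (S0 * (l / 2 * M.mu.real univ)) := by fun_prop
    exact (this.tendsto 0).mono_left nhdsWithin_le_nhds
  rw [zero_div, zero_mul, mul_zero, mul_zero, add_zero] at l4
  refine ge_of_tendsto l4 ?_
  filter_upwards [self_mem_nhdsWithin] with l hl
  exact key l hl

/-- localisation -/
theorem loc_low {s : X → ℝ} (hs : Continuous s) (hs0 : ∀ x, 0 ≤ s x) {c : ℝ} (hc : 0 ≤ c)
    (V : Lp E6 2 M.mu)
    (h : ∀ u : Lp E6 2 M.mu, (∀ᵐ x ∂M.mu, Cone J0 (ofE (u x))) →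
      c * ∫ x, s x * rq (ofE (u x)) ∂M.mu ≤ ⟪V, u⟫_ℝ) :
    ∀ᵐ x ∂M.mu, ∀ B : L2, Cone J0 B → c * s x * rq B ≤ ⟪V x, toE B⟫_ℝ := by
  have hone : ∀ B : L2, Cone J0 B → ∀ᵐ x ∂M.mu, c * s x * rq B ≤ ⟪V x, toE B⟫_ℝ := by
    intro B hB
    have hsi : Integrable s M.mu := by
      obtain ⟨S0, hS0⟩ := (isCompact_univ (X := X)).exists_bound_of_continuousOn hs.continuousOn
      exact Integrable.of_bound hs.measurable.aestronglyMeasurable S0
        (Filter.Eventually.of_forall fun x => hS0 x (mem_univ x))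
    have hVi : Integrable (fun x => ⟪V x, toE B⟫_ℝ) M.mu := by
      have h1 : Integrable (V : X → E6) M.mu := (Lp.memLp V).integrable (by norm_num)
      exact h1.inner_const _
    refine ae_le_of_forall_setIntegral_le ((hsi.const_mul c).mul_const _) hVi fun A hA _ => ?_
    set u : Lp E6 2 M.mu := indicatorConstLp 2 hA (measure_ne_top M.mu A) (toE B) with hu
    have hux : (u : X → E6) =ᵐ[M.mu] A.indicator fun _ => toE B := indicatorConstLp_coeFn
    have h1 := h u (by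
      filter_upwards [hux] with x hx
      rw [hx]
      by_cases hxA : x ∈ A
      · rw [indicator_of_mem hxA, G9.ofE_toE]; exact hB
      · rw [indicator_of_notMem hxA, map_zero]
        have := G7.cone_smul le_rfl (G9.cone_F0)
        rwa [zero_smul] at this)
    have e1 : ∫ x, s x * rq (ofE (u x)) ∂M.mu = ∫ x in A, s x * rq B ∂M.mu := by
      rw [← integral_indicator hA]
      apply integral_congr_ae
      filter_upwards [hux] with x hx
      rw [hx]
      by_cases hxA : x ∈ A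
      · rw [indicator_of_mem hxA, indicator_of_mem hxA, G9.ofE_toE]
      · rw [indicator_of_notMem hxA, indicator_of_notMem hxA, map_zero, rq_zero, mul_zero]
    have e2 : ⟪V, u⟫_ℝ = ∫ x in A, ⟪V x, toE B⟫_ℝ ∂M.mu := by
      rw [← integral_indicator hA, L2.inner_def]
      apply integral_congr_ae
      filter_upwards [hux] with x hx
      rw [hx]
      by_cases hxA : x ∈ A
      · rw [indicator_of_mem hxA, indicator_of_mem hxA]
      · rw [indicator_of_notMem hxA, indicator_of_notMem hxA, inner_zero_right]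
    rw [e1, e2, ← integral_const_mul] at h1
    refine le_trans (le_of_eq ?_) h1
    congr 1; funext x; ring
  -- countable dense subset of the cone
  haveI : Nonempty {A : L2 // Cone J0 A} := ⟨⟨F0, G9.cone_F0⟩⟩
  have hall : ∀ᵐ x ∂M.mu, ∀ n : ℕ, c * s x *
      rq (TopologicalSpace.denseSeq {A : L2 // Cone J0 A} n : L2) ≤
      ⟪V x, toE (TopologicalSpace.denseSeq {A : L2 // Cone J0 A} n : L2)⟫_ℝ := by
    rw [ae_all_iff]
    intro n
    exact hone _ (TopologicalSpace.denseSeq {A : L2 // Cone J0 A} n).2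
  filter_upwards [hall] with x hx
  have hclosed : IsClosed {B : {A : L2 // Cone J0 A} | c * s x * rq (B : L2) ≤
      ⟪V x, toE (B : L2)⟫_ℝ} := by
    refine isClosed_le ?_ ?_
    · exact continuous_const.mul (continuous_rq.comp continuous_subtype_val)
    · exact continuous_const.inner (toE.continuous.comp continuous_subtype_val)
  intro B hB
  have h2 : closure (Set.range (TopologicalSpace.denseSeq {A : L2 // Cone J0 A})) ⊆
      {B : {A : L2 // Cone J0 A} | c * s x * rq (B : L2) ≤ ⟪V x, toE (B : L2)⟫_ℝ} := by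
    refine closure_minimal ?_ hclosed
    rintro _ ⟨n, rfl⟩
    exact hx n
  rw [(TopologicalSpace.denseRange_denseSeq _).closure_range] at h2
  exact h2 (mem_univ ⟨B, hB⟩)

/-- the almost everywhere lower bound -/
theorem ae_low [Nonempty X] {s : X → ℝ} (hs : Continuous s) (hs0 : ∀ x, 0 ≤ s x) {c : ℝ}
    (hc : 0 ≤ c) {t : Measure X} [IsFiniteMeasure t] {δ' : ℝ} (hδ' : 0 < δ') {c2 : ℝ}
    (w : Lp E6 2 M.mu)
    (h : ∀ b : M.Om, (∀ x, Cone J0 ((b : X → L2) x)) →
      c * ∫ x, s x * rq ((b : X → L2) x) ∂M.mu ≤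
        ⟪P.Y.st w + c2 • P.Z.mF t hδ', P.Y.ι b⟫_ℝ) :
    ∀ᵐ x ∂M.mu, Cone J0 (pP J0 (ofE (w x)) + (c2 * P.Z.maj t δ' x) • F0) ∧
      c * s x ≤ rq (pP J0 (ofE (w x)) + (c2 * P.Z.maj t δ' x) • F0) := by
  have h1 := loc_low hs hs0 hc _ (ext_low P hs hs0 hc _ h)
  filter_upwards [h1, Lp.coeFn_add (P.Y.st w) (c2 • P.Z.mF t hδ'),
    Lp.coeFn_smul c2 (P.Z.mF t hδ'), P.Z.mF_coe t hδ', P.st_eq w] with x e1 e2 e3 e4 e5
  set A : L2 := ofE (w x) + (c2 * P.Z.maj t δ' x) • F0 with hA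
  have hpA : pP J0 A = pP J0 (ofE (w x)) + (c2 * P.Z.maj t δ' x) • F0 := by
    rw [hA, FnSys.pP_add, FnSys.pP_smul, FnSys.pP_F0]
  have hQ : ∀ B, Cone J0 B → c * s x * rq B ≤ Q B A := by
    intro B hB
    have e6 := e1 B hB
    rw [e2, Pi.add_apply, e3, Pi.smul_apply, e4, e5, real_inner_comm, smul_smul] at e6
    rw [G9.Q_inner, hA, G9.hs_add, G9.hs_smul, FnSys.hs_F0, map_add, map_smul]
    exact e6
  have hcone : Cone J0 (pP J0 A) := FnSys.cone_of_pair fun B hB => by
    refine le_trans ?_ (hQ B hB)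
    exact mul_nonneg (mul_nonneg hc (hs0 x)) (rq_nonneg _)
  rw [← hpA]
  refine ⟨hcone, dual_cone hcone fun B hB => ?_⟩
  rw [Q_inv_pP isCx_J0 G9.pos_J0 hB.1]
  exact hQ B hB

end

end Vale.Agent.P247.SCY
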