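import Vale.Agent.P247.SCY.KLe

/-!
# P247, soft Calabi-Yau, block KL: the pointwise lower bound
-/

set_option linter.all false

open MeasureTheory Set Metric Filter Topology
open scoped ContDiff ENNReal NNReal BigOperators InnerProductSpace Topology

namespace Vale.Agent.P247.SCY
open Vale.Agent.P204 Vale.Agent.P204.T4 Vale.Agent.P204.GX _root_.P204.GX

section
variable {X : Type} [MetricSpace X] [CompactSpace X] [MeasurableSpace X] [BorelSpace X]
variable {M : CM X} (P : MSys M)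

/-- the candidate form at a point -/
noncomputable def PsiB (ca δ : ℝ) (x : X) (u : Lp E6 2 M.mu) : L2 :=
  pP J0 ((P.Y.S δ u : X → L2) x) +
    (ca * δ ^ 2 * (δ ^ 4)⁻¹ * ∫ y in ball x (ca * δ), ‖u y‖ ∂M.mu) • F0

include P in
theorem ball_norm_lip (x : X) (r : ℝ) (u v : Lp E6 2 M.mu) :
    |∫ y in ball x r, ‖u y‖ ∂M.mu - ∫ y in ball x r, ‖v y‖ ∂M.mu| ≤
      ‖u - v‖ * Real.sqrt (∫ y : X, (1 : ℝ) ^ 2 ∂M.mu) := by
  have hu : Integrable (fun y => ‖u y‖) (M.mu.restrict (ball x r)) := (norm_integrable P u).restrict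
  have hv : Integrable (fun y => ‖v y‖) (M.mu.restrict (ball x r)) := (norm_integrable P v).restrict
  rw [← integral_sub hu hv]
  have h1 : |∫ y in ball x r, (‖u y‖ - ‖v y‖) ∂M.mu| ≤
      ∫ y in ball x r, ‖(u - v : Lp E6 2 M.mu) y‖ ∂M.mu := by
    rw [← Real.norm_eq_abs]
    refine norm_integral_le_of_norm_le (norm_integrable P (u - v)).restrict ?_
    have := ae_restrict_of_ae (s := ball x r) (Lp.coeFn_sub u v)
    filter_upwards [this] with y hy
    rw [hy, Pi.sub_apply, Real.norm_eq_abs]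
    exact abs_norm_sub_norm_le _ _
  refine h1.trans ?_
  have h2 : ∫ y in ball x r, ‖(u - v : Lp E6 2 M.mu) y‖ ∂M.mu ≤
      ∫ y, ‖(u - v : Lp E6 2 M.mu) y‖ * 1 ∂M.mu := by
    simp only [mul_one]
    exact setIntegral_le_integral (norm_integrable P (u - v))
      (Eventually.of_forall fun y => norm_nonneg _)
  exact h2.trans (P.Z.cs_int (u - v) (g := fun _ => 1) measurable_const (fun _ => zero_le_one)
    (C := 1) (fun _ => le_rfl))

theorem PsiB_tendsto {ca δ : ℝ} (h0 : 0 < δ) (h1 : δ ≤ P.Y.δ0) (x : X) {u : Lp E6 2 M.mu}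
    {v : ℕ → Lp E6 2 M.mu} (hv : Tendsto v atTop (𝓝 u)) :
    Tendsto (fun n => PsiB P ca δ x (v n)) atTop (𝓝 (PsiB P ca δ x u)) := by
  have l1 : Tendsto (fun n => pP J0 ((P.Y.S δ (v n) : X → L2) x)) atTop
      (𝓝 (pP J0 ((P.Y.S δ u : X → L2) x))) :=
    ((pPL ∘L (evx P h0 h1 x)).continuous.tendsto u).comp hv
  have l2 : Tendsto (fun n => ∫ y in ball x (ca * δ), ‖v n y‖ ∂M.mu) atTop
      (𝓝 (∫ y in ball x (ca * δ), ‖u y‖ ∂M.mu)) := by
    rw [tendsto_iff_norm_sub_tendsto_zero]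
    have l3 : Tendsto (fun n => ‖v n - u‖ * Real.sqrt (∫ y : X, (1 : ℝ) ^ 2 ∂M.mu)) atTop
        (𝓝 (0 * Real.sqrt (∫ y : X, (1 : ℝ) ^ 2 ∂M.mu))) :=
      (tendsto_iff_norm_sub_tendsto_zero.1 hv).mul_const _
    rw [zero_mul] at l3
    refine squeeze_zero (fun n => norm_nonneg _) (fun n => ?_) l3
    rw [Real.norm_eq_abs]
    exact ball_norm_lip P x _ (v n) u
  exact l1.add ((l2.const_mul _).smul_const F0)

/-- the pointwise lower bound for smoothings of cone valued `L²` forms -/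
theorem ptw_low [Nonempty X] {δa ca δb cb : ℝ} (hca : 1 ≤ ca) (hcb : 1 ≤ cb)
    (h3 : P3VData M δa ca) (hav : AvData M δb cb)
    {δ : ℝ} (h0 : 0 < δ) (k1 : δ ≤ δa) (k2 : δ ≤ δb) (k3 : δ ≤ P.Y.δ0)
    {u : Lp E6 2 M.mu} (hu : ∀ᵐ x ∂M.mu, Cone J0 (ofE (u x))) {g : X → ℝ} (hg : Continuous g)
    (hgu : ∀ᵐ x ∂M.mu, g x ≤ rq (ofE (u x))) (x : X) :
    Cone J0 (PsiB P ca δ x u) ∧ sav M δ g x ≤ 2 * (1 + ca * δ) * rq (PsiB P ca δ x u) := by
  have kz : δ ≤ M.z1 := k3.trans P.δ0_le_z1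
  choose b hb1 hb2 using fun n : ℕ => coneDense X M P u hu (1 / ((n : ℝ) + 1)) (by positivity)
  have hlim : Tendsto (fun n => P.Y.ι (b n)) atTop (𝓝 u) := by
    rw [tendsto_iff_norm_sub_tendsto_zero]
    refine squeeze_zero (fun n => norm_nonneg _) (fun n => ?_)
      (tendsto_one_div_add_atTop_nhds_zero_nat (𝕜 := ℝ))
    rw [← norm_neg, neg_sub]
    exact (hb2 n).le
  have hΨ := PsiB_tendsto P (ca := ca) h0 k3 x hlim
  -- comparison with the smooth forms
  have hcomp : ∀ n, Cone J0 (PsiB P ca δ x (P.Y.ι (b n))) ∧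
      sav M δ (fun y => rq ((b n : X → L2) y)) x ≤
        2 * (1 + ca * δ) * rq (PsiB P ca δ x (P.Y.ι (b n))) := by
    intro n
    obtain ⟨q1, q2⟩ := h3 δ (b n) x h0 k1 (hb1 n)
    have hS : (P.Y.S δ (P.Y.ι (b n)) : X → L2) = M.S0 δ (b n) := P.S_eq δ (b n) h0 k3
    have hle : ∫ y in Metric.ball x (ca * δ), ‖(b n : X → L2) y‖ ∂M.mu ≤
        ∫ y in Metric.ball x (ca * δ), ‖(P.Y.ι (b n) : X → E6) y‖ ∂M.mu := by
      refine setIntegral_mono_ae (M.integrable_norm (b n).2).integrableOn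
        (norm_integrable P _).integrableOn ?_
      filter_upwards [P.ι_eq (b n)] with y hy
      rw [hy]; exact G9.norm_le_toE _
    set i1 := ∫ y in Metric.ball x (ca * δ), ‖(b n : X → L2) y‖ ∂M.mu
    set i2 := ∫ y in Metric.ball x (ca * δ), ‖(P.Y.ι (b n) : X → E6) y‖ ∂M.mu
    have hc0 : 0 ≤ ca * δ ^ 2 * (δ ^ 4)⁻¹ := by positivity
    have e1 : PsiB P ca δ x (P.Y.ι (b n)) = (pP J0 (M.S0 δ (b n) x) +
        (ca * δ ^ 2 * (δ ^ 4)⁻¹ * i1) • F0) + (ca * δ ^ 2 * (δ ^ 4)⁻¹ * (i2 - i1)) • F0 := by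
      unfold PsiB
      rw [hS]
      show _ + (ca * δ ^ 2 * (δ ^ 4)⁻¹ * i2) • F0 = _
      module
    have hF : Cone J0 ((ca * δ ^ 2 * (δ ^ 4)⁻¹ * (i2 - i1)) • F0) :=
      G7.cone_smul (mul_nonneg hc0 (sub_nonneg.2 hle)) G9.cone_F0
    rw [e1]
    refine ⟨G7.cone_add q1 hF, q2.trans ?_⟩
    exact mul_le_mul_of_nonneg_left (rq_mono q1 hF) (by positivity)
  refine ⟨isClosed_cone'.mem_of_tendsto hΨ (Eventually.of_forall fun n => (hcomp n).1), ?_⟩
  -- the scalar averages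
  have hμ0 : 0 ≤ M.mu.real univ := measureReal_nonneg
  have key : ∀ l : ℝ, 0 < l → sav M δ g x ≤ 2 * (1 + ca * δ) * rq (PsiB P ca δ x u) +
      cb * (δ ^ 4)⁻¹ * (1 * (l / 2 * M.mu.real univ)) := by
    intro l hl
    have hn : ∀ n, sav M δ g x ≤ 2 * (1 + ca * δ) * rq (PsiB P ca δ x (P.Y.ι (b n))) +
        cb * (δ ^ 4)⁻¹ * (1 * (l / 2 * M.mu.real univ +
          (‖u - P.Y.ι (b n)‖ * ‖u + P.Y.ι (b n)‖) / (2 * l))) := by
      intro n
      have hbC : (b n : X → L2) ∈ M.C0 := memC _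
      have hr : Continuous fun y => rq ((b n : X → L2) y) := continuous_rqX hbC
      have hbn : ∀ᵐ x ∂M.mu, Cone J0 (ofE ((P.Y.ι (b n) : X → E6) x)) := by
        filter_upwards [P.ι_eq (b n)] with x hx
        rw [hx, G9.ofE_toE]; exact hb1 n x
      have h1 := srq_sub_le P (s := fun _ => 1) continuous_const (fun _ => zero_le_one)
        (S0 := 1) (fun _ => le_rfl) hu hbn hl zero_le_one
      simp only [one_mul] at h1
      -- the negative part
      set hm : X → ℝ := fun y => max 0 (g y - rq ((b n : X → L2) y)) with hhm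
      have hmc : Continuous hm := continuous_const.max (hg.sub hr)
      have hm0 : ∀ y, 0 ≤ hm y := fun y => le_max_left _ _
      have hmi : Integrable hm M.mu := by
        obtain ⟨C0, hC0⟩ := (isCompact_univ (X := X)).exists_bound_of_continuousOn hmc.continuousOn
        exact Integrable.of_bound hmc.measurable.aestronglyMeasurable C0
          (Filter.Eventually.of_forall fun x => hC0 x (mem_univ x))
      have i1 : ∫ y, hm y ∂M.mu ≤ ∫ x, |rq (ofE (u x)) - rq (ofE ((P.Y.ι (b n) : X → E6) x))|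
          ∂M.mu := by
        have a1 : Integrable (fun x => |rq (ofE (u x)) - rq (ofE ((P.Y.ι (b n) : X → E6) x))|)
            M.mu := by
          have b1 := srq_integrable P (s := fun _ => (1 : ℝ)) continuous_const u
          have b2 := srq_integrable P (s := fun _ => (1 : ℝ)) continuous_const (P.Y.ι (b n))
          simp only [one_mul] at b1 b2
          exact (b1.sub b2).abs
        refine integral_mono_ae hmi a1 ?_
        filter_upwards [hgu, P.ι_eq (b n)] with y h4 h5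
        rw [h5, G9.ofE_toE]
        refine max_le (abs_nonneg _) ?_
        have := le_abs_self (rq (ofE (u y)) - rq ((b n : X → L2) y))
        linarith
      have i2 : 0 ≤ sav M δ (fun y => (rq ((b n : X → L2) y) - g y) + hm y) x := by
        refine (hav δ _ h0 k2 ((hr.sub hg).add hmc)).1 x fun y _ => ?_
        show 0 ≤ (rq ((b n : X → L2) y) - g y) + max 0 (g y - rq ((b n : X → L2) y))
        have := le_max_right 0 (g y - rq ((b n : X → L2) y))
        linarith
      rw [sav_add (h := fun y => rq ((b n : X → L2) y) - g y) (h' := hm) h0.le kz (hr.sub hg) hmc,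
        sav_sub (h := fun y => rq ((b n : X → L2) y)) (h' := g) h0.le kz hr hg] at i2
      have i3 := (hav δ hm h0 k2 hmc).2.1 x
      have i4 : ∫ y in Metric.ball x (cb * δ), |hm y| ∂M.mu ≤ ∫ y, hm y ∂M.mu := by
        have : (fun y => |hm y|) = hm := funext fun y => abs_of_nonneg (hm0 y)
        rw [this]
        exact setIntegral_le_integral hmi (Eventually.of_forall hm0)
      have i5 : sav M δ hm x ≤ cb * (δ ^ 4)⁻¹ * (l / 2 * M.mu.real univ +
          (‖u - P.Y.ι (b n)‖ * ‖u + P.Y.ι (b n)‖) / (2 * l)) := by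
        refine (le_abs_self _).trans (i3.trans ?_)
        apply mul_le_mul_of_nonneg_left _ (by positivity)
        exact i4.trans (i1.trans h1)
      have i6 := (hcomp n).2
      rw [one_mul]
      linarith
    have l1 : Tendsto (fun n => rq (PsiB P ca δ x (P.Y.ι (b n)))) atTop
        (𝓝 (rq (PsiB P ca δ x u))) := (continuous_rq.tendsto _).comp hΨ
    have l2 : Tendsto (fun n => (‖u - P.Y.ι (b n)‖ * ‖u + P.Y.ι (b n)‖) / (2 * l)) atTop
        (𝓝 ((‖u - u‖ * ‖u + u‖) / (2 * l))) :=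
      (((tendsto_const_nhds.sub hlim).norm).mul ((tendsto_const_nhds.add hlim).norm)).div_const _
    rw [sub_self, norm_zero, zero_mul, zero_div] at l2
    have l3 := (l1.const_mul (2 * (1 + ca * δ))).add
      (((l2.const_add (l / 2 * M.mu.real univ)).const_mul 1).const_mul (cb * (δ ^ 4)⁻¹))
    rw [add_zero] at l3
    exact ge_of_tendsto' l3 hn
  have l4 : Tendsto (fun l : ℝ => 2 * (1 + ca * δ) * rq (PsiB P ca δ x u) +
      cb * (δ ^ 4)⁻¹ * (1 * (l / 2 * M.mu.real univ))) (𝓝[>] 0)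
      (𝓝 (2 * (1 + ca * δ) * rq (PsiB P ca δ x u) +
      cb * (δ ^ 4)⁻¹ * (1 * (0 / 2 * M.mu.real univ)))) := by
    have : Continuous fun l : ℝ => 2 * (1 + ca * δ) * rq (PsiB P ca δ x u) +
      cb * (δ ^ 4)⁻¹ * (1 * (l / 2 * M.mu.real univ)) := by fun_prop
    exact (this.tendsto 0).mono_left nhdsWithin_le_nhds
  rw [zero_div, zero_mul, mul_zero, mul_zero, add_zero] at l4
  refine ge_of_tendsto l4 ?_
  filter_upwards [self_mem_nhdsWithin] with l hl
  exact key l hl

end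

end Vale.Agent.P247.SCY
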