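import Vale.Agent.P247.SCY.KLf

/-!
# P247, soft Calabi-Yau, block KL: assembly
-/

set_option linter.all false

open MeasureTheory Set Metric Filter Topology
open scoped ContDiff ENNReal NNReal BigOperators InnerProductSpace Topology

namespace Vale.Agent.P247.SCY
open Vale.Agent.P204 Vale.Agent.P204.T4 Vale.Agent.P204.GX _root_.P204.GX

theorem pow_six_le {τ : ℝ} (h0 : 0 ≤ τ) (h1 : τ ≤ 1) : 1 - 6 * τ ≤ ((1 - τ) ^ 3) ^ 2 := by
  have h := one_add_mul_le_pow (show (-2 : ℝ) ≤ -τ by linarith) 6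
  have e : (1 + -τ) ^ 6 = ((1 - τ) ^ 3) ^ 2 := by ring
  rw [e] at h
  have : (1 : ℝ) + (6 : ℕ) * -τ = 1 - 6 * τ := by push_cast; ring
  linarith

section
variable {X : Type} [MetricSpace X] [CompactSpace X] [MeasurableSpace X] [BorelSpace X]
variable {M : CM X} (P : MSys M)

/-- the lower bound of the root of `PsiB` -/
theorem scale_low [Nonempty X] {δa ca δb cb : ℝ} (hca : 1 ≤ ca) (hcb : 1 ≤ cb)
    (h3 : P3VData M δa ca) (hav : AvData M δb cb)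
    {δ : ℝ} (h0 : 0 < δ) (k1 : δ ≤ δa) (k2 : δ ≤ δb) (k3 : δ ≤ P.Y.δ0)
    {u : Lp E6 2 M.mu} (hu : ∀ᵐ x ∂M.mu, Cone J0 (ofE (u x))) {s : X → ℝ} (hsc : Continuous s)
    (hs0 : ∀ x, 0 ≤ s x) {τ : ℝ} (hτ : 0 < τ) (hτ1 : τ < 1)
    (hgu : ∀ᵐ x ∂M.mu, (1 - τ) * s x ≤ rq (ofE (u x))) {r0 : ℝ}
    (hmod : ∀ x y, dist y x < r0 → (1 - τ) * s y ≤ s x) (k5 : cb * δ ≤ r0)
    (k6 : δ * (cb + 2 * ca) ≤ τ) (x : X) :
    Cone J0 (PsiB P ca δ x u) ∧ (1 - τ) ^ 3 * s x ≤ rq (PsiB P ca δ x u) := by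
  have hca0 : 0 < ca := by linarith
  have hcb0 : 0 < cb := by linarith
  have kz : δ ≤ M.z1 := k3.trans P.δ0_le_z1
  obtain ⟨a0, a1⟩ := ptw_low P hca hcb h3 hav h0 k1 k2 k3 hu (g := fun y => (1 - τ) * s y)
    (continuous_const.mul hsc) hgu x
  refine ⟨a0, ?_⟩
  have hone : Continuous fun _ : X => (1 - τ) ^ 2 * s x := continuous_const
  have a2 : 0 ≤ sav M δ (fun y => (1 - τ) * s y - (1 - τ) ^ 2 * s x) x := by
    refine (hav δ _ h0 k2 ((continuous_const.mul hsc).sub hone)).1 x fun y hy => ?_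
    have hy' : dist x y < r0 := by
      rw [dist_comm]; exact lt_of_lt_of_le hy k5
    have a3 := mul_le_mul_of_nonneg_left (hmod y x hy') (by linarith : (0 : ℝ) ≤ 1 - τ)
    show 0 ≤ (1 - τ) * s y - (1 - τ) ^ 2 * s x
    have : (1 - τ) * ((1 - τ) * s x) = (1 - τ) ^ 2 * s x := by ring
    linarith
  rw [sav_sub (h := fun y => (1 - τ) * s y)
    (h' := fun _ => (1 - τ) ^ 2 * s x) h0.le kz (continuous_const.mul hsc) hone] at a2
  have a4 : sav M δ (fun _ => (1 - τ) ^ 2 * s x) x =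
      ((1 - τ) ^ 2 * s x) * Q F0 (M.S0 δ (fun _ => F0) x) := by
    have b1 : (fun _ : X => (1 - τ) ^ 2 * s x) =
      fun _ => ((1 - τ) ^ 2 * s x) * 1 := by funext y; ring
    rw [b1, sav_smul]
    unfold sav
    simp only [one_smul]
  have a5 := (hav δ (fun _ => (0 : ℝ)) h0 k2 continuous_const).2.2.1 x
  have a6 := (abs_le.1 a5).1
  have b2 : 0 ≤ (1 - τ) ^ 2 * s x := mul_nonneg (sq_nonneg _) (hs0 x)
  have a7 : (2 - cb * δ) * ((1 - τ) ^ 2 * s x) ≤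
      2 * (1 + ca * δ) * rq (PsiB P ca δ x u) := by
    have b3 : (2 - cb * δ) * ((1 - τ) ^ 2 * s x) ≤
      ((1 - τ) ^ 2 * s x) * Q F0 (M.S0 δ (fun _ => F0) x) := by
      rw [mul_comm]
      exact mul_le_mul_of_nonneg_left (by linarith) b2
    rw [a4] at a2
    linarith
  -- `(1 - τ) 2 (1 + ca δ) ≤ 2 - cb δ`
  have a8 : (1 - τ) * (2 * (1 + ca * δ)) ≤ 2 - cb * δ := by
    have : 0 ≤ τ * (ca * δ) := by positivity
    nlinarith
  have a9 : 2 * (1 + ca * δ) * ((1 - τ) ^ 3 * s x) ≤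
      2 * (1 + ca * δ) * rq (PsiB P ca δ x u) := by
    refine le_trans ?_ a7
    calc 2 * (1 + ca * δ) * ((1 - τ) ^ 3 * s x) =
          ((1 - τ) * (2 * (1 + ca * δ))) * ((1 - τ) ^ 2 * s x) := by ring
      _ ≤ _ := mul_le_mul_of_nonneg_right a8 b2
  exact le_of_mul_le_mul_left a9 (by positivity)

/-- the error function -/
noncomputable def errF {p : Measure X} [IsFiniteMeasure p] (K c2 k δ : ℝ) (hkδ : 0 < k * δ)
    (w u : Lp E6 2 M.mu) (x : X) : ℝ :=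
  K * δ ^ 2 * (δ ^ 4)⁻¹ * avg M.mu (K * δ) (fun y => ‖u y‖) x +
  3 * (‖pPL‖ * (c2 * (P.c * (δ ^ 4)⁻¹))) *
    avg M.mu (K * δ) (fun y => ‖(P.Z.mF p hkδ : X → E6) y‖) x +
  3 * (P.c * δ * (δ ^ 4)⁻¹) * avg M.mu (K * δ) (fun y => ‖(P.Y.pmH w : X → E6) y‖) x

theorem errF_cont {p : Measure X} [IsFiniteMeasure p] (K c2 k δ : ℝ) (hkδ : 0 < k * δ)
    (w u : Lp E6 2 M.mu) : Continuous (errF P (p := p) K c2 k δ hkδ w u) :=
  ((continuous_const.mul (continuous_avg (norm_integrable P u) _)).add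
    (continuous_const.mul (continuous_avg (norm_integrable P _) _))).add
    (continuous_const.mul (continuous_avg (norm_integrable P _) _))

theorem errF_nonneg {p : Measure X} [IsFiniteMeasure p] {K c2 k δ : ℝ} (hK : 0 ≤ K)
    (hc2 : 0 ≤ c2) (h0 : 0 < δ) (hkδ : 0 < k * δ)
    (w u : Lp E6 2 M.mu) (x : X) : 0 ≤ errF P (p := p) K c2 k δ hkδ w u x := by
  have hc : 0 < P.c := P.Z.c_pos
  have h1 : 0 ≤ avg M.mu (K * δ) (fun y => ‖u y‖) x :=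
    avg_nonneg (Eventually.of_forall fun y => norm_nonneg _) _ x
  have h2 : 0 ≤ avg M.mu (K * δ) (fun y => ‖(P.Z.mF p hkδ : X → E6) y‖) x :=
    avg_nonneg (Eventually.of_forall fun y => norm_nonneg _) _ x
  have h3 : 0 ≤ avg M.mu (K * δ) (fun y => ‖(P.Y.pmH w : X → E6) y‖) x :=
    avg_nonneg (Eventually.of_forall fun y => norm_nonneg _) _ x
  unfold errF
  have : 0 ≤ ‖pPL‖ := norm_nonneg _
  positivity

/-- the smoothing of `w` dominates `PsiB` -/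
theorem errF_dom {p : Measure X} [IsFiniteMeasure p] {ca K c2 k δ : ℝ} (hca0 : 0 < ca)
    (hcaK : ca ≤ K) (hPK : P.c ≤ K) (hc20 : 0 ≤ c2) (h0 : 0 < δ) (k3 : δ ≤ P.Y.δ0)
    (hkδ : 0 < k * δ) (w u : Lp E6 2 M.mu)
    (hu : u = (w - P.Y.pmH w) + c2 • P.Z.mF p hkδ) (x : X) :
    ∃ R : L2, Cone J0 R ∧ pP J0 ((P.Y.S δ w : X → L2) x) + errF P (p := p) K c2 k δ hkδ w u x • F0 =
      PsiB P ca δ x u + R := by
  have hc : 0 < P.c := P.Z.c_pos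
  have hK0 : 0 < K := lt_of_lt_of_le hc hPK
  have hKδ : 0 < K * δ := mul_pos hK0 h0
  have hui : Integrable (fun y => ‖u y‖) M.mu := norm_integrable P u
  have hmi : Integrable (fun y => ‖(P.Z.mF p hkδ : X → E6) y‖) M.mu := norm_integrable P _
  have hpi : Integrable (fun y => ‖(P.Y.pmH w : X → E6) y‖) M.mu := norm_integrable P _
  set a1 : ℝ := avg M.mu (K * δ) (fun y => ‖u y‖) x with ha1
  set a2 : ℝ := avg M.mu (K * δ) (fun y => ‖(P.Z.mF p hkδ : X → E6) y‖) x with ha2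
  set a3 : ℝ := avg M.mu (K * δ) (fun y => ‖(P.Y.pmH w : X → E6) y‖) x with ha3
  set N : ℝ := ‖pPL‖ with hN
  have hN0 : 0 ≤ N := norm_nonneg _
  set s1 : ℝ := K * δ ^ 2 * (δ ^ 4)⁻¹ with hs1
  set s2 : ℝ := 3 * (N * (c2 * (P.c * (δ ^ 4)⁻¹))) with hs2
  set s3 : ℝ := 3 * (P.c * δ * (δ ^ 4)⁻¹) with hs3
  have herr : errF P (p := p) K c2 k δ hkδ w u x = s1 * a1 + s2 * a2 + s3 * a3 := rfl
  have hdec : w = u - c2 • P.Z.mF p hkδ + P.Y.pmH w := by rw [hu]; abel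
  have hSdec : pP J0 ((P.Y.S δ w : X → L2) x) = pP J0 ((P.Y.S δ u : X → L2) x) +
      (-c2) • pP J0 ((P.Y.S δ (P.Z.mF p hkδ) : X → L2) x) +
      pP J0 ((P.Y.S δ (P.Y.pmH w) : X → L2) x) := by
    have e1 : (P.Y.S δ w : X → L2) x = (P.Y.S δ u : X → L2) x +
        (-c2) • (P.Y.S δ (P.Z.mF p hkδ) : X → L2) x + (P.Y.S δ (P.Y.pmH w) : X → L2) x := by
      conv_lhs => rw [hdec]
      rw [map_add, map_sub, map_smul]
      show (P.Y.S δ u : X → L2) x - c2 • (P.Y.S δ (P.Z.mF p hkδ) : X → L2) x +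
        (P.Y.S δ (P.Y.pmH w) : X → L2) x = _
      module
    rw [e1, FnSys.pP_add, FnSys.pP_add, FnSys.pP_smul]
  refine ⟨(s1 * a1 -
        ca * δ ^ 2 * (δ ^ 4)⁻¹ * ∫ y in ball x (ca * δ), ‖u y‖ ∂M.mu) • F0 +
      ((-c2) • pP J0 ((P.Y.S δ (P.Z.mF p hkδ) : X → L2) x) + (s2 * a2) • F0) +
      (pP J0 ((P.Y.S δ (P.Y.pmH w) : X → L2) x) + (s3 * a3) • F0), ?_, ?_⟩
  · refine G7.cone_add (G7.cone_add (G7.cone_smul ?_ G9.cone_F0) ?_) ?_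
    · rw [sub_nonneg]
      have i1 := ball_le_avg hui (Eventually.of_forall fun y => norm_nonneg _) hKδ x (s := ca * δ)
        (mul_le_mul_of_nonneg_right hcaK h0.le)
      have i2 : 0 ≤ ∫ y in ball x (ca * δ), ‖u y‖ ∂M.mu := integral_nonneg fun y => norm_nonneg _
      show ca * δ ^ 2 * (δ ^ 4)⁻¹ * _ ≤ K * δ ^ 2 * (δ ^ 4)⁻¹ * _
      gcongr
    · refine cone_add_norm ?_ ?_
      · rw [pull_smul, inv_pP]
      · rw [norm_smul, norm_neg, Real.norm_eq_abs, abs_of_nonneg hc20]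
        have i1 := P0_H P h0 k3 x (P.Z.mF p hkδ)
        have i2 := pPL.le_opNorm ((P.Y.S δ (P.Z.mF p hkδ) : X → L2) x)
        have i3 := ball_le_avg hmi (Eventually.of_forall fun y => norm_nonneg _) hKδ x
          (s := P.c * δ) (mul_le_mul_of_nonneg_right hPK h0.le)
        have i4 : ‖pP J0 ((P.Y.S δ (P.Z.mF p hkδ) : X → L2) x)‖ ≤ N * (P.c * (δ ^ 4)⁻¹ * a2) := by
          refine i2.trans ?_
          apply mul_le_mul_of_nonneg_left _ hN0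
          refine i1.trans ?_
          apply mul_le_mul_of_nonneg_left i3 (by positivity)
        calc 3 * (c2 * ‖pP J0 ((P.Y.S δ (P.Z.mF p hkδ) : X → L2) x)‖)
            ≤ 3 * (c2 * (N * (P.c * (δ ^ 4)⁻¹ * a2))) := by gcongr
          _ = s2 * a2 := by rw [hs2]; ring
    · refine cone_add_norm (inv_pP _) ?_
      have i1 := P1_H P h0 k3 x (P.Y.pmH w)
      rw [P.Y.pmH_pmH] at i1
      have i3 := ball_le_avg hpi (Eventually.of_forall fun y => norm_nonneg _) hKδ x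
          (s := P.c * δ) (mul_le_mul_of_nonneg_right hPK h0.le)
      calc 3 * ‖pP J0 ((P.Y.S δ (P.Y.pmH w) : X → L2) x)‖
          ≤ 3 * (P.c * δ * (δ ^ 4)⁻¹ * a3) := by
            apply mul_le_mul_of_nonneg_left _ (by norm_num)
            exact i1.trans (mul_le_mul_of_nonneg_left i3 (by positivity))
        _ = s3 * a3 := by rw [hs3]; ring
  · rw [hSdec, herr]
    unfold PsiB
    module

theorem real_n4 {δ K' k nu nw nq nm ep ek : ℝ} (hδ0 : 0 < δ) (hδ1 : δ ≤ 1) (hK' : 0 ≤ K')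
    (hk0 : 0 < k) (hek : 0 ≤ ek) (hm0 : 0 ≤ nm) (hq0 : 0 ≤ nq)
    (m1 : nu ≤ nw + nq + K' * δ ^ 2 * nm) (n1 : δ * nw ≤ 6 * ep) (n2 : nq ≤ 6 * ep)
    (n3 : δ * nm ≤ 2 / k * ek) : δ * nu ≤ 12 * ep + K' * (2 / k) * ek := by
  have m2 : δ * nq ≤ 6 * ep := by
    calc δ * nq ≤ 1 * nq := by gcongr
      _ ≤ 6 * ep := by rw [one_mul]; exact n2
  have m3 : δ * (K' * δ ^ 2 * nm) ≤ K' * (2 / k) * ek := by
    have q1 : K' * δ ^ 2 ≤ K' := by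
      have : δ ^ 2 ≤ 1 := pow_le_one₀ hδ0.le hδ1
      calc K' * δ ^ 2 ≤ K' * 1 := by gcongr
        _ = K' := mul_one _
    have q2 : 0 ≤ δ * nm := by positivity
    calc δ * (K' * δ ^ 2 * nm) = (K' * δ ^ 2) * (δ * nm) := by ring
      _ ≤ K' * (2 / k * ek) := by gcongr
      _ = _ := by ring
  have m4 := mul_le_mul_of_nonneg_left m1 hδ0.le
  linarith

theorem real_f1 {K K' k δ c et ep ek nu I1 : ℝ} (hK : 0 < K) (hc : 0 < c) (hk : 0 < k) (hδ : 0 < δ)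
    (het : 0 ≤ et) (j1 : I1 ≤ (k * δ) ^ 3 / c * (et * nu))
    (n4 : δ * nu ≤ 12 * ep + K' * (2 / k) * ek) :
    K * δ ^ 2 * (δ ^ 4)⁻¹ * I1 ≤ (k ^ 3 / c) * et * (K * (12 * ep + K' * (2 / k) * ek)) := by
  calc K * δ ^ 2 * (δ ^ 4)⁻¹ * I1 ≤ K * δ ^ 2 * (δ ^ 4)⁻¹ * ((k * δ) ^ 3 / c * (et * nu)) :=
        mul_le_mul_of_nonneg_left j1 (by positivity)
    _ = (k ^ 3 / c) * et * (K * (δ * nu)) := by field_simp
    _ ≤ _ := by gcongr

theorem real_f2 {K' k δ c N et ek nm I2 : ℝ} (hK' : 0 ≤ K') (hc : 0 < c) (hk : 0 < k) (hδ : 0 < δ)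
    (hN : 0 ≤ N) (het : 0 ≤ et) (j2 : I2 ≤ (k * δ) ^ 3 / c * (et * nm))
    (n3 : δ * nm ≤ 2 / k * ek) :
    3 * (N * (K' * δ ^ 2 * (c * (δ ^ 4)⁻¹))) * I2 ≤
      (k ^ 3 / c) * et * (3 * N * c * (K' * (2 / k * ek))) := by
  calc 3 * (N * (K' * δ ^ 2 * (c * (δ ^ 4)⁻¹))) * I2
      ≤ 3 * (N * (K' * δ ^ 2 * (c * (δ ^ 4)⁻¹))) * ((k * δ) ^ 3 / c * (et * nm)) :=
        mul_le_mul_of_nonneg_left j2 (by positivity)
    _ = (k ^ 3 / c) * et * (3 * N * c * (K' * (δ * nm))) := by field_simp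
    _ ≤ _ := by gcongr

theorem real_f3 {k δ c et ep nq I3 : ℝ} (hc : 0 < c) (hk : 0 < k) (hδ : 0 < δ)
    (het : 0 ≤ et) (j3 : I3 ≤ (k * δ) ^ 3 / c * (et * nq)) (n2 : nq ≤ 6 * ep) :
    3 * (c * δ * (δ ^ 4)⁻¹) * I3 ≤ (k ^ 3 / c) * et * (3 * c * (6 * ep)) := by
  calc 3 * (c * δ * (δ ^ 4)⁻¹) * I3 ≤ 3 * (c * δ * (δ ^ 4)⁻¹) * ((k * δ) ^ 3 / c * (et * nq)) :=
        mul_le_mul_of_nonneg_left j3 (by positivity)
    _ = (k ^ 3 / c) * et * (3 * c * nq) := by field_simp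
    _ ≤ _ := by gcongr

theorem real_g1 {K K' k c N ep ek : ℝ} (hK : 0 < K) (hK' : 0 ≤ K') (hc : 0 < c) (hk : 0 < k)
    (hN : 0 ≤ N) (hep : 0 ≤ ep) (hek : 0 ≤ ek) :
    K * (12 * ep + K' * (2 / k) * ek) + 3 * N * c * (K' * (2 / k * ek)) + 3 * c * (6 * ep) ≤
      (K * (12 + 2 * K' / k) + 3 * N * c * (2 * K' / k) + 18 * c) * (ep + ek) := by
  have z1 : 0 ≤ K * ek := by positivity
  have z2 : 0 ≤ K * (2 * K' / k) * ep := by positivity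
  have z3 : 0 ≤ 3 * N * c * (2 * K' / k) * ep := by positivity
  have z4 : 0 ≤ c * ek := by positivity
  have y : (K * (12 + 2 * K' / k) + 3 * N * c * (2 * K' / k) + 18 * c) * (ep + ek) -
      (K * (12 * ep + K' * (2 / k) * ek) + 3 * N * c * (K' * (2 / k * ek)) + 3 * c * (6 * ep)) =
      12 * (K * ek) + K * (2 * K' / k) * ep + 3 * N * c * (2 * K' / k) * ep + 18 * (c * ek) := by
    ring
  linarith

/-- the integral of the error, first step -/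
theorem errF_eq {p : Measure X} [IsFiniteMeasure p] {K c2 k δ : ℝ} (hkδ : 0 < k * δ)
    (w u : Lp E6 2 M.mu) (t : Measure X) [IsFiniteMeasure t] :
    ∫ x, errF P (p := p) K c2 k δ hkδ w u x ∂t =
      K * δ ^ 2 * (δ ^ 4)⁻¹ * ∫ x, avg M.mu (K * δ) (fun y => ‖u y‖) x ∂t +
      3 * (‖pPL‖ * (c2 * (P.c * (δ ^ 4)⁻¹))) *
        ∫ x, avg M.mu (K * δ) (fun y => ‖(P.Z.mF p hkδ : X → E6) y‖) x ∂t +
      3 * (P.c * δ * (δ ^ 4)⁻¹) *
        ∫ x, avg M.mu (K * δ) (fun y => ‖(P.Y.pmH w : X → E6) y‖) x ∂t := by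
  have ji : ∀ {a : X → ℝ}, Continuous a → Integrable a t := fun {a} ha => by
    obtain ⟨C0, hC0⟩ := (isCompact_univ (X := X)).exists_bound_of_continuousOn ha.continuousOn
    exact Integrable.of_bound ha.measurable.aestronglyMeasurable C0
      (Filter.Eventually.of_forall fun x => hC0 x (mem_univ x))
  have i1 := (ji (continuous_avg (norm_integrable P u) (K * δ))).const_mul
    (K * δ ^ 2 * (δ ^ 4)⁻¹)
  have i2 := (ji (continuous_avg (norm_integrable P (P.Z.mF p hkδ)) (K * δ))).const_mul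
    (3 * (‖pPL‖ * (c2 * (P.c * (δ ^ 4)⁻¹))))
  have i3 := (ji (continuous_avg (norm_integrable P (P.Y.pmH w)) (K * δ))).const_mul
    (3 * (P.c * δ * (δ ^ 4)⁻¹))
  have i12 := i1.add i2
  unfold errF
  erw [integral_add i12 i3, integral_add i1 i2]
  rw [integral_const_mul, integral_const_mul, integral_const_mul]

/-- the norms of the forms involved -/
theorem errF_norms {p : Measure X} {E : X → L2} (hp : FnSys.Cur p E) [IsFiniteMeasure p]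
    {K' k δ : ℝ} (hK'0 : 0 ≤ K') (hk0 : 0 < k)
    (h0 : 0 < δ) (k3 : δ ≤ P.Y.δ0) (hkδ : 0 < k * δ) (w u : Lp E6 2 M.mu)
    (hw : P.Z.Rep p E δ w)
    (hu : u = (w - P.Y.pmH w) + (K' * δ ^ 2) • P.Z.mF p hkδ) :
    ‖P.Y.pmH w‖ ≤ 6 * Real.sqrt (P.Z.en p δ) ∧
    δ * ‖P.Z.mF p hkδ‖ ≤ 2 / k * Real.sqrt (P.Z.en p (k * δ)) ∧
    δ * ‖u‖ ≤ 12 * Real.sqrt (P.Z.en p δ) + K' * (2 / k) * Real.sqrt (P.Z.en p (k * δ)) := by
  have hδ1' : δ ≤ 1 := k3.trans P.Y.δ0_le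
  have n1 : δ * ‖w‖ ≤ 6 * Real.sqrt (P.Z.en p δ) := P.Z.rep_norm hp h0 k3 hw
  have n2 : ‖P.Y.pmH w‖ ≤ 6 * Real.sqrt (P.Z.en p δ) := P.Z.rep_pm hp h0 k3 hw
  have hek0 : 0 ≤ Real.sqrt (P.Z.en p (k * δ)) := Real.sqrt_nonneg _
  have n3 : δ * ‖P.Z.mF p hkδ‖ ≤ 2 / k * Real.sqrt (P.Z.en p (k * δ)) := by
    have m1 := P.Z.norm_mF p hkδ
    have m2 : Real.sqrt (2 * P.Z.en p (k * δ)) ≤ 2 * Real.sqrt (P.Z.en p (k * δ)) := by
      rw [Real.sqrt_mul (by norm_num)]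
      have : Real.sqrt 2 ≤ 2 := by
        rw [Real.sqrt_le_left (by norm_num)]; norm_num
      exact mul_le_mul_of_nonneg_right this hek0
    have m3 : k * (δ * ‖P.Z.mF p hkδ‖) ≤ 2 * Real.sqrt (P.Z.en p (k * δ)) := by
      rw [← mul_assoc, m1]; exact m2
    have m4 : 2 / k * Real.sqrt (P.Z.en p (k * δ)) = (2 * Real.sqrt (P.Z.en p (k * δ))) / k := by
      ring
    rw [m4, le_div_iff₀ hk0]
    linarith
  refine ⟨n2, n3, ?_⟩
  refine real_n4 h0 hδ1' hK'0 hk0 hek0 (norm_nonneg _) (norm_nonneg _) ?_ n1 n2 n3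
  have hc20 : 0 ≤ K' * δ ^ 2 := by positivity
  rw [hu]
  refine (norm_add_le _ _).trans ?_
  rw [norm_smul, Real.norm_eq_abs, abs_of_nonneg hc20]
  have := norm_sub_le w (P.Y.pmH w)
  linarith

/-- the integral of the error -/
theorem errF_int {p : Measure X} {E : X → L2} (hp : FnSys.Cur p E) [IsFiniteMeasure p]
    {K K' k δ : ℝ} (hK0 : 0 < K) (hK'0 : 0 ≤ K') (hk : P.c * k = 2 * K) (hk0 : 0 < k)
    (h0 : 0 < δ) (k3 : δ ≤ P.Y.δ0) (hkδ : 0 < k * δ) (w u : Lp E6 2 M.mu)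
    (hw : P.Z.Rep p E δ w)
    (hu : u = (w - P.Y.pmH w) + (K' * δ ^ 2) • P.Z.mF p hkδ) (t : Measure X) [IsFiniteMeasure t] :
    ∫ x, errF P (p := p) K (K' * δ ^ 2) k δ hkδ w u x ∂t ≤
      (k ^ 3 / P.c) * (K * (12 + 2 * K' / k) + 3 * ‖pPL‖ * P.c * (2 * K' / k) + 18 * P.c) *
      Real.sqrt (P.Z.en t (k * δ)) *
        (Real.sqrt (P.Z.en p δ) + Real.sqrt (P.Z.en p (k * δ))) := by
  have hc : 0 < P.c := P.Z.c_pos
  have hN0 : 0 ≤ ‖pPL‖ := norm_nonneg _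
  have het0 : 0 ≤ Real.sqrt (P.Z.en t (k * δ)) := Real.sqrt_nonneg _
  have hep0 : 0 ≤ Real.sqrt (P.Z.en p δ) := Real.sqrt_nonneg _
  have hek0 : 0 ≤ Real.sqrt (P.Z.en p (k * δ)) := Real.sqrt_nonneg _
  have j1 := int_avg_norm P u hk hk0 h0 t
  have j2 := int_avg_norm P (P.Z.mF p hkδ) hk hk0 h0 t
  have j3 := int_avg_norm P (P.Y.pmH w) hk hk0 h0 t
  obtain ⟨n2, n3, n4⟩ := errF_norms P hp hK'0 hk0 h0 k3 hkδ w u hw hu
  have f1 := real_f1 (K := K) hK0 hc hk0 h0 het0 j1 n4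
  have f2 := real_f2 (N := ‖pPL‖) hK'0 hc hk0 h0 hN0 het0 j2 n3
  have f3 := real_f3 hc hk0 h0 het0 j3 n2
  have g1 := real_g1 hK0 hK'0 hc hk0 hN0 hep0 hek0
  have hx : 0 ≤ (k ^ 3 / P.c) * Real.sqrt (P.Z.en t (k * δ)) :=
    mul_nonneg (by positivity) het0
  have g2 := mul_le_mul_of_nonneg_left g1 hx
  rw [errF_eq]
  refine (add_le_add (add_le_add f1 f2) f3).trans (le_trans (le_of_eq ?_) (g2.trans (le_of_eq ?_)))
  · ring
  · ring

/-- the `L²` form `u` attached to the regularisation `w` -/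
theorem u_props [Nonempty X] {p : Measure X} {E : X → L2} (hp : FnSys.Cur p E) [IsFiniteMeasure p]
    {c2 k δ τ : ℝ} {s : X → ℝ} (hs : Continuous s) (hs0 : ∀ x, 0 ≤ s x) (hτ1 : τ < 1)
    (hkδ : 0 < k * δ) (w u : Lp E6 2 M.mu) (hw : P.Z.Rep p E δ w)
    (hu : u = (w - P.Y.pmH w) + c2 • P.Z.mF p hkδ)
    (hlow : ∀ b : M.Om, (∀ x, Cone J0 ((b : X → L2) x)) →
      (1 - τ) * ∫ x, s x * rq ((b : X → L2) x) ∂M.mu ≤
        FnSys.fn p E (P.Y.S δ (P.Y.ι b) : X → L2) +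
        c2 * ∫ y, P.Z.maj p (k * δ) y * Q ((b : X → L2) y) F0 ∂M.mu) :
    (∀ᵐ x ∂M.mu, Cone J0 (ofE (u x))) ∧ ∀ᵐ x ∂M.mu, (1 - τ) * s x ≤ rq (ofE (u x)) := by
  have hV2 : ∀ b : M.Om, (∀ x, Cone J0 ((b : X → L2) x)) →
      (1 - τ) * ∫ x, s x * rq ((b : X → L2) x) ∂M.mu ≤
        ⟪P.Y.st w + c2 • P.Z.mF p hkδ, P.Y.ι b⟫_ℝ := by
    intro b hb
    have e1 := hlow b hb
    have e2 : ⟪P.Z.mF p hkδ, P.Y.ι b⟫_ℝ =
      ∫ y, P.Z.maj p (k * δ) y * Q ((b : X → L2) y) F0 ∂M.mu := P.Z.inner_mF p hkδ b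
    have e3 : ⟪w, P.Y.st (P.Y.ι b)⟫_ℝ = FnSys.fn p E (P.Y.S δ (P.Y.ι b) : X → L2) := hw _
    rw [inner_add_left, real_inner_smul_left, P.Y.st_symm, e3, e2]
    exact e1
  have hae := ae_low P hs hs0 (by linarith : (0 : ℝ) ≤ 1 - τ) hkδ w hV2
  have hux : ∀ᵐ x ∂M.mu, ofE (u x) = pP J0 (ofE (w x)) + (c2 * P.Z.maj p (k * δ) x) • F0 := by
    filter_upwards [Lp.coeFn_add (w - P.Y.pmH w) (c2 • P.Z.mF p hkδ), Lp.coeFn_sub w (P.Y.pmH w),
      Lp.coeFn_smul c2 (P.Z.mF p hkδ), P.Z.mF_coe p hkδ, P.pmH_eq w] with x e1 e2 e3 e4 e5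
    rw [hu, e1, Pi.add_apply, e2, Pi.sub_apply, e3, Pi.smul_apply, e4, e5, map_add, map_sub,
      G9.ofE_toE, map_smul, map_smul, G9.ofE_toE, smul_smul]
    congr 1
    have := pP_add_pM J0 (ofE (w x))
    nth_rewrite 1 [← this]
    abel
  constructor
  · filter_upwards [hux, hae] with x e1 e2
    rw [e1]; exact e2.1
  · filter_upwards [hux, hae] with x e1 e2
    rw [e1]; exact e2.2

end

theorem kl_of (p3v : P3VStatement) (av : AvStatement) : KLStatement := by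
  intro X _ _ _ _ _ M P σ hσ hσ0 p E hp hV ρ hρ
  haveI := hp.fin
  obtain ⟨δa, ca, hδa, hca, h3'⟩ := p3v X M
  obtain ⟨δb, cb, hδb, hcb, hav'⟩ := av X M
  have h3 : P3VData M δa ca := h3'
  have hav : AvData M δb cb := hav'
  clear h3' hav'
  have hc : 0 < P.c := P.Z.c_pos
  have hca0 : 0 < ca := by linarith
  have hcb0 : 0 < cb := by linarith
  obtain ⟨K, hcaK, hcbK, hPK⟩ : ∃ K : ℝ, ca ≤ K ∧ cb ≤ K ∧ P.c ≤ K :=
    ⟨max (max ca cb) P.c, (le_max_left _ _).trans (le_max_left _ _),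
      (le_max_right _ _).trans (le_max_left _ _), le_max_right _ _⟩
  have hK0 : 0 < K := lt_of_lt_of_le hc hPK
  obtain ⟨k, hk, hk1⟩ : ∃ k : ℝ, P.c * k = 2 * K ∧ 1 ≤ k :=
    ⟨2 * K / P.c, by field_simp, by rw [le_div_iff₀ hc]; linarith⟩
  have hk0 : 0 < k := by linarith
  -- `τ`
  obtain ⟨τ, hτ, hτ1, hτρ⟩ : ∃ τ : ℝ, 0 < τ ∧ τ < 1 ∧ 6 * τ ≤ ρ := by
    have h1 : min ρ (1 / 2) ≤ 1 / 2 := min_le_right _ _
    have h2 : min ρ (1 / 2) ≤ ρ := min_le_left _ _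
    have h3 : 0 < min ρ (1 / 2) := lt_min hρ (by norm_num)
    exact ⟨min ρ (1 / 2) / 6, by linarith, by linarith, by linarith⟩
  have hsc : Continuous fun x => Real.sqrt (σ x) := Real.continuous_sqrt.comp hσ
  have hsp : ∀ x, 0 < Real.sqrt (σ x) := fun x => Real.sqrt_pos.2 (hσ0 x)
  have hsn : ∀ x, 0 ≤ Real.sqrt (σ x) := fun x => (hsp x).le
  obtain ⟨r0, hr0, hmod⟩ := mult_modulus hsc hsp hτ
  obtain ⟨d1, hd1, hd10, hlow⟩ := lowB P hδa hca hδb hcb h3 hav hcaK hcbK hk hk1 hσ hσ0 hp hV hτ hτ1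
  -- the scale
  have hδ0p := P.Y.δ0_pos
  obtain ⟨δ1, hδ1p, z1, z2, z3, z4, z5, z6⟩ : ∃ δ1 : ℝ, 0 < δ1 ∧ δ1 ≤ δa ∧ δ1 ≤ δb ∧ δ1 ≤ d1 ∧
      δ1 ≤ P.Y.δ0 / k ∧ δ1 ≤ r0 / cb ∧ δ1 ≤ τ / (cb + 2 * ca) := by
    refine ⟨min (min (min δa δb) (min d1 (P.Y.δ0 / k))) (min (r0 / cb) (τ / (cb + 2 * ca))),
      lt_min (lt_min (lt_min hδa hδb) (lt_min hd1 (by positivity)))
      (lt_min (by positivity) (by positivity)),
      (min_le_left _ _).trans ((min_le_left _ _).trans (min_le_left _ _)),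
      (min_le_left _ _).trans ((min_le_left _ _).trans (min_le_right _ _)),
      (min_le_left _ _).trans ((min_le_right _ _).trans (min_le_left _ _)),
      (min_le_left _ _).trans ((min_le_right _ _).trans (min_le_right _ _)),
      (min_le_right _ _).trans (min_le_left _ _), (min_le_right _ _).trans (min_le_right _ _)⟩
  set K' : ℝ := K * k ^ 4 / P.c with hK'
  have hK'0 : 0 ≤ K' := by positivity
  have hN0 : 0 ≤ ‖pPL‖ := norm_nonneg _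
  refine ⟨(k ^ 3 / P.c) * (K * (12 + 2 * K' / k) + 3 * ‖pPL‖ * P.c * (2 * K' / k) + 18 * P.c),
    k, δ1, by positivity, hk1, hδ1p, ?_, fun δ w h0 h1 hw => ?_⟩
  · rw [le_div_iff₀ hk0] at z4
    linarith
  have k1 : δ ≤ δa := h1.trans z1
  have k2 : δ ≤ δb := h1.trans z2
  have k4 : δ ≤ d1 := h1.trans z3
  have k3 : δ ≤ P.Y.δ0 := k4.trans hd10
  have k5 : cb * δ ≤ r0 := by
    have := h1.trans z5
    rw [le_div_iff₀ hcb0] at this
    linarith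
  have k6 : δ * (cb + 2 * ca) ≤ τ := by
    have := h1.trans z6
    rwa [le_div_iff₀ (by positivity)] at this
  have hkδ : 0 < k * δ := mul_pos hk0 h0
  have hc20 : 0 ≤ K' * δ ^ 2 := by positivity
  obtain ⟨u, hu⟩ : ∃ u : Lp E6 2 M.mu, u = (w - P.Y.pmH w) + (K' * δ ^ 2) • P.Z.mF p hkδ :=
    ⟨_, rfl⟩
  obtain ⟨hucone, hugs⟩ := u_props P hp hsc hsn hτ1 hkδ w u hw hu (fun b hb => hlow δ b h0 k4 hb)
  have hmain := fun x => scale_low P hca hcb h3 hav h0 k1 k2 k3 hucone hsc hsn hτ hτ1 hugs hmod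
    k5 k6 x
  refine ⟨errF P (p := p) K (K' * δ ^ 2) k δ hkδ w u, errF_cont P _ _ _ _ _ _ _,
    errF_nonneg P hK0.le hc20 h0 hkδ w u, fun x => ?_, fun x => ?_, fun t ht => ?_⟩
  · obtain ⟨R, hR, e⟩ := errF_dom P hca0 hcaK hPK hc20 h0 k3 hkδ w u hu x
    rw [e]
    exact G7.cone_add (hmain x).1 hR
  · obtain ⟨R, hR, e⟩ := errF_dom P hca0 hcaK hPK hc20 h0 k3 hkδ w u hu x
    rw [e]
    have i1 := rq_mono (hmain x).1 hR
    have i2 := (hmain x).2.trans i1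
    have i3 := rq_sq (G7.cone_add (hmain x).1 hR)
    have i4 : 0 ≤ (1 - τ) ^ 3 * Real.sqrt (σ x) := by
      have : 0 ≤ 1 - τ := by linarith
      positivity
    have i5 := pow_le_pow_left₀ i4 i2 2
    rw [i3, mul_pow, Real.sq_sqrt (hσ0 x).le] at i5
    refine le_trans ?_ i5
    apply mul_le_mul_of_nonneg_right _ (hσ0 x).le
    have := pow_six_le hτ.le hτ1.le
    linarith
  · exact errF_int P hp hK0 hK'0 hk hk0 h0 k3 hkδ w u hw hu t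

end Vale.Agent.P247.SCY
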