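import Vale.Agent.P204.Bdl.B8

/-!
# P247, soft Calabi-Yau: the almost complex structure of a pair of two-forms, pointwise algebra
-/

set_option linter.all false

open scoped BigOperators ContDiff Topology
open Set

namespace Vale.Agent.P247.SCY
open Vale.Agent.P204.T4

/-- the dual matrix of a two-form -/
def dn (B : L2) : M4 := ent ![B 5, -B 4, B 3, B 2, -B 1, B 0]

/-- `dn B * ent C` -/
def Nm (B C : L2) : M4 := fun i j => ∑ k, dn B i k * ent C k j

/-- the discriminant of the pair -/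
def dsc (B C : L2) : ℝ := Q B B * Q C C - Q B C ^ 2

/-- the complex structure of the pair, up to sign -/
noncomputable def Jm (B C : L2) : M4 := fun i j =>
  (Real.sqrt (dsc B C))⁻¹ * (2 * Nm B C i j + Q B C * (if i = j then 1 else 0))

theorem ev_Nm (B C : L2) (v w : V4) :
    ev B (app (Nm B C) v) w = -(Q B B / 2) * ev C v w := by
  simp only [ev_eq, app_eq, Nm, Fin.sum_univ_four, dn, ent_00, ent_01, ent_02, ent_03, ent_10,
    ent_11, ent_12, ent_13, ent_20, ent_21, ent_22, ent_23, ent_30, ent_31, ent_32, ent_33,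
    Matrix.cons_val_zero, Matrix.cons_val_one, Matrix.cons_val, Q]
  ring

theorem ev_Nm' (B C : L2) (v w : V4) :
    ev C (app (Nm B C) v) w = -(Q B C) * ev C v w + (Q C C / 2) * ev B v w := by
  simp only [ev_eq, app_eq, Nm, Fin.sum_univ_four, dn, ent_00, ent_01, ent_02, ent_03, ent_10,
    ent_11, ent_12, ent_13, ent_20, ent_21, ent_22, ent_23, ent_30, ent_31, ent_32, ent_33,
    Matrix.cons_val_zero, Matrix.cons_val_one, Matrix.cons_val, Q]
  ring

theorem app_Jm (B C : L2) (v : V4) :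
    app (Jm B C) v = (Real.sqrt (dsc B C))⁻¹ • ((2 : ℝ) • app (Nm B C) v + Q B C • v) := by
  funext i
  simp only [app_eq, Jm, Pi.smul_apply, Pi.add_apply, smul_eq_mul]
  fin_cases i <;> simp <;> ring

theorem ev_Jm (B C : L2) (v w : V4) :
    ev B (app (Jm B C) v) w = (Real.sqrt (dsc B C))⁻¹ * (Q B C * ev B v w - Q B B * ev C v w) := by
  rw [app_Jm, ev_smul_left, ev_add_left, ev_smul_left, ev_smul_left, ev_Nm]
  ring

theorem ev_Jm' (B C : L2) (v w : V4) :
    ev C (app (Jm B C) v) w = (Real.sqrt (dsc B C))⁻¹ * (Q C C * ev B v w - Q B C * ev C v w) := by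
  rw [app_Jm, ev_smul_left, ev_add_left, ev_smul_left, ev_smul_left, ev_Nm']
  ring

/-- A form with nonzero wedge square is nondegenerate. -/
theorem nondeg {B : L2} (hB : Q B B ≠ 0) {u u' : V4} (h : ∀ w, ev B u w = ev B u' w) : u = u' := by
  have key : ∀ u : V4, (∀ w, ev B u w = 0) → u = 0 := by
    intro u hu
    have e0 := hu (eb 0)
    have e1 := hu (eb 1)
    have e2 := hu (eb 2)
    have e3 := hu (eb 3)
    simp only [ev_eq, eb, Pi.single_apply, Fin.isValue, if_true] at e0 e1 e2 e3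
    simp only [Fin.isValue, Fin.reduceEq, one_ne_zero, zero_ne_one, ↓reduceIte, mul_one, mul_zero,
      zero_sub, sub_zero, add_zero, zero_add] at e0 e1 e2 e3
    have hQ : Q B B = 2 * (B 0 * B 5 - B 1 * B 4 + B 2 * B 3) := by simp only [Q]; ring
    have hP : B 0 * B 5 - B 1 * B 4 + B 2 * B 3 ≠ 0 := by
      intro h0; apply hB; rw [hQ, h0, mul_zero]
    funext i
    have : (B 0 * B 5 - B 1 * B 4 + B 2 * B 3) * u i = 0 := by
      fin_cases i
      · show (B 0 * B 5 - B 1 * B 4 + B 2 * B 3) * u 0 = 0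
        linear_combination (B 5) * e1 - (B 4) * e2 + (B 3) * e3
      · show (B 0 * B 5 - B 1 * B 4 + B 2 * B 3) * u 1 = 0
        linear_combination -(B 5) * e0 + (B 2) * e2 - (B 1) * e3
      · show (B 0 * B 5 - B 1 * B 4 + B 2 * B 3) * u 2 = 0
        linear_combination (B 4) * e0 - (B 2) * e1 + (B 0) * e3
      · show (B 0 * B 5 - B 1 * B 4 + B 2 * B 3) * u 3 = 0
        linear_combination -(B 3) * e0 + (B 1) * e1 - (B 0) * e2
    exact (mul_eq_zero.1 this).resolve_left hP
  have := key (u - u') (fun w => by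
    rw [sub_eq_add_neg, ev_add_left, ev_neg_left, h w]; ring)
  exact sub_eq_zero.1 this

section pairs
variable {B C : L2} (hd : 0 < dsc B C)
include hd

theorem QBB_ne : Q B B ≠ 0 := by
  intro h
  unfold dsc at hd
  rw [h] at hd
  nlinarith [sq_nonneg (Q B C)]

theorem isCx_Jm : IsCx (Jm B C) := by
  intro v
  apply nondeg (QBB_ne hd)
  intro w
  have hs : Real.sqrt (dsc B C) * Real.sqrt (dsc B C) = dsc B C := Real.mul_self_sqrt hd.le
  have hne : Real.sqrt (dsc B C) ≠ 0 := (Real.sqrt_pos.2 hd).ne'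
  rw [ev_Jm, ev_Jm, ev_Jm', ev_neg_left]
  set s := Real.sqrt (dsc B C) with hsdef
  have e : dsc B C = Q B B * Q C C - Q B C ^ 2 := rfl
  rw [e] at hs
  field_simp
  linear_combination (ev B v w) * hs

theorem pull_Jm_B : pull (Jm B C) B = -B := by
  have hcx := isCx_Jm hd
  apply ext_ev
  intro v w
  have h1 : ∀ v w, ev B (app (Jm B C) v) w = - ev B (app (Jm B C) w) v := by
    intro v w
    rw [ev_Jm, ev_Jm, ev_antisymm B w v, ev_antisymm C w v]; ring
  rw [ev_pull, ev_neg, h1, hcx w, ev_neg_left, neg_neg, ev_antisymm B w v]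

theorem pull_Jm_C : pull (Jm B C) C = -C := by
  have hcx := isCx_Jm hd
  apply ext_ev
  intro v w
  have h1 : ∀ v w, ev C (app (Jm B C) v) w = - ev C (app (Jm B C) w) v := by
    intro v w
    rw [ev_Jm', ev_Jm', ev_antisymm B w v, ev_antisymm C w v]; ring
  rw [ev_pull, ev_neg, h1, hcx w, ev_neg_left, neg_neg, ev_antisymm C w v]

end pairs

theorem dsc_pull (P : M4) (B C : L2) : dsc (pull P B) (pull P C) = det4 P ^ 2 * dsc B C := by
  simp only [dsc, Q_pull]; ring

/-- Naturality of `Jm`, up to the sign of the determinant. -/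
theorem Jm_pull {B C : L2} (hd : 0 < dsc B C) {P : M4} (hP : det4 P ≠ 0) (hsurj : ∀ w, ∃ v, app P v = w)
    (v : V4) :
    app P (app (Jm (pull P B) (pull P C)) v) = (det4 P / |det4 P|) • app (Jm B C) (app P v) := by
  apply nondeg (QBB_ne hd)
  intro w
  obtain ⟨w, rfl⟩ := hsurj w
  rw [← ev_pull, ev_Jm, ev_smul_left, ev_Jm, dsc_pull, ev_pull, ev_pull, Q_pull, Q_pull,
    Real.sqrt_mul (sq_nonneg _), Real.sqrt_sq_eq_abs]
  have h1 : |det4 P| ≠ 0 := abs_ne_zero.2 hP
  have h2 : Real.sqrt (dsc B C) ≠ 0 := (Real.sqrt_pos.2 hd).ne'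
  field_simp

/-! ### Triples -/

/-- `s • Gram(A, B, C)` is positive definite -/
def Def3 (s : ℝ) (A B C : L2) : Prop := ∀ a b c : ℝ, (a ≠ 0 ∨ b ≠ 0 ∨ c ≠ 0) →
  0 < s * Q (a • A + b • B + c • C) (a • A + b • B + c • C)

theorem Q_comb (A B C : L2) (a b c : ℝ) :
    Q (a • A + b • B + c • C) (a • A + b • B + c • C) = a ^ 2 * Q A A + b ^ 2 * Q B B +
      c ^ 2 * Q C C + 2 * a * b * Q A B + 2 * a * c * Q A C + 2 * b * c * Q B C := by
  simp only [Q_add_left, Q_add_right, Q_smul_left, Q_smul_right, Q_comm B A, Q_comm C A,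
    Q_comm C B]
  ring

theorem Def3.dsc_pos {s : ℝ} {A B C : L2} (h : Def3 s A B C) : 0 < dsc B C := by
  have h1 := h 0 1 0 (Or.inr (Or.inl one_ne_zero))
  rw [Q_comb] at h1
  have h1' : 0 < s * Q B B := by linarith
  have hne : Q B B ≠ 0 := by intro h0; rw [h0, mul_zero] at h1'; exact lt_irrefl _ h1'
  have h2 := h 0 (-Q B C) (Q B B) (Or.inr (Or.inr hne))
  rw [Q_comb] at h2
  have h3 : s * (0 ^ 2 * Q A A + (-Q B C) ^ 2 * Q B B + Q B B ^ 2 * Q C C +
      2 * 0 * (-Q B C) * Q A B + 2 * 0 * Q B B * Q A C + 2 * (-Q B C) * Q B B * Q B C) =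
      (s * Q B B) * dsc B C := by unfold dsc; ring
  rw [h3] at h2
  exact (pos_iff_pos_of_mul_pos h2).1 h1'

theorem def3_pull {s : ℝ} {A B C : L2} (h : Def3 s A B C) {P : M4} (hP : det4 P ≠ 0) :
    Def3 (s * det4 P) (pull P A) (pull P B) (pull P C) := by
  intro a b c habc
  have := h a b c habc
  have e : a • pull P A + b • pull P B + c • pull P C = pull P (a • A + b • B + c • C) := by
    rw [pull_add, pull_add, pull_smul, pull_smul, pull_smul]
  rw [e, Q_pull]
  have h2 : 0 < det4 P * det4 P := mul_self_pos.2 hP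
  calc (0 : ℝ) < (det4 P * det4 P) * (s * Q (a • A + b • B + c • C) (a • A + b • B + c • C)) :=
        mul_pos h2 this
    _ = _ := by ring

theorem ev_anti {J : M4} (hJ : IsCx J) {B : L2} (hB : pull J B = -B) (v : V4) :
    ev B v (app J v) = 0 := by
  have h := congrArg (fun A => ev A v (app J v)) hB
  simp only [ev_pull, ev_neg] at h
  rw [hJ v, ev_neg_right, ev_antisymm B (app J v) v] at h
  linarith

/-- definiteness of an invariant form with positive square, in the standard model -/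
theorem J0_definite {a0 a5 x y : ℝ} (hdef : x ^ 2 + y ^ 2 < a0 * a5) {v : V4} (hv : v ≠ 0) :
    0 < a0 * (a0 * ((v 0) ^ 2 + (v 1) ^ 2) + a5 * ((v 2) ^ 2 + (v 3) ^ 2)
      + 2 * x * (v 1 * v 2 - v 0 * v 3) + 2 * y * (v 0 * v 2 + v 1 * v 3)) := by
  have hδ : 0 < a0 * a5 - x ^ 2 - y ^ 2 := by linarith
  have h0ne : a0 ≠ 0 := by
    intro h0
    rw [h0, zero_mul] at hdef
    have := add_nonneg (sq_nonneg x) (sq_nonneg y)
    linarith
  have e : a0 * (a0 * ((v 0) ^ 2 + (v 1) ^ 2) + a5 * ((v 2) ^ 2 + (v 3) ^ 2)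
      + 2 * x * (v 1 * v 2 - v 0 * v 3) + 2 * y * (v 0 * v 2 + v 1 * v 3)) =
      (a0 * v 0 + y * v 2 - x * v 3) ^ 2 + (a0 * v 1 + x * v 2 + y * v 3) ^ 2
            + (a0 * a5 - x ^ 2 - y ^ 2) * ((v 2) ^ 2 + (v 3) ^ 2) := by ring
  rw [e]
  by_cases h23 : v 2 = 0 ∧ v 3 = 0
  · have h01 : v 0 ≠ 0 ∨ v 1 ≠ 0 := by
      by_contra hcon
      push Not at hcon
      apply hv
      funext i
      fin_cases i
      · exact hcon.1
      · exact hcon.2
      · exact h23.1
      · exact h23.2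
    rw [h23.1, h23.2]
    simp only [mul_zero, add_zero, sub_zero, ne_eq, OfNat.ofNat_ne_zero, not_false_eq_true, zero_pow]
    rcases h01 with h01 | h01
    · have : 0 < (a0 * v 0) ^ 2 := by positivity
      positivity
    · have : 0 < (a0 * v 1) ^ 2 := by positivity
      positivity
  · have h04 : 0 < (v 2) ^ 2 + (v 3) ^ 2 := by
      by_contra hcon
      push Not at hcon
      exact h23 ⟨by nlinarith only [hcon], by nlinarith only [hcon]⟩
    have := mul_pos hδ h04
    positivity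

/-- components of an anti-invariant form in a frame -/
theorem anti_comp {J P P' : M4} (hF : Frame J P P') {D : L2} (hD : pull J D = -D) :
    (pull P D) 0 = 0 ∧ (pull P D) 5 = 0 ∧
      (pull P D) 4 = -(pull P D) 1 ∧ (pull P D) 3 = (pull P D) 2 := by
  have h1 : pull J0 (pull P D) = - pull P D := by
    rw [pull_frame hF, hD, pull_neg]
  set E := pull P D with hE
  rw [pull_J0] at h1
  have e0 := congrFun h1 0
  have e1 := congrFun h1 1
  have e2 := congrFun h1 2
  have e5 := congrFun h1 5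
  simp only [Nat.succ_eq_add_one, Nat.reduceAdd, Fin.isValue, Matrix.cons_val_zero, Pi.neg_apply, Matrix.cons_val_one, Matrix.cons_val, neg_inj] at e0 e1 e2 e5
  exact ⟨by linarith only [e0], by linarith only [e5], e1, e2⟩

/-- the algebra in the standard model -/
theorem J0_triple {s : ℝ} {A B C : L2} (h : Def3 s A B C)
    (hB : B 0 = 0 ∧ B 5 = 0 ∧ B 4 = -B 1 ∧ B 3 = B 2) (hC : C 0 = 0 ∧ C 5 = 0 ∧ C 4 = -C 1 ∧ C 3 = C 2) :
    0 < s ∧ ((A 1 + A 4) / 2) ^ 2 + ((A 2 - A 3) / 2) ^ 2 < A 0 * A 5 := by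
  obtain ⟨b0, b5, b4, b3⟩ := hB
  obtain ⟨c0, c5, c4, c3⟩ := hC
  have qBB : Q B B = 2 * (B 1 ^ 2 + B 2 ^ 2) := by simp only [Q, b0, b5, b4, b3]; ring
  have qCC : Q C C = 2 * (C 1 ^ 2 + C 2 ^ 2) := by simp only [Q, c0, c5, c4, c3]; ring
  have qBC : Q B C = 2 * (B 1 * C 1 + B 2 * C 2) := by
    simp only [Q, b0, b5, b4, b3, c0, c5, c4, c3]; ring
  have hdsc := h.dsc_pos
  set Δ := B 1 * C 2 - B 2 * C 1 with hΔ
  have hΔ2 : dsc B C = 4 * Δ ^ 2 := by
    unfold dsc; rw [qBB, qCC, qBC, hΔ]; ring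
  have hΔne : Δ ≠ 0 := by
    intro h0
    rw [hΔ2, h0] at hdsc
    norm_num at hdsc
  have hs : 0 < s := by
    have hb := h 0 1 0 (Or.inr (Or.inl one_ne_zero))
    rw [Q_comb, qBB] at hb
    have hnn : 0 ≤ 2 * (B 1 ^ 2 + B 2 ^ 2) := by positivity
    by_contra hcon
    push Not at hcon
    have := mul_nonpos_of_nonpos_of_nonneg hcon hnn
    linarith
  refine ⟨hs, ?_⟩
  set p := (A 1 - A 4) / 2 with hp
  set q := (A 2 + A 3) / 2 with hq
  have key := h Δ (-(p * C 2 - q * C 1)) (-(q * B 1 - p * B 2)) (Or.inl hΔne)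
  set W := Δ • A + (-(p * C 2 - q * C 1)) • B + (-(q * B 1 - p * B 2)) • C with hW
  have w0 : W 0 = Δ * A 0 := by
    simp only [hW, Pi.add_apply, Pi.smul_apply, smul_eq_mul, b0, c0]; ring
  have w5 : W 5 = Δ * A 5 := by
    simp only [hW, Pi.add_apply, Pi.smul_apply, smul_eq_mul, b5, c5]; ring
  have w1 : W 1 = Δ * ((A 1 + A 4) / 2) := by
    simp only [hW, Pi.add_apply, Pi.smul_apply, smul_eq_mul, hΔ, hp, hq]; ring
  have w4 : W 4 = Δ * ((A 1 + A 4) / 2) := by
    simp only [hW, Pi.add_apply, Pi.smul_apply, smul_eq_mul, b4, c4, hΔ, hp, hq]; ring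
  have w2 : W 2 = Δ * ((A 2 - A 3) / 2) := by
    simp only [hW, Pi.add_apply, Pi.smul_apply, smul_eq_mul, hΔ, hp, hq]; ring
  have w3 : W 3 = -(Δ * ((A 2 - A 3) / 2)) := by
    simp only [hW, Pi.add_apply, Pi.smul_apply, smul_eq_mul, b3, c3, hΔ, hp, hq]; ring
  have hQW : Q W W = 2 * Δ ^ 2 * (A 0 * A 5 - ((A 1 + A 4) / 2) ^ 2 - ((A 2 - A 3) / 2) ^ 2) := by
    simp only [Q, w0, w1, w2, w3, w4, w5]; ring
  have h1 : 0 < Q W W := (pos_iff_pos_of_mul_pos key).1 hs
  rw [hQW] at h1
  have h2 : 0 < 2 * Δ ^ 2 := by positivity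
  have := (pos_iff_pos_of_mul_pos h1).1 h2
  linarith

theorem ev_J0_gen (A : L2) (v : V4) :
    ev A v (app J0 v) = A 0 * ((v 0) ^ 2 + (v 1) ^ 2) + A 5 * ((v 2) ^ 2 + (v 3) ^ 2)
      + 2 * ((A 1 + A 4) / 2) * (v 1 * v 2 - v 0 * v 3) + 2 * ((A 2 - A 3) / 2) * (v 0 * v 2 + v 1 * v 3) := by
  rw [ev_eq, app_J0]
  simp only [Fin.isValue, Nat.succ_eq_add_one, Nat.reduceAdd, Matrix.cons_val_one, Matrix.cons_val_zero, mul_neg, sub_neg_eq_add, Matrix.cons_val, neg_mul]
  ring

/-- the definite sign of a form on complex lines -/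
theorem tame_sign_pos {J : M4} (hJ : IsCx J) (hpos : Pos J) {s : ℝ} {A B C : L2} (h : Def3 s A B C)
    (hB : pull J B = -B) (hC : pull J C = -C) :
    (∀ v, v ≠ 0 → 0 < ev A v (app J v)) ∨ (∀ v, v ≠ 0 → 0 < -ev A v (app J v)) := by
  obtain ⟨P, P', hF⟩ := exists_frame hJ hpos
  have h' := def3_pull h hF.pos.ne'
  obtain ⟨-, hdef⟩ := J0_triple h' (anti_comp hF hB) (anti_comp hF hC)
  have hpos' : ∀ v : V4, v ≠ 0 → 0 < (pull P A) 0 * ev (pull P A) v (app J0 v) := by
    intro v hv
    rw [ev_J0_gen]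
    exact J0_definite hdef hv
  have h0ne : (pull P A) 0 ≠ 0 := by
    intro h0
    have := hpos' (eb 0) (by intro h; have := congrFun h 0; simp [eb] at this)
    rw [h0, zero_mul] at this
    exact lt_irrefl _ this
  have hevA : ∀ v, ev A v (app J v) = ev (pull P A) (app P' v) (app J0 (app P' v)) := by
    intro v
    rw [ev_pull, ← hF.comm, hF.right]
  have hP'ne : ∀ v, v ≠ 0 → app P' v ≠ 0 := by
    intro v hv h0
    apply hv
    rw [← hF.right v, h0, app_zero]
  rcases lt_or_gt_of_ne h0ne with h00 | h00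
  · right
    intro v hv
    rw [hevA]
    have := hpos' _ (hP'ne v hv)
    have h5 : 0 < (-(pull P A) 0) * (-ev (pull P A) (app P' v) (app J0 (app P' v))) := by
      rw [neg_mul_neg]; exact this
    exact (pos_iff_pos_of_mul_pos h5).1 (by linarith)
  · left
    intro v hv
    rw [hevA]
    exact (pos_iff_pos_of_mul_pos (hpos' _ (hP'ne v hv))).1 h00

/-- the reflection matrix -/
noncomputable def RR : M4 := P204.Mfd.matL P204.Mfd.refl0

theorem app_RR (v : V4) : app RR v = ![-v 0, v 1, v 2, v 3] := by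
  rw [RR, P204.Mfd.app_matL, P204.Mfd.refl0_apply]

theorem RR_RR (v : V4) : app RR (app RR v) = v := by
  rw [RR, P204.Mfd.app_matL, P204.Mfd.app_matL, P204.Mfd.refl0_refl0]

theorem det_RR : det4 RR = -1 := by
  have h : ∀ i j, RR i j = (if i = j then (if i = 0 then -1 else 1) else 0) := by
    intro i j
    rw [RR, P204.Mfd.matL_apply, P204.Mfd.refl0_apply]
    fin_cases i <;> fin_cases j <;> simp [eb]
  have h1 := Q_pull RR P204.GX.F0 P204.GX.F0
  have h2 : pull RR P204.GX.F0 = ![-1, 0, 0, 0, 0, 1] := by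
    apply ext_ev
    intro v w
    rw [ev_pull, app_RR, app_RR]
    simp [ev_eq, P204.GX.F0]
    ring
  rw [h2] at h1
  simp [Q, P204.GX.F0] at h1
  linarith

theorem tame_sign {J : M4} (hJ : IsCx J) {s : ℝ} {A B C : L2} (h : Def3 s A B C)
    (hB : pull J B = -B) (hC : pull J C = -C) :
    (∀ v, v ≠ 0 → 0 < ev A v (app J v)) ∨ (∀ v, v ≠ 0 → 0 < -ev A v (app J v)) := by
  rcases lt_or_gt_of_ne (P204.Mfd.Q_Fm_ne hJ) with hneg | hpos
  · set J' : M4 := P204.Mfd.matL (P204.Mfd.refl0.comp ((P204.Mfd.clm J).comp P204.Mfd.refl0)) with hJ'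
    have happ : ∀ v, app J' v = app RR (app J (app RR v)) := by
      intro v
      rw [hJ', P204.Mfd.app_matL, RR, P204.Mfd.app_matL, P204.Mfd.app_matL]
      rfl
    have hcx : IsCx J' := by
      intro v
      rw [happ, happ, RR_RR, hJ, app_neg, RR_RR]
    have hmat : P204.Mfd.matL (P204.Mfd.clm J) = J := by
      apply P204.Mfd.mat_ext
      intro v
      rw [P204.Mfd.app_matL]; rfl
    have hp : Pos J' := by
      unfold Pos
      rw [hJ', P204.Mfd.Q_Fm_refl, hmat]
      linarith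
    have hpl : ∀ D : L2, pull J D = -D → pull J' (pull RR D) = -(pull RR D) := by
      intro D hD
      apply ext_ev
      intro v w
      rw [ev_pull, ev_pull, ev_neg, ev_pull, happ, happ, RR_RR, RR_RR, ← ev_pull, hD, ev_neg]
    have hne : det4 RR ≠ 0 := by rw [det_RR]; norm_num
    have key := tame_sign_pos hcx hp (def3_pull h hne) (hpl B hB) (hpl C hC)
    have hR : ∀ v, v ≠ 0 → app RR v ≠ 0 := by
      intro v hv h0
      apply hv
      rw [← RR_RR v, h0, app_zero]
    have e : ∀ v, ev (pull RR A) (app RR v) (app J' (app RR v)) = ev A v (app J v) := by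
      intro v
      rw [ev_pull, happ, RR_RR, RR_RR]
    rcases key with key | key
    · left
      intro v hv
      rw [← e]; exact key _ (hR v hv)
    · right
      intro v hv
      rw [← e]; exact key _ (hR v hv)
  · exact tame_sign_pos hJ hpos h hB hC

/-- the sign making `A` positive on complex lines -/
noncomputable def sg (A B C : L2) : ℝ := if 0 < ev A (eb 0) (app (Jm B C) (eb 0)) then 1 else -1

/-- the almost complex structure of the pair `(B, C)` tamed by `A` -/
noncomputable def tam (A B C : L2) : M4 := sg A B C • Jm B C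

theorem sg_sq (A B C : L2) : sg A B C * sg A B C = 1 := by
  unfold sg; split_ifs <;> norm_num

theorem app_smulM (c : ℝ) (J : M4) (v : V4) : app (c • J) v = c • app J v := by
  funext i
  simp only [app_eq, Pi.smul_apply, smul_eq_mul]; ring

theorem eb0_ne : (eb 0 : V4) ≠ 0 := by
  intro h; have := congrFun h 0; simp [eb] at this

section tam
variable {s : ℝ} {A B C : L2} (h : Def3 s A B C)
include h

theorem isCx_tam : IsCx (tam A B C) := by
  intro v
  unfold tam
  rw [app_smulM, app_smulM, app_smul, isCx_Jm h.dsc_pos, smul_smul, sg_sq, one_smul]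

theorem pull_smulM (c : ℝ) (J : M4) (D : L2) : pull (c • J) D = (c * c) • pull J D := by
  apply ext_ev
  intro v w
  rw [ev_pull, ev_smul, ev_pull, app_smulM, app_smulM, ev_smul_left, ev_smul_right]; ring

theorem pull_tam_B : pull (tam A B C) B = -B := by
  unfold tam
  rw [pull_smulM h, sg_sq, one_smul, pull_Jm_B h.dsc_pos]

theorem pull_tam_C : pull (tam A B C) C = -C := by
  unfold tam
  rw [pull_smulM h, sg_sq, one_smul, pull_Jm_C h.dsc_pos]

theorem tam_pos {v : V4} (hv : v ≠ 0) : 0 < ev A v (app (tam A B C) v) := by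
  unfold tam
  rw [app_smulM, ev_smul_right]
  rcases tame_sign (isCx_Jm h.dsc_pos) h (pull_Jm_B h.dsc_pos) (pull_Jm_C h.dsc_pos) with h1 | h1
  · have : sg A B C = 1 := by unfold sg; rw [if_pos (h1 _ eb0_ne)]
    rw [this, one_mul]; exact h1 v hv
  · have : sg A B C = -1 := by
      unfold sg; rw [if_neg]; have := h1 _ eb0_ne; linarith
    rw [this]
    have := h1 v hv
    linarith

/-- naturality -/
theorem tam_pull {P : M4} (hP : det4 P ≠ 0) (hsurj : ∀ w, ∃ v, app P v = w)
    (hinj : ∀ v, app P v = 0 → v = 0) (v : V4) :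
    app P (app (tam (pull P A) (pull P B) (pull P C)) v) = app (tam A B C) (app P v) := by
  have hd := h.dsc_pos
  have h' := def3_pull h hP
  -- both sides are `±` the same vector
  have e1 : ∀ v, app P (app (tam (pull P A) (pull P B) (pull P C)) v) =
      (sg (pull P A) (pull P B) (pull P C) * (det4 P / |det4 P|) * sg A B C) •
        app (tam A B C) (app P v) := by
    intro v
    unfold tam
    rw [app_smulM, app_smulM, app_smul, Jm_pull hd hP hsurj, smul_smul, smul_smul]
    congr 1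
    have := sg_sq A B C
    rw [mul_assoc (sg (pull P A) (pull P B) (pull P C) * (det4 P / |det4 P|)), this, mul_one]
  set τ := sg (pull P A) (pull P B) (pull P C) * (det4 P / |det4 P|) * sg A B C with hτ
  have hτ2 : τ * τ = 1 := by
    have h1 := sg_sq A B C
    have h2 := sg_sq (pull P A) (pull P B) (pull P C)
    have h3 : (det4 P / |det4 P|) * (det4 P / |det4 P|) = 1 := by
      have h4 : |det4 P| ≠ 0 := abs_ne_zero.2 hP
      field_simp
      exact (sq_abs _).symm
    calc τ * τ = (sg (pull P A) (pull P B) (pull P C) * sg (pull P A) (pull P B) (pull P C)) *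
        ((det4 P / |det4 P|) * (det4 P / |det4 P|)) * (sg A B C * sg A B C) := by rw [hτ]; ring
      _ = 1 := by rw [h1, h2, h3]; ring
  have hpos : 0 < τ := by
    have h1 := tam_pos h' (v := eb 0) eb0_ne
    rw [ev_pull, e1, ev_smul_right] at h1
    have h2 := tam_pos h (v := app P (eb 0)) (fun h0 => eb0_ne (hinj _ h0))
    by_contra hcon
    push Not at hcon
    have := mul_nonpos_of_nonpos_of_nonneg hcon h2.le
    linarith
  have hone : τ = 1 := by nlinarith
  rw [e1, hone, one_smul]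

/-- the matrix is determined by the pair and the taming form -/
theorem tam_smoothAt {Y : Type*} [NormedAddCommGroup Y] [NormedSpace ℝ Y] {α β γ : Y → L2} {y : Y}
    (hα : ContDiffAt ℝ ∞ α y) (hβ : ContDiffAt ℝ ∞ β y) (hγ : ContDiffAt ℝ ∞ γ y)
    (eα : α y = A) (eβ : β y = B) (eγ : γ y = C) :
    ContDiffAt ℝ ∞ (fun y => tam (α y) (β y) (γ y)) y := by
  have hα' : ∀ i, ContDiffAt ℝ ∞ (fun y => α y i) y := fun i => contDiffAt_pi.1 hα i
  have hβ' : ∀ i, ContDiffAt ℝ ∞ (fun y => β y i) y := fun i => contDiffAt_pi.1 hβ i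
  have hγ' : ∀ i, ContDiffAt ℝ ∞ (fun y => γ y i) y := fun i => contDiffAt_pi.1 hγ i
  have hd := h.dsc_pos
  have hJ : ContDiffAt ℝ ∞ (fun y => Jm (β y) (γ y)) y := by
    rw [contDiffAt_pi]; intro i
    rw [contDiffAt_pi]; intro j
    have h1 : ContDiffAt ℝ ∞ (fun y => dsc (β y) (γ y)) y := by
      unfold dsc Q
      fun_prop (disch := assumption)
    have h2 : dsc (β y) (γ y) ≠ 0 := by rw [eβ, eγ]; exact hd.ne'
    have h3 : ContDiffAt ℝ ∞ (fun y => (Real.sqrt (dsc (β y) (γ y)))⁻¹) y :=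
      (h1.sqrt h2).inv (by rw [eβ, eγ]; exact (Real.sqrt_pos.2 hd).ne')
    have h4 : ContDiffAt ℝ ∞ (fun y => 2 * Nm (β y) (γ y) i j +
        Q (β y) (γ y) * (if i = j then 1 else 0)) y := by
      refine ContDiffAt.add (contDiffAt_const.mul ?_) (ContDiffAt.mul ?_ contDiffAt_const)
      · unfold Nm
        refine ContDiffAt.sum fun k _ => ?_
        have ent_sm : ∀ {δ : Y → L2}, (∀ i, ContDiffAt ℝ ∞ (fun y => δ y i) y) → ∀ i j,
            ContDiffAt ℝ ∞ (fun y => ent (δ y) i j) y := by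
          intro δ hδ i j
          fin_cases i <;> fin_cases j <;> simp only [ent, Fin.isValue, Fin.zero_eta, Fin.mk_one, Fin.reduceFinMk, Matrix.cons_val', Matrix.cons_val_zero, Matrix.cons_val_fin_one, Matrix.cons_val_one, Matrix.cons_val] <;> first | exact contDiffAt_const | exact hδ _ | exact (hδ _).neg
        refine ContDiffAt.mul ?_ (ent_sm hγ' k j)
        unfold dn
        apply ent_sm (δ := fun y => ![β y 5, -β y 4, β y 3, β y 2, -β y 1, β y 0])
        intro l
        fin_cases l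
        · exact hβ' 5
        · exact (hβ' 4).neg
        · exact hβ' 3
        · exact hβ' 2
        · exact (hβ' 1).neg
        · exact hβ' 0
      · unfold Q
        fun_prop (disch := assumption)
    exact h3.mul h4
  -- the sign is locally constant
  have hev : ContinuousAt (fun y => ev (α y) (eb 0) (app (Jm (β y) (γ y)) (eb 0))) y := by
    have h1 : ContinuousAt (fun y => (α y, Jm (β y) (γ y))) y := hα.continuousAt.prodMk hJ.continuousAt
    have h2 : Continuous fun p : L2 × M4 => ev p.1 (eb 0) (app p.2 (eb 0)) := by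
      simp only [ev_eq, app_eq]
      fun_prop
    exact ContinuousAt.comp (f := fun y => (α y, Jm (β y) (γ y)))
      (g := fun p : L2 × M4 => ev p.1 (eb 0) (app p.2 (eb 0))) h2.continuousAt h1
  have hsg : ∀ᶠ z in 𝓝 y, sg (α z) (β z) (γ z) = sg A B C := by
    rcases tame_sign (isCx_Jm hd) h (pull_Jm_B hd) (pull_Jm_C hd) with h1 | h1
    · have h2 := h1 _ eb0_ne
      have : ∀ᶠ z in 𝓝 y, 0 < ev (α z) (eb 0) (app (Jm (β z) (γ z)) (eb 0)) :=
        hev.eventually (lt_mem_nhds (by simp only [eα, eβ, eγ]; exact h2))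
      filter_upwards [this] with z hz
      unfold sg
      rw [if_pos hz, if_pos h2]
    · have h2 := h1 _ eb0_ne
      have : ∀ᶠ z in 𝓝 y, ev (α z) (eb 0) (app (Jm (β z) (γ z)) (eb 0)) < 0 :=
        hev.eventually (gt_mem_nhds (by simp only [eα, eβ, eγ]; linarith))
      filter_upwards [this] with z hz
      unfold sg
      rw [if_neg (by linarith), if_neg (by linarith)]
  have hfin : (fun y => tam (α y) (β y) (γ y)) =ᶠ[𝓝 y] fun y => sg A B C • Jm (β y) (γ y) := by
    filter_upwards [hsg] with z hz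
    unfold tam
    rw [hz]
  have hsm : ContDiffAt ℝ ∞ (fun y => sg A B C • Jm (β y) (γ y)) y := by
    rw [contDiffAt_pi]; intro i
    rw [contDiffAt_pi]; intro j
    exact contDiffAt_const.mul (contDiffAt_pi.1 (contDiffAt_pi.1 hJ i) j)
  exact ContDiffAt.congr_of_eventuallyEq hsm hfin

end tam

end Vale.Agent.P247.SCY
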