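import Mathlib

/-!
# P247: hypersymplectic structures on closed four-manifolds, definitions

`X` is a smooth manifold modelled on `ℝ⁴` (Mathlib: `ChartedSpace E4 X`,
`IsManifold (𝓡 4) ∞ X`). Forms are families of alternating maps on the tangent spaces; smoothness
and exterior derivatives are read in the charts of the atlas.
-/

open scoped Manifold ContDiff Topology
open MeasureTheory Set

namespace Vale.Agent.P247.SCY.HS

/-- The model space `ℝ⁴`. -/
abbrev E4 := EuclideanSpace ℝ (Fin 4)

section

variable (X : Type*) [TopologicalSpace X] [ChartedSpace E4 X]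

/-- A (not necessarily smooth) real `k`-form on `X`. -/
abbrev Form (k : ℕ) := ∀ x : X, TangentSpace (𝓡 4) x [⋀^Fin k]→L[ℝ] ℝ

end

section

variable {X : Type*} [TopologicalSpace X] [ChartedSpace E4 X] {k : ℕ}

/-- The coordinate expression of the form `α` in the chart `e`: the pullback of `α` by
`e.symm`, the inverse of the chart. -/
noncomputable def loc (e : OpenPartialHomeomorph X E4) (α : Form X k) :
    E4 → E4 [⋀^Fin k]→L[ℝ] ℝ :=
  fun y => (α (e.symm y)).compContinuousLinearMap (mfderiv (𝓡 4) (𝓡 4) e.symm y)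

/-- A form is smooth if its expression in every chart of the atlas is smooth. -/
def Smooth (α : Form X k) : Prop :=
  ∀ e ∈ atlas E4 X, ContDiffOn ℝ ∞ (loc e α) e.target

/-- A form is closed if the exterior derivative of its expression in every chart vanishes. -/
def Closed (α : Form X k) : Prop :=
  ∀ e ∈ atlas E4 X, ∀ y ∈ e.target, extDeriv (loc e α) y = 0

/-- A two-form is exact if it is `dη` for a smooth one-form `η`. -/
def Exact (α : Form X 2) : Prop :=
  ∃ η : Form X 1, Smooth η ∧ ∀ e ∈ atlas E4 X, ∀ y ∈ e.target, extDeriv (loc e η) y = loc e α y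

/-- The coordinate basis of `ℝ⁴`. -/
noncomputable def bas : Fin 4 → E4 := fun i => EuclideanSpace.single i 1

/-- The value of the four-form `α ∧ β` on four vectors. -/
def wedge {V : Type*} [AddCommGroup V] [Module ℝ V] [TopologicalSpace V]
    (α β : V [⋀^Fin 2]→L[ℝ] ℝ) (v : Fin 4 → V) : ℝ :=
  α ![v 0, v 1] * β ![v 2, v 3] - α ![v 0, v 2] * β ![v 1, v 3] + α ![v 0, v 3] * β ![v 1, v 2]
    + α ![v 1, v 2] * β ![v 0, v 3] - α ![v 1, v 3] * β ![v 0, v 2]
    + α ![v 2, v 3] * β ![v 0, v 1]

/-- The coordinate basis of the tangent space at `x` (in Mathlib a copy of the model space). -/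
noncomputable def tbas (x : X) : Fin 4 → TangentSpace (𝓡 4) x := bas

/-- The function `(α ∧ β) / μ`, for a volume form `μ`. -/
noncomputable def quot (μ : Form X 4) (α β : Form X 2) (x : X) : ℝ :=
  wedge (α x) (β x) (tbas x) / μ x (tbas x)

/-- `μ` is a volume form: smooth and nowhere zero. It fixes the orientation of `X`. -/
structure Volume (μ : Form X 4) : Prop where
  smooth : Smooth μ
  ne_zero : ∀ x, μ x ≠ 0

/-- The Borel measure of a volume form `μ`: the supremum over the charts `e` of the measures
`|μ_e(y)| dy` carried by the domains of the charts (these agree on overlaps). -/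
noncomputable def vol [MeasurableSpace X] (μ : Form X 4) : Measure X :=
  ⨆ e ∈ atlas E4 X, Measure.map e.symm
    ((volume.restrict e.target).withDensity fun y => ENNReal.ofReal |loc e μ y bas|)

/-- The integral of `α ∧ β` over `X`, oriented by `μ`. -/
noncomputable def pair [MeasurableSpace X] (μ : Form X 4) (α β : Form X 2) : ℝ :=
  ∫ x, quot μ α β x ∂(vol μ)

/-- `b⁺(X) ≤ 3`: the intersection form has no four-dimensional positive subspace. -/
def BPlusLe3 [MeasurableSpace X] (μ : Form X 4) : Prop :=
  ¬ ∃ c : Fin 4 → Form X 2, (∀ i, Smooth (c i) ∧ Closed (c i)) ∧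
    (Matrix.of fun i j => pair μ (c i) (c j)).PosDef

/-- The matrix `Q` with `w_i ∧ w_j = 2 Q_ij μ`. -/
noncomputable def Qm (μ : Form X 4) (w : Fin 3 → Form X 2) (x : X) : Matrix (Fin 3) (Fin 3) ℝ :=
  Matrix.of fun i j => quot μ (w i) (w j) x / 2

/-- Hypersymplectic structures on `X`, oriented by `μ`. -/
structure Hypersymplectic (μ : Form X 4) (w : Fin 3 → Form X 2) : Prop where
  smooth : ∀ i, Smooth (w i)
  closed : ∀ i, Closed (w i)
  posDef : ∀ x, (Qm μ w x).PosDef

/-- `∫ w_i ∧ w_j = δ_ij`. -/
def Normalized [MeasurableSpace X] (μ : Form X 4) (w : Fin 3 → Form X 2) : Prop :=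
  ∀ i j, pair μ (w i) (w j) = if i = j then 1 else 0

/-- `W` is a cohomologous deformation of `w`, parametrised by `[0, 1]` (and extended to all
`t`): smooth in `(t, x)`, through hypersymplectic structures, in the classes of `w`. -/
structure Deformation (μ : Form X 4) (w : Fin 3 → Form X 2) (W : ℝ → Fin 3 → Form X 2) :
    Prop where
  smooth : ∀ i, ∀ e ∈ atlas E4 X,
    ContDiffOn ℝ ∞ (fun p : ℝ × E4 => loc e (W p.1 i) p.2) (univ ×ˢ e.target)
  hyper : ∀ t ∈ Icc (0 : ℝ) 1, Hypersymplectic μ (W t)
  start : W 0 = w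
  exact : ∀ t i, Exact fun x => W t i x - w i x

end

end Vale.Agent.P247.SCY.HS
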