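import Vale.Agent.P247.SCY.MFD1
import Vale.Agent.P247.SCY.Stmt

/-!
# P247, soft Calabi-Yau: the almost complex structure of a triple of two-forms on a manifold
-/

set_option linter.all false

open scoped BigOperators ContDiff Topology Manifold
open Set

namespace Vale.Agent.P247.SCY
open Vale.Agent.P204.T4 Vale.Agent.P204.Mfd

/-- the linear endomorphism of `ℝ⁴` with a given matrix -/
noncomputable def mE (M : M4) : E4 →L[ℝ] E4 :=
  (toE : V4 →L[ℝ] E4).comp ((clm M).comp (toE.symm : E4 →L[ℝ] V4))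

/-- the matrix of a linear endomorphism of `ℝ⁴` -/
noncomputable def mat (L : E4 →L[ℝ] E4) : M4 :=
  matL ((toE.symm : E4 →L[ℝ] V4).comp (L.comp (toE : V4 →L[ℝ] E4)))

theorem app_mat (L : E4 →L[ℝ] E4) (v : V4) : app (mat L) v = toE.symm (L (toE v)) := by
  rw [mat, app_matL]; rfl

theorem mE_apply (M : M4) (u : E4) : mE M u = toE (app M (toE.symm u)) := rfl

theorem clm_add (M N : M4) : clm (M + N) = clm M + clm N := by
  ext v i
  show app (M + N) v i = app M v i + app N v i
  simp only [app_eq, Pi.add_apply]; ring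

theorem clm_smul (c : ℝ) (M : M4) : clm (c • M) = c • clm M := by
  ext v i
  show app (c • M) v i = c • app M v i
  rw [app_smulM]; rfl

/-- `mE` as a continuous linear map -/
noncomputable def mEL : M4 →L[ℝ] (E4 →L[ℝ] E4) :=
  LinearMap.toContinuousLinearMap
    { toFun := mE
      map_add' := fun M N => by
        unfold mE; rw [clm_add, ContinuousLinearMap.add_comp, ContinuousLinearMap.comp_add]
      map_smul' := fun c M => by
        unfold mE; rw [clm_smul, ContinuousLinearMap.smul_comp, ContinuousLinearMap.comp_smul]; rfl }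

theorem mEL_apply (M : M4) : mEL M = mE M := rfl

theorem cE_comp_E (A : E4 [⋀^Fin 2]→L[ℝ] ℝ) (L : E4 →L[ℝ] E4) :
    cE (A.compContinuousLinearMap L) = pull (mat L) (cE A) := by
  rw [cE_apply, cE_apply, mat, ← compL_comp]
  congr 1

theorem ev_cE (A : E4 [⋀^Fin 2]→L[ℝ] ℝ) (v w : V4) : ev (cE A) v w = A ![toE v, toE w] := by
  rw [cE_apply, ev_compL]
  exact comp_apply2 A (toE : V4 →L[ℝ] E4) v w

variable {X : Type*} [TopologicalSpace X] [ChartedSpace E4 X]

/-- components of a two-form at a point in the coordinate basis of the tangent space -/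
noncomputable def cx (om : TwoForm X) (x : X) : L2 := cE (om x : E4 [⋀^Fin 2]→L[ℝ] ℝ)

theorem ev_cx (om : TwoForm X) (x : X) (v w : V4) : ev (cx om x) v w = omv om x (toE v) (toE w) :=
  ev_cE _ _ _

theorem omv_eq (om : TwoForm X) (x : X) (u v : E4) :
    omv om x u v = ev (cx om x) (toE.symm u) (toE.symm v) := by
  rw [ev_cx, toE.apply_symm_apply, toE.apply_symm_apply]

/-- the almost complex structure of `(B, C)` tamed by `A` -/
noncomputable def Jf (A B C : TwoForm X) : EndField X := fun x =>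
  (mE (tam (cx A x) (cx B x) (cx C x)) : E4 →L[ℝ] E4)

theorem Jat_Jf (A B C : TwoForm X) (x : X) (u : E4) :
    Jat (Jf A B C) x u = toE (app (tam (cx A x) (cx B x) (cx C x)) (toE.symm u)) := rfl

/-- pointwise definiteness of a triple -/
def DefAt (A B C : TwoForm X) : Prop := ∀ x, ∃ s : ℝ, Def3 s (cx A x) (cx B x) (cx C x)

theorem Jf_sq {A B C : TwoForm X} (h : DefAt A B C) (x : X) (u : E4) :
    Jat (Jf A B C) x (Jat (Jf A B C) x u) = -u := by
  obtain ⟨s, hs⟩ := h x
  rw [Jat_Jf, Jat_Jf, toE.symm_apply_apply, isCx_tam hs, map_neg, toE.apply_symm_apply]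

theorem Jf_tames' {A B C : TwoForm X} (h : DefAt A B C) (x : X) (v : E4) (hv : v ≠ 0) :
    0 < omv A x v (Jat (Jf A B C) x v) := by
  obtain ⟨s, hs⟩ := h x
  rw [omv_eq, Jat_Jf, toE.symm_apply_apply]
  apply tam_pos hs
  intro h0
  apply hv
  have : v = toE (toE.symm v) := (toE.apply_symm_apply _).symm
  rw [this, h0, map_zero]

theorem Jf_tames {A B C : TwoForm X} (h : DefAt A B C) : Tames A (Jf A B C) :=
  fun x v hv => Jf_tames' h x v hv

theorem Jf_anti_B {A B C : TwoForm X} (h : DefAt A B C) (x : X) (u v : E4) :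
    omv B x (Jat (Jf A B C) x u) (Jat (Jf A B C) x v) = - omv B x u v := by
  obtain ⟨s, hs⟩ := h x
  rw [omv_eq, omv_eq B x u v, Jat_Jf, Jat_Jf, toE.symm_apply_apply, toE.symm_apply_apply, ← ev_pull,
    pull_tam_B hs, ev_neg]

theorem Jf_anti_C {A B C : TwoForm X} (h : DefAt A B C) (x : X) (u v : E4) :
    omv C x (Jat (Jf A B C) x u) (Jat (Jf A B C) x v) = - omv C x u v := by
  obtain ⟨s, hs⟩ := h x
  rw [omv_eq, omv_eq C x u v, Jat_Jf, Jat_Jf, toE.symm_apply_apply, toE.symm_apply_apply, ← ev_pull,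
    pull_tam_C hs, ev_neg]

/-! ### smoothness -/

section smooth
variable [IsManifold (𝓡 4) ∞ X]

theorem dch_dsym {e : OpenPartialHomeomorph X E4} (he : e ∈ atlas E4 X) {y : E4}
    (hy : y ∈ e.target) (u : E4) : dch e (e.symm y) (dsym e y u) = u := by
  have h1 := mfderiv_comp_of_eq (I := 𝓡 4) (I' := 𝓡 4) (I'' := 𝓡 4) (x := y) (y := e.symm y)
    (g := e) (f := e.symm) (mdiff_chart he (e.map_target hy)) (mdiff_symm he hy) rfl
  have h2 : e ∘ e.symm =ᶠ[𝓝 y] id := by
    filter_upwards [e.open_target.mem_nhds hy] with z hz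
    exact e.right_inv hz
  rw [h2.mfderiv_eq, mfderiv_id] at h1
  exact (DFunLike.congr_fun h1 u).symm

theorem dsym_dch {e : OpenPartialHomeomorph X E4} (he : e ∈ atlas E4 X) {y : E4}
    (hy : y ∈ e.target) (u : E4) : dsym e y (dch e (e.symm y) u) = u := by
  have h1 := mfderiv_comp_of_eq (I := 𝓡 4) (I' := 𝓡 4) (I'' := 𝓡 4) (x := e.symm y) (y := y)
    (g := e.symm) (f := e) (mdiff_symm he hy) (mdiff_chart he (e.map_target hy)) (e.right_inv hy)
  have h2 : e.symm ∘ e =ᶠ[𝓝 (e.symm y)] id := by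
    filter_upwards [e.open_source.mem_nhds (e.map_target hy)] with z hz
    exact e.left_inv hz
  rw [h2.mfderiv_eq, mfderiv_id, e.right_inv hy] at h1
  exact (DFunLike.congr_fun h1 u).symm

/-- the matrix of the derivative of the inverse chart is invertible -/
theorem mat_dsym {e : OpenPartialHomeomorph X E4} (he : e ∈ atlas E4 X) {y : E4}
    (hy : y ∈ e.target) : (∀ w, ∃ v, app (mat (dsym e y)) v = w) ∧
      (∀ v, app (mat (dsym e y)) v = 0 → v = 0) ∧ det4 (mat (dsym e y)) ≠ 0 := by
  have h1 : ∀ v, app (mat (dch e (e.symm y))) (app (mat (dsym e y)) v) = v := by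
    intro v
    rw [app_mat, app_mat, toE.apply_symm_apply, dch_dsym he hy, toE.symm_apply_apply]
  have h2 : ∀ v, app (mat (dsym e y)) (app (mat (dch e (e.symm y))) v) = v := by
    intro v
    rw [app_mat, app_mat, toE.apply_symm_apply, dsym_dch he hy, toE.symm_apply_apply]
  refine ⟨fun w => ⟨_, h2 w⟩, fun v hv => ?_, ?_⟩
  · rw [← h1 v, hv, app_zero]
  · intro h0
    have h3 : pull (mat (dch e (e.symm y))) (pull (mat (dsym e y)) P204.GX.F0) = P204.GX.F0 := by
      apply ext_ev
      intro v w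
      rw [ev_pull, ev_pull, h2, h2]
    have h4 := Q_pull (mat (dch e (e.symm y))) (pull (mat (dsym e y)) P204.GX.F0)
      (pull (mat (dsym e y)) P204.GX.F0)
    rw [h3, Q_pull, h0] at h4
    simp [Q, P204.GX.F0] at h4

theorem cE_pullForm (om : TwoForm X) (e : OpenPartialHomeomorph X E4) (y : E4) :
    cE (pullForm e.symm om y) = pull (mat (dsym e y)) (cx om (e.symm y)) :=
  cE_comp_E (om (e.symm y)) (dsym e y)

theorem endRep_Jf {A B C : TwoForm X} (h : DefAt A B C) {e : OpenPartialHomeomorph X E4}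
    (he : e ∈ atlas E4 X) {y : E4} (hy : y ∈ e.target) :
    endRep e (Jf A B C) y = mE (tam (cE (pullForm e.symm A y)) (cE (pullForm e.symm B y))
      (cE (pullForm e.symm C y))) := by
  obtain ⟨s, hs⟩ := h (e.symm y)
  obtain ⟨h1, h2, h3⟩ := mat_dsym he hy
  ext1 u
  have key := tam_pull hs h3 h1 h2 (toE.symm u)
  show dch e (e.symm y) (Jat (Jf A B C) (e.symm y) (dsym e y u)) = _
  rw [cE_pullForm, cE_pullForm, cE_pullForm, mE_apply, Jat_Jf]
  have h4 : toE.symm (dsym e y u) = app (mat (dsym e y)) (toE.symm u) := by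
    rw [app_mat, toE.apply_symm_apply]
  rw [h4, ← key, app_mat, toE.apply_symm_apply, dch_dsym he hy]

theorem Jf_almostComplex {A B C : TwoForm X} (h : DefAt A B C) (hA : SmoothForm A)
    (hB : SmoothForm B) (hC : SmoothForm C) : AlmostComplex (Jf A B C) where
  smooth := by
    intro e he y hy
    obtain ⟨s, hs⟩ := h (e.symm y)
    obtain ⟨h1, h2, h3⟩ := mat_dsym he hy
    have hs' := def3_pull hs h3
    rw [← cE_pullForm, ← cE_pullForm, ← cE_pullForm] at hs'
    have hsm : ∀ {om : TwoForm X}, SmoothForm om → ContDiffAt ℝ ∞ (fun y => cE (pullForm e.symm om y)) y := by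
      intro om hom
      exact contDiffAt_cE_iff.2 ((hom e he y hy).contDiffAt (e.open_target.mem_nhds hy))
    have h4 : ContDiffAt ℝ ∞ (fun y => mE (tam (cE (pullForm e.symm A y)) (cE (pullForm e.symm B y))
      (cE (pullForm e.symm C y)))) y :=
      mEL.contDiff.contDiffAt.comp y (tam_smoothAt hs' (hsm hA) (hsm hB) (hsm hC) rfl rfl rfl)
    refine (ContDiffAt.congr_of_eventuallyEq h4 ?_).contDiffWithinAt
    filter_upwards [e.open_target.mem_nhds hy] with z hz
    exact endRep_Jf h he hz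
  sq := fun x v => Jf_sq h x v

end smooth

end Vale.Agent.P247.SCY
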