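import Vale.Agent.P247.SCY.MFD2

/-!
# P247, soft Calabi-Yau: volume forms, the measure of a volume form, the intersection pairing
-/

set_option linter.all false

open scoped BigOperators ContDiff Topology Manifold ENNReal
open Set MeasureTheory

namespace Vale.Agent.P247.SCY
open Vale.Agent.P204.T4 Vale.Agent.P204.Mfd

/-! ### algebra -/

theorem toE_eb (i : Fin 4) : toE (eb i) = HS.bas i := by
  unfold HS.bas toE eb
  ext j
  simp [EuclideanSpace.equiv]

theorem toE_symm_bas (i : Fin 4) : toE.symm (HS.bas i) = eb i := by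
  rw [← toE_eb, toE.symm_apply_apply]

theorem wedge_eq (α β : E4 [⋀^Fin 2]→L[ℝ] ℝ) : HS.wedge α β HS.bas = Q (cE α) (cE β) := by
  have h : ∀ (A : E4 [⋀^Fin 2]→L[ℝ] ℝ) i j, A ![HS.bas i, HS.bas j] = ev (cE A) (eb i) (eb j) := by
    intro A i j
    rw [ev_cE, toE_eb, toE_eb]
  unfold HS.wedge
  simp only [h]
  obtain ⟨a0, a1, a2, a3, a4, a5⟩ := ev_eb (cE α)
  obtain ⟨b0, b1, b2, b3, b4, b5⟩ := ev_eb (cE β)
  rw [a0, a1, a2, a3, a4, a5, b0, b1, b2, b3, b4, b5]
  unfold Q
  ring

/-- the standard basis of `ℝ⁴` -/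
noncomputable def bE : Module.Basis (Fin 4) ℝ E4 := (EuclideanSpace.basisFun (Fin 4) ℝ).toBasis

theorem bE_apply (i : Fin 4) : bE i = HS.bas i := by
  unfold bE HS.bas
  simp

/-- a top form scales by the determinant -/
theorem top_comp (A : E4 [⋀^Fin 4]→L[ℝ] ℝ) (L : V4 →L[ℝ] E4) :
    A (fun i => L (eb i)) = det4 (matL ((toE.symm : E4 →L[ℝ] V4).comp L)) * A HS.bas := by
  have h1 := AlternatingMap.eq_smul_basis_det bE A.toAlternatingMap
  have h2 : ∀ v : Fin 4 → E4, A v = A HS.bas * bE.det v := by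
    intro v
    have h3 := congrArg (fun f => f v) h1
    have h4 : (fun i => bE i) = HS.bas := funext bE_apply
    simp only [AlternatingMap.smul_apply, smul_eq_mul] at h3
    have h5 : A.toAlternatingMap (⇑bE) = A HS.bas := by
      rw [show (⇑bE : Fin 4 → E4) = HS.bas from h4]; rfl
    rw [h5] at h3
    exact h3
  rw [h2, Module.Basis.det_apply, P204.GX.det4_eq_det, mul_comm]
  congr 2

theorem top_comp2 (A : E4 [⋀^Fin 4]→L[ℝ] ℝ) (L : V4 →L[ℝ] E4) (N : V4 →L[ℝ] V4) :
    A (fun i => L (N (eb i))) = det4 (matL N) * A (fun i => L (eb i)) := by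
  have h1 := top_comp A (L.comp N)
  have h2 := top_comp A L
  have h3 : matL ((toE.symm : E4 →L[ℝ] V4).comp (L.comp N)) =
      P204.GX.mm (matL ((toE.symm : E4 →L[ℝ] V4).comp L)) (matL N) := by
    apply mat_ext
    intro v
    rw [P204.GX.app_mm, app_matL, app_matL, app_matL]
    rfl
  rw [h3, P204.GX.det4_mm] at h1
  rw [h2]
  refine Eq.trans h1 ?_
  ring

theorem det_matL (L : V4 →L[ℝ] V4) : det4 (matL L) = L.det := by
  rw [P204.GX.det4_eq_det]
  have h : (L : V4 →ₗ[ℝ] V4) = Matrix.toLin' (Matrix.of (matL L)) := by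
    apply LinearMap.ext; intro v
    rw [Matrix.toLin'_apply]
    have h1 := app_matL L v
    funext i
    have h2 := congrFun h1 i
    simp only [app] at h2
    simp only [Matrix.mulVec, dotProduct, Matrix.of_apply]
    exact h2.symm
  rw [ContinuousLinearMap.det, h, LinearMap.det_toLin']

section par
variable {X : Type*} [TopologicalSpace X] [ChartedSpace E4 X]

/-- the value of a four-form, as a form on the model space -/
noncomputable def ax (μ : HS.Form X 4) (x : X) : E4 [⋀^Fin 4]→L[ℝ] ℝ := μ x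

/-- the value of a two-form, as a form on the model space -/
noncomputable def bx (α : HS.Form X 2) (x : X) : E4 [⋀^Fin 2]→L[ℝ] ℝ := α x

variable [IsManifold (𝓡 4) ∞ X]

/-- a top form in a parametrisation -/
noncomputable def m4 (p : Par X) (μ : HS.Form X 4) (y : V4) : ℝ :=
  ax μ (p.psi y) (fun i => p.dpsi y (eb i))

theorem loc_bas (μ : HS.Form X 4) (e : OpenPartialHomeomorph X E4) (z : E4) :
    HS.loc e μ z HS.bas = ax μ (e.symm z) (fun i => dsym e z (HS.bas i)) := rfl

theorem loc_cc (μ : HS.Form X 4) (p : Par X) {e : OpenPartialHomeomorph X E4}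
    (he : e ∈ atlas E4 X) {z : E4} (hz : z ∈ p.cdom e) :
    HS.loc e μ z HS.bas =
      det4 (matL ((fderiv ℝ (p.cc e) z).comp (toE : V4 →L[ℝ] E4))) * m4 p μ (p.cc e z) := by
  rw [loc_bas, m4, ← top_comp2, p.psi_cc e hz]
  congr 1
  funext i
  rw [Par.dsym_eq p he hz, ← toE_eb]
  rfl

theorem m4_eq (p : Par X) (μ : HS.Form X 4) (y : V4) :
    m4 p μ y = det4 (matL ((toE.symm : E4 →L[ℝ] V4).comp (fderiv ℝ p.g y))) *
      HS.loc p.e μ (p.g y) HS.bas := by
  rw [← top_comp]
  show ax μ (p.psi y) (fun i => p.dpsi y (eb i)) =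
    ax μ (p.e.symm (p.g y)) (fun i => dsym p.e (p.g y) (fderiv ℝ p.g y (eb i)))
  congr 1
  funext i
  rw [Par.dpsi_eq]; rfl

theorem contDiff_m4 (p : Par X) {μ : HS.Form X 4} (hμ : HS.Smooth μ) : ContDiff ℝ ∞ (m4 p μ) := by
  rw [contDiff_iff_contDiffAt]
  intro y
  have h1 : m4 p μ = fun y => det4 (matL ((toE.symm : E4 →L[ℝ] V4).comp (fderiv ℝ p.g y))) *
      HS.loc p.e μ (p.g y) HS.bas := by
    funext y; exact m4_eq p μ y
  rw [h1]
  have h2 : ContDiffAt ℝ ∞ (fun y => HS.loc p.e μ (p.g y)) y :=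
    (((hμ p.e p.he _ (p.g_mem y)).contDiffAt (p.e.open_target.mem_nhds (p.g_mem y)))).comp y
      p.g_smooth.contDiffAt
  have h3 : ContDiffAt ℝ ∞ (fderiv ℝ p.g) y := p.g_smooth.contDiffAt.fderiv_right (m := ∞) (by simp)
  have h4 : ContDiffAt ℝ ∞ (fun y => matL ((toE.symm : E4 →L[ℝ] V4).comp (fderiv ℝ p.g y))) y :=
    matL.contDiff.contDiffAt.comp y (contDiffAt_const.clm_comp h3)
  have h5 : ContDiffAt ℝ ∞ (fun y => det4 (matL ((toE.symm : E4 →L[ℝ] V4).comp (fderiv ℝ p.g y)))) y :=
    ContDiffAt.comp (g := det4) y P204.GX.contDiff_det4.contDiffAt h4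
  have h6 : ContDiffAt ℝ ∞ (fun y => HS.loc p.e μ (p.g y) HS.bas) y :=
    (ContinuousAlternatingMap.apply ℝ E4 ℝ HS.bas).contDiff.contDiffAt.comp y h2
  exact h5.mul h6

/-- the measure of a volume form on the domain of a chart -/
noncomputable def volC [MeasurableSpace X] (μ : HS.Form X 4) (e : OpenPartialHomeomorph X E4) :
    Measure X :=
  Measure.map e.symm
    ((volume.restrict e.target).withDensity fun y => ENNReal.ofReal |HS.loc e μ y HS.bas|)

theorem vol_eq [MeasurableSpace X] (μ : HS.Form X 4) :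
    HS.vol μ = ⨆ e ∈ atlas E4 X, volC μ e := rfl

theorem volC_apply [MeasurableSpace X] [BorelSpace X] (μ : HS.Form X 4)
    (e : OpenPartialHomeomorph X E4) {E : Set X} (hE : MeasurableSet E) :
    volC μ e E = ∫⁻ z in e.symm ⁻¹' E ∩ e.target, ENNReal.ofReal |HS.loc e μ z HS.bas| := by
  have h1 : AEMeasurable e.symm (volume.restrict e.target) :=
    e.continuousOn_symm.aemeasurable e.open_target.measurableSet
  have h2 : AEMeasurable e.symm ((volume.restrict e.target).withDensity
      fun y => ENNReal.ofReal |HS.loc e μ y HS.bas|) :=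
    h1.mono_ac (withDensity_absolutelyContinuous _ _)
  rw [volC, Measure.map_apply_of_aemeasurable h2 hE, withDensity_apply' ,
    Measure.restrict_restrict' e.open_target.measurableSet]

theorem measurableSet_symm [MeasurableSpace X] [BorelSpace X]
    (e : OpenPartialHomeomorph X E4) {E : Set X} (hE : MeasurableSet E) :
    MeasurableSet (e.symm ⁻¹' E ∩ e.target) := by
  rcases isEmpty_or_nonempty X with hX | ⟨⟨x0⟩⟩
  · have : e.symm ⁻¹' E ∩ e.target = ∅ := by
      ext z
      exact ⟨fun _ => (hX.false (e.symm z)).elim, fun h => h.elim⟩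
    rw [this]; exact MeasurableSet.empty
  classical
  have h1 : Measurable (e.target.piecewise e.symm (fun _ => x0)) :=
    ContinuousOn.measurable_piecewise e.continuousOn_symm continuousOn_const
      e.open_target.measurableSet
  have h2 : e.symm ⁻¹' E ∩ e.target =
      (e.target.piecewise e.symm (fun _ => x0)) ⁻¹' E ∩ e.target := by
    ext z
    constructor
    · rintro ⟨h3, h4⟩
      exact ⟨by rw [mem_preimage, Set.piecewise_eq_of_mem _ _ _ h4]; exact h3, h4⟩
    · rintro ⟨h3, h4⟩
      rw [mem_preimage, Set.piecewise_eq_of_mem _ _ _ h4] at h3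
      exact ⟨h3, h4⟩
  rw [h2]
  exact (h1 hE).inter e.open_target.measurableSet

/-- `toE` preserves Lebesgue measure -/
theorem toE_mp : MeasurePreserving (toE : V4 → E4) volume volume :=
  PiLp.volume_preserving_toLp (Fin 4)

/-- comparison of a chart with a parametrisation -/
theorem lintegral_cc [MeasurableSpace X] [BorelSpace X] (μ : HS.Form X 4) (p : Par X)
    {e : OpenPartialHomeomorph X E4} (he : e ∈ atlas E4 X) {E : Set X} (hE : MeasurableSet E)
    (hEp : E ⊆ range p.psi) (hEe : E ⊆ e.source) :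
    ∫⁻ y in p.psi ⁻¹' E, ENNReal.ofReal |m4 p μ y| =
      ∫⁻ z in e.symm ⁻¹' E ∩ e.target, ENNReal.ofReal |HS.loc e μ z HS.bas| := by
  set S : Set E4 := e.symm ⁻¹' E ∩ e.target with hS
  have hSm : MeasurableSet S := measurableSet_symm e hE
  have hScd : S ⊆ p.cdom e := fun z hz => ⟨hz.2, hEp hz.1⟩
  set S' : Set V4 := toE ⁻¹' S with hS'
  have hS'm : MeasurableSet S' := toE.continuous.measurable hSm
  have himg : p.psi ⁻¹' E = (fun w : V4 => p.cc e (toE w)) '' S' := by
    ext y
    constructor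
    · intro hy
      have hys : p.psi y ∈ e.source := hEe hy
      refine ⟨toE.symm (e (p.psi y)), ?_, ?_⟩
      · rw [hS', mem_preimage, toE.apply_symm_apply]
        refine ⟨?_, e.map_source hys⟩
        rw [mem_preimage, e.left_inv hys]
        exact hy
      · show p.cc e (toE (toE.symm (e (p.psi y)))) = y
        rw [toE.apply_symm_apply, Par.cc, e.left_inv hys, p.inv_psi]
    · rintro ⟨w, hw, rfl⟩
      rw [hS', mem_preimage] at hw
      show p.psi (p.cc e (toE w)) ∈ E
      rw [p.psi_cc e (hScd hw)]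
      exact hw.1
  have hinj : InjOn (fun w : V4 => p.cc e (toE w)) S' := by
    intro w hw w' hw' h
    rw [hS', mem_preimage] at hw hw'
    have h1 := congrArg p.psi h
    simp only at h1
    rw [p.psi_cc e (hScd hw), p.psi_cc e (hScd hw')] at h1
    have h2 := congrArg e h1
    rw [e.right_inv hw.2, e.right_inv hw'.2] at h2
    exact toE.injective h2
  have hder : ∀ w ∈ S', HasFDerivWithinAt (fun w : V4 => p.cc e (toE w))
      ((fderiv ℝ (p.cc e) (toE w)).comp (toE : V4 →L[ℝ] E4)) S' w := by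
    intro w hw
    rw [hS', mem_preimage] at hw
    have h1 : DifferentiableAt ℝ (p.cc e) (toE w) :=
      (p.cc_smoothAt he (hScd hw)).differentiableAt (by simp)
    exact (h1.hasFDerivAt.comp w toE.hasFDerivAt).hasFDerivWithinAt
  rw [himg, lintegral_image_eq_lintegral_abs_det_fderiv_mul volume hS'm hder hinj]
  have h1 : ∫⁻ z in S, ENNReal.ofReal |HS.loc e μ z HS.bas| =
      ∫⁻ w in S', ENNReal.ofReal |HS.loc e μ (toE w) HS.bas| := by
    exact (toE_mp.setLIntegral_comp_preimage_emb toE.toHomeomorph.measurableEmbedding _ _).symm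
  rw [h1]
  refine setLIntegral_congr_fun hS'm fun w hw => ?_
  rw [hS', mem_preimage] at hw
  rw [loc_cc μ p he (hScd hw), abs_mul, ENNReal.ofReal_mul (abs_nonneg _)]
  rw [det_matL]

end par

/-! ### gluing -/

theorem le_of_cover {X : Type*} [MeasurableSpace X] {ν lam : Measure X} {ι : Type*} [Fintype ι]
    (s : ι → Set X) (hs : ∀ i, MeasurableSet (s i)) (hcov : ∀ x, ∃ i, x ∈ s i)
    (h : ∀ i E, MeasurableSet E → E ⊆ s i → ν E ≤ lam E) : ν ≤ lam := by
  classical
  have key : ∀ (F : Finset ι) (E : Set X), MeasurableSet E → (E ⊆ ⋃ i ∈ F, s i) → ν E ≤ lam E := by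
    intro F
    induction F using Finset.induction_on with
    | empty =>
      intro E _ hE
      have : E = ∅ := by
        ext x
        constructor
        · intro hx; have := hE hx; simp at this
        · intro hx; exact hx.elim
      rw [this]; simp
    | insert a F ha ih =>
      intro E hEm hE
      rw [← measure_inter_add_diff E (hs a), ← measure_inter_add_diff (μ := lam) E (hs a)]
      refine add_le_add (h a _ (hEm.inter (hs a)) inter_subset_right) (ih _ (hEm.diff (hs a)) ?_)
      intro x hx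
      have h1 := hE hx.1
      simp only [Finset.mem_insert, iUnion_iUnion_eq_or_left, mem_union] at h1
      rcases h1 with h1 | h1
      · exact absurd h1 hx.2
      · exact h1
  refine Measure.le_iff.2 fun E hE => key Finset.univ E hE fun x _ => ?_
  obtain ⟨i, hi⟩ := hcov x
  exact mem_iUnion₂.2 ⟨i, Finset.mem_univ i, hi⟩

theorem vol_unique {X : Type*} [TopologicalSpace X] [ChartedSpace E4 X] [IsManifold (𝓡 4) ∞ X]
    [MeasurableSpace X] [BorelSpace X] (μ : HS.Form X 4) {n : ℕ} (P : Fin n → Par X)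
    (hcov : ∀ x, ∃ a, x ∈ range (P a).psi) (ν : Measure X)
    (h : ∀ a (E : Set X), MeasurableSet E → E ⊆ range (P a).psi →
      ν E = ∫⁻ y in (P a).psi ⁻¹' E, ENNReal.ofReal |m4 (P a) μ y|) :
    HS.vol μ = ν := by
  have h1 : ∀ e ∈ atlas E4 X, volC μ e = ν.restrict e.source := by
    intro e he
    rw [Measure.ext_iff_of_iUnion_eq_univ (s := fun a => range (P a).psi)
      (by ext x; simp only [mem_iUnion, mem_univ, iff_true]; exact hcov x)]
    intro a
    have hr : MeasurableSet (range (P a).psi) := (P a).isOpen_range.measurableSet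
    ext E hE
    have hE' : MeasurableSet (E ∩ range (P a).psi ∩ e.source) :=
      (hE.inter hr).inter e.open_source.measurableSet
    rw [Measure.restrict_apply hE, Measure.restrict_apply hE,
      Measure.restrict_apply (hE.inter hr), volC_apply μ e (hE.inter hr),
      h a _ hE' (inter_subset_left.trans inter_subset_right),
      lintegral_cc μ (P a) he hE' (inter_subset_left.trans inter_subset_right) inter_subset_right]
    congr 2
    ext z
    constructor
    · rintro ⟨h2, h3⟩; exact ⟨⟨h2, e.map_target h3⟩, h3⟩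
    · rintro ⟨h2, h3⟩; exact ⟨h2.1, h3⟩
  rw [vol_eq]
  apply le_antisymm
  · refine iSup₂_le fun e he => ?_
    rw [h1 e he]
    exact Measure.restrict_le_self
  · refine le_of_cover (fun a => (P a).e.source) (fun a => (P a).e.open_source.measurableSet)
      (fun x => ?_) fun a E hE hEs => ?_
    · obtain ⟨a, y, hy⟩ := hcov x
      exact ⟨a, by rw [← hy]; exact (P a).psi_mem_source y⟩
    · have h2 : volC μ (P a).e ≤ ⨆ e ∈ atlas E4 X, volC μ e := le_iSup₂_of_le (P a).e (P a).he le_rfl
      calc ν E = ν.restrict (P a).e.source E := by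
            rw [Measure.restrict_apply hE, inter_eq_left.2 hEs]
        _ = volC μ (P a).e E := by rw [h1 _ (P a).he]
        _ ≤ _ := h2 E

end Vale.Agent.P247.SCY
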