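import Vale.Agent.P247.SCY.MFD3
import Vale.Agent.P247.SCY.Base2

/-!
# P247, soft Calabi-Yau: two-forms, volume forms and integrals in the unitary frame
-/

set_option linter.all false

open scoped BigOperators ContDiff Topology Manifold ENNReal
open Set MeasureTheory

namespace Vale.Agent.P247.SCY
open Vale.Agent.P204.T4 Vale.Agent.P204.Mfd

variable {X : Type} [TopologicalSpace X] [ChartedSpace E4 X] [IsManifold (𝓡 4) ∞ X]
  {J : EndField X} [CompactSpace X] [T2Space X]

section
variable (A : FinAtlas X J) (om : TwoForm X)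

/-- a two-form in the unitary frame -/
noncomputable def fx (α : TwoForm X) (x : X) : L2 :=
  compL ((bx α x).compContinuousLinearMap (A.FrI om x))

theorem ev_fx (α : TwoForm X) (x : X) (v w : V4) :
    ev (fx A om α x) v w = omv α x (A.FrI om x v) (A.FrI om x w) := by
  unfold fx
  rw [ev_compL]
  exact comp_apply2 (E := V4) (F := E4) (bx α x) (A.FrI om x) v w

/-- the volume form on the unitary frame -/
noncomputable def hx (μ : HS.Form X 4) (x : X) : ℝ := ax μ x (fun i => A.FrI om x (eb i))

theorem fx_eq (α : TwoForm X) (x : X) :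
    fx A om α x = pull (matL ((toE.symm : E4 →L[ℝ] V4).comp (A.FrI om x))) (cx α x) := by
  apply ext_ev
  intro v w
  rw [ev_fx, ev_pull, app_matL, app_matL, ev_cx]
  show _ = omv α x (toE (toE.symm (A.FrI om x v))) (toE (toE.symm (A.FrI om x w)))
  rw [toE.apply_symm_apply, toE.apply_symm_apply]

theorem hx_eq (μ : HS.Form X 4) (x : X) :
    hx A om μ x = det4 (matL ((toE.symm : E4 →L[ℝ] V4).comp (A.FrI om x))) * ax μ x HS.bas :=
  top_comp _ _

variable {om} (hJ : AlmostComplex J) (hS : SmoothForm om) (hC : ClosedForm om) (hT : Tames om J)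

include hJ hT in
theorem det_frame_ne (x : X) :
    det4 (matL ((toE.symm : E4 →L[ℝ] V4).comp (A.FrI om x))) ≠ 0 := by
  intro h0
  have h1 : pull (matL ((A.Fr om x).comp (toE : V4 →L[ℝ] E4)))
      (pull (matL ((toE.symm : E4 →L[ℝ] V4).comp (A.FrI om x))) P204.GX.F0) =
      pull (matL ((A.Fr om x).comp (toE : V4 →L[ℝ] E4)))
      (pull (matL ((toE.symm : E4 →L[ℝ] V4).comp (A.FrI om x))) P204.GX.F0) := rfl
  have h2 : pull (matL ((toE.symm : E4 →L[ℝ] V4).comp (A.FrI om x)))
      (pull (matL ((A.Fr om x).comp (toE : V4 →L[ℝ] E4))) P204.GX.F0) = P204.GX.F0 := by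
    apply ext_ev
    intro v w
    have e : ∀ v : V4, app (matL ((A.Fr om x).comp (toE : V4 →L[ℝ] E4)))
        (app (matL ((toE.symm : E4 →L[ℝ] V4).comp (A.FrI om x))) v) = v := by
      intro v
      rw [app_matL, app_matL]
      show A.Fr om x (toE (toE.symm (A.FrI om x v))) = v
      rw [toE.apply_symm_apply, A.Fr_FrI om hJ hT]
    rw [ev_pull, ev_pull, e, e]
  have h4 := Q_pull (matL ((toE.symm : E4 →L[ℝ] V4).comp (A.FrI om x)))
    (pull (matL ((A.Fr om x).comp (toE : V4 →L[ℝ] E4))) P204.GX.F0)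
    (pull (matL ((A.Fr om x).comp (toE : V4 →L[ℝ] E4))) P204.GX.F0)
  rw [h2, h0] at h4
  simp [Q, P204.GX.F0] at h4

include hJ hT in
theorem quot_eq (μ : HS.Form X 4) (α β : TwoForm X) (x : X) :
    HS.quot μ α β x = Q (fx A om α x) (fx A om β x) / hx A om μ x := by
  have h1 : HS.quot μ α β x = Q (cx α x) (cx β x) / ax μ x HS.bas := by
    show HS.wedge (bx α x) (bx β x) HS.bas / ax μ x HS.bas = _
    rw [wedge_eq]; rfl
  rw [h1, fx_eq, fx_eq, Q_pull, hx_eq, mul_div_mul_left _ _ (det_frame_ne A hJ hT x)]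

include hJ hT in
theorem m4_hx (μ : HS.Form X 4) (a : Fin A.n) (y : V4) :
    m4 (A.P a) μ y = det4 (A.mc om a y) * hx A om μ ((A.P a).psi y) := by
  have h1 := top_comp2 (ax μ ((A.P a).psi y)) (A.FrI om ((A.P a).psi y))
    ((A.Fr om ((A.P a).psi y)).comp ((A.P a).dpsi y))
  unfold m4 hx FinAtlas.mc
  rw [← h1]
  congr 1
  funext i
  show _ = A.FrI om ((A.P a).psi y) (A.Fr om ((A.P a).psi y) ((A.P a).dpsi y (eb i)))
  rw [A.FrI_Fr om hJ hT]

include hJ hT in
theorem pull_mc_fx (α : TwoForm X) (a : Fin A.n) (y : V4) :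
    pull (A.mc om a y) (fx A om α ((A.P a).psi y)) = A.omc α a y := by
  apply ext_ev
  intro v w
  rw [ev_pull, A.app_mc, A.app_mc, ev_fx, A.FrI_Fr om hJ hT, A.FrI_Fr om hJ hT, A.ev_omc]

theorem metric_borel [MeasurableSpace X] [BorelSpace X] :
    @BorelSpace X A.metric.toPseudoMetricSpace.toUniformSpace.toTopologicalSpace _ := by
  infer_instance

include hJ hT in
theorem det_mc (a : Fin A.n) (y : V4) :
    det4 (A.mc om a y) = (1 / 2) * Q (A.Fc om a y) (A.Fc om a y) := by
  rw [← A.pull_mc_F0 om hJ hT, Q_pull, P204.GX.Q_F0]; ring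

include hJ hS hT in
theorem continuous_hx {μ : HS.Form X 4} (hμ : HS.Smooth μ) : Continuous (hx A om μ) := by
  rw [continuous_iff_continuousAt]
  intro x
  obtain ⟨a, y, -, rfl⟩ := A.cov x
  rw [← (A.P a).isOpenEmbedding.continuousAt_iff]
  have h1 : (hx A om μ ∘ (A.P a).psi) = fun y => m4 (A.P a) μ y / ((1 / 2) * Q (A.Fc om a y) (A.Fc om a y)) := by
    funext y
    have h2 := m4_hx A hJ hT μ a y
    have h3 := A.mc_det om hJ hT a y
    rw [← det_mc A hJ hT, h2]
    show hx A om μ ((A.P a).psi y) = _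
    field_simp
  rw [h1]
  have hF := (A.Fc_smooth om hJ hS a).continuous
  refine ((contDiff_m4 (A.P a) hμ).continuous.div
    (continuous_const.mul (continuous_Q.comp (hF.prodMk hF))) fun y => ?_).continuousAt
  show (1 / 2) * Q (A.Fc om a y) (A.Fc om a y) ≠ 0
  rw [← det_mc A hJ hT]
  exact (A.mc_det om hJ hT a y).ne'

variable [MeasurableSpace X] [BorelSpace X]

/-- the volume measure of the unitary frame -/
noncomputable def muA : Measure X :=
  letI := A.metric
  (A.toCM om hJ hS hC hT).mu

theorem muA_restrict (a : Fin A.n) : (muA A hJ hS hC hT).restrict (range (A.P a).psi) =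
    Measure.map (A.P a).psi (volume.withDensity fun y => ENNReal.ofReal (det4 (A.mc om a y))) := by
  letI := A.metric
  exact (A.toCM om hJ hS hC hT).mu_restrict a

theorem muA_finite : IsFiniteMeasure (muA A hJ hS hC hT) := by
  letI := A.metric
  exact inferInstanceAs (IsFiniteMeasure (A.toCM om hJ hS hC hT).mu)

theorem vol_muA {μ : HS.Form X 4} (hμ : HS.Smooth μ) :
    HS.vol μ = (muA A hJ hS hC hT).withDensity fun x => ENNReal.ofReal |hx A om μ x| := by
  refine vol_unique μ A.P (fun x => ?_) _ fun a E hE hEr => ?_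
  · obtain ⟨a, y, -, hy⟩ := A.cov x
    exact ⟨a, y, hy⟩
  have hcont := continuous_hx A hJ hS hT hμ
  have hf : Measurable fun x => ENNReal.ofReal |hx A om μ x| :=
    (hcont.abs.measurable).ennreal_ofReal
  have hψ : Measurable (A.P a).psi := (A.P a).isOpenEmbedding.continuous.measurable
  have hFc := (A.Fc_smooth om hJ hS a).continuous
  have hdet : Measurable fun y => ENNReal.ofReal (det4 (A.mc om a y)) := by
    have : (fun y => det4 (A.mc om a y)) = fun y => (1 / 2) * Q (A.Fc om a y) (A.Fc om a y) := by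
      funext y; exact det_mc A hJ hT a y
    refine Measurable.ennreal_ofReal ?_
    rw [this]
    exact (continuous_const.mul (continuous_Q.comp (hFc.prodMk hFc))).measurable
  have hr : MeasurableSet (range (A.P a).psi) := (A.P a).isOpen_range.measurableSet
  rw [withDensity_apply _ hE]
  have h1 : (muA A hJ hS hC hT).restrict E = (Measure.map (A.P a).psi
      (volume.withDensity fun y => ENNReal.ofReal (det4 (A.mc om a y)))).restrict E := by
    rw [← muA_restrict A hJ hS hC hT a, Measure.restrict_restrict hE, inter_eq_left.2 hEr]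
  have hf' : Measurable fun y => ENNReal.ofReal |hx A om μ ((A.P a).psi y)| := hf.comp hψ
  rw [h1, Measure.restrict_map hψ hE, lintegral_map hf hψ, restrict_withDensity (hψ hE),
    lintegral_withDensity_eq_lintegral_mul _ hdet hf']
  refine lintegral_congr fun y => ?_
  rw [Pi.mul_apply, m4_hx A hJ hT, abs_mul, abs_of_pos (A.mc_det om hJ hT a y),
    ENNReal.ofReal_mul (A.mc_det om hJ hT a y).le]

end

end Vale.Agent.P247.SCY
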