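import Vale.Agent.P247.SCY.MFD4

/-!
# P247, soft Calabi-Yau: exact forms
-/

set_option linter.all false

open scoped BigOperators ContDiff Topology Manifold ENNReal
open Set MeasureTheory

namespace Vale.Agent.P247.SCY
open Vale.Agent.P204.T4 Vale.Agent.P204.Mfd

/-- a covector as an alternating map -/
noncomputable def one1 : V4 →L[ℝ] (V4 [⋀^Fin 1]→L[ℝ] ℝ) :=
  LinearMap.toContinuousLinearMap
    { toFun := fun a => ContinuousAlternatingMap.ofSubsingleton ℝ V4 ℝ 0
        (∑ i, a i • ContinuousLinearMap.proj (R := ℝ) (φ := fun _ : Fin 4 => ℝ) i)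
      map_add' := by
        intro a b
        ext v
        simp [add_mul, Finset.sum_add_distrib]
      map_smul' := by
        intro c a
        ext v
        simp [Finset.mul_sum, mul_assoc] }

theorem one1_apply (a : V4) (v : Fin 1 → V4) : one1 a v = dp a (v 0) := by
  simp [one1, dp]

/-- the exterior derivative of a one-form on `ℝ⁴` -/
theorem extDeriv_one1 {η : V4 → V4} {y : V4} (h : DifferentiableAt ℝ η y) :
    extDeriv (fun y => one1 (η y)) y = toAlt (d1 η y) := by
  have hd : DifferentiableAt ℝ (fun y => one1 (η y)) y := one1.differentiableAt.comp y h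
  apply alt_ext
  intro v w
  have key : extDeriv (fun y => one1 (η y)) y ![v, w] =
      dp (fderiv ℝ η y v) w - dp (fderiv ℝ η y w) v := by
    rw [extDeriv_apply hd, Fin.sum_univ_two]
    have e0 : (0 : Fin 2).removeNth ![v, w] = ![w] := by
      funext l; fin_cases l; rfl
    have e1 : (1 : Fin 2).removeNth ![v, w] = ![v] := by
      funext l; fin_cases l; rfl
    rw [e0, e1]
    have hf : ∀ u : V4, (fun y => one1 (η y) ![u]) = fun y => dp (η y) u := by
      intro u; funext y; rw [one1_apply]; rfl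
    have hder : ∀ u t : V4, fderiv ℝ (fun y => one1 (η y) ![u]) y t = dp (fderiv ℝ η y t) u := by
      intro u t
      rw [hf]
      have h1 : HasFDerivAt (fun y => dp (η y) u)
          (∑ i, u i • ((ContinuousLinearMap.proj (R := ℝ) (φ := fun _ : Fin 4 => ℝ) i).comp (fderiv ℝ η y))) y := by
        have h2 : (fun y => dp (η y) u) = fun y => ∑ i, η y i * u i := rfl
        rw [h2]
        refine HasFDerivAt.fun_sum fun i _ => ?_
        have h3 : HasFDerivAt (fun y => η y i)
            ((ContinuousLinearMap.proj (R := ℝ) (φ := fun _ : Fin 4 => ℝ) i).comp (fderiv ℝ η y)) y :=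
          (ContinuousLinearMap.proj (R := ℝ) (φ := fun _ : Fin 4 => ℝ) i).hasFDerivAt.comp y h.hasFDerivAt
        exact h3.mul_const (u i)
      rw [h1.fderiv]
      simp [dp, mul_comm]
    rw [hder, hder]
    simp
    ring
  rw [key, toAlt_apply]
  have hpd : ∀ i j : Fin 4, pd i (fun y => η y j) y = fderiv ℝ η y (eb i) j := by
    intro i j
    have h3 : HasFDerivAt (fun y => η y j)
        ((ContinuousLinearMap.proj (R := ℝ) (φ := fun _ : Fin 4 => ℝ) j).comp (fderiv ℝ η y)) y :=
      (ContinuousLinearMap.proj (R := ℝ) (φ := fun _ : Fin 4 => ℝ) j).hasFDerivAt.comp y h.hasFDerivAt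
    unfold pd
    rw [h3.fderiv]
    rfl
  have hv : ∀ (v : V4) (j : Fin 4), fderiv ℝ η y v j = v 0 * fderiv ℝ η y (eb 0) j +
      v 1 * fderiv ℝ η y (eb 1) j + v 2 * fderiv ℝ η y (eb 2) j + v 3 * fderiv ℝ η y (eb 3) j := by
    intro v j
    conv_lhs => rw [vec_eq v]
    simp only [map_add, map_smul, Pi.add_apply, Pi.smul_apply, smul_eq_mul]
  rw [dp_eq, dp_eq, hv v 0, hv v 1, hv v 2, hv v 3, hv w 0, hv w 1, hv w 2, hv w 3, ev_eq]
  simp only [d1, ofEnt_0, ofEnt_1, ofEnt_2, ofEnt_3, ofEnt_4, ofEnt_5, hpd]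
  ring

/-- covectors of `ℝ⁴` as linear functionals -/
noncomputable def dpL : V4 →L[ℝ] (V4 →L[ℝ] ℝ) :=
  LinearMap.toContinuousLinearMap
    { toFun := fun a => ∑ i, a i • ContinuousLinearMap.proj (R := ℝ) (φ := fun _ : Fin 4 => ℝ) i
      map_add' := by
        intro a b
        ext v
        simp [add_mul, Finset.sum_add_distrib]
      map_smul' := by
        intro c a
        ext v
        simp [Finset.mul_sum, mul_assoc] }

theorem dpL_apply (a v : V4) : dpL a v = dp a v := by
  simp [dpL, dp]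

/-- linear functionals as alternating maps -/
noncomputable def oneE : (E4 →L[ℝ] ℝ) →L[ℝ] (E4 [⋀^Fin 1]→L[ℝ] ℝ) :=
  LinearMap.toContinuousLinearMap
    { toFun := fun a => ContinuousAlternatingMap.ofSubsingleton ℝ E4 ℝ 0 a
      map_add' := by
        intro a b
        ext v
        simp
      map_smul' := by
        intro c a
        ext v
        simp }

theorem oneE_apply (a : E4 →L[ℝ] ℝ) (v : Fin 1 → E4) : oneE a v = a (v 0) := by
  simp [oneE]

theorem one1_comp (a : V4) (L : E4 →L[ℝ] V4) :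
    (one1 a).compContinuousLinearMap L = oneE ((dpL a).comp L) := by
  ext v
  rw [ContinuousAlternatingMap.compContinuousLinearMap_apply, one1_apply, oneE_apply,
    ContinuousLinearMap.comp_apply, dpL_apply]
  rfl

section
variable {X : Type*} [TopologicalSpace X] [ChartedSpace E4 X]

/-- extension by zero of a compactly supported one-form of a parametrisation -/
noncomputable def E1 (p : Par X) (η : V4 → V4) : HS.Form X 1 := fun x =>
  (open Classical in if x ∈ range p.psi then
    (one1 (η (p.inv x))).compContinuousLinearMap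
      (mfderiv (𝓡 4) 𝓘(ℝ, V4) p.inv x : E4 →L[ℝ] V4) else 0 : E4 [⋀^Fin 1]→L[ℝ] ℝ)

/-- the value as a form on the model space -/
noncomputable def ax1 (η : HS.Form X 1) (x : X) : E4 [⋀^Fin 1]→L[ℝ] ℝ := η x

variable [IsManifold (𝓡 4) ∞ X]

theorem E1_of_mem (p : Par X) (η : V4 → V4) {x : X} (hx : x ∈ range p.psi) :
    ax1 (E1 p η) x = (one1 (η (p.inv x))).compContinuousLinearMap (p.dinv x) := by
  unfold ax1 E1
  rw [if_pos hx]; rfl

theorem E1_of_notMem (p : Par X) (η : V4 → V4) {x : X} (hx : x ∉ p.psi '' tsupport η) :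
    ax1 (E1 p η) x = 0 := by
  by_cases h : x ∈ range p.psi
  · obtain ⟨y, rfl⟩ := h
    rw [E1_of_mem p η (mem_range_self y), p.inv_psi]
    have : η y = 0 := by
      by_contra hne
      exact hx ⟨y, subset_tsupport _ hne, rfl⟩
    rw [this, map_zero]
    ext v; rfl
  · unfold ax1 E1
    rw [if_neg h]

theorem loc_E1_of_mem (p : Par X) (η : V4 → V4) {e : OpenPartialHomeomorph X E4}
    (he : e ∈ atlas E4 X) {z : E4} (hz : z ∈ p.cdom e) :
    HS.loc e (E1 p η) z = (one1 (η (p.cc e z))).compContinuousLinearMap (fderiv ℝ (p.cc e) z) := by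
  have h1 : HS.loc e (E1 p η) z = (ax1 (E1 p η) (e.symm z)).compContinuousLinearMap (dsym e z) := rfl
  rw [h1, E1_of_mem p η hz.2]
  ext v
  rw [ContinuousAlternatingMap.compContinuousLinearMap_apply,
    ContinuousAlternatingMap.compContinuousLinearMap_apply,
    ContinuousAlternatingMap.compContinuousLinearMap_apply, one1_apply, one1_apply]
  show dp _ (p.dinv (e.symm z) (dsym e z (v 0))) = dp _ (fderiv ℝ (p.cc e) z (v 0))
  rw [Par.dsym_eq p he hz]
  have h2 : e.symm z = p.psi (p.cc e z) := (p.psi_cc e hz).symm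
  have h3 : p.dinv (e.symm z) ((p.dpsi (p.cc e z)).comp (fderiv ℝ (p.cc e) z) (v 0)) =
      p.dinv (p.psi (p.cc e z)) (p.dpsi (p.cc e z) (fderiv ℝ (p.cc e) z (v 0))) := by
    rw [← h2]; rfl
  rw [h3, p.dinv_dpsi]
  rfl

variable [T2Space X]

/-- near a point of the chart not in the support the extension vanishes -/
theorem loc_E1_off (p : Par X) {η : V4 → V4} (hc : HasCompactSupport η)
    {e : OpenPartialHomeomorph X E4} {z : E4} (hz : z ∈ e.target) (hz' : z ∉ p.cdom e) :
    HS.loc e (E1 p η) =ᶠ[𝓝 z] fun _ => 0 := by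
  have hcl : IsClosed (p.psi '' tsupport η) :=
    (hc.isCompact.image p.isOpenEmbedding.continuous).isClosed
  have hop : IsOpen (e.target ∩ e.symm ⁻¹' (p.psi '' tsupport η)ᶜ) :=
    e.isOpen_inter_preimage_symm hcl.isOpen_compl
  have hmem : z ∈ e.target ∩ e.symm ⁻¹' (p.psi '' tsupport η)ᶜ := by
    refine ⟨hz, fun hh => ?_⟩
    obtain ⟨w, _, hw⟩ := hh
    exact hz' ⟨hz, ⟨w, hw⟩⟩
  filter_upwards [hop.mem_nhds hmem] with w hw
  have h1 : HS.loc e (E1 p η) w = (ax1 (E1 p η) (e.symm w)).compContinuousLinearMap (dsym e w) := rfl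
  rw [h1, E1_of_notMem p η hw.2]
  ext v; rfl

theorem E1_smooth (p : Par X) {η : V4 → V4} (hs : ContDiff ℝ ∞ η) (hc : HasCompactSupport η) :
    HS.Smooth (E1 p η) := by
  intro e he z hz
  by_cases hz' : z ∈ p.cdom e
  · have h1 : HS.loc e (E1 p η) =ᶠ[𝓝 z] fun z =>
        (one1 (η (p.cc e z))).compContinuousLinearMap (fderiv ℝ (p.cc e) z) := by
      filter_upwards [(p.isOpen_cdom e).mem_nhds hz'] with w hw
      exact loc_E1_of_mem p η he hw
    refine (ContDiffAt.congr_of_eventuallyEq ?_ h1).contDiffWithinAt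
    have hcc := p.cc_smoothAt he hz'
    have hD : ContDiffAt ℝ ∞ (fderiv ℝ (p.cc e)) z := hcc.fderiv_right (m := ∞) (by simp)
    simp only [one1_comp]
    exact oneE.contDiff.contDiffAt.comp z
      ((dpL.contDiff.contDiffAt.comp z (hs.contDiffAt.comp z hcc)).clm_comp hD)
  · exact (ContDiffAt.congr_of_eventuallyEq contDiffAt_const (loc_E1_off p hc hz hz')).contDiffWithinAt

end

theorem extDeriv_zero1 (y : E4) : extDeriv (fun _ : E4 => (0 : E4 [⋀^Fin 1]→L[ℝ] ℝ)) y = 0 := by
  have h := extDeriv_fun_smul (0 : ℝ) (fun _ : E4 => (0 : E4 [⋀^Fin 1]→L[ℝ] ℝ)) (x := y)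
  simp only [zero_smul] at h
  exact h

section
variable {X : Type} [TopologicalSpace X] [ChartedSpace E4 X] [IsManifold (𝓡 4) ∞ X]
  {J : EndField X} [CompactSpace X] [T2Space X]

/-! ### the space of exact forms -/

omit [CompactSpace X] [T2Space X] [IsManifold (𝓡 4) ∞ X] in
theorem exact_zero : HS.Exact (fun _ => 0 : HS.Form X 2) := by
  refine ⟨fun _ => 0, ?_, ?_⟩
  · intro e he
    have : HS.loc e (fun _ => 0 : HS.Form X 1) = fun _ => 0 := by
      funext y; ext v; rfl
    rw [this]; exact contDiffOn_const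
  · intro e he y hy
    have : HS.loc e (fun _ => 0 : HS.Form X 1) = fun _ => 0 := by
      funext y; ext v; rfl
    rw [this]
    rw [extDeriv_zero1]; ext v; rfl

omit [CompactSpace X] [T2Space X] [IsManifold (𝓡 4) ∞ X] in
theorem loc_add' {k : ℕ} (e : OpenPartialHomeomorph X E4) (α β : HS.Form X k) :
    HS.loc e (fun x => α x + β x) = fun y => HS.loc e α y + HS.loc e β y := by
  funext y; ext v; rfl

omit [CompactSpace X] [T2Space X] [IsManifold (𝓡 4) ∞ X] in
theorem loc_smul' {k : ℕ} (e : OpenPartialHomeomorph X E4) (c : ℝ) (α : HS.Form X k) :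
    HS.loc e (fun x => c • α x) = fun y => c • HS.loc e α y := by
  funext y; ext v; rfl

omit [CompactSpace X] [T2Space X] [IsManifold (𝓡 4) ∞ X] in
theorem exact_add {α β : HS.Form X 2} (h : HS.Exact α) (h' : HS.Exact β) :
    HS.Exact (fun x => α x + β x) := by
  obtain ⟨η, h1, h2⟩ := h
  obtain ⟨η', h1', h2'⟩ := h'
  refine ⟨fun x => η x + η' x, ?_, ?_⟩
  · intro e he
    rw [loc_add']
    exact (h1 e he).add (h1' e he)
  · intro e he y hy
    rw [loc_add', loc_add']
    have hd : DifferentiableAt ℝ (HS.loc e η) y :=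
      ((h1 e he y hy).contDiffAt (e.open_target.mem_nhds hy)).differentiableAt (by simp)
    have hd' : DifferentiableAt ℝ (HS.loc e η') y :=
      ((h1' e he y hy).contDiffAt (e.open_target.mem_nhds hy)).differentiableAt (by simp)
    rw [extDeriv_fun_add hd hd', h2 e he y hy, h2' e he y hy]

omit [CompactSpace X] [T2Space X] [IsManifold (𝓡 4) ∞ X] in
theorem exact_smul {α : HS.Form X 2} (h : HS.Exact α) (c : ℝ) :
    HS.Exact (fun x => c • α x) := by
  obtain ⟨η, h1, h2⟩ := h
  refine ⟨fun x => c • η x, ?_, ?_⟩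
  · intro e he
    rw [loc_smul']
    exact (h1 e he).const_smul c
  · intro e he y hy
    rw [loc_smul', loc_smul']
    have h3 := extDeriv_fun_smul c (HS.loc e η) (x := y)
    rw [h2 e he y hy] at h3
    exact h3

variable (A : FinAtlas X J) {om : TwoForm X}
variable (hJ : AlmostComplex J) (hS : SmoothForm om) (hC : ClosedForm om) (hT : Tames om J)

/-- the extension of `d1 η` is the exterior derivative of the extension of `η` -/
theorem exact_ext (a : Fin A.n) {η : V4 → V4} (hs : ContDiff ℝ ∞ η) (hc : HasCompactSupport η) :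
    HS.Exact (A.back om (letI := A.metric; (A.toCM om hJ hS hC hT).ext a (d1 η))) := by
  letI := A.metric
  set M := A.toCM om hJ hS hC hT with hM
  refine ⟨E1 (A.P a) η, E1_smooth (A.P a) hs hc, fun e he z hz => ?_⟩
  by_cases hz' : z ∈ (A.P a).cdom e
  · have h1 : HS.loc e (E1 (A.P a) η) =ᶠ[𝓝 z] fun z =>
        (one1 (η ((A.P a).cc e z))).compContinuousLinearMap (fderiv ℝ ((A.P a).cc e) z) := by
      filter_upwards [((A.P a).isOpen_cdom e).mem_nhds hz'] with w hw
      exact loc_E1_of_mem (A.P a) η he hw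
    have hη : Differentiable ℝ η := hs.differentiable (by simp)
    have hd : DifferentiableAt ℝ (fun y => one1 (η y)) ((A.P a).cc e z) :=
      one1.differentiableAt.comp _ (hη _)
    rw [h1.extDeriv_eq, extDeriv_pullback (r := ∞) hd ((A.P a).cc_smoothAt he hz') minS,
      extDeriv_one1 (hη _)]
    have h2 := (A.P a).pullForm_eq (A.back om (M.ext a (d1 η))) he hz'
    refine Eq.trans ?_ h2.symm
    congr 1
    rw [← toAlt_compL ((A.P a).form _ _), A.compL_back]
    congr 1
    exact (congrFun (M.cf_ext_self a (d1 η)) _).symm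
  · rw [(loc_E1_off (A.P a) hc hz hz').extDeriv_eq]
    rw [extDeriv_zero1]
    have hx : e.symm z ∉ range (A.P a).psi := fun h => hz' ⟨hz, h⟩
    have h3 : M.ext a (d1 η) (e.symm z) = 0 := M.ext_of_notMem a (d1 η) hx
    have h4 : bx (A.back om (M.ext a (d1 η))) (e.symm z) = 0 := by
      have h5 : bx (A.back om (M.ext a (d1 η))) (e.symm z) =
        (toAlt (M.ext a (d1 η) (e.symm z))).compContinuousLinearMap (A.Fr om (e.symm z)) := rfl
      rw [h5, h3]
      have h6 : toAlt (0 : L2) = 0 := by rw [← toAltL_apply, map_zero]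
      rw [h6]; ext v; rfl
    have h5 : HS.loc e (A.back om (M.ext a (d1 η))) z =
      (bx (A.back om (M.ext a (d1 η))) (e.symm z)).compContinuousLinearMap (dsym e z) := rfl
    refine Eq.trans ?_ h5.symm
    rw [h4]; ext v; rfl

theorem exact_of_Ex (e : letI := A.metric; (A.toCM om hJ hS hC hT).Om)
    (he : letI := A.metric; e ∈ (A.toCM om hJ hS hC hT).Ex) :
    HS.Exact (A.back om (letI := A.metric; (e : X → L2))) := by
  letI := A.metric
  have hback_add : ∀ u v : X → L2, (A.back om (u + v)) = fun x => A.back om u x + A.back om v x := by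
    intro u v
    funext x
    show ((toAlt (u x + v x)).compContinuousLinearMap (A.Fr om x) : E4 [⋀^Fin 2]→L[ℝ] ℝ) =
      (toAlt (u x)).compContinuousLinearMap (A.Fr om x) + (toAlt (v x)).compContinuousLinearMap (A.Fr om x)
    rw [← toAltL_apply, map_add]
    rfl
  have hback_smul : ∀ (c : ℝ) (u : X → L2), (A.back om (c • u)) = fun x => c • A.back om u x := by
    intro c u
    funext x
    show ((toAlt (c • u x)).compContinuousLinearMap (A.Fr om x) : E4 [⋀^Fin 2]→L[ℝ] ℝ) =
      c • (toAlt (u x)).compContinuousLinearMap (A.Fr om x)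
    rw [← toAltL_apply, map_smul]
    rfl
  have key : ∀ e : (A.toCM om hJ hS hC hT).Om, e ∈ (A.toCM om hJ hS hC hT).Ex →
      HS.Exact (A.back om (e : X → L2)) := by
    intro e he
    refine Submodule.span_induction (p := fun (e : (A.toCM om hJ hS hC hT).Om) _ =>
      HS.Exact (A.back om (e : X → L2))) ?_ ?_ ?_ ?_ he
    · rintro _ ⟨a, η, h, rfl⟩
      exact exact_ext A hJ hS hC hT a h.1 h.2
    · have h0 : A.back om (((0 : (A.toCM om hJ hS hC hT).Om)) : X → L2) = fun _ => 0 := by
        funext x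
        show ((toAlt (0 : L2)).compContinuousLinearMap (A.Fr om x) : E4 [⋀^Fin 2]→L[ℝ] ℝ) = 0
        rw [← toAltL_apply, map_zero]; ext v; rfl
      rw [h0]
      exact exact_zero
    · intro u v _ _ hu hv
      have h0 := hback_add (u : X → L2) (v : X → L2)
      have h1 := exact_add hu hv
      rw [← h0] at h1
      exact h1
    · intro c u _ hu
      have h0 := hback_smul c (u : X → L2)
      have h1 := exact_smul hu c
      rw [← h0] at h1
      exact h1
  exact key e he

end

end Vale.Agent.P247.SCY
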