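import Vale.Agent.P247.SCY.MFD5

/-!
# P247, soft Calabi-Yau: dictionary between forms on the manifold and forms in the unitary frame
-/

set_option linter.all false

open scoped BigOperators ContDiff Topology Manifold ENNReal
open Set MeasureTheory

namespace Vale.Agent.P247.SCY
open Vale.Agent.P204.T4 Vale.Agent.P204.Mfd

variable {X : Type} [TopologicalSpace X] [ChartedSpace E4 X] [IsManifold (𝓡 4) ∞ X]
  {J : EndField X} [CompactSpace X] [T2Space X]

variable (A : FinAtlas X J) {om : TwoForm X}
variable (hJ : AlmostComplex J) (hS : SmoothForm om) (hC : ClosedForm om) (hT : Tames om J)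

/-- the concrete manifold -/
noncomputable abbrev CMA : @P204.GX.CM X A.metric := A.toCM om hJ hS hC hT

theorem fx_mem {α : TwoForm X} (hα : SmoothForm α) :
    letI := A.metric
    fx A om α ∈ (CMA A hJ hS hC hT).Om := by
  letI := A.metric
  intro a
  have : (CMA A hJ hS hC hT).cf a (fx A om α) = A.omc α a := by
    funext y
    exact pull_mc_fx A hJ hT α a y
  rw [this]
  exact A.omc_smooth α hα a

theorem fx_closed {α : TwoForm X} (hα : SmoothForm α) (hc : ClosedForm α) (a : Fin A.n) :
    letI := A.metric
    Closed ((CMA A hJ hS hC hT).cf a (fx A om α)) := by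
  letI := A.metric
  have : (CMA A hJ hS hC hT).cf a (fx A om α) = A.omc α a := by
    funext y
    exact pull_mc_fx A hJ hT α a y
  rw [this]
  exact (closed_iff (((A.P a).form_smooth hα).differentiable (by simp))).2 ((A.P a).form_closed hα hc)

theorem om_eq_fx :
    letI := A.metric
    (CMA A hJ hS hC hT).om = fx A om om := rfl

include hJ hT in
theorem fx_back (w : X → L2) : fx A om (A.back om w) = w := by
  funext x
  apply ext_ev
  intro v v'
  rw [ev_fx, A.omv_back, A.Fr_FrI om hJ hT, A.Fr_FrI om hJ hT]

include hJ hT in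
theorem bx_back_fx (α : TwoForm X) (x : X) : bx (A.back om (fx A om α)) x = bx α x := by
  have h : ∀ u v : E4, bx (A.back om (fx A om α)) x ![u, v] = bx α x ![u, v] := by
    intro u v
    have h1 := A.omv_back om (fx A om α) x u v
    rw [ev_fx, A.FrI_Fr om hJ hT, A.FrI_Fr om hJ hT] at h1
    exact h1
  ext m
  have hm : m = ![m 0, m 1] := by funext i; fin_cases i <;> rfl
  rw [hm]; exact h _ _

theorem fx_add (α β : TwoForm X) : fx A om (fun x => α x + β x) = fx A om α + fx A om β := by
  funext x
  have : bx (fun x => α x + β x) x = bx α x + bx β x := rfl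
  show compL _ = _
  rw [this]
  have h2 : (bx α x + bx β x).compContinuousLinearMap (A.FrI om x) =
      (bx α x).compContinuousLinearMap (A.FrI om x) + (bx β x).compContinuousLinearMap (A.FrI om x) := rfl
  rw [h2, map_add]; rfl

theorem fx_smul (c : ℝ) (α : TwoForm X) : fx A om (fun x => c • α x) = c • fx A om α := by
  funext x
  have : bx (fun x => c • α x) x = c • bx α x := rfl
  show compL _ = _
  rw [this]
  have h2 : (c • bx α x).compContinuousLinearMap (A.FrI om x) =
      c • (bx α x).compContinuousLinearMap (A.FrI om x) := rfl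
  rw [h2, map_smul]; rfl

/-- smooth closed frame forms give smooth closed forms on the manifold -/
theorem back_smooth {w : X → L2} (hw : letI := A.metric; w ∈ (CMA A hJ hS hC hT).Om) :
    SmoothForm (A.back om w) := by
  letI := A.metric
  have hcov : ∀ x, ∃ i, x ∈ range (A.P i).psi := fun x => by
    obtain ⟨a, y, _, h⟩ := A.cov x
    exact ⟨a, y, h⟩
  refine smoothForm_of_pars A.P hcov fun a => ?_
  have h1 : ContDiff ℝ ∞ fun y => cV ((A.P a).form (A.back om w) y) := by
    have : (fun y => cV ((A.P a).form (A.back om w) y)) =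
        fun y => pull (A.mc om a y) (w ((A.P a).psi y)) := by
      funext y
      rw [cV_apply, A.compL_back]
    rw [this]
    exact hw a
  exact (cV.comp_contDiff_iff (f := (A.P a).form (A.back om w))).1 h1

theorem back_closed {w : X → L2} (hw : letI := A.metric; w ∈ (CMA A hJ hS hC hT).Om)
    (hc : ∀ a : Fin A.n, letI := A.metric; Closed ((CMA A hJ hS hC hT).cf a w)) :
    ClosedForm (A.back om w) := by
  letI := A.metric
  have hcov : ∀ x, ∃ i, x ∈ range (A.P i).psi := fun x => by
    obtain ⟨a, y, _, h⟩ := A.cov x
    exact ⟨a, y, h⟩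
  have hsm : ∀ a, ContDiff ℝ ∞ ((A.P a).form (A.back om w)) := by
    intro a
    have h1 : ContDiff ℝ ∞ fun y => cV ((A.P a).form (A.back om w) y) := by
      have : (fun y => cV ((A.P a).form (A.back om w) y)) =
          fun y => pull (A.mc om a y) (w ((A.P a).psi y)) := by
        funext y
        rw [cV_apply, A.compL_back]
      rw [this]
      exact hw a
    exact (cV.comp_contDiff_iff (f := (A.P a).form (A.back om w))).1 h1
  refine closedForm_of_pars A.P hcov hsm fun a => ?_
  rw [← closed_iff ((hsm a).differentiable (by simp))]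
  simp only [A.compL_back]
  exact hc a

variable [MeasurableSpace X] [BorelSpace X]

/-- the intersection pairing in the frame -/
theorem pair_eq {μ : HS.Form X 4} (hμ : HS.Smooth μ) (h0 : ∀ x, 0 < hx A om μ x) (α β : TwoForm X) :
    HS.pair μ α β = (letI := A.metric; (CMA A hJ hS hC hT).pr (fx A om α) (fx A om β)) := by
  letI := A.metric
  have hcont := continuous_hx A hJ hS hT hμ
  have hf : Measurable fun x => ENNReal.ofReal |hx A om μ x| :=
    (hcont.abs.measurable).ennreal_ofReal
  unfold HS.pair
  rw [vol_muA A hJ hS hC hT hμ, integral_withDensity_eq_integral_toReal_smul hf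
    (Filter.Eventually.of_forall fun x => ENNReal.ofReal_lt_top)]
  show _ = ∫ x, Q (fx A om α x) (fx A om β x) ∂(muA A hJ hS hC hT)
  refine integral_congr_ae (Filter.Eventually.of_forall fun x => ?_)
  show (ENNReal.ofReal |hx A om μ x|).toReal • HS.quot μ α β x = _
  rw [ENNReal.toReal_ofReal (abs_nonneg _), abs_of_pos (h0 x), quot_eq A hJ hT, smul_eq_mul,
    mul_div_cancel₀ _ (h0 x).ne']

theorem vol_univ {μ : HS.Form X 4} (hμ : HS.Smooth μ) (h0 : ∀ x, 0 < hx A om μ x) :
    ((HS.vol μ) univ).toReal = ∫ x, hx A om μ x ∂(muA A hJ hS hC hT) := by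
  have hcont := continuous_hx A hJ hS hT hμ
  rw [vol_muA A hJ hS hC hT hμ, withDensity_apply _ MeasurableSet.univ, Measure.restrict_univ,
    integral_eq_lintegral_of_nonneg_ae (Filter.Eventually.of_forall fun x => (h0 x).le)
      hcont.aestronglyMeasurable]
  congr 1
  refine lintegral_congr fun x => ?_
  rw [abs_of_pos (h0 x)]

end Vale.Agent.P247.SCY
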