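import Vale.Agent.P247.SCY.MFD6

/-!
# P247, soft Calabi-Yau: one step of the deformation
-/

set_option linter.all false

open scoped BigOperators ContDiff Topology Manifold ENNReal
open Set MeasureTheory

namespace Vale.Agent.P247.SCY
open Vale.Agent.P204 Vale.Agent.P204.T4 Vale.Agent.P204.Mfd Vale.Agent.P204.GX

/-! ### pointwise algebra in the unitary frame -/

theorem pM_of_anti {A : L2} (h : pull J0 A = -A) : pM J0 A = A := by
  unfold pM; rw [h]; module

theorem anti_of_pM {A : L2} (h : pM J0 A = A) : pP J0 A = 0 := by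
  have := pP_add_pM J0 A
  rw [h] at this
  simpa using this

theorem posDef_add {A B : L2} (hA : PosDef J0 A) (hB : Cone J0 B) : PosDef J0 (A + B) := by
  refine ⟨by rw [pull_add, hA.1, hB.1], fun v hv => ?_⟩
  rw [ev_add]
  have := hA.2 v hv
  have := hB.2 v
  linarith

theorem posDef_smul {c : ℝ} (hc : 0 < c) {A : L2} (hA : PosDef J0 A) : PosDef J0 (c • A) := by
  refine ⟨by rw [pull_smul, hA.1], fun v hv => ?_⟩
  rw [ev_smul]; exact mul_pos hc (hA.2 v hv)

theorem posDef_F0 : PosDef J0 F0 := by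
  have := posDef_Fm isCx_J0
  rwa [G7.Fm_J0'] at this

theorem posDef_ne {A : L2} (hA : PosDef J0 A) : A ≠ 0 := by
  intro h
  have h1 := hA.2 (eb 0) eb0_ne
  rw [h] at h1
  have := ev_smul 0 (0 : L2) (eb 0) (app J0 (eb 0))
  simp only [smul_zero, zero_mul] at this
  linarith

theorem posDef_Q {A : L2} (hA : PosDef J0 A) : 0 < Q A A :=
  Q_posDef_pos isCx_J0 CM.posJ0 hA.cone (posDef_ne hA) hA

theorem frame_tri {om e B C : L2} (h0 : pP J0 om = F0) (h1 : PosDef J0 (pP J0 (om + e)))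
    (hB : pM J0 B = B) (hC : pM J0 C = C)
    (hBC : ∀ b c : ℝ, (b ≠ 0 ∨ c ≠ 0) → 0 < Q (b • B + c • C) (b • B + c • C))
    {s : ℝ} (hs : s ∈ Icc (0 : ℝ) 1) (a b c : ℝ) (h : a ≠ 0 ∨ b ≠ 0 ∨ c ≠ 0) :
    0 < Q (a • (om + s • e) + b • B + c • C) (a • (om + s • e) + b • B + c • C) := by
  by_cases ha : a = 0
  · subst ha
    have e1 : (0 : ℝ) • (om + s • e) + b • B + c • C = b • B + c • C := by
      rw [zero_smul, zero_add]
    rw [e1]
    rcases h with h | h | h
    · exact absurd rfl h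
    · exact hBC b c (Or.inl h)
    · exact hBC b c (Or.inr h)
  · set D := a • (om + s • e) + b • B + c • C with hD
    have hP : PosDef J0 (pP J0 (om + s • e)) := by
      have e2 : pP J0 (om + s • e) = (1 - s) • F0 + s • pP J0 (om + e) := by
        rw [FnSys.pP_add, FnSys.pP_add, FnSys.pP_smul, h0]; module
      rw [e2]
      rcases eq_or_lt_of_le hs.1 with h' | h'
      · rw [← h']
        have : (1 - (0 : ℝ)) • F0 + (0 : ℝ) • pP J0 (om + e) = F0 := by module
        rw [this]; exact posDef_F0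
      · have h2 : Cone J0 ((1 - s) • F0) :=
          G7.cone_smul (by linarith [hs.2]) posDef_F0.cone
        rw [add_comm]
        exact posDef_add (posDef_smul h' h1) h2
    have e3 : pP J0 D = a • pP J0 (om + s • e) := by
      rw [hD, FnSys.pP_add, FnSys.pP_add, FnSys.pP_smul, FnSys.pP_smul, FnSys.pP_smul,
        anti_of_pM hB, anti_of_pM hC]; module
    rw [Q_self_split isCx_J0 CM.posJ0 D, e3, Q_smul_left, Q_smul_right]
    have h3 := posDef_Q hP
    have h4 := CM.Q_pM_self_nonneg D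
    have h5 : 0 < a * (a * Q (pP J0 (om + s • e)) (pP J0 (om + s • e))) := by
      have : 0 < a * a := mul_self_pos.2 ha
      nlinarith
    linarith

theorem div_comb (a b c q1 q2 q3 q4 q5 q6 h : ℝ) :
    a ^ 2 * (q1 / h) + b ^ 2 * (q2 / h) + c ^ 2 * (q3 / h) + 2 * a * b * (q4 / h) +
      2 * a * c * (q5 / h) + 2 * b * c * (q6 / h) =
    (a ^ 2 * q1 + b ^ 2 * q2 + c ^ 2 * q3 + 2 * a * b * q4 + 2 * a * c * q5 + 2 * b * c * q6) / h := by
  ring

theorem cross_le {D W : L2} {h η B ε : ℝ} (hW : pM J0 W = W) (hh : 0 < h) (hη : 0 < η)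
    (h1 : ‖pM J0 D‖ < η) (h2 : ‖W‖ ≤ B) (h3 : 6 * η * B < ε * h) : |Q D W / h| < ε := by
  have e : Q D W = Q (pM J0 D) W := by
    conv_lhs => rw [← pP_add_pM J0 D, ← hW]
    rw [Q_add_left, Q_pP_pM isCx_J0 CM.posJ0, zero_add, hW]
  rw [abs_div, abs_of_pos hh, div_lt_iff₀ hh, e]
  have h4 := abs_Q_le (pM J0 D) W
  have h5 : 6 * ‖pM J0 D‖ * ‖W‖ ≤ 6 * η * B := by
    have := norm_nonneg (pM J0 D)
    have := norm_nonneg W
    gcongr
  linarith

section
variable {X : Type} [TopologicalSpace X] [ChartedSpace E4 X]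

/-- positive definiteness of the triple `(α, β, γ)` -/
def TriPos (μ : HS.Form X 4) (α β γ : HS.Form X 2) : Prop :=
  ∀ x, ∀ a b c : ℝ, (a ≠ 0 ∨ b ≠ 0 ∨ c ≠ 0) →
    0 < a ^ 2 * HS.quot μ α α x + b ^ 2 * HS.quot μ β β x + c ^ 2 * HS.quot μ γ γ x +
      2 * a * b * HS.quot μ α β x + 2 * a * c * HS.quot μ α γ x + 2 * b * c * HS.quot μ β γ x

theorem quot_comm (μ : HS.Form X 4) (α β : HS.Form X 2) (x : X) :
    HS.quot μ α β x = HS.quot μ β α x := by
  unfold HS.quot HS.wedge
  congr 1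
  ring

theorem pair_comm [MeasurableSpace X] (μ : HS.Form X 4) (α β : HS.Form X 2) :
    HS.pair μ α β = HS.pair μ β α := by
  unfold HS.pair
  congr 1
  funext x
  exact quot_comm μ α β x

theorem quot_cx (μ : HS.Form X 4) (α β : HS.Form X 2) (x : X) :
    HS.quot μ α β x = (ax μ x HS.bas)⁻¹ * Q (cx α x) (cx β x) := by
  have : HS.quot μ α β x = Q (cx α x) (cx β x) / ax μ x HS.bas := by
    show HS.wedge (bx α x) (bx β x) HS.bas / ax μ x HS.bas = _
    rw [wedge_eq]; rfl
  rw [this, div_eq_inv_mul]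

theorem defAt_of_triPos {μ : HS.Form X 4} {α β γ : HS.Form X 2} (h : TriPos μ α β γ) :
    DefAt α β γ := by
  intro x
  refine ⟨(ax μ x HS.bas)⁻¹, fun a b c habc => ?_⟩
  have h1 := h x a b c habc
  rw [Q_comb]
  simp only [quot_cx] at h1
  linarith

end

section
variable {X : Type} [TopologicalSpace X] [ChartedSpace E4 X] [IsManifold (𝓡 4) ∞ X]
  [CompactSpace X] [T2Space X] {J : EndField X} (A : FinAtlas X J) {om : TwoForm X}

theorem fx_anti (hJ : AlmostComplex J) (hT : Tames om J) {β : TwoForm X}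
    (h : ∀ (x : X) (u v : E4), omv β x (Jat J x u) (Jat J x v) = - omv β x u v) (x : X) :
    pM J0 (fx A om β x) = fx A om β x := by
  apply pM_of_anti
  apply ext_ev
  intro v w
  rw [ev_pull, ev_neg, ev_fx, ev_fx, A.FrI_J om hJ hT, A.FrI_J om hJ hT, h]

end

/-- One step of the deformation: `α` is moved in its class to an almost unimodular form which is
almost orthogonal to `β` and `γ`. -/
theorem step (soft : SoftStatement') {X : Type} [TopologicalSpace X] [ChartedSpace E4 X]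
    [IsManifold (𝓡 4) ∞ X] [CompactSpace X] [T2Space X] [Nonempty X] [MeasurableSpace X]
    [BorelSpace X] {μ : HS.Form X 4} (hμ : HS.Volume μ) (hvol : (HS.vol μ univ).toReal = 1 / 2)
    (hb : HS.BPlusLe3 μ) {α β γ : HS.Form X 2} (sα : HS.Smooth α) (cα : HS.Closed α)
    (sβ : HS.Smooth β) (cβ : HS.Closed β) (sγ : HS.Smooth γ) (cγ : HS.Closed γ)
    (hpos : TriPos μ α β γ) (pαα : HS.pair μ α α = 1) (pββ : HS.pair μ β β = 1)
    (pγγ : HS.pair μ γ γ = 1) (pαβ : HS.pair μ α β = 0) (pαγ : HS.pair μ α γ = 0)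
    (pβγ : HS.pair μ β γ = 0) {ε : ℝ} (hε : 0 < ε) :
    ∃ θ : HS.Form X 2, HS.Smooth θ ∧ HS.Closed θ ∧ HS.Exact θ ∧
      (∀ c : HS.Form X 2, HS.Smooth c → HS.Closed c →
        HS.pair μ (fun x => α x + θ x) c = HS.pair μ α c) ∧
      (∀ s ∈ Icc (0 : ℝ) 1, TriPos μ (fun x => α x + s • θ x) β γ) ∧
      (∀ x, 2 * (1 - ε) < HS.quot μ (fun x => α x + θ x) (fun x => α x + θ x) x) ∧
      (∀ x, |HS.quot μ (fun x => α x + θ x) β x| < ε) ∧
      (∀ x, |HS.quot μ (fun x => α x + θ x) γ x| < ε) := by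
  have hdef := defAt_of_triPos hpos
  set J : EndField X := Jf α β γ with hJdef
  have hJ : AlmostComplex J := Jf_almostComplex hdef sα sβ sγ
  have hT : Tames α J := Jf_tames hdef
  have hS : SmoothForm α := sα
  have hC : ClosedForm α := cα
  obtain ⟨A⟩ := exists_finAtlas hJ
  letI := A.metric
  set M := CMA A hJ hS hC hT with hM
  set wb := fx A α β with hwb
  set wc := fx A α γ with hwc
  have hbOm : wb ∈ M.Om := fx_mem A hJ hS hC hT sβ
  have hcOm : wc ∈ M.Om := fx_mem A hJ hS hC hT sγ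
  have hbCl : (⟨wb, hbOm⟩ : M.Om) ∈ M.Cl := fun a => fx_closed A hJ hS hC hT sβ cβ a
  have hcCl : (⟨wc, hcOm⟩ : M.Om) ∈ M.Cl := fun a => fx_closed A hJ hS hC hT sγ cγ a
  have hbM : ∀ x, pM J0 (wb x) = wb x := fx_anti A hJ hT (fun x u v => Jf_anti_B hdef x u v)
  have hcM : ∀ x, pM J0 (wc x) = wc x := fx_anti A hJ hT (fun x u v => Jf_anti_C hdef x u v)
  have hom : M.om = fx A α α := rfl
  -- positivity of the density
  have hh0 : ∀ x, 0 < hx A α μ x := by
    intro x
    have h1 := hpos x 1 0 0 (Or.inl one_ne_zero)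
    have h2 : 0 < HS.quot μ α α x := by linarith
    rw [quot_eq A hJ hT] at h2
    have h3 : 0 < Q (fx A α α x) (fx A α α x) := by
      rw [Q_self_split isCx_J0 CM.posJ0, ← hom, M.om_pP, Q_F0]
      have := CM.Q_pM_self_nonneg (M.om x)
      linarith
    exact (div_pos_iff_of_pos_left h3).1 h2
  have hpr := fun a b => pair_eq A hJ hS hC hT hμ.smooth hh0 a b
  have pr_ob : M.pr M.om wb = 0 := by rw [← pαβ]; exact (hpr α β).symm
  have pr_oc : M.pr M.om wc = 0 := by rw [← pαγ]; exact (hpr α γ).symm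
  have pr_bc : M.pr wb wc = 0 := by rw [← pβγ]; exact (hpr β γ).symm
  have pr_oo : M.pr M.om M.om = 1 := by rw [← pαα]; exact (hpr α α).symm
  have pr_bb : M.pr wb wb = 1 := by rw [← pββ]; exact (hpr β β).symm
  have pr_cc : M.pr wc wc = 1 := by rw [← pγγ]; exact (hpr γ γ).symm
  -- the intersection form
  have hL : ∀ c ∈ M.Cl, M.pr M.om (c : X → L2) = 0 → M.pr wb (c : X → L2) = 0 →
      M.pr wc (c : X → L2) = 0 → M.pr (c : X → L2) (c : X → L2) ≤ 0 := by
    intro c hc h1 h2 h3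
    by_contra hcon
    push Not at hcon
    set κ : TwoForm X := A.back α (c : X → L2) with hκ
    have sκ : HS.Smooth κ := back_smooth A hJ hS hC hT c.2
    have cκ : HS.Closed κ := back_closed A hJ hS hC hT c.2 hc
    have fκ : fx A α κ = c := fx_back A hJ hT c
    have q1 : HS.pair μ α κ = 0 := by rw [hpr, fκ]; exact h1
    have q2 : HS.pair μ β κ = 0 := by rw [hpr, fκ]; exact h2
    have q3 : HS.pair μ γ κ = 0 := by rw [hpr, fκ]; exact h3
    have q4 : 0 < HS.pair μ κ κ := by rw [hpr, fκ]; exact hcon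
    apply hb
    refine ⟨![α, β, γ, κ], ?_, ?_⟩
    · intro i
      fin_cases i
      · exact ⟨sα, cα⟩
      · exact ⟨sβ, cβ⟩
      · exact ⟨sγ, cγ⟩
      · exact ⟨sκ, cκ⟩
    · have e : (Matrix.of fun i j => HS.pair μ ((![α, β, γ, κ] : Fin 4 → HS.Form X 2) i)
          ((![α, β, γ, κ] : Fin 4 → HS.Form X 2) j)) =
          Matrix.diagonal ![1, 1, 1, HS.pair μ κ κ] := by
        ext i j
        fin_cases i <;> fin_cases j <;>
          simp [pαα, pββ, pγγ, pαβ, pαγ, pβγ, q1, q2, q3, pair_comm μ β α, pair_comm μ γ α,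
            pair_comm μ γ β, pair_comm μ κ α, pair_comm μ κ β, pair_comm μ κ γ]
      rw [e]
      apply Matrix.PosDef.diagonal
      intro i
      fin_cases i
      · exact one_pos
      · exact one_pos
      · exact one_pos
      · exact q4
  -- the density
  have hcont := continuous_hx A hJ hS hT hμ.smooth
  obtain ⟨x0, -, hx0⟩ := isCompact_univ.exists_isMinOn (univ_nonempty (α := X)) hcont.continuousOn
  have hmin : ∀ x, hx A α μ x0 ≤ hx A α μ x := fun x => hx0 (mem_univ x)
  set h0 := hx A α μ x0 with hh0def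
  have h0pos : 0 < h0 := hh0 x0
  obtain ⟨B1, hB1, hB1'⟩ := M.bounded_of_C0 (fun a => (hbOm a).continuous)
  obtain ⟨B2, hB2, hB2'⟩ := M.bounded_of_C0 (fun a => (hcOm a).continuous)
  set η := ε * h0 / (6 * (B1 + B2 + 1)) with hη
  have hη0 : 0 < η := by positivity
  have hηb : ∀ B : ℝ, B ≤ B1 + B2 → ∀ x, 6 * η * B < ε * hx A α μ x := by
    intro B hB x
    have h1 : 6 * η * (B1 + B2 + 1) = ε * h0 := by rw [hη]; field_simp
    have h2 : ε * h0 ≤ ε * hx A α μ x := mul_le_mul_of_nonneg_left (hmin x) hε.le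
    have h3 : 6 * η * B < 6 * η * (B1 + B2 + 1) := by
      apply mul_lt_mul_of_pos_left _ (by positivity)
      linarith
    linarith
  have hσ : ∫ x, 2 * hx A α μ x ∂M.mu = M.pr M.om M.om := by
    rw [pr_oo, integral_const_mul]
    have := vol_univ A hJ hS hC hT hμ.smooth hh0
    rw [hvol] at this
    have e : ∫ x, hx A α μ x ∂M.mu = 1 / 2 := this.symm
    rw [e]; norm_num
  obtain ⟨e, heEx, he1, he2, he3⟩ := soft X M wb wc hbOm hcOm hbCl hcCl hbM hcM pr_ob pr_oc pr_bc
    (by rw [pr_bb]; exact one_pos) (by rw [pr_cc]; exact one_pos) hL (fun x => 2 * hx A α μ x)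
    (continuous_const.mul hcont) (fun x => by have := hh0 x; positivity) hσ ε η hε hη0
  set θ : HS.Form X 2 := A.back α (e : X → L2) with hθ
  have fθ : fx A α θ = e := fx_back A hJ hT e
  have heCl : e ∈ M.Cl := M.Ex_le_Cl heEx
  have sθ : HS.Smooth θ := back_smooth A hJ hS hC hT e.2
  have cθ : HS.Closed θ := back_closed A hJ hS hC hT e.2 heCl
  have f1 : fx A α (fun x => α x + θ x) = fun x => M.om x + (e : X → L2) x := by
    rw [fx_add, fθ]; rfl
  refine ⟨θ, sθ, cθ, exact_of_Ex A hJ hS hC hT e heEx, ?_, ?_, ?_, ?_, ?_⟩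
  · intro c sc cc
    rw [hpr, hpr, f1]
    have h1 : fx A α c ∈ M.Om := fx_mem A hJ hS hC hT sc
    have h2 : (⟨fx A α c, h1⟩ : M.Om) ∈ M.Cl := fun a => fx_closed A hJ hS hC hT sc cc a
    have h3 := M.stokesX heEx h2
    have h4 : ∀ x, Q (M.om x + (e : X → L2) x) (fx A α c x) =
        Q (M.om x) (fx A α c x) + Q ((e : X → L2) x) (fx A α c x) := fun x => Q_add_left _ _ _
    show ∫ x, Q (M.om x + (e : X → L2) x) (fx A α c x) ∂M.mu = ∫ x, Q (M.om x) (fx A α c x) ∂M.mu
    simp only [h4]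
    rw [integral_add (M.integrable_Q (fun a => (M.om_smooth a).continuous) fun a => (h1 a).continuous)
      (M.integrable_Q (fun a => (e.2 a).continuous) fun a => (h1 a).continuous), h3, add_zero]
  · intro s hs x a b c habc
    have f2 : fx A α (fun x => α x + s • θ x) x = M.om x + s • (e : X → L2) x := by
      have := fx_add (om := α) A α (fun x => s • θ x)
      rw [fx_smul, fθ] at this
      exact congrFun this x
    have h1 := frame_tri (M.om_pP x) (he1 x) (hbM x) (hcM x) (fun b c hbc => by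
      have h2 := hpos x 0 b c (Or.inr hbc)
      simp only [quot_eq A hJ hT] at h2
      have h3 : 0 < (Q (b • wb x + c • wc x) (b • wb x + c • wc x)) / hx A α μ x := by
        have e1 : Q (b • wb x + c • wc x) (b • wb x + c • wc x) =
            b ^ 2 * Q (wb x) (wb x) + c ^ 2 * Q (wc x) (wc x) + 2 * b * c * Q (wb x) (wc x) := by
          simp only [Q_add_left, Q_add_right, Q_smul_left, Q_smul_right, Q_comm (wc x) (wb x)]
          ring
        rw [e1, add_div, add_div]
        have := hh0 x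
        convert h2 using 1
        ring
      exact (div_pos_iff_of_pos_right (hh0 x)).1 h3) hs a b c habc
    simp only [quot_eq A hJ hT, f2]
    rw [Q_comb] at h1
    have h3 := div_pos h1 (hh0 x)
    simp only [← hwb, ← hwc]
    rw [div_comb]
    exact h3
  · intro x
    rw [quot_eq A hJ hT, f1, lt_div_iff₀ (hh0 x), Q_self_split isCx_J0 CM.posJ0]
    have h1 := he3 x
    have h2 := CM.Q_pM_self_nonneg (M.om x + (e : X → L2) x)
    have h3 : (1 - ε) * (2 * hx A α μ x) = 2 * (1 - ε) * hx A α μ x := by ring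
    linarith
  · intro x
    rw [quot_eq A hJ hT, f1]
    refine cross_le (hbM x) (hh0 x) hη0 (he2 x) (hB1' x) ?_
    exact hηb B1 (by linarith) x
  · intro x
    rw [quot_eq A hJ hT, f1]
    refine cross_le (hcM x) (hh0 x) hη0 (he2 x) (hB2' x) ?_
    exact hηb B2 (by linarith) x

end Vale.Agent.P247.SCY
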