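import Vale.Agent.P247.SCY.MFD7

/-!
# P247, soft Calabi-Yau: assembly of the deformation
-/

set_option linter.all false

open scoped BigOperators ContDiff Topology Manifold ENNReal
open Set MeasureTheory

namespace Vale.Agent.P247.SCY
open Vale.Agent.P204 Vale.Agent.P204.T4 Vale.Agent.P204.Mfd Vale.Agent.P204.GX

section
variable {X : Type} [TopologicalSpace X] [ChartedSpace E4 X] {k : ℕ}

theorem smooth_add {α β : HS.Form X k} (h : HS.Smooth α) (h' : HS.Smooth β) :
    HS.Smooth (fun x => α x + β x) := by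
  intro e he
  rw [loc_add']
  exact (h e he).add (h' e he)

theorem smooth_smul {α : HS.Form X k} (h : HS.Smooth α) (c : ℝ) :
    HS.Smooth (fun x => c • α x) := by
  intro e he
  rw [loc_smul']
  exact (h e he).const_smul c

theorem diff_loc {α : HS.Form X k} (h : HS.Smooth α) {e : OpenPartialHomeomorph X E4}
    (he : e ∈ atlas E4 X) {y : E4} (hy : y ∈ e.target) : DifferentiableAt ℝ (HS.loc e α) y :=
  ((h e he y hy).contDiffAt (e.open_target.mem_nhds hy)).differentiableAt (by simp)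

theorem closed_add {α β : HS.Form X k} (h : HS.Smooth α) (h' : HS.Smooth β)
    (c : HS.Closed α) (c' : HS.Closed β) : HS.Closed (fun x => α x + β x) := by
  intro e he y hy
  rw [loc_add', extDeriv_fun_add (diff_loc h he hy) (diff_loc h' he hy), c e he y hy, c' e he y hy,
    add_zero]

theorem closed_smul {α : HS.Form X k} (c : HS.Closed α) (r : ℝ) :
    HS.Closed (fun x => r • α x) := by
  intro e he y hy
  rw [loc_smul']
  have h3 := extDeriv_fun_smul r (HS.loc e α) (x := y)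
  rw [c e he y hy, smul_zero] at h3
  exact h3

/-- the quadratic form of `Q` -/
theorem qm_form (μ : HS.Form X 4) (w : Fin 3 → HS.Form X 2) (x : X) (v : Fin 3 → ℝ) :
    star v ⬝ᵥ (HS.Qm μ w x).mulVec v = (1 / 2) * (v 0 ^ 2 * HS.quot μ (w 0) (w 0) x +
      v 1 ^ 2 * HS.quot μ (w 1) (w 1) x + v 2 ^ 2 * HS.quot μ (w 2) (w 2) x +
      2 * v 0 * v 1 * HS.quot μ (w 0) (w 1) x + 2 * v 0 * v 2 * HS.quot μ (w 0) (w 2) x +
      2 * v 1 * v 2 * HS.quot μ (w 1) (w 2) x) := by
  simp only [dotProduct, Matrix.mulVec, Fin.sum_univ_three, HS.Qm, Matrix.of_apply, Pi.star_apply,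
    star_trivial, quot_comm μ (w 1) (w 0), quot_comm μ (w 2) (w 0), quot_comm μ (w 2) (w 1)]
  ring

theorem qm_hermitian (μ : HS.Form X 4) (w : Fin 3 → HS.Form X 2) (x : X) :
    (HS.Qm μ w x).IsHermitian := by
  ext i j
  simp only [HS.Qm, Matrix.conjTranspose_apply, Matrix.of_apply, star_trivial]
  rw [quot_comm]

theorem posDef_of_tri {μ : HS.Form X 4} {w : Fin 3 → HS.Form X 2}
    (h : TriPos μ (w 0) (w 1) (w 2)) (x : X) : (HS.Qm μ w x).PosDef := by
  refine Matrix.PosDef.of_dotProduct_mulVec_pos (qm_hermitian μ w x) fun v hv => ?_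
  rw [qm_form]
  have hv' : v 0 ≠ 0 ∨ v 1 ≠ 0 ∨ v 2 ≠ 0 := by
    by_contra hcon
    push Not at hcon
    apply hv
    funext i
    fin_cases i
    · exact hcon.1
    · exact hcon.2.1
    · exact hcon.2.2
  have := h x (v 0) (v 1) (v 2) hv'
  linarith

theorem tri_of_posDef {μ : HS.Form X 4} {w : Fin 3 → HS.Form X 2}
    (h : ∀ x, (HS.Qm μ w x).PosDef) : TriPos μ (w 0) (w 1) (w 2) := by
  intro x a b c habc
  have h1 := (h x).dotProduct_mulVec_pos (x := ![a, b, c]) (by
    intro h0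
    have e0 : a = 0 := congrFun h0 0
    have e1 : b = 0 := congrFun h0 1
    have e2 : c = 0 := congrFun h0 2
    rcases habc with h | h | h
    · exact h e0
    · exact h e1
    · exact h e2)
  rw [qm_form] at h1
  simp only [Matrix.cons_val_zero, Matrix.cons_val_one, Matrix.cons_val] at h1
  linarith

theorem TriPos.swap {μ : HS.Form X 4} {α β γ : HS.Form X 2} (h : TriPos μ α β γ) :
    TriPos μ β α γ := by
  intro x a b c habc
  have := h x b a c (by tauto)
  rw [quot_comm μ β α]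
  linarith

theorem TriPos.rot {μ : HS.Form X 4} {α β γ : HS.Form X 2} (h : TriPos μ α β γ) :
    TriPos μ γ α β := by
  intro x a b c habc
  have := h x b c a (by tauto)
  rw [quot_comm μ γ α, quot_comm μ γ β]
  linarith

end


/-! ### the three steps -/

/-- the result of the three steps -/
theorem three (soft : SoftStatement') {X : Type} [TopologicalSpace X] [ChartedSpace E4 X]
    [IsManifold (𝓡 4) ∞ X] [CompactSpace X] [T2Space X] [Nonempty X] [MeasurableSpace X]
    [BorelSpace X] {μ : HS.Form X 4} (hμ : HS.Volume μ) (hvol : (HS.vol μ univ).toReal = 1 / 2)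
    (hb : HS.BPlusLe3 μ) {w : Fin 3 → HS.Form X 2} (hw : HS.Hypersymplectic μ w)
    (hn : HS.Normalized μ w) {ε : ℝ} (hε : 0 < ε) :
    ∃ θ : Fin 3 → HS.Form X 2, (∀ i, HS.Smooth (θ i) ∧ HS.Closed (θ i) ∧ HS.Exact (θ i)) ∧
      (∀ s ∈ Icc (0 : ℝ) 1, TriPos μ (fun x => w 0 x + s • θ 0 x) (w 1) (w 2)) ∧
      (∀ s ∈ Icc (0 : ℝ) 1, TriPos μ (fun x => w 0 x + θ 0 x) (fun x => w 1 x + s • θ 1 x) (w 2)) ∧
      (∀ s ∈ Icc (0 : ℝ) 1, TriPos μ (fun x => w 0 x + θ 0 x) (fun x => w 1 x + θ 1 x)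
        (fun x => w 2 x + s • θ 2 x)) ∧
      (∀ i, HS.pair μ (fun x => w i x + θ i x) (fun x => w i x + θ i x) = 1) ∧
      (∀ i x, 2 * (1 - ε) < HS.quot μ (fun x => w i x + θ i x) (fun x => w i x + θ i x) x) ∧
      (∀ i j, i ≠ j → ∀ x, |HS.quot μ (fun x => w i x + θ i x) (fun x => w j x + θ j x) x| < ε) := by
  have n00 : HS.pair μ (w 0) (w 0) = 1 := by simpa using hn 0 0
  have n11 : HS.pair μ (w 1) (w 1) = 1 := by simpa using hn 1 1
  have n22 : HS.pair μ (w 2) (w 2) = 1 := by simpa using hn 2 2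
  have n01 : HS.pair μ (w 0) (w 1) = 0 := by simpa using hn 0 1
  have n02 : HS.pair μ (w 0) (w 2) = 0 := by simpa using hn 0 2
  have n12 : HS.pair μ (w 1) (w 2) = 0 := by simpa using hn 1 2
  have s0 := hw.smooth 0
  have s1 := hw.smooth 1
  have s2 := hw.smooth 2
  have c0 := hw.closed 0
  have c1 := hw.closed 1
  have c2 := hw.closed 2
  have t0 : TriPos μ (w 0) (w 1) (w 2) := tri_of_posDef hw.posDef
  obtain ⟨θ0, sθ0, cθ0, e0, p0, q0, d0, x01, x02⟩ := step soft hμ hvol hb s0 c0 s1 c1 s2 c2 t0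
    n00 n11 n22 n01 n02 n12 hε
  set v0 : HS.Form X 2 := fun x => w 0 x + θ0 x with hv0
  have sv0 : HS.Smooth v0 := smooth_add s0 sθ0
  have cv0 : HS.Closed v0 := closed_add s0 sθ0 c0 cθ0
  have m00 : HS.pair μ v0 v0 = 1 := by rw [p0 v0 sv0 cv0, pair_comm, p0 _ s0 c0, n00]
  have m01 : HS.pair μ v0 (w 1) = 0 := by rw [p0 _ s1 c1, n01]
  have m02 : HS.pair μ v0 (w 2) = 0 := by rw [p0 _ s2 c2, n02]
  have t1 : TriPos μ v0 (w 1) (w 2) := by
    have := q0 1 (by norm_num)
    simpa only [one_smul] using this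
  obtain ⟨θ1, sθ1, cθ1, e1, p1, q1, d1, x10, x12⟩ := step soft hμ hvol hb s1 c1 sv0 cv0 s2 c2
    t1.swap n11 m00 n22 (by rw [pair_comm, m01]) n12 m02 hε
  set v1 : HS.Form X 2 := fun x => w 1 x + θ1 x with hv1
  have sv1 : HS.Smooth v1 := smooth_add s1 sθ1
  have cv1 : HS.Closed v1 := closed_add s1 sθ1 c1 cθ1
  have m11 : HS.pair μ v1 v1 = 1 := by rw [p1 v1 sv1 cv1, pair_comm, p1 _ s1 c1, n11]
  have m10 : HS.pair μ v1 v0 = 0 := by rw [p1 _ sv0 cv0, pair_comm, m01]
  have m12 : HS.pair μ v1 (w 2) = 0 := by rw [p1 _ s2 c2, n12]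
  have t2 : TriPos μ v1 v0 (w 2) := by
    have := q1 1 (by norm_num)
    simpa only [one_smul] using this
  have t2' : TriPos μ (w 2) v0 v1 := t2.swap.rot
  obtain ⟨θ2, sθ2, cθ2, e2, p2, q2, d2, x20, x21⟩ := step soft hμ hvol hb s2 c2 sv0 cv0 sv1 cv1
    t2' n22 m00 m11 (by rw [pair_comm, m02]) (by rw [pair_comm, m12]) (by rw [pair_comm, m10]) hε
  set v2 : HS.Form X 2 := fun x => w 2 x + θ2 x with hv2
  have sv2 : HS.Smooth v2 := smooth_add s2 sθ2
  have cv2 : HS.Closed v2 := closed_add s2 sθ2 c2 cθ2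
  have m22 : HS.pair μ v2 v2 = 1 := by rw [p2 v2 sv2 cv2, pair_comm, p2 _ s2 c2, n22]
  refine ⟨![θ0, θ1, θ2], ?_, q0, ?_, ?_, ?_, ?_, ?_⟩
  · intro i
    fin_cases i
    · exact ⟨sθ0, cθ0, e0⟩
    · exact ⟨sθ1, cθ1, e1⟩
    · exact ⟨sθ2, cθ2, e2⟩
  · intro s hs
    exact (q1 s hs).swap
  · intro s hs
    exact (q2 s hs).rot.rot
  · intro i
    fin_cases i
    · exact m00
    · exact m11
    · exact m22
  · intro i
    fin_cases i
    · exact d0
    · exact d1
    · exact d2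
  · intro i j hij
    fin_cases i <;> fin_cases j
    · exact absurd rfl hij
    · intro x
      have := x10 x
      rw [quot_comm] at this
      exact this
    · intro x
      have := x20 x
      rw [quot_comm] at this
      exact this
    · exact x10
    · exact absurd rfl hij
    · intro x
      have := x21 x
      rw [quot_comm] at this
      exact this
    · exact x20
    · exact x21
    · exact absurd rfl hij

end Vale.Agent.P247.SCY
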