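import Vale.Agent.P247.SCY.TPart

/-!
# P247, soft Calabi-Yau: the soft theorem from the blocks `KL` and `Hom`
-/

set_option linter.all false

open MeasureTheory Set Metric Filter Topology
open scoped ContDiff ENNReal NNReal BigOperators InnerProductSpace Topology

namespace Vale.Agent.P247.SCY
open Vale.Agent.P204 Vale.Agent.P204.T4 Vale.Agent.P204.GX _root_.P204.GX

section
variable {X : Type} [MetricSpace X] [CompactSpace X] [MeasurableSpace X] [BorelSpace X]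
variable {M : CM X} (P : MSys M)

theorem en_scaled_bdd {t : Measure X} (f : ℝ → ℝ) {k C δ1 : ℝ} (hk : 1 ≤ k)
    (h : ∀ δ, 0 < δ → δ ≤ δ1 → f δ ≤ C) (hδ1 : 0 < δ1) :
    ∀ᶠ δ in 𝓝[>] (0 : ℝ), f (k * δ) ≤ C := by
  have hk0 : 0 < k := by linarith
  have h1 : (0 : ℝ) < δ1 / k := by positivity
  filter_upwards [Ioc_mem_nhdsGT h1] with δ hδ
  refine h _ (mul_pos hk0 hδ.1) ?_
  have := hδ.2
  rw [le_div_iff₀ hk0] at this
  linarith

/-- **The key limit.** The separating functional, evaluated on the smoothings of `R`. -/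
theorem key_limit [Nonempty X] (hom : HomStatement) {wb wc : M.Om} {σ : X → ℝ}
    (H : Hyp M wb wc σ)
    {T : M.C0 →ₗ[ℝ] ℝ} (hEx : ∀ e ∈ M.Ex, T (M.toC0 e) = 0) {t : Measure X} {D : X → L2}
    (ht : FnSys.Cur t D) (hTt : ∀ u : M.C0, T (M.ppC u) = FnSys.fn t D (u : X → L2))
    {A : ℝ} (hA0 : 0 ≤ A) (hA : ∀ (u : M.C0) (B : ℝ), 0 ≤ B → (∀ x, ‖pM J0 ((u : X → L2) x)‖ ≤ B) →
      |T (u - M.ppC u)| ≤ A * B)
    {p : Measure X} {E : X → L2} (hp : FnSys.Cur p E)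
    (hc : ∀ c ∈ M.Cl, FnSys.fn p E (c : X → L2) = M.pr M.om (c : X → L2))
    (hen : Tendsto (P.Z.en p) (𝓝[>] 0) (𝓝 0)) :
    ∃ (g : ℝ → ℝ) (δ1 CE : ℝ), Tendsto g (𝓝[>] 0) (𝓝 0) ∧ 0 < δ1 ∧ δ1 ≤ P.Y.δ0 ∧ 0 ≤ CE ∧
      (∀ δ, 0 < δ → δ ≤ δ1 → Real.sqrt (P.Z.en t δ) ≤ CE) ∧
      ∀ (δ : ℝ) (w : Lp E6 2 M.mu), 0 < δ → δ ≤ δ1 → P.Z.Rep p E δ w →
        |FnSys.fn t D (P.Y.S δ w : X → L2) - T (M.toC0 M.omOm)| ≤ g δ := by
  haveI := ht.fin
  haveI := hp.fin
  have hsum : ∀ b : M.Om, P.Z.fL ht b + phiL T b = T (M.toC0 b) := by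
    intro b
    show FnSys.fn t D (b : X → L2) + T (M.toC0 b - M.ppC (M.toC0 b)) = _
    have h1 := hTt (M.toC0 b)
    rw [map_sub, h1]
    show FnSys.fn t D (b : X → L2) + (T (M.toC0 b) - FnSys.fn t D (b : X → L2)) = _
    ring
  obtain ⟨B, hB⟩ := exists_TBE P H hEx ht hTt hA0 hA
  obtain ⟨C, d1, hC, hd1, hd10, hen1⟩ := P.Y.energyE B
  obtain ⟨C', hC', hen2⟩ := P.Z.en_le_dens (t := t)
  obtain ⟨d2, hd2, hd20, hpair⟩ := pair_om P hom
  have hK0 : 0 ≤ P.Y.K 0 := zero_le_one.trans (P.Y.one_le_K 0)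
  set CT : ℝ := B.C with hCT
  have hCT0 : 0 ≤ CT := B.C_nonneg
  set g : ℝ → ℝ := fun δ => 12 * C * Real.sqrt (P.Z.en p δ) +
    2 * CT * (P.Y.K 0 * δ * P.Y.M 1 M.omOm + P.Y.M 0 (M.omOm - P.Y.S δ (P.Y.ι M.omOm)) * 0) +
    2 * CT * (P.Y.K 0 * δ) * P.Y.M 1 M.omOm with hg
  refine ⟨fun δ => 12 * C * Real.sqrt (P.Z.en p δ) + CT * (P.Y.K 0 * δ * P.Y.M 1 M.omOm) +
    CT * (P.Y.K 0 * δ * P.Y.M (B.k + 1) M.omOm) + CT * (P.Y.K B.k * δ * P.Y.M (B.k + 1) M.omOm),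
    min d1 d2, Real.sqrt (C' * C), ?_, lt_min hd1 hd2, (min_le_left _ _).trans hd10,
    Real.sqrt_nonneg _, fun δ h0 h1 => ?_, fun δ w h0 h1 hw => ?_⟩
  · have a1 : Tendsto (fun δ => Real.sqrt (P.Z.en p δ)) (𝓝[>] 0) (𝓝 (Real.sqrt 0)) :=
      (Real.continuous_sqrt.tendsto 0).comp hen
    have a2 : Tendsto (fun δ : ℝ => δ) (𝓝[>] 0) (𝓝 0) :=
      tendsto_id.mono_left nhdsWithin_le_nhds
    have a3 := (((a1.const_mul (12 * C)).add
      (((a2.const_mul (P.Y.K 0)).mul_const (P.Y.M 1 M.omOm)).const_mul CT)).add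
      (((a2.const_mul (P.Y.K 0)).mul_const (P.Y.M (B.k + 1) M.omOm)).const_mul CT)).add
      (((a2.const_mul (P.Y.K B.k)).mul_const (P.Y.M (B.k + 1) M.omOm)).const_mul CT)
    have e : 12 * C * Real.sqrt 0 + CT * (P.Y.K 0 * 0 * P.Y.M 1 M.omOm) +
      CT * (P.Y.K 0 * 0 * P.Y.M (B.k + 1) M.omOm) +
      CT * (P.Y.K B.k * 0 * P.Y.M (B.k + 1) M.omOm) = 0 := by
      rw [Real.sqrt_zero]; ring
    rw [e] at a3
    exact a3
  · have h2 := h1.trans (min_le_left _ _)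
    apply Real.sqrt_le_sqrt
    refine (hen2 δ h0 (h2.trans hd10)).trans ?_
    exact mul_le_mul_of_nonneg_left ((hB δ h0).trans (hen1 δ h0 h2).1) hC'
  · have k1 : δ ≤ d1 := h1.trans (min_le_left _ _)
    have k2 : δ ≤ d2 := h1.trans (min_le_right _ _)
    have k3 : δ ≤ P.Y.δ0 := k1.trans hd10
    obtain ⟨hNT, hf1, hf2⟩ := hen1 δ h0 k1
    -- representing vector of `T + φ`
    obtain ⟨w0, hw0⟩ := P.Y.exists_rep
      ((P.Z.fL ht : M.Om →ₗ[ℝ] ℝ) ∘ₗ P.Y.S δ + (phiL T) ∘ₗ P.Y.S δ)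
      (CT * (P.Y.K 0 * (δ ^ (2 + 0))⁻¹) + C) (fun u => by
        have e1 := P.Y.abs_comp_S_le hCT0 B.T_bd h0 k3 u
        have e2 := hf1 u
        rw [add_mul]
        exact (abs_add_le _ _).trans (add_le_add e1 e2))
    have hw0' : ∀ u, ⟪w0, P.Y.st u⟫_ℝ = P.Z.fL ht (P.Y.S δ u) + phiL T (P.Y.S δ u) := hw0
    have hw0Z : w0 ∈ P.Y.Zw := by
      apply P.Y.mem_Zw_of_kill
      intro e he
      rw [hw0']
      exact B.killE _ (P.Y.S_Ex δ e h0 k3 he)
    -- claim 1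
    have c1 : P.Z.fL ht (P.Y.S δ w) + phiL T (P.Y.S δ w) =
        P.Z.fL ht (P.Y.S δ (P.Y.ι M.omOm)) + phiL T (P.Y.S δ (P.Y.ι M.omOm)) := by
      rw [← hw0', ← hw0']
      have e1 := hpair p E hp hc δ w w0 h0 k2 hw hw0Z
      have e2 : ⟪w0, P.Y.st w⟫_ℝ = ⟪w, P.Y.st w0⟫_ℝ := by rw [real_inner_comm, P.Y.st_symm]
      have e3 : ⟪w0, P.Y.st (P.Y.ι M.omOm)⟫_ℝ = ⟪P.Y.ι M.omOm, P.Y.st w0⟫_ℝ := by
        rw [real_inner_comm, P.Y.st_symm]
      rw [e2, e3, e1]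
    -- claim 2
    set r : M.Om := M.omOm - P.Y.S δ (P.Y.ι M.omOm) with hr
    have c2 : |P.Z.fL ht r| ≤ CT * (P.Y.K 0 * δ * P.Y.M 1 M.omOm) :=
      (B.T_bd r).trans (mul_le_mul_of_nonneg_left (P.Y.O2M 0 δ M.omOm h0 k3) hCT0)
    have c3 : |phiL T r| ≤ CT * (P.Y.K B.k * δ * P.Y.M (B.k + 1) M.omOm) :=
      (B.φ_bd r).trans (mul_le_mul_of_nonneg_left (P.Y.O2M B.k δ M.omOm h0 k3) hCT0)
    have c4 : T (M.toC0 M.omOm) = P.Z.fL ht (P.Y.S δ (P.Y.ι M.omOm)) +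
        phiL T (P.Y.S δ (P.Y.ι M.omOm)) + (P.Z.fL ht r + phiL T r) := by
      rw [← hsum, hr, map_sub, map_sub]; ring
    -- claim 3
    have c5 : |phiL T (P.Y.S δ w)| ≤ 12 * C * Real.sqrt (P.Z.en p δ) := by
      have e1 : phiL T (P.Y.S δ w) = phiL T (P.Y.S δ (P.Y.pmH w)) +
          phiL T (P.Y.S δ (w - P.Y.pmH w)) := by
        rw [← map_add, ← map_add, add_sub_cancel]
      rw [e1]
      have e2 := hf1 (P.Y.pmH w)
      have e3 := hf2 w
      have e4 := P.Z.rep_pm hp h0 k3 hw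
      have e5 := P.Z.rep_norm hp h0 k3 hw
      have e4' : ‖P.Y.pmH w‖ ≤ 6 * Real.sqrt (P.Z.en p δ) := e4
      refine (abs_add_le _ _).trans ?_
      have e6 : C * ‖P.Y.pmH w‖ ≤ C * (6 * Real.sqrt (P.Z.en p δ)) :=
        mul_le_mul_of_nonneg_left e4' hC
      have e7 : C * (δ * ‖w‖) ≤ C * (6 * Real.sqrt (P.Z.en p δ)) :=
        mul_le_mul_of_nonneg_left e5 hC
      calc _ ≤ C * ‖P.Y.pmH w‖ + C * δ * ‖w‖ := add_le_add e2 e3
        _ = C * ‖P.Y.pmH w‖ + C * (δ * ‖w‖) := by ring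
        _ ≤ C * (6 * Real.sqrt (P.Z.en p δ)) + C * (6 * Real.sqrt (P.Z.en p δ)) :=
            add_le_add e6 e7
        _ = _ := by ring
    have e8 : FnSys.fn t D (P.Y.S δ w : X → L2) - T (M.toC0 M.omOm) =
        -phiL T (P.Y.S δ w) - (P.Z.fL ht r + phiL T r) := by
      have : FnSys.fn t D (P.Y.S δ w : X → L2) = P.Z.fL ht (P.Y.S δ w) := rfl
      rw [this, c4, ← c1]; ring
    rw [e8]
    have e9 : 0 ≤ CT * (P.Y.K 0 * δ * P.Y.M (B.k + 1) M.omOm) := by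
      have := P.Y.M_nonneg (B.k + 1) M.omOm
      positivity
    have e10 := abs_sub (-phiL T (P.Y.S δ w)) (P.Z.fL ht r + phiL T r)
    rw [abs_neg] at e10
    have e11 := abs_add_le (P.Z.fL ht r) (phiL T r)
    show _ ≤ 12 * C * Real.sqrt (P.Z.en p δ) + CT * (P.Y.K 0 * δ * P.Y.M 1 M.omOm) +
      CT * (P.Y.K 0 * δ * P.Y.M (B.k + 1) M.omOm) + CT * (P.Y.K B.k * δ * P.Y.M (B.k + 1) M.omOm)
    linarith

/-- The pointwise soft theorem for `q < 1` (with the linear normalisation). -/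
theorem soft_aux [Nonempty X] (P : MSys M) (hom : HomStatement) (kl : KLStatement)
    {wb wc : M.Om} {σ : X → ℝ} (H : Hyp M wb wc σ) {q η : ℝ} (hq : 0 < q) (hq1 : q < 1)
    (hη : 0 < η) :
    ∃ e ∈ M.Ex, (∀ x, PosDef J0 (pP J0 (M.om x + (e : X → L2) x))) ∧
        (∀ x, ‖pM J0 (M.om x + (e : X → L2) x)‖ < η) ∧
        ∀ x, q * σ x < vd (σ x) (M.om x + (e : X → L2) x) := by
  by_contra hno
  obtain ⟨T, l, m, hl, hEx, hTom, hTF, hTK⟩ := exists_T' H.σc H.σp hq hη hno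
  obtain ⟨A, hA0, hA⟩ := phi_bd H.σc H.σp hq hη hTK
  -- the current `T`
  obtain ⟨t, D, ht, hTt'⟩ := M.rep (T ∘ₗ M.ppC) (fun u hu => by
    have hPC : ∀ x, PC ((u : X → L2) x) := fun x => (PC_iff _).2 (hu x)
    have h1 := hTK (M.ppC u) 0 (fun x => by
        show PC (pP J0 ((u : X → L2) x))
        unfold PC
        rw [pP_of_inv (pull_pP isCx_J0 _)]
        exact hPC x) (fun x => by rw [mul_zero]; exact vd_nonneg _ _) (fun x => by
        show ‖pM J0 (pP J0 ((u : X → L2) x))‖ ≤ η * 0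
        rw [pM_of_inv (pull_pP isCx_J0 _)]; simp)
    rw [mul_zero] at h1
    exact h1)
  have hTt : ∀ u : M.C0, T (M.ppC u) = FnSys.fn t D (u : X → L2) := hTt'
  haveI := ht.fin
  -- the current `R`
  obtain ⟨R, hR1, hR2, hR3⟩ := exists_R H
  obtain ⟨p, E, hp, hRp⟩ := M.rep R (fun u hu =>
    (Vol_nonneg σ (u : X → L2)).trans (hR3 u fun x => (PC_iff _).2 (hu x)))
  haveI := hp.fin
  have hc : ∀ c ∈ M.Cl, FnSys.fn p E (c : X → L2) = M.pr M.om (c : X → L2) := fun c hc => by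
    rw [← hR2 c hc, hRp]; rfl
  have hV : ∀ u ∈ M.C0, (∀ x, Cone J0 (u x)) → Vol M σ u ≤ FnSys.fn p E u := fun u hu hu' => by
    have h1 := hR3 ⟨u, hu⟩ fun x => PC_of_cone (hu' x)
    rw [hRp] at h1
    exact h1
  have hen := en_tendsto_of_R P hom kl H.σc H.σp H.σi hp hc hV
  obtain ⟨g, d1, CE, hg, hd1, hd10, hCE, henT, hkey⟩ :=
    key_limit P hom H hEx ht hTt hA0 hA hp hc hen
  -- choose `ρ` and `lam`
  obtain ⟨ρ, hρ0, hρ1, hlam1⟩ : ∃ ρ : ℝ, 0 < ρ ∧ ρ < 1 ∧ q < 1 - ρ :=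
    ⟨(1 - q) / 2, by linarith, by linarith, by linarith⟩
  set lam : ℝ := q / (1 - ρ) with hlam
  have hρ' : 0 < 1 - ρ := by linarith
  have hlam0 : 0 < lam := by positivity
  have hlamlt : lam < 1 := by rw [hlam, div_lt_one hρ']; exact hlam1
  obtain ⟨C, k, d2, hC, hk, hd2, hd20, hkl⟩ := kl X M P σ H.σc H.σp p E hp hV ρ hρ0
  have hk0 : 0 < k := by linarith
  have hd2' : d2 ≤ P.Y.δ0 := by nlinarith
  -- the limit of `T(B)`
  set G : ℝ → ℝ := fun δ => g δ + C * CE *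
    (Real.sqrt (P.Z.en p δ) + Real.sqrt (P.Z.en p (k * δ))) with hG
  have hGlim : Tendsto G (𝓝[>] 0) (𝓝 0) := by
    have a1 : Tendsto (fun δ => Real.sqrt (P.Z.en p δ)) (𝓝[>] 0) (𝓝 (Real.sqrt 0)) :=
      (Real.continuous_sqrt.tendsto 0).comp hen
    have a2 : Tendsto (fun δ => Real.sqrt (P.Z.en p (k * δ))) (𝓝[>] 0) (𝓝 (Real.sqrt 0)) :=
      (Real.continuous_sqrt.tendsto 0).comp (hen.comp (tendsto_mul_pos hk0))
    have a3 := hg.add ((a1.add a2).const_mul (C * CE))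
    have e : 0 + C * CE * (Real.sqrt 0 + Real.sqrt 0) = 0 := by rw [Real.sqrt_zero]; ring
    rw [e] at a3
    exact a3
  have hev : ∀ᶠ δ in 𝓝[>] (0 : ℝ), ∃ B : M.C0, (∀ x, Cone J0 ((B : X → L2) x)) ∧
      (∀ x, (1 - ρ) * σ x ≤ Q ((B : X → L2) x) ((B : X → L2) x)) ∧
      |T B - m| ≤ G δ := by
    have hm : (0 : ℝ) < min (min d1 d2) (d1 / k) := lt_min (lt_min hd1 hd2) (by positivity)
    filter_upwards [Ioc_mem_nhdsGT hm] with δ hδ
    have h0 : 0 < δ := hδ.1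
    have k1 : δ ≤ d1 := hδ.2.trans ((min_le_left _ _).trans (min_le_left _ _))
    have k2 : δ ≤ d2 := hδ.2.trans ((min_le_left _ _).trans (min_le_right _ _))
    have k3 : δ ≤ P.Y.δ0 := k1.trans hd10
    have k4 : k * δ ≤ d1 := by
      have := hδ.2.trans (min_le_right _ _)
      rw [le_div_iff₀ hk0] at this
      linarith
    obtain ⟨w, hw⟩ := exists_Rep P hp h0 k3
    obtain ⟨err, hec, he0, hcone, hvol, hint⟩ := hkl δ w h0 k2 hw
    have hS : (P.Y.S δ w : X → L2) ∈ M.C0 := memC _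
    have hB : (fun x => pP J0 ((P.Y.S δ w : X → L2) x) + err x • F0) ∈ M.C0 :=
      add_smul_F_mem_C0 hec (M.pP_mem_C0 hS)
    refine ⟨⟨_, hB⟩, hcone, hvol, ?_⟩
    have e1 : T ⟨_, hB⟩ = FnSys.fn t D (P.Y.S δ w : X → L2) + ∫ x, err x ∂t := by
      have e2 : M.ppC ⟨_, hB⟩ = ⟨_, hB⟩ := by
        apply Subtype.ext; funext x
        exact pP_of_inv (hcone x).1
      have e3 := hTt ⟨_, hB⟩
      rw [e2] at e3
      rw [e3]
      have e4 : FnSys.fn t D (P.Y.S δ w : X → L2) =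
          FnSys.fn t D (fun x => pP J0 ((P.Y.S δ w : X → L2) x)) := P.Z.fn_pP ht (P.Y.S δ w)
      rw [e4, ← fn_F ht err]
      unfold FnSys.fn
      rw [← integral_add (integrable_fn (M := M) ht (M.pP_mem_C0 hS))
        (integrable_fn (M := M) ht (smul_mem_C0 hec F_mem_C0))]
      congr 1; funext x; exact Q_add_right _ _ _
    have e5 := hkey δ w h0 k1 hw
    rw [hTom] at e5
    have e6 := hint t
    have e7 : 0 ≤ ∫ x, err x ∂t := integral_nonneg he0
    have e8 := henT (k * δ) (mul_pos hk0 h0) k4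
    have e9 : C * Real.sqrt (P.Z.en t (k * δ)) *
        (Real.sqrt (P.Z.en p δ) + Real.sqrt (P.Z.en p (k * δ))) ≤
        C * CE * (Real.sqrt (P.Z.en p δ) + Real.sqrt (P.Z.en p (k * δ))) := by
      have : 0 ≤ Real.sqrt (P.Z.en p δ) + Real.sqrt (P.Z.en p (k * δ)) :=
        add_nonneg (Real.sqrt_nonneg _) (Real.sqrt_nonneg _)
      gcongr
    rw [e1]
    have e10 : FnSys.fn t D (P.Y.S δ w : X → L2) + ∫ x, err x ∂t - m =
      (FnSys.fn t D (P.Y.S δ w : X → L2) - m) + ∫ x, err x ∂t := by ring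
    rw [e10]
    refine (abs_add_le _ _).trans ?_
    rw [abs_of_nonneg e7]
    show _ ≤ g δ + C * CE * (Real.sqrt (P.Z.en p δ) + Real.sqrt (P.Z.en p (k * δ)))
    linarith
  -- `m ≥ 0`
  have hm0 : 0 ≤ m := by
    have h1 : ∀ᶠ δ in 𝓝[>] (0 : ℝ), -m ≤ G δ := by
      filter_upwards [hev] with δ ⟨B, hB1, hB2, hB3⟩
      have h2 := hTK B 0 (fun x => PC_of_cone (hB1 x)) (fun x => by
        rw [mul_zero]; exact vd_nonneg _ _) (fun x => by
        rw [pM_of_inv (hB1 x).1]; simp)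
      rw [mul_zero] at h2
      have h3 := (abs_le.1 hB3).2
      linarith
    have := ge_of_tendsto hGlim h1
    linarith
  -- anti-invariant forms
  have hpsi : ∀ v : M.C0, (∀ x, pP J0 ((v : X → L2) x) = 0) → (∀ x, ‖(v : X → L2) x‖ ≤ η) →
      (1 - lam) * m ≤ T v := by
    intro v hv1 hv2
    have hpm : ∀ x, pM J0 ((v : X → L2) x) = (v : X → L2) x := fun x => by
      have := pP_add_pM J0 ((v : X → L2) x)
      rw [hv1 x, zero_add] at this
      exact this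
    have h1 : ∀ᶠ δ in 𝓝[>] (0 : ℝ), (1 - lam) * m - T v ≤ lam * G δ := by
      filter_upwards [hev] with δ ⟨B, hB1, hB2, hB3⟩
      have hpP : ∀ x, pP J0 (((lam • B + v : M.C0) : X → L2) x) = lam • (B : X → L2) x := fun x => by
        show pP J0 (lam • (B : X → L2) x + (v : X → L2) x) = _
        rw [FnSys.pP_add, FnSys.pP_smul, hv1 x, add_zero, pP_of_inv (hB1 x).1]
      have h2 := hTK (lam • B + v) 1 (fun x => by
          unfold PC
          rw [hpP x]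
          exact G7.cone_smul hlam0.le (hB1 x)) (fun x => by
          rw [mul_one]
          have e : vd (σ x) (((lam • B + v : M.C0) : X → L2) x) =
              vd (σ x) (lam • (B : X → L2) x) := by
            unfold vd
            rw [hpP x, FnSys.pP_smul, pP_of_inv (hB1 x).1]
          rw [e, vd_smul (H.σp x).le hlam0.le]
          have b2 := (H.σp x).le
          have e2 : (1 - ρ) * σ x ≤ vd (σ x) ((B : X → L2) x) := by
            unfold vd
            rw [pP_of_inv (hB1 x).1]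
            apply Real.le_sqrt_of_sq_le
            have b1 := hB2 x
            calc ((1 - ρ) * σ x) ^ 2 = (1 - ρ) * σ x * ((1 - ρ) * σ x) := by ring
              _ ≤ 1 * σ x * ((1 - ρ) * σ x) := by
                  apply mul_le_mul_of_nonneg_right _ (mul_nonneg hρ'.le b2)
                  apply mul_le_mul_of_nonneg_right _ b2
                  linarith
              _ ≤ 1 * σ x * _ := mul_le_mul_of_nonneg_left b1 (by rw [one_mul]; exact b2)
              _ = _ := by rw [one_mul]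
          have e3 := mul_le_mul_of_nonneg_left e2 hlam0.le
          have e4 : lam * ((1 - ρ) * σ x) = q * σ x := by
            rw [hlam]; field_simp
          linarith) (fun x => by
          show ‖pM J0 (lam • (B : X → L2) x + (v : X → L2) x)‖ ≤ η * 1
          rw [Hil.pM_add', Hil.pM_smul', pM_of_inv (hB1 x).1, smul_zero, zero_add, hpm x, mul_one]
          exact hv2 x)
      rw [mul_one, map_add, map_smul, smul_eq_mul] at h2
      have h3 := (abs_le.1 hB3).2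
      have h4 := mul_le_mul_of_nonneg_left h3 hlam0.le
      linarith
    have h2 := ge_of_tendsto (hGlim.const_mul lam) h1
    rw [mul_zero] at h2
    linarith
  have hm : m = 0 := by
    have h1 := hpsi 0 (fun x => by
      show pP J0 (0 : L2) = 0
      have := FnSys.pP_smul 0 (0 : L2)
      simpa using this) (fun x => by
      show ‖(0 : L2)‖ ≤ η
      rw [norm_zero]; exact hη.le)
    rw [map_zero] at h1
    by_contra hne
    have hmp : 0 < m := lt_of_le_of_ne hm0 (Ne.symm hne)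
    have := mul_pos (sub_pos.2 hlamlt) hmp
    linarith
  have hpsi0 : ∀ v : M.C0, (∀ x, pP J0 ((v : X → L2) x) = 0) → T v = 0 := by
    intro v hv1
    obtain ⟨Bd, hBd⟩ := M.exists_norm_bound7 v.2
    set c : ℝ := η / (|Bd| + 1) with hcd
    have hc0 : 0 < c := by positivity
    have hsm : ∀ s : ℝ, |s| = c → 0 ≤ T (s • v) := by
      intro s hs
      have h1 := hpsi (s • v) (fun x => by
        show pP J0 (s • (v : X → L2) x) = 0
        rw [FnSys.pP_smul, hv1 x, smul_zero]) (fun x => by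
        show ‖s • (v : X → L2) x‖ ≤ η
        rw [norm_smul, Real.norm_eq_abs, hs]
        calc c * ‖(v : X → L2) x‖ ≤ c * (|Bd| + 1) := by
              have := (hBd x).trans (le_abs_self Bd)
              gcongr
              linarith
          _ = η := by rw [hcd]; field_simp)
      rw [hm, mul_zero] at h1
      exact h1
    have h1 := hsm c (abs_of_pos hc0)
    have h2 := hsm (-c) (by rw [abs_neg, abs_of_pos hc0])
    rw [map_smul, smul_eq_mul] at h1 h2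
    have h3 : 0 ≤ T v := by
      by_contra hneg
      push Not at hneg
      have := mul_neg_of_pos_of_neg hc0 hneg
      linarith
    have h4 : T v ≤ 0 := by
      by_contra hneg
      push Not at hneg
      have := mul_pos hc0 hneg
      linarith
    exact le_antisymm h4 h3
  -- the contradiction
  have hfin : T (M.toC0 M.FOm) = 0 := by
    have h1 : M.toC0 M.omOm = M.toC0 M.FOm + (M.toC0 M.omOm - M.ppC (M.toC0 M.omOm)) := by
      have e : M.ppC (M.toC0 M.omOm) = M.toC0 M.FOm := by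
        apply Subtype.ext; funext x; exact M.om_pP x
      rw [e]; abel
    have h2 := hpsi0 (M.toC0 M.omOm - M.ppC (M.toC0 M.omOm)) (fun x => by
      rw [M.sub_ppC_apply]
      have h3 : pP J0 ((M.toC0 M.omOm : X → L2) x) = pP J0 (pP J0 ((M.toC0 M.omOm : X → L2) x)) +
          pP J0 (pM J0 ((M.toC0 M.omOm : X → L2) x)) := by
        rw [← FnSys.pP_add, pP_add_pM]
      rw [pP_of_inv (pull_pP isCx_J0 _)] at h3
      simpa using h3)
    have h4 : T (M.toC0 M.omOm) = T (M.toC0 M.FOm) +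
        T (M.toC0 M.omOm - M.ppC (M.toC0 M.omOm)) := by
      rw [← map_add, ← h1]
    rw [h2, hTom, hm, add_zero] at h4
    exact h4.symm
  rw [hfin, hm] at hTF
  norm_num at hTF

end

/-- **Block D.** The pointwise soft theorem. -/
theorem soft_of (hom : HomStatement) (kl : KLStatement) : SoftStatement' := by
  intro X _ _ _ _ _ M wb wc hb hc hbCl hcCl hbpm hcpm hob hoc hbc hbb hcc hL σ σc σp σi ε η hε hη
  obtain ⟨P⟩ := exists_MSys M
  have H : Hyp M ⟨wb, hb⟩ ⟨wc, hc⟩ σ :=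
    { bCl := hbCl, cCl := hcCl, bpm := hbpm, cpm := hcpm, ob := hob, oc := hoc, bc := hbc, bb := hbb,
      cc := hcc, L := hL, σc := σc, σp := σp, σi := σi }
  -- `q² ≥ 1 - ε`, `q < 1`
  obtain ⟨q, hq0, hq1, hq2⟩ : ∃ q : ℝ, 0 < q ∧ q < 1 ∧ 1 - ε ≤ q ^ 2 := by
    rcases le_or_gt 1 ε with h | h
    · exact ⟨1 / 2, by norm_num, by norm_num, by nlinarith⟩
    · exact ⟨1 - ε / 2, by linarith, by linarith, by nlinarith⟩
  obtain ⟨e, he, h1, h2, h3⟩ := soft_aux P hom kl H hq0 hq1 hη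
  refine ⟨e, he, h1, h2, fun x => ?_⟩
  have h4 := h3 x
  have hs := σp x
  set A := Q (pP J0 (M.om x + (e : X → L2) x)) (pP J0 (M.om x + (e : X → L2) x)) with hA
  have h5 : q * σ x < Real.sqrt (σ x * A) := h4
  have h6 : (q * σ x) ^ 2 < σ x * A := (Real.lt_sqrt (by positivity)).1 h5
  have h7 : σ x * (q ^ 2 * σ x) < σ x * A := by
    calc σ x * (q ^ 2 * σ x) = (q * σ x) ^ 2 := by ring
      _ < _ := h6
  have h8 : q ^ 2 * σ x < A := lt_of_mul_lt_mul_left h7 hs.le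
  have h9 : (1 - ε) * σ x ≤ q ^ 2 * σ x := mul_le_mul_of_nonneg_right hq2 hs.le
  linarith

end Vale.Agent.P247.SCY
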