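import Vale.Agent.P247.SCY.HB2

/-!
# P247, soft Calabi-Yau: restricting the lower volume bound to a set of full `mu` measure
-/

set_option linter.all false

open MeasureTheory Set Metric Filter Topology
open scoped ContDiff ENNReal NNReal BigOperators InnerProductSpace Topology

namespace Vale.Agent.P247.SCY
open Vale.Agent.P204 Vale.Agent.P204.T4 Vale.Agent.P204.GX _root_.P204.GX

section
variable {X : Type} [MetricSpace X] [CompactSpace X] [MeasurableSpace X] [BorelSpace X]
variable {M : CM X}

theorem smul_mem_C0 {f : X → ℝ} (hf : Continuous f) {u : X → L2} (hu : u ∈ M.C0) :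
    (fun x => f x • u x) ∈ M.C0 := by
  intro a
  have e : (M.cf a fun x => f x • u x) = fun y => f (M.ψ a y) • M.cf a u y := by
    funext y
    show pull (M.m a y) (f (M.ψ a y) • u (M.ψ a y)) = _
    rw [pull_smul]; rfl
  rw [e]
  exact (hf.comp (M.continuous_ψ a)).smul (hu a)

theorem add_smul_F_mem_C0 {f : X → ℝ} (hf : Continuous f) {u : X → L2} (hu : u ∈ M.C0) :
    (fun x => u x + f x • F0) ∈ M.C0 :=
  M.C0.add_mem hu (smul_mem_C0 hf F_mem_C0)

theorem cur_restrict {p : Measure X} {E : X → L2} (h : FnSys.Cur p E) (S : Set X) :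
    FnSys.Cur (p.restrict S) E := by
  haveI := h.fin
  exact ⟨inferInstance, h.meas, h.cone, h.norm⟩

theorem integrable_fn {p : Measure X} {E : X → L2} (h : FnSys.Cur p E) {u : X → L2}
    (hu : u ∈ M.C0) : Integrable (fun x => Q (E x) (u x)) p := by
  haveI := h.fin
  refine integrable_QQ h.meas ?_ (M.measurable_C07 hu) (M.exists_norm_bound7 hu)
  obtain ⟨C, _, hC⟩ := exists_norm_bound
  exact ⟨C, fun x => (hC _ (h.cone x) (h.norm x)).1⟩

theorem fn_restrict_add {p : Measure X} {E : X → L2} (h : FnSys.Cur p E) {u : X → L2}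
    (hu : u ∈ M.C0) {S : Set X} (hS : MeasurableSet S) :
    FnSys.fn p E u = FnSys.fn (p.restrict S) E u + FnSys.fn (p.restrict Sᶜ) E u := by
  unfold FnSys.fn
  exact (integral_add_compl hS (integrable_fn h hu)).symm

theorem vol_le_restrict [Nonempty X] {σ : X → ℝ} (hσ : Continuous σ) (hσ0 : ∀ x, 0 ≤ σ x) {p : Measure X}
    {E : X → L2} (h : FnSys.Cur p E)
    (hV : ∀ u ∈ M.C0, (∀ x, Cone J0 (u x)) → Vol M σ u ≤ FnSys.fn p E u)
    {S : Set X} (hS : MeasurableSet S) (hμ : M.mu Sᶜ = 0) :
    ∀ u ∈ M.C0, (∀ x, Cone J0 (u x)) → Vol M σ u ≤ FnSys.fn (p.restrict S) E u := by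
  intro u hu hcone
  haveI := h.fin
  have hint := integrable_fn h hu
  obtain ⟨A, hA⟩ : ∃ A : ℝ, ∀ x, |Q (E x) (u x)| ≤ A := by
    obtain ⟨C, hC0, hC⟩ := exists_norm_bound
    obtain ⟨B, hB⟩ := M.exists_norm_bound7 hu
    refine ⟨6 * C * B, fun x => (abs_Q_le _ _).trans ?_⟩
    have h1 := (hC _ (h.cone x) (h.norm x)).1
    have h2 := mul_le_mul h1 (hB x) (norm_nonneg _) ((norm_nonneg _).trans h1)
    linarith
  have key : ∀ ε : ℝ, 0 < ε → Vol M σ u ≤ FnSys.fn (p.restrict S) E u + A * ε := by
    intro ε hε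
    obtain ⟨K, hKS, hKc, hKlt⟩ := hS.compl.exists_isClosed_diff_lt (μ := p) (measure_ne_top p _)
      (ε := ENNReal.ofReal ε) (by simpa using hε)
    set d : ℕ → ℝ := fun n => 1 / ((n : ℝ) + 1) with hd
    have hd0 : ∀ n, 0 < d n := fun n => by rw [hd]; positivity
    have hdl : Tendsto d atTop (𝓝 0) := tendsto_one_div_add_atTop_nhds_zero_nat
    set ti : ℕ → X → ℝ := fun n x => ((thickenedIndicator (hd0 n) K x : ℝ≥0) : ℝ) with hti
    have hticont : ∀ n, Continuous (ti n) := fun n =>
      NNReal.continuous_coe.comp (thickenedIndicator (hd0 n) K).continuous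
    have hti0 : ∀ n x, 0 ≤ ti n x := fun n x => NNReal.coe_nonneg _
    have hti1 : ∀ n x, ti n x ≤ 1 := fun n x => by
      have := thickenedIndicator_le_one (hd0 n) K x
      exact_mod_cast this
    have hlim : ∀ x, Tendsto (fun n => 1 - ti n x) atTop (𝓝 ((Kᶜ).indicator (fun _ => (1 : ℝ)) x)) := by
      intro x
      have h1 := thickenedIndicator_tendsto_indicator_closure hd0 hdl K
      rw [tendsto_pi_nhds] at h1
      have h2 := (NNReal.tendsto_coe.2 (h1 x)).const_sub 1
      rw [hKc.closure_eq] at h2
      convert h2 using 2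
      by_cases hx : x ∈ K
      · rw [indicator_of_mem hx, indicator_of_notMem (by simpa using hx)]; simp
      · rw [indicator_of_notMem hx, indicator_of_mem (by simpa using hx)]; simp
    have hstep : ∀ n, Vol M σ (fun x => (1 - ti n x) • u x) ≤
        FnSys.fn p E (fun x => (1 - ti n x) • u x) := fun n =>
      hV _ (smul_mem_C0 (continuous_const.sub (hticont n)) hu)
        fun x => G7.cone_smul (sub_nonneg.2 (hti1 n x)) (hcone x)
    have hvi := integrable_vd (M := M) hσ hu
    have l1 : Tendsto (fun n => Vol M σ (fun x => (1 - ti n x) • u x)) atTop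
        (𝓝 (Vol M σ u)) := by
      have e1 : ∀ n, Vol M σ (fun x => (1 - ti n x) • u x) =
          ∫ x, (1 - ti n x) * vd (σ x) (u x) ∂M.mu := fun n => by
        rw [Vol_eq]; congr 1; funext x
        exact vd_smul (hσ0 x) (sub_nonneg.2 (hti1 n x)) _
      simp only [e1]
      have e2 : Vol M σ u = ∫ x, (Kᶜ).indicator (fun _ => (1 : ℝ)) x * vd (σ x) (u x) ∂M.mu := by
        rw [Vol_eq]
        apply integral_congr_ae
        have hK0 : M.mu K = 0 := measure_mono_null hKS hμ
        have : ∀ᵐ x ∂M.mu, x ∈ Kᶜ := by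
          rw [ae_iff]; simpa using hK0
        filter_upwards [this] with x hx
        rw [indicator_of_mem hx, one_mul]
      rw [e2]
      apply tendsto_integral_of_dominated_convergence (fun x => vd (σ x) (u x))
      · intro n
        exact ((continuous_const.sub (hticont n)).measurable.aestronglyMeasurable).mul
          hvi.aestronglyMeasurable
      · exact hvi
      · intro n
        refine Eventually.of_forall fun x => ?_
        rw [Real.norm_eq_abs, abs_mul, abs_of_nonneg (sub_nonneg.2 (hti1 n x)),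
          abs_of_nonneg (vd_nonneg _ _)]
        have := hti0 n x
        calc (1 - ti n x) * vd (σ x) (u x) ≤ 1 * vd (σ x) (u x) :=
              mul_le_mul_of_nonneg_right (by linarith) (vd_nonneg _ _)
          _ = _ := one_mul _
      · exact Eventually.of_forall fun x => (hlim x).mul_const _
    have l2 : Tendsto (fun n => FnSys.fn p E (fun x => (1 - ti n x) • u x)) atTop
        (𝓝 (∫ x, (Kᶜ).indicator (fun _ => (1 : ℝ)) x * Q (E x) (u x) ∂p)) := by
      have e1 : ∀ n, FnSys.fn p E (fun x => (1 - ti n x) • u x) =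
          ∫ x, (1 - ti n x) * Q (E x) (u x) ∂p := fun n => by
        unfold FnSys.fn; congr 1; funext x; exact Q_smul_right _ _ _
      simp only [e1]
      apply tendsto_integral_of_dominated_convergence (fun _ => A)
      · intro n
        exact ((continuous_const.sub (hticont n)).measurable.aestronglyMeasurable).mul
          hint.aestronglyMeasurable
      · exact integrable_const _
      · intro n
        refine Eventually.of_forall fun x => ?_
        rw [Real.norm_eq_abs, abs_mul, abs_of_nonneg (sub_nonneg.2 (hti1 n x))]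
        have h1 := hti0 n x
        calc (1 - ti n x) * |Q (E x) (u x)| ≤ 1 * |Q (E x) (u x)| :=
              mul_le_mul_of_nonneg_right (by linarith) (abs_nonneg _)
          _ ≤ A := by rw [one_mul]; exact hA x
      · exact Eventually.of_forall fun x => (hlim x).mul_const _
    have h3 := le_of_tendsto_of_tendsto' l1 l2 hstep
    refine h3.trans ?_
    have e3 : ∫ x, (Kᶜ).indicator (fun _ => (1 : ℝ)) x * Q (E x) (u x) ∂p =
        ∫ x in Kᶜ, Q (E x) (u x) ∂p := by
      rw [← integral_indicator hKc.measurableSet.compl]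
      congr 1; funext x
      by_cases hx : x ∈ Kᶜ
      · rw [indicator_of_mem hx, indicator_of_mem hx, one_mul]
      · rw [indicator_of_notMem hx, indicator_of_notMem hx, zero_mul]
    have e4 : Kᶜ = S ∪ (Sᶜ \ K) := by
      ext x
      simp only [mem_compl_iff, mem_union, mem_diff]
      constructor
      · intro hx
        by_cases hxS : x ∈ S
        · exact Or.inl hxS
        · exact Or.inr ⟨hxS, hx⟩
      · rintro (hx | ⟨_, hx⟩)
        · intro hxK; exact hKS hxK hx
        · exact hx
    rw [e3, e4, setIntegral_union (by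
        rw [Set.disjoint_left]; rintro x hx ⟨hx2, _⟩; exact hx2 hx)
      (hS.compl.diff hKc.measurableSet) hint.integrableOn hint.integrableOn]
    have h5 : ∫ x in Sᶜ \ K, Q (E x) (u x) ∂p ≤ A * ε := by
      have h6 : ‖∫ x in Sᶜ \ K, Q (E x) (u x) ∂p‖ ≤ A * p.real (Sᶜ \ K) :=
        norm_setIntegral_le_of_norm_le_const (measure_lt_top _ _) fun x _ => by
          rw [Real.norm_eq_abs]; exact hA x
      have h7 : p.real (Sᶜ \ K) ≤ ε := by
        rw [Measure.real]
        exact ENNReal.toReal_le_of_le_ofReal hε.le hKlt.le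
      obtain ⟨x0⟩ := (inferInstance : Nonempty X)
      have hA0 : 0 ≤ A := (abs_nonneg _).trans (hA x0)
      rw [Real.norm_eq_abs] at h6
      exact (le_abs_self _).trans (h6.trans (mul_le_mul_of_nonneg_left h7 hA0))
    show _ ≤ FnSys.fn (p.restrict S) E u + A * ε
    unfold FnSys.fn
    linarith
  by_contra hneg
  push Not at hneg
  have hg : 0 < Vol M σ u - FnSys.fn (p.restrict S) E u := by linarith
  have h1 := key ((Vol M σ u - FnSys.fn (p.restrict S) E u) / (2 * (|A| + 1))) (by positivity)
  have h2 : A * ((Vol M σ u - FnSys.fn (p.restrict S) E u) / (2 * (|A| + 1))) ≤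
      (Vol M σ u - FnSys.fn (p.restrict S) E u) / 2 := by
    have h3 : A ≤ |A| + 1 := by have := le_abs_self A; linarith
    calc _ ≤ (|A| + 1) * ((Vol M σ u - FnSys.fn (p.restrict S) E u) / (2 * (|A| + 1))) :=
          mul_le_mul_of_nonneg_right h3 (by positivity)
      _ = _ := by field_simp
  linarith

end

end Vale.Agent.P247.SCY
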