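import Vale.Agent.P247.SCY.HOM
import Vale.Agent.P247.SCY.Base2

/-!
# P247, exact orthogonality, block O1a: the smoothing operators change closed forms by exact forms
-/

set_option linter.all false

open MeasureTheory Set Metric Filter Topology
open scoped ContDiff ENNReal NNReal BigOperators InnerProductSpace Topology

namespace Vale.Agent.P204.GX
open T4

namespace CM
variable {X : Type} [MetricSpace X] (M : CM X)

/-- primitive of the chart reading of `UL L z b` -/
noncomputable def gL (c : M.A) (L : List M.A) (β : V4 → V4) (z : M.A → V4) : V4 → V4 :=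
  pf1 (M.HL c L z) β

theorem contDiff_gL (c : M.A) (L : List M.A) {β : V4 → V4} (hβ : ContDiff ℝ ∞ β) :
    ContDiff ℝ ∞ (fun p : (M.A → V4) × V4 => M.gL c L β p.1 p.2) := by
  have h0 : ContDiff ℝ ∞ (Function.uncurry fun (z : M.A → V4) (y : V4) => M.HL c L z y) :=
    M.contDiff_HL c L
  have h1 : ContDiff ℝ ∞ fun p : (M.A → V4) × V4 => Dm (M.HL c L p.1) p.2 :=
    contDiff_Dm_family h0
  have h2 : ContDiff ℝ ∞ fun p : (M.A → V4) × V4 => β (M.HL c L p.1 p.2) :=
    hβ.comp (M.contDiff_HL c L)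
  exact ContDiff.comp (g := fun p : V4 × M4 => copp p.1 p.2)
    (f := fun p : (M.A → V4) × V4 => (β (M.HL c L p.1 p.2), Dm (M.HL c L p.1) p.2))
    contDiff_copp (h2.prodMk h1)

/-- primitive of the change made by the modification in the chart `c` -/
noncomputable def etL (c : M.A) (L : List M.A) (β : V4 → V4) (z : M.A → V4) : V4 → V4 :=
  pf1 (hz (z c)) (M.gL c L β z) - M.gL c L β z

theorem contDiff_etL (c : M.A) (L : List M.A) {β : V4 → V4} (hβ : ContDiff ℝ ∞ β) :
    ContDiff ℝ ∞ (fun p : (M.A → V4) × V4 => M.etL c L β p.1 p.2) := by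
  have hc : ContDiff ℝ ∞ fun p : (M.A → V4) × V4 => (p.1 c, p.2) :=
    ((contDiff_apply ℝ V4 c).comp contDiff_fst).prodMk contDiff_snd
  have h0 : ContDiff ℝ ∞ (Function.uncurry fun (z : M.A → V4) (y : V4) => hz (z c) y) :=
    ContDiff.comp (g := fun q : V4 × V4 => hz q.1 q.2) contDiff_hz2 hc
  have h1 : ContDiff ℝ ∞ fun p : (M.A → V4) × V4 => Dm (hz (p.1 c)) p.2 :=
    contDiff_Dm_family h0
  have h2 : ContDiff ℝ ∞ fun p : (M.A → V4) × V4 => M.gL c L β p.1 (hz (p.1 c) p.2) :=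
    ContDiff.comp (g := fun q : (M.A → V4) × V4 => M.gL c L β q.1 q.2)
      (f := fun p : (M.A → V4) × V4 => (p.1, hz (p.1 c) p.2)) (M.contDiff_gL c L hβ)
      (contDiff_fst.prodMk h0)
  have h3 : ContDiff ℝ ∞ fun p : (M.A → V4) × V4 => pf1 (hz (p.1 c)) (M.gL c L β p.1) p.2 :=
    ContDiff.comp (g := fun p : V4 × M4 => copp p.1 p.2)
      (f := fun p : (M.A → V4) × V4 => (M.gL c L β p.1 (hz (p.1 c) p.2), Dm (hz (p.1 c)) p.2))
      contDiff_copp (h2.prodMk h1)
  exact h3.sub (M.contDiff_gL c L hβ)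

theorem etL_far (c : M.A) (L : List M.A) (β : V4 → V4) (z : M.A → V4) {y : V4} (hy : 5 < ‖y‖) :
    M.etL c L β z y = 0 := by
  have hf : ∀ y, 5 ≤ ‖y‖ → hz (z c) y = y := fun y hy => hz_of_ge hy _
  show pf1 (hz (z c)) (M.gL c L β z) y - M.gL c L β z y = 0
  unfold pf1
  rw [Dm_id_far hf hy, hf y hy.le, copp_one, sub_self]

/-- `d` of the primitive -/
theorem d1_etL (c : M.A) (L : List M.A) {β : V4 → V4} (hβ : ContDiff ℝ ∞ β) (z : M.A → V4) :
    d1 (M.etL c L β z) = pf (hz (z c)) (pf (M.HL c L z) (d1 β)) - pf (M.HL c L z) (d1 β) := by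
  have hH : ContDiff ℝ ∞ (M.HL c L z) :=
    (M.contDiff_HL c L).comp (contDiff_const.prodMk contDiff_id)
  have hg : ContDiff ℝ ∞ (M.gL c L β z) :=
    (M.contDiff_gL c L hβ).comp (contDiff_const.prodMk contDiff_id)
  have hz' := contDiff_hz (z c)
  have h0 : d1 (M.gL c L β z) = pf (M.HL c L z) (d1 β) := by
    unfold gL
    exact d1_pf1 hH hβ
  funext y
  have h2 : M.etL c L β z = pf1 (hz (z c)) (M.gL c L β z) + (-1 : ℝ) • M.gL c L β z := by
    unfold etL
    rw [neg_one_smul, sub_eq_add_neg]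
  rw [h2, d1_add ((contDiff_pf1 hz' hg).differentiable (by simp))
    ((hg.differentiable (by simp)).const_smul _), d1_smul _ (hg.differentiable (by simp)),
    neg_one_smul, ← sub_eq_add_neg, d1_pf1 hz' hg, h0]
  rfl

theorem norm_le_eps (c : M.A) {v : V4} (hv : ‖v‖ ≤ M.z1) : ‖v‖ ≤ M.eps := by
  have h1 := M.displ c c hv (y := 0) (by simp)
  rw [M.Hl_self c (hv.trans M.z1_le) (by simp), zero_add, sub_zero] at h1
  exact h1

/-- the change made by the modification in the chart `c` -/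
theorem ext_Mo (c : M.A) {L : List M.A} (hL : L.length + 1 ≤ M.AL.length) {z : M.A → V4}
    (hzz : ‖z‖ ≤ M.z1) (u : X → L2) :
    pf (hz (z c)) (M.cf c (M.UL L z u)) - M.cf c (M.UL L z u) =
      pf (hz (z c)) (pf (M.HL c L z) (M.cf c u)) - pf (M.HL c L z) (M.cf c u) := by
  have he := M.eps_pos
  have hlen : ((L.length : ℝ) + 1) * M.eps ≤ 1 / 2 := by
    refine le_trans ?_ M.length_eps_le
    have : ((L.length : ℝ) + 1) ≤ (M.AL.length : ℝ) := by exact_mod_cast hL
    exact mul_le_mul_of_nonneg_right this he.le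
  have hf : ∀ y, 5 ≤ ‖y‖ → hz (z c) y = y := fun y hy => hz_of_ge hy _
  have hc : ‖z c‖ ≤ M.eps := M.norm_le_eps c ((norm_le_pi_norm z c).trans hzz)
  funext y
  by_cases hy : 5 < ‖y‖
  · show pf (hz (z c)) (M.cf c (M.UL L z u)) y - M.cf c (M.UL L z u) y =
      pf (hz (z c)) (pf (M.HL c L z) (M.cf c u)) y - pf (M.HL c L z) (M.cf c u) y
    have h1 : ∀ γ : V4 → L2, pf (hz (z c)) γ y = γ y := fun γ => by
      unfold pf
      rw [Dm_id_far hf hy, hf y hy.le, pull_one]
    rw [h1, h1, sub_self, sub_self]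
  · have hy' : ‖y‖ ≤ 5 := not_lt.1 hy
    have hθ : ‖hz (z c) y‖ ≤ 5 + M.eps := by
      unfold hz
      refine (norm_add_le _ _).trans (add_le_add hy' ?_)
      rw [norm_smul, Real.norm_eq_abs, abs_of_nonneg theta.nonneg]
      calc theta y * ‖z c‖ ≤ 1 * ‖z c‖ := mul_le_mul_of_nonneg_right theta.le_one (norm_nonneg _)
        _ ≤ M.eps := by rw [one_mul]; exact hc
    show pull (Dm (hz (z c)) y) (M.cf c (M.UL L z u) (hz (z c) y)) - M.cf c (M.UL L z u) y = _
    rw [M.cf_UL c L hzz u (hz (z c) y) (by linarith), M.cf_UL c L hzz u y (by linarith)]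
    rfl

variable [MeasurableSpace X] [BorelSpace X] [CompactSpace X]

theorem integrable_UL {δ : ℝ} (h0 : 0 ≤ δ) (h1 : δ ≤ M.z1) {b : X → L2}
    (hb : ∀ a, Continuous (M.cf a b)) {L : List M.A} (hL : L.length ≤ M.AL.length) (x : X) :
    Integrable (fun z => M.rr z • M.UL L (δ • z) b x) := by
  have hHL : Continuous fun p : (M.A → V4) × V4 => M.HL (M.ch x) L p.1 p.2 :=
    (M.contDiff_HL (M.ch x) L).continuous
  have hD : ContDiff ℝ ∞ fun p : (M.A → V4) × V4 => Dm (M.HL (M.ch x) L p.1) p.2 :=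
    contDiff_Dm_family (M.contDiff_HL (M.ch x) L)
  have h3 : Continuous fun z : M.A → V4 => pull (Dm (M.HL (M.ch x) L (δ • z)) (M.cy x))
      (M.cf (M.ch x) b (M.HL (M.ch x) L (δ • z) (M.cy x))) := by
    have e1 : Continuous fun z : M.A → V4 => (δ • z, M.cy x) :=
      (M.continuous_smul_param δ).prodMk continuous_const
    exact cont_pull (hD.continuous.comp e1) ((hb _).comp (hHL.comp e1))
  have h2 := cont_pull (f := fun _ : M.A → V4 => M.m' (M.ch x) (M.cy x)) continuous_const h3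
  refine M.integrable_rr_smul (f := fun z => M.UL L (δ • z) b x) h2 fun z hz => ?_
  have h4 := M.eq_pull_m' (M.UL L (δ • z) b) (M.ch x) (M.cy x)
  rw [M.ψ_cy] at h4
  have hlen : (L.length : ℝ) * M.eps ≤ 1 / 2 := by
    refine le_trans ?_ M.length_eps_le
    have : (L.length : ℝ) ≤ (M.AL.length : ℝ) := by exact_mod_cast hL
    exact mul_le_mul_of_nonneg_right this M.eps_pos.le
  have h5 := M.cf_UL (M.ch x) L (M.norm_smul_le_z1 h0 h1 hz) b (M.cy x)
    (by have := M.norm_cy x; linarith)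
  rw [h5] at h4
  exact h4

theorem contDiff_etL' (c : M.A) (L : List M.A) {β : V4 → V4} (hβ : ContDiff ℝ ∞ β)
    (z : M.A → V4) : ContDiff ℝ ∞ (M.etL c L β z) :=
  ContDiff.comp (g := fun q : (M.A → V4) × V4 => M.etL c L β q.1 q.2)
    (f := fun y : V4 => (z, y)) (M.contDiff_etL c L hβ) (contDiff_const.prodMk contDiff_id)

theorem contDiff_rr_etL (c : M.A) (L : List M.A) {β : V4 → V4} (hβ : ContDiff ℝ ∞ β) (δ : ℝ) :
    ContDiff ℝ ∞ (Function.uncurry fun (z : M.A → V4) (y : V4) =>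
      M.rr z • M.etL c L β (δ • z) y) := by
  have h1 : ContDiff ℝ ∞ fun p : (M.A → V4) × V4 => M.etL c L β (δ • p.1) p.2 :=
    ContDiff.comp (g := fun q : (M.A → V4) × V4 => M.etL c L β q.1 q.2)
      (f := fun p : (M.A → V4) × V4 => (δ • p.1, p.2)) (M.contDiff_etL c L hβ)
      ((contDiff_fst.const_smul δ).prodMk contDiff_snd)
  exact (M.bump_rr.smooth.comp contDiff_fst).smul h1

theorem d1_rr_etL (c : M.A) (L : List M.A) {β : V4 → V4} (hβ : ContDiff ℝ ∞ β) (δ : ℝ)
    (z : M.A → V4) (y : V4) :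
    d1 (fun y => M.rr z • M.etL c L β (δ • z) y) y = M.rr z • d1 (M.etL c L β (δ • z)) y := by
  have h4 := M.contDiff_etL' c L hβ (δ • z)
  generalize M.etL c L β (δ • z) = g at h4 ⊢
  exact d1_smul _ (h4.differentiable (by simp)) y

theorem continuous_d1_etL (c : M.A) (L : List M.A) {β : V4 → V4} (hβ : ContDiff ℝ ∞ β) (δ : ℝ)
    (y : V4) : Continuous fun z : M.A → V4 => d1 (M.etL c L β (δ • z)) y := by
  have e1 : (fun z : M.A → V4 => d1 (M.etL c L β (δ • z)) y) = fun z =>
      pull (Dm (hz ((δ • z) c)) y) (pull (Dm (M.HL c L (δ • z)) (hz ((δ • z) c) y))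
        (d1 β (M.HL c L (δ • z) (hz ((δ • z) c) y)))) -
      pull (Dm (M.HL c L (δ • z)) y) (d1 β (M.HL c L (δ • z) y)) := by
    funext z
    rw [M.d1_etL c L hβ]
    rfl
  have hcb : Continuous (d1 β) := (contDiff_d1 hβ).continuous
  have hHL : Continuous fun p : (M.A → V4) × V4 => M.HL c L p.1 p.2 :=
    (M.contDiff_HL c L).continuous
  have hD : Continuous fun p : (M.A → V4) × V4 => Dm (M.HL c L p.1) p.2 :=
    (contDiff_Dm_family (M.contDiff_HL c L)).continuous
  have hDz : Continuous fun p : V4 × V4 => Dm (hz p.1) p.2 :=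
    (contDiff_Dm_family (H := hz) contDiff_hz2).continuous
  have hcc : Continuous fun z : M.A → V4 => (δ • z) c :=
    (continuous_apply c).comp (M.continuous_smul_param δ)
  have hzc : Continuous fun z : M.A → V4 => hz ((δ • z) c) y :=
    contDiff_hz2.continuous.comp (hcc.prodMk continuous_const)
  have p1 : Continuous fun z : M.A → V4 => (δ • z, hz ((δ • z) c) y) :=
    (M.continuous_smul_param δ).prodMk hzc
  have p2 : Continuous fun z : M.A → V4 => (δ • z, y) :=
    (M.continuous_smul_param δ).prodMk continuous_const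
  rw [e1]
  exact (cont_pull (hDz.comp (hcc.prodMk continuous_const)) (cont_pull (hD.comp p1)
    (hcb.comp (hHL.comp p1)))).sub (cont_pull (hD.comp p2) (hcb.comp (hHL.comp p2)))

theorem UL_cons_sub {δ : ℝ} (h0 : 0 ≤ δ) (h1 : δ ≤ M.z1) {b : X → L2} (c : M.A) {L : List M.A}
    (hL : L.length + 1 ≤ M.AL.length) {β : V4 → V4} (hβ : ContDiff ℝ ∞ β)
    (hd : d1 β = M.cf c b) (x : X) (z : M.A → V4) (hz1 : ‖z‖ ≤ 1) :
    M.UL (c :: L) (δ • z) b x - M.UL L (δ • z) b x = M.ext c (d1 (M.etL c L β (δ • z))) x := by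
  have hzz := M.norm_smul_le_z1 h0 h1 hz1
  have e0 : M.UL (c :: L) (δ • z) b = M.UL L (δ • z) b + M.ext c
    (pf (hz ((δ • z) c)) (M.cf c (M.UL L (δ • z) b)) - M.cf c (M.UL L (δ • z) b)) := rfl
  rw [e0, Pi.add_apply, add_sub_cancel_left, M.ext_Mo c hL hzz, M.d1_etL c L hβ, hd]

/-- the change made by one modification, averaged -/
theorem ext_avg {δ : ℝ} (h0 : 0 ≤ δ) (h1 : δ ≤ M.z1) {b : X → L2} (c : M.A) {L : List M.A}
    (hL : L.length + 1 ≤ M.AL.length) {β : V4 → V4} (hβ : ContDiff ℝ ∞ β)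
    (hd : d1 β = M.cf c b) (x : X) :
    M.ext c (d1 fun y => ∫ z in Metric.closedBall (0 : M.A → V4) 1,
      M.rr z • M.etL c L β (δ • z) y) x =
      ∫ z, M.rr z • (M.UL (c :: L) (δ • z) b x - M.UL L (δ • z) b x) := by
  rw [M.integral_rr_congr (f := fun z => M.UL (c :: L) (δ • z) b x - M.UL L (δ • z) b x)
    (g := fun z => M.ext c (d1 (M.etL c L β (δ • z))) x)
    (M.UL_cons_sub h0 h1 c hL hβ hd x)]
  by_cases hx : x ∈ range (M.ψ c)
  · obtain ⟨y, rfl⟩ := hx
    simp only [M.ext_ψ_self]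
    rw [M.d1_integral (M.contDiff_rr_etL c L hβ δ) y]
    simp only [M.d1_rr_etL c L hβ δ _ y]
    rw [M.integral_rr]
    have hint : Integrable (fun z : M.A → V4 => M.rr z • d1 (M.etL c L β (δ • z)) y)
        (volume.restrict (Metric.closedBall (0 : M.A → V4) 1)) :=
      ((M.bump_rr.smooth.continuous.smul
        (M.continuous_d1_etL c L hβ δ y)).continuousOn.integrableOn_compact
        (isCompact_closedBall _ _))
    have h3 := (pullL (M.m' c y)).integral_comp_comm hint
    show pullL (M.m' c y) _ = _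
    rw [← h3]
    refine integral_congr_ae (Filter.Eventually.of_forall fun z => ?_)
    show pullL (M.m' c y) (M.rr z • d1 (M.etL c L β (δ • z)) y) = _
    rw [map_smul]; rfl
  · rw [M.ext_of_notMem c _ hx]
    simp only [M.ext_of_notMem c _ hx, smul_zero, integral_zero]

/-- the averaged product of modifications changes a closed form by an exact form -/
theorem UL_avg_mem_Ex {δ : ℝ} (h0 : 0 ≤ δ) (h1 : δ ≤ M.z1) {b : X → L2} (hb : b ∈ M.Om)
    (hcl : (⟨b, hb⟩ : M.Om) ∈ M.Cl) (L : List M.A) (hL : L.length ≤ M.AL.length) :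
    ∃ e ∈ M.Ex, ∀ x, (e : X → L2) x = ∫ z, M.rr z • (M.UL L (δ • z) b x - b x) := by
  have hc0 : ∀ a, Continuous (M.cf a b) := fun a => (hb a).continuous
  induction L with
  | nil =>
    refine ⟨0, M.Ex.zero_mem, fun x => ?_⟩
    have : ∀ z : M.A → V4, M.UL [] (δ • z) b x - b x = 0 := fun z => sub_self _
    simp only [this, smul_zero, integral_zero]
    rfl
  | cons c L ih =>
    have hL' : L.length + 1 ≤ M.AL.length := by simpa using hL
    obtain ⟨e, he, hx⟩ := ih (by omega)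
    obtain ⟨β, hβ, hd⟩ := exists_prim (hb c) (hcl c)
    obtain ⟨η, hη⟩ : ∃ η : V4 → V4, η = fun y => ∫ z in Metric.closedBall (0 : M.A → V4) 1,
      M.rr z • M.etL c L β (δ • z) y := ⟨_, rfl⟩
    have hj := M.contDiff_rr_etL c L hβ δ
    have hs : ContDiff ℝ ∞ η := by
      rw [hη]
      exact contDiff_integral_param (volume.restrict (Metric.closedBall (0 : M.A → V4) 1))
        (isCompact_closedBall (0 : M.A → V4) 1) M.compl_null hj
    have hcs : HasCompactSupport η := by
      refine HasCompactSupport.intro (isCompact_closedBall (0 : V4) 5) fun y hy => ?_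
      rw [mem_closedBall_zero_iff, not_le] at hy
      rw [hη]
      simp only [M.etL_far c L β _ hy, smul_zero, integral_zero]
    have hT : TF1 η := ⟨hs, hcs⟩
    refine ⟨e + ⟨M.ext c (d1 η), M.ext_mem_Om c (d1_smooth hT) (d1_support hT)⟩,
      M.Ex.add_mem he (Submodule.subset_span ⟨c, η, hT, rfl⟩), fun x => ?_⟩
    show (e : X → L2) x + M.ext c (d1 η) x = _
    have i1 := M.integrable_UL h0 h1 hc0 (L := L) (by omega) x
    have i2 := M.integrable_UL h0 h1 hc0 (L := c :: L) hL x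
    have i3 : Integrable (fun z => M.rr z • b x) :=
      M.integrable_rr_smul (f := fun _ => b x) (g := fun _ => b x) continuous_const
        fun _ _ => rfl
    have j1 : Integrable (fun z => M.rr z • (M.UL L (δ • z) b x - b x)) := by
      simp only [smul_sub]; exact i1.sub i3
    have j2 : Integrable (fun z => M.rr z • (M.UL (c :: L) (δ • z) b x - M.UL L (δ • z) b x)) := by
      simp only [smul_sub]; exact i2.sub i1
    rw [hx x, hη, M.ext_avg h0 h1 c hL' hβ hd x, ← integral_add j1 j2]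
    refine integral_congr_ae (Filter.Eventually.of_forall fun z => ?_)
    show M.rr z • (M.UL L (δ • z) b x - b x) +
      M.rr z • (M.UL (c :: L) (δ • z) b x - M.UL L (δ • z) b x) = _
    rw [← smul_add]
    congr 1
    abel

/-- the averaging operator changes a closed form by an exact form -/
theorem S0_sub_mem_Ex {δ : ℝ} (h0 : 0 ≤ δ) (h1 : δ ≤ M.z1) {b : M.Om} (hcl : b ∈ M.Cl) :
    (⟨M.S0 δ (b : X → L2), M.S0_mem_Om h0 h1 b.2⟩ : M.Om) - b ∈ M.Ex := by
  obtain ⟨e, he, hx⟩ := M.UL_avg_mem_Ex h0 h1 b.2 hcl M.AL le_rfl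
  have : (⟨M.S0 δ (b : X → L2), M.S0_mem_Om h0 h1 b.2⟩ : M.Om) - b = e := by
    apply Subtype.ext
    funext x
    show M.S0 δ (b : X → L2) x - (b : X → L2) x = (e : X → L2) x
    rw [hx x]
    have i1 := M.integrable_S0 h0 h1 (fun a => (b.2 a).continuous) x
    have i3 : Integrable (fun z => M.rr z • (b : X → L2) x) :=
      M.integrable_rr_smul (f := fun _ => (b : X → L2) x) (g := fun _ => (b : X → L2) x)
        continuous_const fun _ _ => rfl
    have e2 : ∀ z, M.rr z • (M.UL M.AL (δ • z) (b : X → L2) x - (b : X → L2) x) =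
        M.rr z • M.U (δ • z) (b : X → L2) x - M.rr z • (b : X → L2) x := fun z => smul_sub _ _ _
    simp only [e2]
    rw [integral_sub i1 i3, integral_smul_const, M.bump_rr.int, one_smul]
    rfl
  rw [this]; exact he

end CM
end Vale.Agent.P204.GX

namespace Vale.Agent.P247.SCY
open Vale.Agent.P204 Vale.Agent.P204.T4 Vale.Agent.P204.GX _root_.P204.GX

/-- **Block O1a**: the smoothing operators change a smooth closed form by an exact form. -/
theorem homForm {X : Type} [MetricSpace X] [CompactSpace X] [MeasurableSpace X] [BorelSpace X]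
    (M : CM X) (P : MSys M) {δ : ℝ} (h0 : 0 < δ) (h1 : δ ≤ P.Y.δ0) {c : M.Om} (hc : c ∈ M.Cl) :
    P.Y.S δ (P.Y.ι c) - c ∈ M.Ex := by
  have h2 := M.S0_sub_mem_Ex h0.le (h1.trans P.δ0_le_z1) hc
  have h3 : (⟨M.S0 δ (c : X → L2), M.S0_mem_Om h0.le (h1.trans P.δ0_le_z1) c.2⟩ : M.Om) =
      P.Y.S δ (P.Y.ι c) := Subtype.ext (P.S_eq δ c h0 h1).symm
  rwa [h3] at h2

end Vale.Agent.P247.SCY
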