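import Vale.Agent.P247.SCY.Base2
import Vale.Agent.P247.SCY.Alg

/-!
# P247, soft Calabi-Yau, block KL2: the volume version of the almost positivity of smoothings
-/

set_option linter.all false

open MeasureTheory Set Metric Filter Topology
open scoped ContDiff ENNReal NNReal BigOperators InnerProductSpace Topology

namespace Vale.Agent.P247.SCY
open Vale.Agent.P204 Vale.Agent.P204.T4 Vale.Agent.P204.GX _root_.P204.GX

/-! ### Pointwise algebra -/

theorem cone_of_sq {G : L2} (h : pull J0 G = G) (h1 : 0 ≤ Q G G) (h2 : 0 ≤ Q F0 G) :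
    Cone J0 G := by
  have hG := (inv_J0_iff G).1 h
  rw [Q_self_J0 G hG] at h1
  have h3 : Q F0 G = G 0 + G 5 := Q_F0_left G
  rw [h3] at h2
  have h4 : (G 1) ^ 2 + (G 2) ^ 2 ≤ G 0 * G 5 := by linarith
  have h5 : 0 ≤ G 0 * G 5 := le_trans (by positivity) h4
  refine (cone_J0 G).2 ⟨hG, ?_, ?_, h4⟩
  · by_contra hcon
    push Not at hcon
    have h6 : 0 < G 5 := by linarith
    have h7 : G 0 * G 5 < 0 := mul_neg_of_neg_of_pos hcon h6
    linarith
  · by_contra hcon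
    push Not at hcon
    have h6 : 0 < G 0 := by linarith
    have h7 : G 0 * G 5 < 0 := mul_neg_of_pos_of_neg h6 hcon
    linarith

theorem rcs_lower {A : L2} (hA : Cone J0 A) {G : ℝ} (hG : 0 ≤ G)
    (h : ∀ B, Cone J0 B → Real.sqrt (Q B B) * G ≤ Q A B) : G ≤ Real.sqrt (Q A A) := by
  have hq := Q_self_nonneg hA
  rcases hq.eq_or_lt with h0 | h0
  · rw [← h0, Real.sqrt_zero]
    by_contra hcon
    push Not at hcon
    set τ := Q A F0 with hτ
    have hτ0 : 0 ≤ τ := Q_cone_nonneg isCx_J0 G9.pos_J0 hA G9.cone_F0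
    have key : ∀ s : ℝ, 0 < s → (2 * τ + 2 * s) * G ^ 2 ≤ s * τ ^ 2 := by
      intro s hs
      have hB : Cone J0 (A + s • F0) := G7.cone_add hA (G7.cone_smul hs.le G9.cone_F0)
      have h1 := h _ hB
      have e1 : Q A (A + s • F0) = s * τ := by
        rw [Q_add_right, Q_smul_right, ← h0]; ring
      have e2 : Q (A + s • F0) (A + s • F0) = 2 * s * τ + 2 * s ^ 2 := by
        rw [Q_add_left, Q_add_right, Q_add_right, Q_smul_left, Q_smul_left, Q_smul_right,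
          Q_smul_right, Q_comm F0 A, ← h0, G9.Q_F0_F0]
        ring
      rw [e1, e2] at h1
      have h2 : 0 ≤ 2 * s * τ + 2 * s ^ 2 := by positivity
      have h3 : (Real.sqrt (2 * s * τ + 2 * s ^ 2) * G) ^ 2 ≤ (s * τ) ^ 2 :=
        pow_le_pow_left₀ (by positivity) h1 2
      rw [mul_pow, Real.sq_sqrt h2] at h3
      have h4 : s * ((2 * τ + 2 * s) * G ^ 2) ≤ s * (s * τ ^ 2) := by linarith only [h3]
      exact le_of_mul_le_mul_left h4 hs
    have hG2 : 0 < G ^ 2 := by positivity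
    rcases hτ0.eq_or_lt with h5 | h5
    · have := key 1 one_pos
      rw [← h5] at this
      nlinarith only [this, hG2]
    · have h6 := key (G ^ 2 / τ) (by positivity)
      have h7 : G ^ 2 / τ * τ ^ 2 = τ * G ^ 2 := by field_simp
      rw [h7] at h6
      have h8 : 0 < G ^ 2 / τ := by positivity
      have h9 : 0 < τ * G ^ 2 := by positivity
      nlinarith only [h6, h8, h9, mul_pos h8 hG2]
  · have h1 := h A hA
    set r := Real.sqrt (Q A A) with hr
    have hr0 : 0 < r := Real.sqrt_pos.2 h0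
    have h2 : r * r = Q A A := Real.mul_self_sqrt hq
    rw [← h2] at h1
    exact le_of_mul_le_mul_left h1 hr0

/-- the pointwise estimate, abstract form -/
theorem V0 {E : L2} {ρ f N w r C c1 K : ℝ} (hf : 0 ≤ f) (hN : 0 ≤ N) (hw : 0 ≤ w) (hwr : w ≤ r)
    (hC : 0 ≤ C) (hc1 : 0 < c1) (hK : 0 ≤ K) (hKC : 6 * C ^ 2 ≤ 2 * K * c1)
    (h1 : Q E E = ρ * f ^ 2) (h2 : ‖pM J0 E‖ ≤ C * w * N) (h3 : c1 * N ≤ Q F0 E)
    (h4 : 1 - C * w ≤ ρ) (h5 : C * w ≤ 1) :
    Cone J0 (pP J0 E + (K * r ^ 2 * N) • F0) ∧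
      (1 - C * w) * f ≤ Real.sqrt (Q (pP J0 E + (K * r ^ 2 * N) • F0)
        (pP J0 E + (K * r ^ 2 * N) • F0)) := by
  set t := K * r ^ 2 * N with ht
  have hr : 0 ≤ r := hw.trans hwr
  have ht0 : 0 ≤ t := by positivity
  have e1 : Q F0 (pP J0 E) = Q F0 E := FnSys.Q_F0_pP E
  have e2 : Q E E = Q (pP J0 E) (pP J0 E) + Q (pM J0 E) (pM J0 E) :=
    Q_self_split isCx_J0 G9.pos_J0 E
  have e3 : Q (pP J0 E + t • F0) (pP J0 E + t • F0) =
      Q (pP J0 E) (pP J0 E) + 2 * t * Q F0 E + 2 * t ^ 2 := by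
    rw [Q_add_left, Q_add_right, Q_add_right, Q_smul_left, Q_smul_left, Q_smul_right,
      Q_smul_right, Q_comm (pP J0 E) F0, e1, G9.Q_F0_F0]
    ring
  have e4 : Q (pM J0 E) (pM J0 E) ≤ 6 * (C * w * N) ^ 2 := by
    refine (le_abs_self _).trans ((abs_Q_le _ _).trans ?_)
    calc 6 * ‖pM J0 E‖ * ‖pM J0 E‖ = 6 * ‖pM J0 E‖ ^ 2 := by ring
      _ ≤ 6 * (C * w * N) ^ 2 := by gcongr
  have e5 : 6 * (C * w * N) ^ 2 ≤ 2 * t * Q F0 E := by
    calc 6 * (C * w * N) ^ 2 = (6 * C ^ 2) * (w ^ 2 * N ^ 2) := by ring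
      _ ≤ (2 * K * c1) * (w ^ 2 * N ^ 2) := by gcongr
      _ ≤ (2 * K * c1) * (r ^ 2 * N ^ 2) := by gcongr
      _ = 2 * t * (c1 * N) := by rw [ht]; ring
      _ ≤ 2 * t * Q F0 E := by gcongr
  have e6 : ρ * f ^ 2 ≤ Q (pP J0 E + t • F0) (pP J0 E + t • F0) := by
    rw [e3]
    have : 0 ≤ 2 * t ^ 2 := by positivity
    linarith
  have hρ : 0 ≤ ρ := le_trans (by linarith) h4
  have hcw : 0 ≤ C * w := by positivity
  refine ⟨cone_of_sq ?_ (le_trans (by positivity) e6) ?_, ?_⟩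
  · rw [pull_add, pull_pP isCx_J0, pull_smul, G9.cone_F0.1]
  · rw [Q_add_right, Q_smul_right, e1, G9.Q_F0_F0]
    have : 0 ≤ c1 * N := by positivity
    linarith
  · apply Real.le_sqrt_of_sq_le
    refine le_trans ?_ e6
    rw [mul_pow]
    apply mul_le_mul_of_nonneg_right _ (sq_nonneg f)
    have : (1 - C * w) ^ 2 ≤ 1 - C * w := by nlinarith only [h5, hcw]
    linarith

section
variable {X : Type} [MetricSpace X] (M : CM X)

/-! ### Smooth families in a chart -/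

/-- the form `F` in the chart -/
noncomputable def Fa (a : M.A) (y : V4) : L2 := pull (M.m a y) F0

theorem contDiff_Fa (a : M.A) : ContDiff ℝ ∞ (Fa M a) := M.F_smooth a

theorem Q_Fa (a : M.A) (y : V4) (B : L2) :
    Q F0 (pull (M.m' a y) B) = (det4 (M.m a y))⁻¹ * Q (Fa M a y) B := by
  rw [← M.Q_pull_m' a y F0 B, M.det_m']; rfl

theorem Q_m' (a : M.A) (y : V4) (B C : L2) :
    Q (pull (M.m' a y) B) (pull (M.m' a y) C) = (det4 (M.m a y))⁻¹ * Q B C := by
  rw [Q_pull, M.det_m']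

theorem det_Fa (a : M.A) (y : V4) : det4 (M.m a y) = (1 / 2) * Q (Fa M a y) (Fa M a y) := by
  unfold Fa
  rw [Q_pull, G9.Q_F0_F0]; ring

theorem contDiff_det (a : M.A) : ContDiff ℝ ∞ fun y => det4 (M.m a y) := by
  have h : (fun y => det4 (M.m a y)) = fun y => (1 / 2) * EM.QL (Fa M a y) (Fa M a y) := by
    funext y; rw [det_Fa]; rfl
  rw [h]
  have h1 : ContDiff ℝ ∞ fun y => EM.QL (Fa M a y) := EM.QL.contDiff.comp (contDiff_Fa M a)
  exact contDiff_const.mul (h1.clm_apply (contDiff_Fa M a))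

/-- the anti-invariant part created by the transport of an invariant form -/
noncomputable def Tm (a : M.A) (w : M.A → V4) (y : V4) : L2 →L[ℝ] L2 :=
  (pMLw (M.J a y)).comp ((M.PP a w y).comp (pPL (M.J a (M.HH a w y))))

theorem contDiff_Tm (a : M.A) : ContDiff ℝ ∞ (Function.uncurry (Tm M a)) := by
  have h1 : ContDiff ℝ ∞ fun p : (M.A → V4) × V4 => pMLw (M.J a p.2) :=
    contDiff_pMLw.comp ((M.J_smooth a).comp contDiff_snd)
  have h2 : ContDiff ℝ ∞ fun p : (M.A → V4) × V4 => pPL (M.J a (M.HH a p.1 p.2)) :=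
    contDiff_pPL.comp ((M.J_smooth a).comp (M.contDiff_HH a))
  exact h1.clm_comp ((M.contDiff_PP a).clm_comp h2)

theorem Tm_zero (a : M.A) (y : V4) : Tm M a 0 y = 0 := by
  unfold Tm
  rw [M.PP_zero, M.HH_zero, ContinuousLinearMap.id_comp]
  ext A i
  show pM (M.J a y) (pP (M.J a y) A) i = 0
  have h : pM (M.J a y) (pP (M.J a y) A) = 0 := by
    unfold pM
    rw [pull_pP (M.J_cx a y)]; simp
  rw [h]; rfl

/-- the change of the mass -/
noncomputable def ph (a : M.A) (w : M.A → V4) (y : V4) : L2 →L[ℝ] ℝ :=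
  (EM.QL (Fa M a y)).comp (M.PP a w y) - EM.QL (Fa M a (M.HH a w y))

theorem contDiff_ph (a : M.A) : ContDiff ℝ ∞ (Function.uncurry (ph M a)) := by
  have h1 : ContDiff ℝ ∞ fun p : (M.A → V4) × V4 => EM.QL (Fa M a p.2) :=
    EM.QL.contDiff.comp ((contDiff_Fa M a).comp contDiff_snd)
  have h2 : ContDiff ℝ ∞ fun p : (M.A → V4) × V4 => EM.QL (Fa M a (M.HH a p.1 p.2)) :=
    EM.QL.contDiff.comp ((contDiff_Fa M a).comp (M.contDiff_HH a))
  exact (h1.clm_comp (M.contDiff_PP a)).sub h2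

theorem ph_zero (a : M.A) (y : V4) : ph M a 0 y = 0 := by
  unfold ph
  rw [M.PP_zero, M.HH_zero, ContinuousLinearMap.comp_id, sub_self]

/-- the volume ratio -/
noncomputable def rh (a : M.A) (w : M.A → V4) (y : V4) : ℝ :=
  det4 (Dm (M.HH a w) y) * det4 (M.m a (M.HH a w y)) / det4 (M.m a y) - 1

theorem contDiff_rh (a : M.A) : ContDiff ℝ ∞ (Function.uncurry (rh M a)) := by
  have h1 : ContDiff ℝ ∞ fun p : (M.A → V4) × V4 => det4 (Dm (M.HH a p.1) p.2) :=
    contDiff_det4.comp (M.contDiff_DHH a)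
  have h2 : ContDiff ℝ ∞ fun p : (M.A → V4) × V4 => det4 (M.m a (M.HH a p.1 p.2)) :=
    (contDiff_det M a).comp (M.contDiff_HH a)
  have h3 : ContDiff ℝ ∞ fun p : (M.A → V4) × V4 => det4 (M.m a p.2) :=
    (contDiff_det M a).comp contDiff_snd
  exact ((h1.mul h2).div h3 fun p => (M.m_det a p.2).ne').sub contDiff_const

theorem rh_zero (a : M.A) (y : V4) : rh M a 0 y = 0 := by
  unfold rh
  have h : M.HH a 0 = fun y => y := funext fun y => M.HH_zero a y
  rw [h, Dm_id, det4_one, one_mul, div_self (M.m_det a y).ne', sub_self]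

/-- the mass ratio -/
noncomputable def rf (a : M.A) (w : M.A → V4) (y : V4) : ℝ :=
  EM.QL (Fa M a y) (M.PP a w y (Fa M a (M.HH a w y))) / det4 (M.m a y) - 2

theorem contDiff_rf (a : M.A) : ContDiff ℝ ∞ (Function.uncurry (rf M a)) := by
  have h1 : ContDiff ℝ ∞ fun p : (M.A → V4) × V4 => EM.QL (Fa M a p.2) :=
    EM.QL.contDiff.comp ((contDiff_Fa M a).comp contDiff_snd)
  have h2 : ContDiff ℝ ∞ fun p : (M.A → V4) × V4 => Fa M a (M.HH a p.1 p.2) :=
    (contDiff_Fa M a).comp (M.contDiff_HH a)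
  have h3 : ContDiff ℝ ∞ fun p : (M.A → V4) × V4 => det4 (M.m a p.2) :=
    (contDiff_det M a).comp contDiff_snd
  exact ((h1.clm_apply ((M.contDiff_PP a).clm_apply h2)).div h3
    fun p => (M.m_det a p.2).ne').sub contDiff_const

theorem rf_zero (a : M.A) (y : V4) : rf M a 0 y = 0 := by
  unfold rf
  rw [M.PP_zero, M.HH_zero]
  have h1 : EM.QL (Fa M a y) ((ContinuousLinearMap.id ℝ L2) (Fa M a y)) = 2 * det4 (M.m a y) := by
    show Q (Fa M a y) (Fa M a y) = _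
    rw [det_Fa]; ring
  rw [h1, mul_div_assoc, div_self (M.m_det a y).ne']; norm_num

/-- matrices of the frame are bounded on forms -/
theorem exists_m'_bound (a : M.A) (r : ℝ) : ∃ C : ℝ, 1 ≤ C ∧ ∀ y : V4, ‖y‖ ≤ r → ∀ E : L2,
    ‖pull (M.m' a y) E‖ ≤ C * ‖E‖ := by
  obtain ⟨C, hC1, hC⟩ := M.exists_cf_bound a r
  refine ⟨C, hC1, fun y hy E => ?_⟩
  have h := (hC y hy (fun _ => pull (M.m' a y) E)).2
  have e : M.cf a (fun _ => pull (M.m' a y) E) y = E := by
    show pull (M.m a y) (pull (M.m' a y) E) = E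
    rw [← pull_mm, M.mm_m'_m, pull_one]
  rwa [e] at h

theorem pull_m'_J (a : M.A) (y : V4) (E : L2) :
    pM J0 (pull (M.m' a y) E) = pull (M.m' a y) (pM (M.J a y) E) := by
  have h1 : pull J0 (pull (M.m' a y) E) = pull (M.m' a y) (pull (M.J a y) E) :=
    pull_frame (M.frame a y) E
  unfold pM
  rw [h1, pull_smul, pull_sub]

/-- the pointwise estimate in the chart `a` -/
theorem exists_V1 (a : M.A) : ∃ s K C : ℝ, 0 < s ∧ s ≤ 1 ∧ s ≤ M.z1 ∧ 0 ≤ K ∧ 0 ≤ C ∧ C * s ≤ 1 / 2 ∧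
    ∀ (b : X → L2), (∀ x, Cone J0 (b x)) → ∀ w : M.A → V4, ‖w‖ ≤ s → ∀ y : V4, ‖y‖ ≤ 1 →
    ∀ r : ℝ, ‖w‖ ≤ r →
      Cone J0 (pP J0 (pull (M.m' a y) (M.ker a b w y)) +
        (K * r ^ 2 * ‖M.cf a b (M.HH a w y)‖) • F0) ∧
      (1 - C * ‖w‖) * Real.sqrt (Q (b (M.ψ a (M.HH a w y))) (b (M.ψ a (M.HH a w y)))) ≤
        Real.sqrt (Q (pP J0 (pull (M.m' a y) (M.ker a b w y)) +
            (K * r ^ 2 * ‖M.cf a b (M.HH a w y)‖) • F0)
          (pP J0 (pull (M.m' a y) (M.ker a b w y)) +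
            (K * r ^ 2 * ‖M.cf a b (M.HH a w y)‖) • F0)) := by
  obtain ⟨C1, hC1, hT⟩ := exists_lip0 (contDiff_Tm M a) (Tm_zero M a) 1 1
  obtain ⟨C2, hC2, hph⟩ := exists_lip0 (contDiff_ph M a) (ph_zero M a) 1 1
  obtain ⟨C3, hC3, hrh⟩ := exists_lip0 (contDiff_rh M a) (rh_zero M a) 1 1
  obtain ⟨C4, hC4, hm'⟩ := exists_m'_bound M a 1
  obtain ⟨d0, hd0, hd0'⟩ := M.exists_det_lower a 2
  obtain ⟨d1, hd1, hd1'⟩ := M.exists_det_upper a 1
  obtain ⟨C5, hC5, hcf⟩ := M.exists_cf_bound a 2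
  -- the lower bound of the mass
  set q0 := d0 / C5 with hq0
  have hq0' : 0 < q0 := by positivity
  set c1 := q0 / (2 * d1) with hc1
  have hc1' : 0 < c1 := by positivity
  set C := C3 + C4 * C1 with hC
  have hC0 : 0 ≤ C := by positivity
  set K := 3 * C ^ 2 / c1 with hK
  have hK0 : 0 ≤ K := by positivity
  have hz1 := M.z1_pos
  set s := min (min 1 M.z1) (min (1 / (2 * (C + 1))) (q0 / (2 * (C2 + 1)))) with hs
  have hs1 : s ≤ 1 := (min_le_left _ _).trans (min_le_left _ _)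
  have hs2 : s ≤ M.z1 := (min_le_left _ _).trans (min_le_right _ _)
  have hs3 : s ≤ 1 / (2 * (C + 1)) := (min_le_right _ _).trans (min_le_left _ _)
  have hs4 : s ≤ q0 / (2 * (C2 + 1)) := (min_le_right _ _).trans (min_le_right _ _)
  have hs0 : 0 < s := by
    apply lt_min (lt_min one_pos hz1) (lt_min (by positivity) (by positivity))
  have hCs : C * s ≤ 1 / 2 := by
    have h1 : (C + 1) * s ≤ 1 / 2 := by
      calc (C + 1) * s ≤ (C + 1) * (1 / (2 * (C + 1))) := by gcongr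
        _ = 1 / 2 := by field_simp
    linarith
  have hC2s : C2 * s ≤ q0 / 2 := by
    have h1 : (C2 + 1) * s ≤ q0 / 2 := by
      calc (C2 + 1) * s ≤ (C2 + 1) * (q0 / (2 * (C2 + 1))) := by gcongr
        _ = q0 / 2 := by field_simp
    linarith
  refine ⟨s, K, C, hs0, hs1, hs2, hK0, hC0, hCs, fun b hb w hw y hy r hr => ?_⟩
  set y' := M.HH a w y with hy'
  set B := M.cf a b y' with hB
  set E := M.ker a b w y with hE
  have hw1 : ‖w‖ ≤ 1 := hw.trans hs1
  have hy2 : ‖y'‖ ≤ 2 := by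
    have h3 := M.norm_HH_sub_le a (hw.trans hs2) (y := y) (by linarith)
    calc ‖M.HH a w y‖ = ‖(M.HH a w y - y) + y‖ := by rw [sub_add_cancel]
      _ ≤ ‖M.HH a w y - y‖ + ‖y‖ := norm_add_le _ _
      _ ≤ 2 := by linarith
  have hEB : E = M.PP a w y B := M.ker_eq a b w y
  have hDy := M.m_det a y
  have hDy' := M.m_det a y'
  have hBc : Cone (M.J a y') B := M.cone_pull a _ (hb _)
  -- h1
  have hQB : Q B B = det4 (M.m a y') * Q (b (M.ψ a y')) (b (M.ψ a y')) := Q_pull _ _ _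
  have hQE : Q E E = det4 (Dm (M.HH a w) y) * Q B B := Q_pull _ _ _
  have hbnn : 0 ≤ Q (b (M.ψ a y')) (b (M.ψ a y')) := Q_self_nonneg (hb _)
  have h1 : Q (pull (M.m' a y) E) (pull (M.m' a y) E) =
      (1 + rh M a w y) * (Real.sqrt (Q (b (M.ψ a y')) (b (M.ψ a y')))) ^ 2 := by
    rw [Q_m', hQE, hQB, Real.sq_sqrt hbnn]
    unfold rh
    field_simp
    ring
  -- h2
  have hTB : pM (M.J a y) E = Tm M a w y B := by
    have h3 : pP (M.J a y') B = B := pP_of_inv hBc.1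
    show pM (M.J a y) E = pM (M.J a y) (M.PP a w y (pP (M.J a y') B))
    rw [h3, hEB]
  have h2 : ‖pM J0 (pull (M.m' a y) E)‖ ≤ C * ‖w‖ * ‖B‖ := by
    rw [pull_m'_J, hTB]
    refine (hm' y hy _).trans ?_
    have h3 : ‖Tm M a w y B‖ ≤ C1 * ‖w‖ * ‖B‖ :=
      ((Tm M a w y).le_opNorm B).trans (mul_le_mul_of_nonneg_right (hT w y hw1 hy) (norm_nonneg _))
    calc C4 * ‖Tm M a w y B‖ ≤ C4 * (C1 * ‖w‖ * ‖B‖) := by gcongr
      _ = C4 * C1 * (‖w‖ * ‖B‖) := by ring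
      _ ≤ C * (‖w‖ * ‖B‖) := by
          have : C4 * C1 ≤ C := by rw [hC]; linarith
          gcongr
      _ = _ := by ring
  -- h3
  have hmass : q0 * ‖B‖ ≤ Q (Fa M a y') B := by
    have e1 : Q (Fa M a y') B = det4 (M.m a y') * Q F0 (b (M.ψ a y')) := Q_pull _ _ _
    have e2 : ‖b (M.ψ a y')‖ ≤ Q F0 (b (M.ψ a y')) := by
      rw [Q_F0_left]
      obtain ⟨g1, g2, g3, g4⟩ := (cone_J0 _).1 (hb (M.ψ a y'))
      set A := b (M.ψ a y')
      have g5 : 0 ≤ A 0 + A 5 := by linarith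
      have g6 : |A 1| ≤ A 0 + A 5 := by
        apply abs_le_of_sq_le_sq _ g5
        nlinarith only [g2, g3, g4, sq_nonneg (A 2), mul_nonneg g2 g3]
      have g7 : |A 2| ≤ A 0 + A 5 := by
        apply abs_le_of_sq_le_sq _ g5
        nlinarith only [g2, g3, g4, sq_nonneg (A 1), mul_nonneg g2 g3]
      rw [pi_norm_le_iff_of_nonneg g5]
      intro i
      rw [Real.norm_eq_abs]
      fin_cases i
      · show |A 0| ≤ _
        rw [abs_of_nonneg g2]; linarith
      · exact g6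
      · exact g7
      · show |A 3| ≤ _
        rw [g1.2, abs_neg]; exact g7
      · show |A 4| ≤ _
        rw [g1.1]; exact g6
      · show |A 5| ≤ _
        rw [abs_of_nonneg g3]; linarith
    have e3 : ‖B‖ ≤ C5 * ‖b (M.ψ a y')‖ := (hcf y' hy2 b).1
    have e4 := hd0' y' hy2
    rw [e1]
    calc q0 * ‖B‖ ≤ q0 * (C5 * ‖b (M.ψ a y')‖) := by gcongr
      _ = d0 * ‖b (M.ψ a y')‖ := by rw [hq0]; field_simp
      _ ≤ det4 (M.m a y') * Q F0 (b (M.ψ a y')) := by gcongr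
  have h3 : c1 * ‖B‖ ≤ Q F0 (pull (M.m' a y) E) := by
    rw [Q_Fa]
    have e1 : ph M a w y B = Q (Fa M a y) E - Q (Fa M a y') B := by rw [hEB]; rfl
    have e2 : |ph M a w y B| ≤ C2 * ‖w‖ * ‖B‖ :=
      ((ph M a w y).le_opNorm B).trans (mul_le_mul_of_nonneg_right (hph w y hw1 hy) (norm_nonneg _))
    have e3 : C2 * ‖w‖ * ‖B‖ ≤ q0 / 2 * ‖B‖ := by
      apply mul_le_mul_of_nonneg_right _ (norm_nonneg _)
      calc C2 * ‖w‖ ≤ C2 * s := by gcongr
        _ ≤ _ := hC2s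
    have e4 := (abs_le.1 e2).1
    have e5 : q0 / 2 * ‖B‖ ≤ Q (Fa M a y) E := by linarith
    have e6 : d1⁻¹ ≤ (det4 (M.m a y))⁻¹ := inv_anti₀ hDy (hd1' y hy)
    calc c1 * ‖B‖ = d1⁻¹ * (q0 / 2 * ‖B‖) := by rw [hc1]; field_simp
      _ ≤ (det4 (M.m a y))⁻¹ * (q0 / 2 * ‖B‖) := by gcongr
      _ ≤ (det4 (M.m a y))⁻¹ * Q (Fa M a y) E := by gcongr
  -- h4
  have h4 : 1 - C * ‖w‖ ≤ 1 + rh M a w y := by
    have e1 : |rh M a w y| ≤ C3 * ‖w‖ := hrh w y hw1 hy
    have e2 := (abs_le.1 e1).1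
    have e3 : C3 * ‖w‖ ≤ C * ‖w‖ := by
      have : C3 ≤ C := by rw [hC]; nlinarith only [hC1, hC4, mul_nonneg (zero_le_one.trans hC4) hC1]
      gcongr
    linarith
  have h5 : C * ‖w‖ ≤ 1 := by
    have : C * ‖w‖ ≤ C * s := by gcongr
    linarith
  exact V0 (Real.sqrt_nonneg _) (norm_nonneg _) (norm_nonneg _) hr hC0 hc1' hK0
    (by rw [hK]; field_simp; linarith) h1 h2 h3 h4 h5

theorem mass_ker (a : M.A) (h : X → ℝ) (w : M.A → V4) (y : V4) :
    Q F0 (pull (M.m' a y) (M.ker a (fun x => h x • F0) w y)) =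
      h (M.ψ a (M.HH a w y)) * (2 + rf M a w y) := by
  have e1 : M.cf a (fun x => h x • F0) (M.HH a w y) =
      h (M.ψ a (M.HH a w y)) • Fa M a (M.HH a w y) := pull_smul _ _ _
  rw [Q_Fa, M.ker_eq, e1, map_smul, Q_smul_right]
  unfold rf
  rw [EM.QL_apply]
  have := (M.m_det a y).ne'
  field_simp
  ring

theorem exists_V2 (a : M.A) : ∃ C : ℝ, 0 ≤ C ∧ ∀ w : M.A → V4, ‖w‖ ≤ 1 → ∀ y : V4, ‖y‖ ≤ 1 →
    |rf M a w y| ≤ C * ‖w‖ := by
  obtain ⟨C, hC, h⟩ := exists_lip0 (contDiff_rf M a) (rf_zero M a) 1 1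
  exact ⟨C, hC, fun w hw y hy => h w y hw hy⟩

theorem continuous_dens (a : M.A) {b : X → L2} (hb : Continuous (M.cf a b)) :
    Continuous fun y => Real.sqrt (Q (b (M.ψ a y)) (b (M.ψ a y))) := by
  have e : (fun y => Real.sqrt (Q (b (M.ψ a y)) (b (M.ψ a y)))) =
      fun y => Real.sqrt (Q (M.cf a b y) (M.cf a b y) / det4 (M.m a y)) := by
    funext y
    have h1 : Q (M.cf a b y) (M.cf a b y) = det4 (M.m a y) * Q (b (M.ψ a y)) (b (M.ψ a y)) :=
      Q_pull _ _ _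
    rw [h1, mul_div_cancel_left₀ _ (M.m_det a y).ne']
  rw [e]
  exact ((continuous_Q.comp (hb.prodMk hb)).div (M.continuous_det_m a)
    fun y => (M.m_det a y).ne').sqrt

/-- pairing with a fixed form as a linear functional on the chart components -/
noncomputable def lin (a : M.A) (y : V4) (B : L2) : L2 →L[ℝ] ℝ :=
  (EM.QL.flip B).comp ((pPL J0).comp (pullL (M.m' a y)))

theorem lin_apply (a : M.A) (y : V4) (B E : L2) :
    lin M a y B E = Q (pP J0 (pull (M.m' a y) E)) B := rfl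

variable [MeasurableSpace X] [BorelSpace X]

theorem S0_frame (a : M.A) {δ : ℝ} (h0 : 0 ≤ δ) (h1 : δ ≤ M.z1) {b : X → L2}
    (hb : ∀ a, Continuous (M.cf a b)) {y : V4} (hy : ‖y‖ ≤ 6) :
    M.S0 δ b (M.ψ a y) = pull (M.m' a y) (∫ z, M.rr z • M.ker a b (δ • z) y) := by
  rw [M.eq_pull_m' (M.S0 δ b) a y, M.cf_S0 a h0 h1 hb hy]

theorem continuous_kerz (a : M.A) {b : X → L2} (hb : Continuous (M.cf a b)) (δ : ℝ) (y : V4) :
    Continuous fun z : M.A → V4 => M.ker a b (δ • z) y :=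
  Continuous.comp (g := Function.uncurry (M.ker a b)) (f := fun z : M.A → V4 => (δ • z, y))
        (M.continuous_ker a hb) ((M.continuous_smul_param δ).prodMk continuous_const)

theorem continuous_densz (a : M.A) {b : X → L2} (hb : Continuous (M.cf a b)) (δ : ℝ) (y : V4) :
    Continuous fun z : M.A → V4 => Real.sqrt (Q (b (M.ψ a (M.HH a (δ • z) y)))
      (b (M.ψ a (M.HH a (δ • z) y)))) := by
  have h1 : Continuous fun z : M.A → V4 => M.HH a (δ • z) y :=
    Continuous.comp (g := Function.uncurry (M.HH a)) (f := fun z : M.A → V4 => (δ • z, y))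
      (M.contDiff_HH a).continuous ((M.continuous_smul_param δ).prodMk continuous_const)
  exact (continuous_dens M a hb).comp h1

/-- the key integrated inequality -/
theorem key_int (a : M.A) {s K C δ R : ℝ} (h0 : 0 < δ) (h1 : δ ≤ M.z1) (hs : δ ≤ s)
    (hC : 0 ≤ C) (hCs : C * s ≤ 1 / 2) {b : X → L2} (hbO : b ∈ M.Om)
    (hb : ∀ x, Cone J0 (b x)) {y : V4} (hy : ‖y‖ ≤ 1)
    (hV : ∀ w : M.A → V4, ‖w‖ ≤ s → ∀ r : ℝ, ‖w‖ ≤ r →
      Cone J0 (pP J0 (pull (M.m' a y) (M.ker a b w y)) +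
        (K * r ^ 2 * ‖M.cf a b (M.HH a w y)‖) • F0) ∧
      (1 - C * ‖w‖) * Real.sqrt (Q (b (M.ψ a (M.HH a w y))) (b (M.ψ a (M.HH a w y)))) ≤
        Real.sqrt (Q (pP J0 (pull (M.m' a y) (M.ker a b w y)) +
            (K * r ^ 2 * ‖M.cf a b (M.HH a w y)‖) • F0)
          (pP J0 (pull (M.m' a y) (M.ker a b w y)) +
            (K * r ^ 2 * ‖M.cf a b (M.HH a w y)‖) • F0)))
    (hR : K * δ ^ 2 * M.am a b δ y ≤ R) {B : L2} (hB : Cone J0 B) :
    Real.sqrt (Q B B) * ((1 - C * δ) * ∫ z, M.rr z • Real.sqrt (Q (b (M.ψ a (M.HH a (δ • z) y)))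
      (b (M.ψ a (M.HH a (δ • z) y))))) ≤ Q (pP J0 (M.S0 δ b (M.ψ a y)) + R • F0) B := by
  have hbc : ∀ a, Continuous (M.cf a b) := fun a => (hbO a).continuous
  have hFB : 0 ≤ Q F0 B := Q_cone_nonneg isCx_J0 G9.pos_J0 G9.cone_F0 hB
  have hint1 : Integrable fun z => M.rr z • M.ker a b (δ • z) y :=
    M.integrable_rr_smul (continuous_kerz M a (hbc a) δ y) fun z _ => rfl
  have hint2 : Integrable fun z => M.rr z • ‖M.cf a b (M.HH a (δ • z) y)‖ :=
    M.integrable_rr_smul (M.continuous_cfHH a (hbc a) δ y).norm fun z _ => rfl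
  have hint3 : Integrable fun z => M.rr z • Real.sqrt (Q (b (M.ψ a (M.HH a (δ • z) y)))
      (b (M.ψ a (M.HH a (δ • z) y)))) :=
    M.integrable_rr_smul (continuous_densz M a (hbc a) δ y) fun z _ => rfl
  have e1 : Q (pP J0 (M.S0 δ b (M.ψ a y))) B = ∫ z, M.rr z * lin M a y B (M.ker a b (δ • z) y) := by
    rw [S0_frame M a h0.le h1 hbc (by linarith)]
    have h3 := (lin M a y B).integral_comp_comm hint1
    rw [← lin_apply, ← h3]
    refine integral_congr_ae (Filter.Eventually.of_forall fun z => ?_)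
    show lin M a y B (M.rr z • M.ker a b (δ • z) y) = _
    rw [map_smul]; rfl
  have hint1' : Integrable fun z => M.rr z * lin M a y B (M.ker a b (δ • z) y) := by
    have h3 := (lin M a y B).integrable_comp hint1
    refine h3.congr (Filter.Eventually.of_forall fun z => ?_)
    show lin M a y B (M.rr z • M.ker a b (δ • z) y) = _
    rw [map_smul]; rfl
  have e2 : (∫ z, M.rr z * lin M a y B (M.ker a b (δ • z) y)) +
      (K * δ ^ 2 * Q F0 B) * M.am a b δ y =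
      ∫ z, (M.rr z * lin M a y B (M.ker a b (δ • z) y) +
        (K * δ ^ 2 * Q F0 B) * (M.rr z • ‖M.cf a b (M.HH a (δ • z) y)‖)) := by
    rw [integral_add hint1' (hint2.const_mul _), integral_const_mul]; rfl
  have e3 : Q (pP J0 (M.S0 δ b (M.ψ a y)) + R • F0) B =
      Q (pP J0 (M.S0 δ b (M.ψ a y))) B + R * Q F0 B := by
    rw [Q_add_left, Q_smul_left]
  have e4 : (K * δ ^ 2 * Q F0 B) * M.am a b δ y ≤ R * Q F0 B := by
    have := mul_le_mul_of_nonneg_right hR hFB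
    linarith
  rw [e3, e1]
  refine le_trans ?_ (add_le_add_right e4 _)
  rw [e2, ← integral_const_mul, ← integral_const_mul]
  refine integral_mono ((hint3.const_mul _).const_mul _) (hint1'.add (hint2.const_mul _)) fun z => ?_
  show Real.sqrt (Q B B) * ((1 - C * δ) * (M.rr z • Real.sqrt (Q (b (M.ψ a (M.HH a (δ • z) y)))
      (b (M.ψ a (M.HH a (δ • z) y)))))) ≤ M.rr z * lin M a y B (M.ker a b (δ • z) y) +
        (K * δ ^ 2 * Q F0 B) * (M.rr z • ‖M.cf a b (M.HH a (δ • z) y)‖)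
  have hr := M.bump_rr.nonneg z
  by_cases hz : ‖z‖ ≤ 1
  · have hδz : ‖δ • z‖ ≤ δ := by
      rw [norm_smul, Real.norm_eq_abs, abs_of_nonneg h0.le]
      calc δ * ‖z‖ ≤ δ * 1 := by gcongr
        _ = δ := mul_one _
    obtain ⟨g1, g2⟩ := hV (δ • z) (hδz.trans hs) δ hδz
    have g3 := sqrt_Q_mul_le hB g1
    set f := Real.sqrt (Q (b (M.ψ a (M.HH a (δ • z) y))) (b (M.ψ a (M.HH a (δ • z) y)))) with hf
    have hf0 : 0 ≤ f := Real.sqrt_nonneg _
    have g4 : (1 - C * δ) * f ≤ (1 - C * ‖δ • z‖) * f := by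
      apply mul_le_mul_of_nonneg_right _ hf0
      have : C * ‖δ • z‖ ≤ C * δ := by gcongr
      linarith
    have g5 : Real.sqrt (Q B B) * ((1 - C * δ) * f) ≤ Q B (pP J0 (pull (M.m' a y) (M.ker a b (δ • z) y)) +
            (K * δ ^ 2 * ‖M.cf a b (M.HH a (δ • z) y)‖) • F0) :=
      le_trans (mul_le_mul_of_nonneg_left (g4.trans g2) (Real.sqrt_nonneg _)) g3
    rw [Q_add_right, Q_smul_right, Q_comm B F0,
      Q_comm B (pP J0 (pull (M.m' a y) (M.ker a b (δ • z) y)))] at g5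
    rw [lin_apply, smul_eq_mul, smul_eq_mul]
    have g6 := mul_le_mul_of_nonneg_left g5 hr
    linarith only [g6]
  · rw [M.bump_rr.supp z (not_le.1 hz)]
    simp only [zero_smul, zero_mul, mul_zero, add_zero, le_refl]

/-- the mass of the smoothing of `f F0` -/
theorem mass_le (a : M.A) {C δ : ℝ} (h0 : 0 < δ) (h1 : δ ≤ M.z1) (hδ1 : δ ≤ 1) (hC : 0 ≤ C)
    {b : X → L2} (hbc : ∀ a, Continuous (M.cf a b)) {y : V4} (hy : ‖y‖ ≤ 1)
    (hV : ∀ w : M.A → V4, ‖w‖ ≤ 1 → |rf M a w y| ≤ C * ‖w‖) :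
    Q F0 (M.S0 δ (fun x => Real.sqrt (Q (b x) (b x)) • F0) (M.ψ a y)) ≤
      2 * (1 + C * δ) * ∫ z, M.rr z • Real.sqrt (Q (b (M.ψ a (M.HH a (δ • z) y)))
      (b (M.ψ a (M.HH a (δ • z) y)))) := by
  set h : X → ℝ := fun x => Real.sqrt (Q (b x) (b x)) with hh
  have hhc : ∀ a, Continuous (M.cf a fun x => h x • F0) := by
    intro a
    have e : M.cf a (fun x => h x • F0) = fun y => h (M.ψ a y) • Fa M a y := by
      funext y; exact pull_smul _ _ _
    rw [e]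
    exact (continuous_dens M a (hbc a)).smul (contDiff_Fa M a).continuous
  have hint1 : Integrable fun z => M.rr z • M.ker a (fun x => h x • F0) (δ • z) y :=
    M.integrable_rr_smul (continuous_kerz M a (hhc a) δ y) fun z _ => rfl
  have hint3 : Integrable fun z => M.rr z • h (M.ψ a (M.HH a (δ • z) y)) :=
    M.integrable_rr_smul (continuous_densz M a (hbc a) δ y) fun z _ => rfl
  set L : L2 →L[ℝ] ℝ := (EM.QL F0).comp (pullL (M.m' a y)) with hL
  have hLa : ∀ E, L E = Q F0 (pull (M.m' a y) E) := fun E => rfl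
  have e1 : Q F0 (M.S0 δ (fun x => h x • F0) (M.ψ a y)) =
      ∫ z, M.rr z * L (M.ker a (fun x => h x • F0) (δ • z) y) := by
    rw [S0_frame M a h0.le h1 hhc (by linarith)]
    have h3 := L.integral_comp_comm hint1
    rw [← hLa, ← h3]
    refine integral_congr_ae (Filter.Eventually.of_forall fun z => ?_)
    show L (M.rr z • M.ker a _ (δ • z) y) = _
    rw [map_smul]; rfl
  have hint1' : Integrable fun z => M.rr z * L (M.ker a (fun x => h x • F0) (δ • z) y) := by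
    have h3 := L.integrable_comp hint1
    refine h3.congr (Filter.Eventually.of_forall fun z => ?_)
    show L (M.rr z • M.ker a _ (δ • z) y) = _
    rw [map_smul]; rfl
  rw [e1, ← integral_const_mul]
  refine integral_mono hint1' (hint3.const_mul _) fun z => ?_
  show M.rr z * L (M.ker a (fun x => h x • F0) (δ • z) y) ≤
    2 * (1 + C * δ) * (M.rr z • h (M.ψ a (M.HH a (δ • z) y)))
  have hr := M.bump_rr.nonneg z
  by_cases hz : ‖z‖ ≤ 1
  · have hδz : ‖δ • z‖ ≤ δ := by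
      rw [norm_smul, Real.norm_eq_abs, abs_of_nonneg h0.le]
      calc δ * ‖z‖ ≤ δ * 1 := by gcongr
        _ = δ := mul_one _
    rw [hLa, mass_ker, smul_eq_mul]
    have g1 := hV (δ • z) (hδz.trans hδ1)
    have g2 : rf M a (δ • z) y ≤ C * δ := by
      refine (le_abs_self _).trans (g1.trans ?_)
      gcongr
    have hf0 : 0 ≤ h (M.ψ a (M.HH a (δ • z) y)) := Real.sqrt_nonneg _
    have hCδ : 0 ≤ C * δ := by positivity
    have g3 : h (M.ψ a (M.HH a (δ • z) y)) * (2 + rf M a (δ • z) y) ≤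
        h (M.ψ a (M.HH a (δ • z) y)) * (2 * (1 + C * δ)) := by
      apply mul_le_mul_of_nonneg_left _ hf0
      linarith
    have g4 := mul_le_mul_of_nonneg_left g3 hr
    linarith only [g4]
  · rw [M.bump_rr.supp z (not_le.1 hz)]
    simp only [zero_smul, zero_mul, mul_zero, le_refl]

end

/-- **Block KL2.** -/
theorem p3v : P3VStatement := by
  intro X _ _ _ _ _ M
  choose s K C hs0 hs1 hsz hK hC hCs hV using exists_V1 M
  choose C' hC' hV' using exists_V2 M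
  choose δ1 Cm L hδ1 hCm hL ham using M.exists_am_le
  obtain ⟨d1, hd1, -, hd1'⟩ := exists_lower s hs0
  obtain ⟨d2, hd2, hd21, hd2'⟩ := exists_lower δ1 hδ1
  obtain ⟨c1, hc1, hc1'⟩ := exists_upper fun a => K a * Cm a
  obtain ⟨c2, hc2, hc2'⟩ := exists_upper L
  obtain ⟨c3, hc3, hc3'⟩ := exists_upper fun a => 2 * (C a + C' a)
  have hz1 := M.z1_pos
  set c := max c1 (max c2 c3) with hc
  have hcc1 : c1 ≤ c := le_max_left _ _
  have hcc2 : c2 ≤ c := (le_max_left _ _).trans (le_max_right _ _)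
  have hcc3 : c3 ≤ c := (le_max_right _ _).trans (le_max_right _ _)
  refine ⟨min (min d1 d2) M.z1, c, lt_min (lt_min hd1 hd2) hz1, hc1.trans hcc1,
    fun δ b x h0 h1 hb => ?_⟩
  have hδd1 : δ ≤ d1 := h1.trans ((min_le_left _ _).trans (min_le_left _ _))
  have hδd2 : δ ≤ d2 := h1.trans ((min_le_left _ _).trans (min_le_right _ _))
  have hδz : δ ≤ M.z1 := h1.trans (min_le_right _ _)
  have hδ1' : δ ≤ 1 := hδd2.trans hd21
  set a := M.ch x with ha
  set y := M.cy x with hy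
  have hyx : M.ψ a y = x := M.ψ_cy x
  have hy1 : ‖y‖ < 1 := M.norm_cy x
  have hδs : δ ≤ s a := hδd1.trans (hd1' a)
  have hbc : ∀ a, Continuous (M.cf a (b : X → L2)) := fun a => (b.2 a).continuous
  set I := ∫ y in Metric.ball x (c * δ), ‖(b : X → L2) y‖ ∂M.mu with hI
  have hI0 : 0 ≤ I := integral_nonneg fun x => norm_nonneg _
  set R := c * δ ^ 2 * (δ ^ 4)⁻¹ * I with hR
  have hc0 : 0 ≤ c := by linarith
  -- the mass term
  have hRle : K a * δ ^ 2 * M.am a b δ y ≤ R := by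
    have h2 := ham a b b.2 δ h0 (hδd2.trans (hd2' a)) y hy1
    have h3 : L a * δ ≤ c * δ := by
      have := (hc2' a).trans hcc2
      gcongr
    have h4 := M.mono_ball b.2 x h3
    rw [hyx] at h2
    have hKa := hK a
    have hCa := (hCm a).le
    have h5 : 0 ≤ ∫ y in Metric.ball x (L a * δ), ‖(b : X → L2) y‖ ∂M.mu :=
      integral_nonneg fun x => norm_nonneg _
    calc K a * δ ^ 2 * M.am a b δ y
        ≤ K a * δ ^ 2 * (Cm a * (δ ^ 4)⁻¹ * ∫ y in Metric.ball x (L a * δ), ‖(b : X → L2) y‖ ∂M.mu) := by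
          gcongr
      _ ≤ K a * δ ^ 2 * (Cm a * (δ ^ 4)⁻¹ * I) := by gcongr
      _ = (K a * Cm a) * (δ ^ 2 * (δ ^ 4)⁻¹ * I) := by ring
      _ ≤ c * (δ ^ 2 * (δ ^ 4)⁻¹ * I) := by
          have := (hc1' a).trans hcc1
          gcongr
      _ = R := by rw [hR]; ring
  have key := fun (B : L2) (hB : Cone J0 B) => key_int M a h0 hδz hδs (hC a) (hCs a) b.2 hb hy1.le
    (fun w hw r hr => hV a b hb w hw y hy1.le r hr) hRle hB
  rw [hyx] at key
  set A' := pP J0 (M.S0 δ b x) + R • F0 with hA'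
  set If := ∫ z, M.rr z • Real.sqrt (Q ((b : X → L2) (M.ψ a (M.HH a (δ • z) y)))
      ((b : X → L2) (M.ψ a (M.HH a (δ • z) y)))) with hIf
  have hIf0 : 0 ≤ If := integral_nonneg fun z => mul_nonneg (M.bump_rr.nonneg z) (Real.sqrt_nonneg _)
  have hCδ : C a * δ ≤ 1 / 2 := le_trans (mul_le_mul_of_nonneg_left hδs (hC a)) (hCs a)
  have hG0 : 0 ≤ (1 - C a * δ) * If := mul_nonneg (by linarith) hIf0
  have hinv : pull J0 A' = A' := by
    rw [hA', pull_add, pull_pP isCx_J0, pull_smul, G9.cone_F0.1]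
  have hcone : Cone J0 A' := by
    have h2 := FnSys.cone_of_pair (A := A') (fun B hB => by
      rw [Q_comm]
      exact le_trans (mul_nonneg (Real.sqrt_nonneg _) hG0) (key B hB))
    rwa [pP_of_inv hinv] at h2
  refine ⟨hcone, ?_⟩
  have hlow := rcs_lower hcone hG0 key
  have hup := mass_le M a h0 hδz hδ1' (hC' a) hbc hy1.le (fun w hw => hV' a w hw y hy1.le)
  rw [hyx] at hup
  refine hup.trans ?_
  have e5 : (1 + C' a * δ) ≤ (1 + c * δ) * (1 - C a * δ) := by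
    have h6 : 2 * (C a + C' a) ≤ c := (hc3' a).trans hcc3
    have h7 : c * δ * (C a * δ) ≤ c * δ * (1 / 2) := by
      apply mul_le_mul_of_nonneg_left hCδ (by positivity)
    have h8 : 2 * (C a + C' a) * δ ≤ c * δ := by gcongr
    nlinarith only [h7, h8]
  calc 2 * (1 + C' a * δ) * If ≤ 2 * ((1 + c * δ) * (1 - C a * δ)) * If := by gcongr
    _ = 2 * (1 + c * δ) * ((1 - C a * δ) * If) := by ring
    _ ≤ 2 * (1 + c * δ) * Real.sqrt (Q A' A') := by
        apply mul_le_mul_of_nonneg_left hlow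
        positivity

end Vale.Agent.P247.SCY
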