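import Vale.Agent.P247.SCY.HB2
import Vale.Agent.P247.SCY.BaseO

/-!
# P247, exact orthogonality: the separation argument with the `C^k` condition
-/

set_option linter.all false

open MeasureTheory Set Metric Filter Topology
open scoped ContDiff ENNReal NNReal BigOperators InnerProductSpace Topology

namespace Vale.Agent.P247.SCY
open Vale.Agent.P204 Vale.Agent.P204.T4 Vale.Agent.P204.GX _root_.P204.GX

section
variable {X : Type} [MetricSpace X] [CompactSpace X] [MeasurableSpace X] [BorelSpace X]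
variable {M : CM X} (P : MSys M)

theorem Mk_zero (k : ℕ) : P.Y.M k 0 = 0 := by
  have := P.Y.M_smul k 0 (0 : M.Om)
  simpa using this

/-- The functionals separating `om + Ex` from the good forms. -/
theorem exists_TK [Nonempty X] {σ : X → ℝ} (σc : Continuous σ) (σp : ∀ x, 0 < σ x) {q η : ℝ}
    (hq : 0 < q) (hη : 0 < η) (k : ℕ)
    (hno : ¬ ∃ e ∈ M.Ex, (∀ x, PosDef J0 (pP J0 (M.om x + (e : X → L2) x))) ∧
        P.Y.M k (P.Y.pm (M.omOm + e)) < η ∧
        ∀ x, q * σ x < vd (σ x) (M.om x + (e : X → L2) x)) :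
    ∃ (T : M.C0 →ₗ[ℝ] ℝ) (φ : M.Om →ₗ[ℝ] ℝ) (l m : ℝ), 0 < l ∧
      (∀ e ∈ M.Ex, T (M.toC0 e) + φ e = 0) ∧
      T (M.toC0 M.omOm) + φ M.omOm = m ∧ l * T (M.toC0 M.FOm) - m = 1 ∧
      ∀ (u : M.C0) (v : M.Om) (s : ℝ), (∀ x, PC ((u : X → L2) x)) →
        (∀ x, q * σ x * s ≤ vd (σ x) ((u : X → L2) x)) →
        P.Y.M k (P.Y.pm v) ≤ η * s → m * s ≤ T u + φ v := by
  have hσ0 : ∀ x, 0 ≤ σ x := fun x => (σp x).le
  -- the bounds of `σ` and `vd σ F0`
  have hgc : Continuous fun x => vd (σ x) F0 := by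
    have : (fun x => vd (σ x) F0) = fun x => Real.sqrt (σ x * 2) := funext fun x => vd_F0
    rw [this]
    exact Real.continuous_sqrt.comp (σc.mul continuous_const)
  have hgp : ∀ x, 0 < vd (σ x) F0 := fun x => by
    rw [vd_F0]; exact Real.sqrt_pos.2 (mul_pos (σp x) two_pos)
  obtain ⟨l, hl0, hl⟩ : ∃ l : ℝ, 0 < l ∧ ∀ x, q * σ x + 1 ≤ l * vd (σ x) F0 := by
    have hc : Continuous fun x => (q * σ x + 1) / vd (σ x) F0 :=
      ((continuous_const.mul σc).add continuous_const).div hgc fun x => (hgp x).ne'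
    obtain ⟨B, hB⟩ := (isCompact_univ (X := X)).exists_bound_of_continuousOn hc.continuousOn
    refine ⟨|B| + 1, by positivity, fun x => ?_⟩
    have h1 := hB x (mem_univ x)
    rw [Real.norm_eq_abs] at h1
    have h2 : (q * σ x + 1) / vd (σ x) F0 ≤ |B| + 1 := by
      have := le_abs_self ((q * σ x + 1) / vd (σ x) F0)
      have := le_abs_self B
      linarith
    rwa [div_le_iff₀ (hgp x)] at h2
  obtain ⟨S0, hS0⟩ := (isCompact_univ (X := X)).exists_bound_of_continuousOn σc.continuousOn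
  obtain ⟨G0, hG0⟩ := (isCompact_univ (X := X)).exists_bound_of_continuousOn hgc.continuousOn
  have hS0' : ∀ x, σ x ≤ |S0| := fun x => by
    have := hS0 x (mem_univ x)
    rw [Real.norm_eq_abs] at this
    exact (le_abs_self _).trans (this.trans (le_abs_self _))
  have hG0' : ∀ x, vd (σ x) F0 ≤ |G0| := fun x => by
    have := hG0 x (mem_univ x)
    rw [Real.norm_eq_abs] at this
    exact (le_abs_self _).trans (this.trans (le_abs_self _))
  let K : ConvexCone ℝ (M.C0 × M.Om × ℝ) :=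
    { carrier := {p | (∀ x, PC ((p.1 : X → L2) x)) ∧
        (∀ x, q * σ x * p.2.2 ≤ vd (σ x) ((p.1 : X → L2) x)) ∧
        P.Y.M k (P.Y.pm p.2.1) ≤ η * p.2.2}
      smul_mem' := by
        rintro c hc ⟨u, v, s⟩ ⟨h1, h2, h3⟩
        have hc' : 0 ≤ c := le_of_lt hc
        refine ⟨fun x => PC_smul hc' (h1 x), fun x => ?_, ?_⟩
        · show q * σ x * (c * s) ≤ vd (σ x) (c • (u : X → L2) x)
          rw [vd_smul (hσ0 x) hc']
          have := mul_le_mul_of_nonneg_left (h2 x) hc'
          calc q * σ x * (c * s) = c * (q * σ x * s) := by ring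
            _ ≤ _ := this
        · show P.Y.M k (P.Y.pm (c • v)) ≤ η * (c * s)
          rw [map_smul, P.Y.M_smul, abs_of_nonneg hc']
          have := mul_le_mul_of_nonneg_left h3 hc'
          calc c * P.Y.M k (P.Y.pm v) ≤ c * (η * s) := this
            _ = _ := by ring
      add_mem' := by
        rintro ⟨u, v, s⟩ ⟨h1, h2, h5⟩ ⟨u', v', r⟩ ⟨h3, h4, h6⟩
        refine ⟨fun x => PC_add (h1 x) (h3 x), fun x => ?_, ?_⟩
        · show q * σ x * (s + r) ≤ vd (σ x) ((u : X → L2) x + (u' : X → L2) x)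
          have := vd_add (hσ0 x) (h1 x) (h3 x)
          rw [mul_add]
          exact (add_le_add (h2 x) (h4 x)).trans this
        · show P.Y.M k (P.Y.pm (v + v')) ≤ η * (s + r)
          rw [map_add, mul_add]
          exact (P.Y.M_add _ _ _).trans (add_le_add h5 h6) }
  let FC : M.C0 := M.toC0 M.FOm
  let Φ : (M.Ex × ℝ × ℝ) →ₗ[ℝ] (M.C0 × M.Om × ℝ) :=
    { toFun := fun v => (M.toC0 (v.1 : M.Om) + v.2.1 • M.toC0 M.omOm + (v.2.2 * l) • FC,
        (v.1 : M.Om) + v.2.1 • M.omOm, v.2.1 + v.2.2)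
      map_add' := by
        rintro ⟨a, b, c⟩ ⟨a', b', c'⟩
        simp only [Prod.mk_add_mk, Submodule.coe_add, map_add]
        refine Prod.ext ?_ (Prod.ext ?_ ?_)
        · show _ = _ + _
          module
        · show _ = _ + _
          module
        · show _ = _ + _
          ring
      map_smul' := by
        rintro r ⟨a, b, c⟩
        simp only [Prod.smul_mk, Submodule.coe_smul, map_smul, RingHom.id_apply, smul_eq_mul]
        refine Prod.ext ?_ (Prod.ext ?_ ?_)
        · show _ = r • _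
          module
        · show _ = r • _
          module
        · show _ = r * _
          ring }
  let F : (M.Ex × ℝ × ℝ) →ₗ[ℝ] ℝ :=
    { toFun := fun v => v.2.2
      map_add' := by rintro ⟨a, b, c⟩ ⟨a', b', c'⟩; rfl
      map_smul' := by rintro r ⟨a, b, c⟩; rfl }
  obtain ⟨x0⟩ := (inferInstance : Nonempty X)
  obtain ⟨g, hg1, hg2⟩ := riesz_range (V := M.Ex × ℝ × ℝ) (E := M.C0 × M.Om × ℝ) Φ F K (by
      refine ⟨fun x => PC_zero, fun x => ?_, ?_⟩
      · show q * σ x * 0 ≤ _
        rw [mul_zero]; exact vd_nonneg _ _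
      · show P.Y.M k (P.Y.pm 0) ≤ η * 0
        rw [map_zero, Mk_zero, mul_zero]) (by
      rintro ⟨e, τ, t⟩ ⟨h1, h2, h3⟩
      show 0 ≤ t
      by_contra hneg
      push Not at hneg
      apply hno
      set u : X → L2 := fun x => ((e : M.Om) : X → L2) x + τ • M.om x + (t * l) • F0 with hu
      have hu1 : ∀ x, PC (u x) := h1
      have hu2 : ∀ x, q * σ x * (τ + t) ≤ vd (σ x) (u x) := h2
      have hu3 : P.Y.M k (P.Y.pm ((e : M.Om) + τ • M.omOm)) ≤ η * (τ + t) := h3
      have hτt : 0 ≤ τ + t := by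
        have := (P.Y.M_nonneg _ _).trans hu3
        by_contra hc
        push Not at hc
        have := mul_neg_of_pos_of_neg hη hc
        linarith
      have hτ : 0 < τ := by linarith
      have hτi : 0 < τ⁻¹ := inv_pos.2 hτ
      have e1 : ∀ x, M.om x + ((τ⁻¹ • (e : M.Om) : M.Om) : X → L2) x =
          τ⁻¹ • u x + (τ⁻¹ * (-t * l)) • F0 := by
        intro x
        show M.om x + τ⁻¹ • ((e : M.Om) : X → L2) x = _
        rw [hu]
        simp only [smul_add, smul_smul]
        rw [inv_mul_cancel₀ hτ.ne', one_smul]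
        module
      refine ⟨τ⁻¹ • (e : M.Om), M.Ex.smul_mem _ e.2, fun x => ?_, ?_, fun x => ?_⟩
      · rw [e1, FnSys.pP_add, FnSys.pP_smul, FnSys.pP_smul, FnSys.pP_F0]
        exact posDef_of_cone_add (G7.cone_smul hτi.le (hu1 x))
          (mul_pos hτi (mul_pos (by linarith) hl0))
      · have e2 : M.omOm + τ⁻¹ • (e : M.Om) = τ⁻¹ • ((e : M.Om) + τ • M.omOm) := by
          rw [smul_add, smul_smul, inv_mul_cancel₀ hτ.ne', one_smul, add_comm]
        rw [e2, map_smul, P.Y.M_smul, abs_of_pos hτi]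
        have h4 := mul_le_mul_of_nonneg_left hu3 hτi.le
        have h5 : τ⁻¹ * (η * (τ + t)) < η := by
          have : τ⁻¹ * (η * (τ + t)) = η + η * (τ⁻¹ * t) := by
            field_simp
          rw [this]
          have h6 : τ⁻¹ * t < 0 := mul_neg_of_pos_of_neg hτi hneg
          have := mul_neg_of_pos_of_neg hη h6
          linarith
        linarith
      · have hc : 0 < τ⁻¹ * (-t * l) := mul_pos hτi (mul_pos (by linarith) hl0)
        rw [e1]
        have h4 := vd_add (hσ0 x) (PC_smul hτi.le (hu1 x)) (PC_smul hc.le PC_F0)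
        rw [vd_smul (hσ0 x) hτi.le, vd_smul (hσ0 x) hc.le] at h4
        refine lt_of_lt_of_le ?_ h4
        have h5 := mul_le_mul_of_nonneg_left (hu2 x) hτi.le
        have h6 : τ⁻¹ * (q * σ x * (τ + t)) = q * σ x + τ⁻¹ * (q * σ x * t) := by field_simp
        have hl' := hl x
        have h7 : 0 < τ⁻¹ * (-t) * (l * vd (σ x) F0 - q * σ x) :=
          mul_pos (mul_pos hτi (by linarith)) (by linarith)
        have h8 : τ⁻¹ * (-t) * (l * vd (σ x) F0 - q * σ x) =
          τ⁻¹ * (-t * l) * vd (σ x) F0 + τ⁻¹ * (q * σ x * t) := by ring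
        rw [h6] at h5
        linarith) (by
      rintro ⟨u, v, s⟩
      obtain ⟨t0, ht0, h⟩ := exists_unit_PC u
      set B := P.Y.M k (P.Y.pm v) with hBdef
      have hB0 : 0 ≤ B := P.Y.M_nonneg _ _
      -- choose `t` large
      set t : ℝ := t0 / l + (q * |S0| * |s| + t0 * |G0|) + B / η + |s| with ht
      have a1 : 0 ≤ t0 / l := by positivity
      have a2 : 0 ≤ q * |S0| * |s| + t0 * |G0| := by positivity
      have a3 : 0 ≤ B / η := by positivity
      have a4 := abs_nonneg s
      have b1 : t0 ≤ t * l := by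
        have : t0 / l ≤ t := by rw [ht]; linarith
        rwa [div_le_iff₀ hl0] at this
      have b2 : q * |S0| * |s| + t0 * |G0| ≤ t := by rw [ht]; linarith
      have b0 : 0 ≤ t := a2.trans b2
      have b3 : B ≤ η * (s + t) := by
        have h1 : B / η ≤ s + t := by
          have := neg_abs_le s
          rw [ht]; linarith
        rw [div_le_iff₀ hη] at h1
        linarith
      refine ⟨(0, 0, t), ?_, ?_, ?_⟩
      · intro x
        have e1 : (((Φ (0, 0, t) + (u, v, s)).1 : M.C0) : X → L2) x =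
            (t * l) • F0 + (u : X → L2) x := by
          show ((0 : L2) + (0 : ℝ) • M.om x + (t * l) • F0) + (u : X → L2) x = _
          rw [zero_smul, zero_add, zero_add]
        rw [e1]
        exact h _ b1 x
      · intro x
        have e1 : (((Φ (0, 0, t) + (u, v, s)).1 : M.C0) : X → L2) x =
            (t0 • F0 + (u : X → L2) x) + (t * l - t0) • F0 := by
          show ((0 : L2) + (0 : ℝ) • M.om x + (t * l) • F0) + (u : X → L2) x =
            (t0 • F0 + (u : X → L2) x) + (t * l - t0) • F0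
          module
        have e2 : (Φ (0, 0, t) + (u, v, s)).2.2 = t + s := by
          show (0 + t) + s = _
          rw [zero_add]
        show q * σ x * (Φ (0, 0, t) + (u, v, s)).2.2 ≤
          vd (σ x) (((Φ (0, 0, t) + (u, v, s)).1 : X → L2) x)
        rw [e1, e2]
        have h4 := vd_add (hσ0 x) (h t0 le_rfl x) (PC_smul (sub_nonneg.2 b1) PC_F0)
        rw [vd_smul (hσ0 x) (sub_nonneg.2 b1)] at h4
        refine le_trans ?_ h4
        have h5 : 0 ≤ vd (σ x) (t0 • F0 + (u : X → L2) x) := vd_nonneg _ _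
        have h6 : q * σ x * s ≤ q * |S0| * |s| := by
          calc q * σ x * s ≤ q * σ x * |s| :=
                mul_le_mul_of_nonneg_left (le_abs_self s) (mul_nonneg hq.le (hσ0 x))
            _ ≤ q * |S0| * |s| := by
                have := hS0' x
                gcongr
        have h7 := mul_le_mul_of_nonneg_left (hG0' x) ht0
        have h8 := mul_le_mul_of_nonneg_left (hl x) b0
        nlinarith only [h5, h6, h7, h8, b2]
      · have e1 : (Φ (0, 0, t) + (u, v, s)).2.1 = v := by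
          show ((0 : M.Om) + (0 : ℝ) • M.omOm) + v = v
          rw [zero_smul, zero_add, zero_add]
        have e2 : (Φ (0, 0, t) + (u, v, s)).2.2 = t + s := by
          show (0 + t) + s = _
          rw [zero_add]
        show P.Y.M k (P.Y.pm (Φ (0, 0, t) + (u, v, s)).2.1) ≤ η * (Φ (0, 0, t) + (u, v, s)).2.2
        rw [e1, e2, add_comm t s]
        exact b3)
  set T := g ∘ₗ LinearMap.inl ℝ M.C0 (M.Om × ℝ) with hT
  set φ := g ∘ₗ LinearMap.inr ℝ M.C0 (M.Om × ℝ) ∘ₗ LinearMap.inl ℝ M.Om ℝ with hφ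
  have hgs : ∀ (u : M.C0) (v : M.Om) (s : ℝ), g (u, v, s) = T u + φ v + s * g (0, 0, 1) := by
    intro u v s
    have e : ((u, v, s) : M.C0 × M.Om × ℝ) = (u, 0, 0) + (0, v, 0) + s • (0, 0, 1) := by
      ext <;> simp
    rw [e, map_add, map_add, map_smul, smul_eq_mul]; rfl
  have k1 : T (M.toC0 M.omOm) + φ M.omOm = - g (0, 0, 1) := by
    have h1 := hg1 (0, 1, 0)
    have e1 : Φ (0, 1, 0) = (M.toC0 M.omOm, M.omOm, 1) := by
      show (M.toC0 (0 : M.Om) + (1 : ℝ) • M.toC0 M.omOm + ((0 : ℝ) * l) • FC,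
        (0 : M.Om) + (1 : ℝ) • M.omOm, (1 : ℝ) + 0) = _
      rw [map_zero, zero_add, one_smul, zero_mul, zero_smul, add_zero, add_zero, zero_add, one_smul]
    have e2 : F (0, 1, 0) = 0 := rfl
    rw [e1, e2, hgs] at h1
    linarith
  refine ⟨T, φ, l, - g (0, 0, 1), hl0, fun e he => ?_, k1, ?_, fun u v s h1 h2 h3 => ?_⟩
  · have h1 := hg1 (⟨e, he⟩, 0, 0)
    have e1 : Φ (⟨e, he⟩, 0, 0) = (M.toC0 e, e, 0) := by
      show (M.toC0 e + (0 : ℝ) • M.toC0 M.omOm + ((0 : ℝ) * l) • FC, e + (0 : ℝ) • M.omOm,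
        (0 : ℝ) + 0) = _
      rw [zero_mul, zero_smul, zero_smul, add_zero, add_zero, add_zero, zero_smul, add_zero]
    have e2 : F (⟨e, he⟩, 0, 0) = 0 := rfl
    rw [e1, e2, hgs, zero_mul, add_zero] at h1
    exact h1
  · have h1 := hg1 (0, 0, 1)
    have e1 : Φ (0, 0, 1) = (l • FC, 0, 1) := by
      show (M.toC0 (0 : M.Om) + (0 : ℝ) • M.toC0 M.omOm + ((1 : ℝ) * l) • FC,
        (0 : M.Om) + (0 : ℝ) • M.omOm, (0 : ℝ) + 1) = _
      rw [map_zero, zero_add, zero_smul, zero_add, one_mul, zero_add, zero_smul, zero_add]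
    have e2 : F (0, 0, 1) = 1 := rfl
    rw [e1, e2, hgs, map_smul, map_zero, smul_eq_mul] at h1
    show l * T (M.toC0 M.FOm) - -g (0, 0, 1) = 1
    linarith
  · have h4 := hg2 (u, v, s) ⟨h1, h2, h3⟩
    rw [hgs] at h4
    linarith

end

end Vale.Agent.P247.SCY
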