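import Vale.Agent.P247.SCY.TPart
import Vale.Agent.P247.SCY.SoftK1

/-!
# P247, exact orthogonality: the energy bounds for the separating functionals
-/

set_option linter.all false

open MeasureTheory Set Metric Filter Topology
open scoped ContDiff ENNReal NNReal BigOperators InnerProductSpace Topology

namespace Vale.Agent.P247.SCY
open Vale.Agent.P204 Vale.Agent.P204.T4 Vale.Agent.P204.GX _root_.P204.GX

section
variable {X : Type} [MetricSpace X] [CompactSpace X] [MeasurableSpace X] [BorelSpace X]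
variable {M : CM X} (P : MSys M)

/-- the bounds of `T + φ` -/
theorem exists_TBEK [Nonempty X] {wb wc : M.Om} {σ : X → ℝ} (H : Hyp M wb wc σ)
    {φ : M.Om →ₗ[ℝ] ℝ} {t : Measure X} {D : X → L2} (ht : FnSys.Cur t D)
    (hEx : ∀ e ∈ M.Ex, FnSys.fn t D (e : X → L2) + φ e = 0)
    (hphipm : ∀ b : M.Om, φ (P.Y.pm b) = φ b) {k : ℕ}
    {A : ℝ} (hA0 : 0 ≤ A) (hA : ∀ b : M.Om, |φ b| ≤ A * P.Y.M k b) :
    ∃ B : P.Y.TBE (P.Z.fL ht) φ, ∀ δ, 0 < δ → P.Z.dens t δ ≤ B.NT δ := by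
  haveI := ht.fin
  have htpm : ∀ b : M.Om, P.Z.fL ht (P.Y.pm b) = 0 := by
    intro b
    show FnSys.fn t D _ = 0
    rw [FnSys.fn]
    have : (fun x => Q (D x) ((P.Y.pm b : X → L2) x)) = fun _ => 0 := by
      funext x
      rw [P.pm_eq b x]
      exact Q_inv_pM isCx_J0 G9.pos_J0 (ht.cone x).1 _
    rw [this]; simp
  have hK0 : 0 ≤ P.Y.K 0 := zero_le_one.trans (P.Y.one_le_K 0)
  have hKk : 0 ≤ P.Y.K k := zero_le_one.trans (P.Y.one_le_K k)
  have hkill : ∀ c ∈ P.Y.Ex, P.Z.fL ht c + φ c = 0 := by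
    intro c hc
    exact hEx c ((mem_Ex_iff P c).1 hc)
  obtain ⟨C1, hC1, h1⟩ := P.Z.t1 ht
  obtain ⟨C2, hC2, h2⟩ := P.Z.t2 ht
  obtain ⟨C3, hC3, h3⟩ := P.Z.t3 ht
  -- growth
  obtain ⟨C4, Dm, hC4, h4⟩ : ∃ (C : ℝ) (Dm : ℕ → ℝ), 0 ≤ C ∧ ∀ δ : ℝ, 0 < δ → δ ≤ 1 → ∃ v : M.Om,
      (∀ m, P.Y.N m δ v ≤ Dm m) ∧ P.Z.dens t δ ≤ C * (1 + |φ v|) := by
    choose K hK0 hK using P.N_le
    choose K2 hK20 hK2 using fun (a : M.A) (m : ℕ) => M.exists_N2 a m 2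
    exact grow_t4 M ht (fun m δ b => P.Y.N m δ b)
      (by
        intro a m
        refine ⟨K m * K2 a m, mul_nonneg (hK0 m) (hK20 a m), fun δ h0 h1 γ hγ hγc hz => ?_⟩
        refine (hK m δ _ h0 h1).trans ?_
        rw [mul_assoc]
        exact mul_le_mul_of_nonneg_left (hK2 a m δ h0.le h1 γ hγ hz) (hK0 m))
      (fun b => P.Y.pm b) (fun b x => P.pm_eq b x) (fun b => φ b) hphipm
      (fun e he => hkill e ((mem_Ex_iff P e).2 he)) P.Z.c (lt_of_lt_of_le one_pos P.Z.one_le_c)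
  set CT : ℝ := 6 * (t univ).toReal with hCT
  have hCT0 : 0 ≤ CT := by positivity
  -- the constant of the self pairing
  have hα := alpha_pos M
  have hpairb : ∀ (c : M.Om) (δ : ℝ) (w : Lp E6 2 M.mu), 0 < δ → δ ≤ P.Y.δ0 →
      (∀ u, ⟪w, P.Y.st u⟫_ℝ = P.Z.fL ht (P.Y.S δ u) + φ (P.Y.S δ u)) →
      ⟪P.Y.ι c, P.Y.st w⟫_ℝ ^ 2 ≤
        (CT * (P.Y.K 0 * P.Y.M 0 c) + A * (P.Y.K k * P.Y.M k c)) ^ 2 := by
    intro c δ w h0 h1' hw
    have e1 : ⟪P.Y.ι c, P.Y.st w⟫_ℝ = P.Z.fL ht (P.Y.S δ (P.Y.ι c)) +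
        φ (P.Y.S δ (P.Y.ι c)) := by
      rw [← hw, real_inner_comm, P.Y.st_symm]
    have e2 := P.Z.fn_bound ht (P.Y.S δ (P.Y.ι c))
    have e3 := hA (P.Y.S δ (P.Y.ι c))
    have e4 := P.Y.O1M 0 δ c h0 h1'
    have e4' := P.Y.O1M k δ c h0 h1'
    have e5 : |⟪P.Y.ι c, P.Y.st w⟫_ℝ| ≤ CT * (P.Y.K 0 * P.Y.M 0 c) + A * (P.Y.K k * P.Y.M k c) := by
      rw [e1]
      refine (abs_add_le _ _).trans ?_
      have e6 : |P.Z.fL ht (P.Y.S δ (P.Y.ι c))| ≤ CT * P.Y.M 0 (P.Y.S δ (P.Y.ι c)) := e2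
      exact add_le_add (e6.trans (mul_le_mul_of_nonneg_left e4 hCT0))
        (e3.trans (mul_le_mul_of_nonneg_left e4' hA0))
    exact sq_le_sq' (by linarith [neg_abs_le (⟪P.Y.ι c, P.Y.st w⟫_ℝ)])
      ((le_abs_self _).trans e5)
  set CS : ℝ := (CT * (P.Y.K 0 * P.Y.M 0 M.omOm) + A * (P.Y.K k * P.Y.M k M.omOm)) ^ 2 /
      M.pr M.om M.om +
    (CT * (P.Y.K 0 * P.Y.M 0 wb) + A * (P.Y.K k * P.Y.M k wb)) ^ 2 /
      M.pr (wb : X → L2) (wb : X → L2) +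
    (CT * (P.Y.K 0 * P.Y.M 0 wc) + A * (P.Y.K k * P.Y.M k wc)) ^ 2 /
      M.pr (wc : X → L2) (wc : X → L2) with hCS
  have hbb := H.bb
  have hcc := H.cc
  have hCS0 : 0 ≤ CS := by positivity
  set CC : ℝ := CT + A + C1 + C2 + C3 + (C4 + 1) + CS with hCC
  have hCC0 : 0 ≤ CC := by rw [hCC]; linarith
  let NT : ℝ → ℝ := fun δ => if 0 < δ then P.Z.dens t δ + 1 else 1
  have hNT : ∀ δ, 0 < δ → NT δ = P.Z.dens t δ + 1 := fun δ h => if_pos h
  have hd0 : ∀ δ, 0 < δ → 0 ≤ P.Z.dens t δ := fun δ h => P.Z.dens_nonneg t h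
  have hNT1 : ∀ δ, 1 ≤ NT δ := by
    intro δ
    by_cases h : 0 < δ
    · rw [hNT δ h]; have := hd0 δ h; linarith
    · show 1 ≤ (if 0 < δ then P.Z.dens t δ + 1 else 1)
      rw [if_neg h]
  refine ⟨
    { k := k
      C := CC
      NT := NT
      C_nonneg := hCC0
      NT_nonneg := fun δ => zero_le_one.trans (hNT1 δ)
      T_bd := fun b => (P.Z.fn_bound ht b).trans (by
        have := P.Y.M_nonneg 0 b
        have : CT ≤ CC := by rw [hCC]; linarith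
        gcongr)
      T_pm := htpm
      φ_pm := hphipm
      φ_bd := fun b => (hA b).trans (by
        have := P.Y.M_nonneg k b
        have : A ≤ CC := by rw [hCC]; linarith
        gcongr)
      killE := hkill
      self := ?_
      t1 := fun δ u h0 hδ => (h1 δ u h0 hδ).trans (by
        rw [hNT δ h0]
        have a1 : C1 ≤ CC := by rw [hCC]; linarith
        have a2 : Real.sqrt (P.Z.dens t δ) ≤ Real.sqrt (P.Z.dens t δ + 1) :=
          Real.sqrt_le_sqrt (by linarith)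
        have a3 := norm_nonneg u
        gcongr)
      t2 := fun δ u h0 hδ => (h2 δ u h0 hδ).trans (by
        rw [hNT δ h0]
        have a1 : C2 ≤ CC := by rw [hCC]; linarith
        have a2 : Real.sqrt (P.Z.dens t δ) ≤ Real.sqrt (P.Z.dens t δ + 1) :=
          Real.sqrt_le_sqrt (by linarith)
        have a3 := norm_nonneg u
        gcongr)
      t3 := fun δ w h0 hδ hw => le_trans (by
        rw [hNT δ h0]
        have a1 : C3 ≤ CC := by rw [hCC]; linarith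
        have a2 := hd0 δ h0
        apply neg_le_neg
        gcongr
        linarith) (h3 δ w h0 hδ hw)
      D := Dm
      t4 := ?_ }, fun δ h0 => ?_⟩
  · intro δ w h0 h1' hw
    have hwZ : w ∈ P.Y.Zw := by
      apply P.Y.mem_Zw_of_kill
      intro e he
      rw [hw]
      exact hkill _ (P.Y.S_Ex δ e h0 h1' he)
    have e1 := self_pair_Zw P H hwZ
    have e2 := hpairb M.omOm δ w h0 h1' hw
    have e3 := hpairb wb δ w h0 h1' hw
    have e4 := hpairb wc δ w h0 h1' hw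
    have e5 : ⟪w, P.Y.st w⟫_ℝ ≤ CS := by
      refine e1.trans ?_
      rw [hCS]
      gcongr
    have e6 : CS ≤ CC := by rw [hCC]; linarith
    calc ⟪w, P.Y.st w⟫_ℝ ≤ CC * 1 := by rw [mul_one]; exact e5.trans e6
      _ ≤ CC * NT δ := mul_le_mul_of_nonneg_left (hNT1 δ) hCC0
  · intro δ h0 hδ
    obtain ⟨v, hv1, hv2⟩ := h4 δ h0 (hδ.trans P.Y.δ0_le)
    refine ⟨v, hv1, ?_⟩
    rw [hNT δ h0]
    have a1 : C4 + 1 ≤ CC := by rw [hCC]; linarith
    have a2 := abs_nonneg (φ v)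
    calc P.Z.dens t δ + 1 ≤ C4 * (1 + |φ v|) + 1 * (1 + |φ v|) := by linarith
      _ = (C4 + 1) * (1 + |φ v|) := by ring
      _ ≤ CC * (1 + |φ v|) := by gcongr
  · show P.Z.dens t δ ≤ NT δ
    rw [hNT δ h0]; linarith

end

end Vale.Agent.P247.SCY
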