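import Mathlib

/-!
# P247: hypersymplectic structures on closed four-manifolds, definitions

`X` is a smooth manifold modelled on a four-dimensional space `E` with a basis `b : Fin 4 → E`
(`E = ℝ⁴` and `b` the standard basis in the theorems). Forms are families of alternating maps on
the tangent spaces; smoothness and exterior derivatives are read in the charts of the atlas.
-/

open scoped Manifold ContDiff Topology
open MeasureTheory Set

namespace Vale.Agent.P247.SCY.GS

/-- A (not necessarily smooth) real `k`-form on `X`. -/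
abbrev Form (E : Type*) [NormedAddCommGroup E] [NormedSpace ℝ E] (X : Type*) [TopologicalSpace X]
    [ChartedSpace E X] (k : ℕ) :=
  ∀ x : X, TangentSpace 𝓘(ℝ, E) x [⋀^Fin k]→L[ℝ] ℝ

section

variable {E : Type*} [NormedAddCommGroup E] [NormedSpace ℝ E]
variable {X : Type*} [TopologicalSpace X] [ChartedSpace E X] {k : ℕ}

/-- The coordinate expression of the form `α` in the chart `e`: the pullback of `α` by
`e.symm`, the inverse of the chart. -/
noncomputable def loc (e : OpenPartialHomeomorph X E) (α : Form E X k) :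
    E → E [⋀^Fin k]→L[ℝ] ℝ :=
  fun y => (α (e.symm y)).compContinuousLinearMap (mfderiv 𝓘(ℝ, E) 𝓘(ℝ, E) e.symm y)

/-- A form is smooth if its expression in every chart of the atlas is smooth. -/
def Smooth (α : Form E X k) : Prop :=
  ∀ e ∈ atlas E X, ContDiffOn ℝ ∞ (loc e α) e.target

/-- A form is closed if the exterior derivative of its expression in every chart vanishes. -/
def Closed (α : Form E X k) : Prop :=
  ∀ e ∈ atlas E X, ∀ y ∈ e.target, extDeriv (loc e α) y = 0

/-- A two-form is exact if it is `dη` for a smooth one-form `η`. -/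
def Exact (α : Form E X 2) : Prop :=
  ∃ η : Form E X 1, Smooth η ∧ ∀ e ∈ atlas E X, ∀ y ∈ e.target, extDeriv (loc e η) y = loc e α y

/-- The value of the four-form `α ∧ β` on four vectors. -/
def wedge {V : Type*} [AddCommGroup V] [Module ℝ V] [TopologicalSpace V]
    (α β : V [⋀^Fin 2]→L[ℝ] ℝ) (v : Fin 4 → V) : ℝ :=
  α ![v 0, v 1] * β ![v 2, v 3] - α ![v 0, v 2] * β ![v 1, v 3] + α ![v 0, v 3] * β ![v 1, v 2]
    + α ![v 1, v 2] * β ![v 0, v 3] - α ![v 1, v 3] * β ![v 0, v 2]
    + α ![v 2, v 3] * β ![v 0, v 1]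

/-- The basis `b` of the tangent space at `x` (in Mathlib a copy of the model space). -/
def tbas (b : Fin 4 → E) (x : X) : Fin 4 → TangentSpace 𝓘(ℝ, E) x := b

/-- The function `(α ∧ β) / μ`, for a volume form `μ`. -/
noncomputable def quot (b : Fin 4 → E) (μ : Form E X 4) (α β : Form E X 2) (x : X) : ℝ :=
  wedge (α x) (β x) (tbas b x) / μ x (tbas b x)

/-- `μ` is a volume form: smooth and nowhere zero. It fixes the orientation of `X`. -/
structure Volume (μ : Form E X 4) : Prop where
  smooth : Smooth μ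
  ne_zero : ∀ x, μ x ≠ 0

/-- The Borel measure of a volume form `μ`: the supremum over the charts `e` of the measures
`|μ_e(y)| dy` carried by the domains of the charts (these agree on overlaps). -/
noncomputable def vol [MeasureSpace E] [MeasurableSpace X] (b : Fin 4 → E) (μ : Form E X 4) :
    Measure X :=
  ⨆ e ∈ atlas E X, Measure.map e.symm
    ((volume.restrict e.target).withDensity fun y => ENNReal.ofReal |loc e μ y b|)

/-- The integral of `α ∧ β` over `X`, oriented by `μ`. -/
noncomputable def pair [MeasureSpace E] [MeasurableSpace X] (b : Fin 4 → E) (μ : Form E X 4)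
    (α β : Form E X 2) : ℝ :=
  ∫ x, quot b μ α β x ∂(vol b μ)

/-- `b⁺(X) ≤ 3`: the intersection form has no four-dimensional positive subspace. -/
def BPlusLe3 [MeasureSpace E] [MeasurableSpace X] (b : Fin 4 → E) (μ : Form E X 4) : Prop :=
  ¬ ∃ c : Fin 4 → Form E X 2, (∀ i, Smooth (c i) ∧ Closed (c i)) ∧
    (Matrix.of fun i j => pair b μ (c i) (c j)).PosDef

/-- The matrix `Q` with `w_i ∧ w_j = 2 Q_ij μ`. -/
noncomputable def Qm (b : Fin 4 → E) (μ : Form E X 4) (w : Fin 3 → Form E X 2) (x : X) :
    Matrix (Fin 3) (Fin 3) ℝ :=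
  Matrix.of fun i j => quot b μ (w i) (w j) x / 2

/-- Hypersymplectic structures on `X`, oriented by `μ`. -/
structure Hypersymplectic (b : Fin 4 → E) (μ : Form E X 4) (w : Fin 3 → Form E X 2) : Prop where
  smooth : ∀ i, Smooth (w i)
  closed : ∀ i, Closed (w i)
  posDef : ∀ x, (Qm b μ w x).PosDef

/-- `∫ w_i ∧ w_j = δ_ij`. -/
def Normalized [MeasureSpace E] [MeasurableSpace X] (b : Fin 4 → E) (μ : Form E X 4)
    (w : Fin 3 → Form E X 2) : Prop :=
  ∀ i j, pair b μ (w i) (w j) = if i = j then 1 else 0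

/-- `W` is a cohomologous deformation of `w`, parametrised by `[0, 1]` (and extended to all
`t`): smooth in `(t, x)`, through hypersymplectic structures, in the classes of `w`. -/
structure Deformation (b : Fin 4 → E) (μ : Form E X 4) (w : Fin 3 → Form E X 2)
    (W : ℝ → Fin 3 → Form E X 2) : Prop where
  smooth : ∀ i, ∀ e ∈ atlas E X,
    ContDiffOn ℝ ∞ (fun p : ℝ × E => loc e (W p.1 i) p.2) (univ ×ˢ e.target)
  hyper : ∀ t ∈ Icc (0 : ℝ) 1, Hypersymplectic b μ (W t)
  start : W 0 = w
  exact : ∀ t i, Exact fun x => W t i x - w i x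

/-- The triple `w` is hyperkaehler with volume form `μ` up to the error `ε`: at every point
`Q > (1 - ε) I` and `|Q_ij| < ε` for `i ≠ j`, and `∫ |Q_ij - δ_ij| μ < ε`. -/
def AlmostHyperkahler [MeasureSpace E] [MeasurableSpace X] (b : Fin 4 → E) (μ : Form E X 4)
    (w : Fin 3 → Form E X 2) (ε : ℝ) : Prop :=
  (∀ x, (Qm b μ w x - (1 - ε) • (1 : Matrix (Fin 3) (Fin 3) ℝ)).PosDef) ∧
  (∀ x i j, i ≠ j → |Qm b μ w x i j| < ε) ∧
  ∀ i j, ∫ x, |(Qm b μ w x - 1) i j| ∂(vol b μ) < ε

end

/-- The standard basis of `ℝ⁴`. -/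
noncomputable def bas : Fin 4 → EuclideanSpace ℝ (Fin 4) := fun i => EuclideanSpace.single i 1

end Vale.Agent.P247.SCY.GS
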