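import Vale.Agent.P247.SCY.StmtG
import Vale.Agent.P247.SCY.Stmt

/-!
# P247: the definitions of `StmtG` at `E = ℝ⁴` are those of `Stmt`
-/

open scoped Manifold ContDiff Topology
open MeasureTheory Set

namespace Vale.Agent.P247.SCY.GS

variable {X : Type*} [TopologicalSpace X] [ChartedSpace HS.E4 X] {k : ℕ}

theorem smooth_iff {α : Form HS.E4 X k} : Smooth α ↔ HS.Smooth α := Iff.rfl

theorem closed_iff {α : Form HS.E4 X k} : Closed α ↔ HS.Closed α := Iff.rfl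

theorem exact_iff {α : Form HS.E4 X 2} : Exact α ↔ HS.Exact α := Iff.rfl

theorem quot_eq (μ : Form HS.E4 X 4) (α β : Form HS.E4 X 2) (x : X) :
    quot bas μ α β x = HS.quot μ α β x := rfl

theorem Qm_eq (μ : Form HS.E4 X 4) (w : Fin 3 → Form HS.E4 X 2) (x : X) :
    Qm bas μ w x = HS.Qm μ w x := rfl

theorem volume_iff {μ : Form HS.E4 X 4} : Volume μ ↔ HS.Volume μ :=
  ⟨fun h => ⟨h.smooth, h.ne_zero⟩, fun h => ⟨h.smooth, h.ne_zero⟩⟩

theorem vol_eq [MeasurableSpace X] (μ : Form HS.E4 X 4) : vol bas μ = HS.vol μ := rfl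

theorem pair_eq [MeasurableSpace X] (μ : Form HS.E4 X 4) (α β : Form HS.E4 X 2) :
    pair bas μ α β = HS.pair μ α β := rfl

theorem bPlusLe3_iff [MeasurableSpace X] {μ : Form HS.E4 X 4} :
    BPlusLe3 bas μ ↔ HS.BPlusLe3 μ := Iff.rfl

theorem hypersymplectic_iff {μ : Form HS.E4 X 4} {w : Fin 3 → Form HS.E4 X 2} :
    Hypersymplectic bas μ w ↔ HS.Hypersymplectic μ w :=
  ⟨fun h => ⟨h.smooth, h.closed, h.posDef⟩, fun h => ⟨h.smooth, h.closed, h.posDef⟩⟩

theorem normalized_iff [MeasurableSpace X] {μ : Form HS.E4 X 4} {w : Fin 3 → Form HS.E4 X 2} :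
    Normalized bas μ w ↔ HS.Normalized μ w := Iff.rfl

theorem deformation_of {μ : Form HS.E4 X 4} {w : Fin 3 → Form HS.E4 X 2}
    {W : ℝ → Fin 3 → Form HS.E4 X 2} (h : HS.Deformation μ w W) : Deformation bas μ w W :=
  ⟨h.smooth, fun t ht => hypersymplectic_iff.2 (h.hyper t ht), h.start, h.exact⟩

end Vale.Agent.P247.SCY.GS
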