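import Vale.Agent.P247.SCY.StmtOF

/-!
# P247: infinite cohomologous deformations which become hyperkaehler in the limit
-/

open scoped Manifold ContDiff Topology
open MeasureTheory Set

namespace Vale.Agent.P247.SCY.GS

variable {E : Type*} [NormedAddCommGroup E] [NormedSpace ℝ E]
variable {X : Type*} [TopologicalSpace X] [ChartedSpace E X]

/-- `W` is a cohomologous deformation of `w`, parametrised by `[0, ∞)` (and extended to all `t`):
smooth in `(t, x)`, through hypersymplectic structures, in the classes of `w`. -/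
structure LongDeformation (b : Fin 4 → E) (μ : Form E X 4) (w : Fin 3 → Form E X 2)
    (W : ℝ → Fin 3 → Form E X 2) : Prop where
  smooth : ∀ i, ∀ e ∈ atlas E X,
    ContDiffOn ℝ ∞ (fun p : ℝ × E => loc e (W p.1 i) p.2) (univ ×ˢ e.target)
  hyper : ∀ t, 0 ≤ t → Hypersymplectic b μ (W t)
  start : W 0 = w
  exact : ∀ t i, Exact fun x => W t i x - w i x

/-- `W t` becomes hyperkaehler with volume form `μ` as `t → ∞`: for every `ε > 0` the triple `W t`
is hyperkaehler up to the error `ε` for all large `t`, in the sense of `AlmostHyperkahler`. And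
for every integer `n ≥ 1` the triple `W n` is exactly hyperkaehler outside a set of measure
`< 1 / n`, in the sense of `AlmostEverywhereHyperkahler`. -/
def BecomesHyperkahler [MeasureSpace E] [MeasurableSpace X] (b : Fin 4 → E) (μ : Form E X 4)
    (W : ℝ → Fin 3 → Form E X 2) : Prop :=
  (∀ ε : ℝ, 0 < ε → ∃ T : ℝ, ∀ t, T ≤ t → AlmostHyperkahler b μ (W t) ε) ∧
  ∀ n : ℕ, 1 ≤ n → AlmostEverywhereHyperkahler b μ (W n) (1 / n)

end Vale.Agent.P247.SCY.GS
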