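import Vale.Agent.P247.SCY.StmtG

/-!
# P247: triples of two-forms which satisfy the hyperkaehler equations exactly off the diagonal
-/

open scoped Manifold ContDiff Topology
open MeasureTheory Set

namespace Vale.Agent.P247.SCY.GS

variable {E : Type*} [NormedAddCommGroup E] [NormedSpace ℝ E]
variable {X : Type*} [TopologicalSpace X] [ChartedSpace E X]

/-- The triple `w` satisfies the hyperkaehler equations `w_i ∧ w_j = 2 δ_ij μ` exactly off the
diagonal: `Q_ij = 0` at every point for `i ≠ j`. On the diagonal it satisfies them up to the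
error `ε`: at every point `Q_ii > 1 - ε`, `Q_jj > (1 - ε) Q_ii` for `i ≤ j`, and
`∫ |Q_ii - 1| μ < ε`. -/
def OrthoHyperkahler [MeasureSpace E] [MeasurableSpace X] (b : Fin 4 → E) (μ : Form E X 4)
    (w : Fin 3 → Form E X 2) (ε : ℝ) : Prop :=
  (∀ x i j, i ≠ j → Qm b μ w x i j = 0) ∧
  (∀ x i, 1 - ε < Qm b μ w x i i) ∧
  (∀ x i j, i ≤ j → (1 - ε) * Qm b μ w x i i < Qm b μ w x j j) ∧
  ∀ i, ∫ x, |Qm b μ w x i i - 1| ∂(vol b μ) < ε

end Vale.Agent.P247.SCY.GS
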