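import Vale.Agent.P247.SCY.StmtG

/-!
# P247: triples of two-forms which are hyperkaehler outside a set of small measure
-/

open scoped Manifold ContDiff Topology
open MeasureTheory Set

namespace Vale.Agent.P247.SCY.GS

variable {E : Type*} [NormedAddCommGroup E] [NormedSpace ℝ E]
variable {X : Type*} [TopologicalSpace X] [ChartedSpace E X]

/-- The triple `w` is an exact hyperkaehler triple for the volume form `μ`, that is
`w_i ∧ w_j = 2 δ_ij μ`, or `Q = I`, on an open set `U` whose complement has measure less than `ε`.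
Off the diagonal, `w_i ∧ w_j = 0` for `i ≠ j` at every point of `X`. On the diagonal, at every
point of `X`, `Q_ii > 1 - ε` and `Q_jj > (1 - ε) Q_ii` for `i ≤ j`, and
`∫ |Q_ii - 1| μ < ε`. -/
def AlmostEverywhereHyperkahler [MeasureSpace E] [MeasurableSpace X] (b : Fin 4 → E)
    (μ : Form E X 4) (w : Fin 3 → Form E X 2) (ε : ℝ) : Prop :=
  (∃ U : Set X, IsOpen U ∧ vol b μ Uᶜ < ENNReal.ofReal ε ∧ ∀ x ∈ U, Qm b μ w x = 1) ∧
  (∀ x i j, i ≠ j → Qm b μ w x i j = 0) ∧
  (∀ x i, 1 - ε < Qm b μ w x i i) ∧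
  (∀ x i j, i ≤ j → (1 - ε) * Qm b μ w x i i < Qm b μ w x j j) ∧
  ∀ i, ∫ x, |Qm b μ w x i i - 1| ∂(vol b μ) < ε

end Vale.Agent.P247.SCY.GS
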