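import Vale.Agent.P247.SCY.StmtInf

/-!
# P247: infinite cohomologous deformations whose limit is hyperkaehler almost everywhere
-/

open scoped Manifold ContDiff Topology
open MeasureTheory Set

namespace Vale.Agent.P247.SCY.GS

variable {E : Type*} [NormedAddCommGroup E] [NormedSpace ℝ E]
variable {X : Type*} [TopologicalSpace X] [ChartedSpace E X]

/-- The triples `W t` converge on `V` to the triple `Ω` as `t → ∞`, in the strongest sense: near
every point of `V` they are equal to `Ω` for all large `t`. -/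
def StabilizesTo (W : ℝ → Fin 3 → Form E X 2) (V : Set X) (Ω : Fin 3 → Form E X 2) : Prop :=
  ∀ x ∈ V, ∃ T : ℝ, ∃ N ∈ 𝓝 x, ∀ t, T ≤ t → ∀ y ∈ N, ∀ i, W t i y = Ω i y

/-- The primitives of `W t` are Cauchy in `C⁰` as `t → ∞`: for every `δ > 0` and all large `s`,
`t` the two-forms `W t i - W s i` are `dΘ` for smooth one-forms `Θ` which are bounded by `δ` in a
fixed finite family of compact coordinate domains which cover `X`. In particular `W t` converges on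
`X` in the sense of currents. -/
def PrimitivesConverge (W : ℝ → Fin 3 → Form E X 2) : Prop :=
  ∃ (n : ℕ) (e : Fin n → OpenPartialHomeomorph X E) (K : Fin n → Set E),
    (∀ j, e j ∈ atlas E X ∧ IsCompact (K j) ∧ K j ⊆ (e j).target) ∧
    (∀ x, ∃ j, x ∈ (e j).symm '' K j) ∧
    ∀ δ : ℝ, 0 < δ → ∃ T : ℝ, ∀ s t, T ≤ s → T ≤ t → ∀ i, ∃ Θ : Form E X 1, Smooth Θ ∧
      (∀ e ∈ atlas E X, ∀ y ∈ e.target,
        extDeriv (loc e Θ) y = loc e (fun x => W t i x - W s i x) y) ∧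
      ∀ j, ∀ y ∈ K j, ‖loc (e j) Θ y‖ ≤ δ

/-- `Q(W t) ≥ c` for all `t ≥ 0`, and in the limit `t → ∞` the triple is an exact hyperkaehler
triple, for the volume form `c μ`, on an open set `V` of full measure. -/
def LimitHyperkahler [MeasureSpace E] [MeasurableSpace X] (b : Fin 4 → E) (μ : Form E X 4)
    (W : ℝ → Fin 3 → Form E X 2) (c : ℝ) : Prop :=
  (∀ t, 0 ≤ t → ∀ x, (Qm b μ (W t) x - c • (1 : Matrix (Fin 3) (Fin 3) ℝ)).PosSemidef) ∧
  ∃ (V : Set X) (Ω : Fin 3 → Form E X 2), IsOpen V ∧ vol b μ Vᶜ = 0 ∧ StabilizesTo W V Ω ∧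
    ∀ x ∈ V, Qm b μ Ω x = c • 1

/-- `Q(W t) ≥ 1 - ε` and `∫ |Q(W t) - I| μ ≤ ε` for all `t ≥ 1`, `W 1` is already hyperkaehler
outside a set of measure less than `ε`, and in the limit `t → ∞` the triple is an exact
hyperkaehler triple on an open set `V` of full measure: for the volume form `μ` itself on an open
subset `U` of `V` with `μ (X \ U) < ε`, and for `(1 - ε) μ` on the open set `V \ U`. -/
def LimitHyperkahlerOne [MeasureSpace E] [MeasurableSpace X] (b : Fin 4 → E) (μ : Form E X 4)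
    (W : ℝ → Fin 3 → Form E X 2) (ε : ℝ) : Prop :=
  (∀ t, 1 ≤ t →
    (∀ x, (Qm b μ (W t) x - (1 - ε) • (1 : Matrix (Fin 3) (Fin 3) ℝ)).PosSemidef) ∧
    ∀ i j, ∫ x, |(Qm b μ (W t) x - 1) i j| ∂(vol b μ) ≤ ε) ∧
  AlmostEverywhereHyperkahler b μ (W 1) ε ∧
  ∃ (U V : Set X) (Ω : Fin 3 → Form E X 2), IsOpen U ∧ IsOpen V ∧ U ⊆ V ∧ IsOpen (V \ U) ∧
    vol b μ Uᶜ < ENNReal.ofReal ε ∧ vol b μ Vᶜ = 0 ∧ StabilizesTo W V Ω ∧
    (∀ x ∈ U, Qm b μ Ω x = 1) ∧ (∀ x ∈ V \ U, Qm b μ Ω x = (1 - ε) • 1) ∧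
    ∀ x ∈ U, ∀ t, 1 ≤ t → ∀ i, W t i x = Ω i x

end Vale.Agent.P247.SCY.GS
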